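import Crest.Agent.R012.Gt
import Crest.Agent.R017.FE1AuxB

/-! # Row 12: analytic part of the functional equation, weight `k` -/

set_option autoImplicit false

noncomputable section

open scoped BigOperators ComplexConjugate Topology
open Complex MeasureTheory Filter Set Crest.Agent.R017

namespace Crest.Agent.R012

/-- The theta function of weight `k`. -/
def AAn_th (k : ℕ) (a : O → ℂ) (κ t : ℝ) : ℂ :=
  ∑' x : O, (Phi (κ * t * Nr x) : ℂ) * ((‖emb x‖ : ℂ) ^ k * a x)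

theorem AAn_pow (k : ℕ) (x : O) : ‖emb x‖ ^ k = Nr x ^ ((k : ℝ) / 2) := by
  rw [norm_emb, Real.sqrt_eq_rpow, ← Real.rpow_natCast, ← Real.rpow_mul (Nr_nonneg x)]
  congr 1
  ring

theorem AAn_bound {k : ℕ} (hk : 1 ≤ k) {σ : ℝ} (hσ : 0 ≤ σ) : ∃ C : ℝ, 0 ≤ C ∧
    ∀ a : O → ℂ, (∀ x, ‖a x‖ ≤ 1) → ∀ R : ℝ, 0 < R → ∀ x : O,
      ‖(Phi (R * Nr x) : ℂ) * ((‖emb x‖ : ℂ) ^ k * a x)‖ ≤
        C * R ^ (-(σ + k / 2)) * Nr x ^ (-σ) := by
  obtain ⟨C, hC⟩ := Phi_le_rpow (A := σ + k / 2) (by positivity)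
  have hC0 : 0 ≤ C := by
    have := (Phi_pos 1).le.trans (hC 1 one_pos)
    simpa using this
  refine ⟨C, hC0, fun a ha R hR x => ?_⟩
  have h0 := Nr_nonneg x
  by_cases hx : x = 0
  · have : ((‖emb x‖ : ℝ) : ℂ) ^ k = 0 := by
      rw [hx, map_zero, norm_zero, ofReal_zero, zero_pow (by omega)]
    rw [this, zero_mul, mul_zero, norm_zero]
    positivity
  have hx' := Nr_pos hx
  rw [norm_mul, norm_mul, norm_pow, norm_real, norm_real, norm_norm,
    Real.norm_of_nonneg (Phi_pos _).le, AAn_pow]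
  calc Phi (R * Nr x) * (Nr x ^ ((k : ℝ) / 2) * ‖a x‖)
      ≤ C * (R * Nr x) ^ (-(σ + k / 2)) * (Nr x ^ ((k : ℝ) / 2) * 1) := by
        gcongr
        · exact hC _ (by positivity)
        · exact ha x
    _ = C * R ^ (-(σ + k / 2)) * (Nr x ^ (-(σ + k / 2)) * Nr x ^ ((k : ℝ) / 2)) := by
        rw [Real.mul_rpow hR.le h0]
        ring
    _ = _ := by
        rw [← Real.rpow_add hx']
        congr 2
        ring

theorem AAn_summable {k : ℕ} (hk : 1 ≤ k) {a : O → ℂ} (ha : ∀ x, ‖a x‖ ≤ 1) {R : ℝ}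
    (hR : 0 < R) : Summable fun x : O => (Phi (R * Nr x) : ℂ) * ((‖emb x‖ : ℂ) ^ k * a x) := by
  obtain ⟨C, -, hC⟩ := AAn_bound hk (σ := 2) (by norm_num)
  exact Summable.of_norm_bounded ((summable_Nr_rpow one_lt_two).mul_left _) (hC a ha R hR)

theorem AAn_cont {k : ℕ} (hk : 1 ≤ k) {a : O → ℂ} (ha : ∀ x, ‖a x‖ ≤ 1) {κ : ℝ} (hκ : 0 < κ) :
    ContinuousOn (AAn_th k a κ) (Ioi 0) := by
  obtain ⟨C, hC0, hC⟩ := AAn_bound hk (σ := 2) (by norm_num)
  intro t₀ ht₀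
  have ht₀' : (0 : ℝ) < t₀ := ht₀
  have : ContinuousOn (AAn_th k a κ) (Ioi (t₀ / 2)) := by
    refine continuousOn_tsum
      (u := fun x => C * (κ * (t₀ / 2)) ^ (-((2 : ℝ) + k / 2)) * Nr x ^ (-(2 : ℝ))) (fun x => ?_)
      ((summable_Nr_rpow one_lt_two).mul_left _) fun x t ht => ?_
    · unfold Phi; fun_prop
    · have h1 : t₀ / 2 ≤ t := le_of_lt ht
      have h2 : 0 < t := by linarith
      have h3 := Nr_nonneg x
      refine (hC a ha _ (by positivity) x).trans ?_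
      gcongr ?_ * ?_ * ?_
      exact Real.rpow_le_rpow_of_nonpos (by positivity) (by gcongr) (neg_nonpos.2 (by positivity))
  exact (this.continuousAt (Ioi_mem_nhds (by linarith))).continuousWithinAt

theorem AAn_top {k : ℕ} (hk : 1 ≤ k) {a : O → ℂ} (ha : ∀ x, ‖a x‖ ≤ 1) {κ : ℝ} (hκ : 0 < κ)
    (r : ℝ) : (fun t => AAn_th k a κ t - 0) =O[atTop] (· ^ r) := by
  set A := max 2 (-r) with hA
  have hA2 : 1 < A := lt_of_lt_of_le one_lt_two (le_max_left _ _)
  obtain ⟨C, hC0, hC⟩ := AAn_bound hk (σ := A) (by linarith)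
  have hs := summable_Nr_rpow hA2
  refine Asymptotics.IsBigO.of_bound (C * κ ^ (-(A + k / 2)) * ∑' x : O, Nr x ^ (-A)) ?_
  filter_upwards [eventually_ge_atTop 1] with t ht
  have ht0 : 0 < t := by linarith
  have h1 : ‖AAn_th k a κ t‖ ≤ C * (κ * t) ^ (-(A + k / 2)) * ∑' x : O, Nr x ^ (-A) :=
    (AAn_summable hk ha (mul_pos hκ ht0)).hasSum.norm_le_of_bounded (hs.hasSum.mul_left _)
      (hC a ha _ (mul_pos hκ ht0))
  have h2 : t ^ (-(A + k / 2)) ≤ ‖t ^ r‖ := by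
    rw [Real.norm_of_nonneg (by positivity)]
    have : (0 : ℝ) ≤ k / 2 := by positivity
    exact Real.rpow_le_rpow_of_exponent_le ht (by linarith [le_max_right 2 (-r)])
  have h3 : 0 ≤ ∑' x : O, Nr x ^ (-A) := tsum_nonneg fun x => Real.rpow_nonneg (Nr_nonneg x) _
  rw [sub_zero]
  calc _ ≤ _ := h1
    _ = C * κ ^ (-(A + k / 2)) * (∑' x : O, Nr x ^ (-A)) * t ^ (-(A + k / 2)) := by
      rw [Real.mul_rpow hκ.le ht0.le]
      ring
    _ ≤ _ := mul_le_mul_of_nonneg_left h2 (by positivity)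

theorem AAn_mellin {k : ℕ} (hk : 1 ≤ k) {a : O → ℂ} (ha : ∀ x, ‖a x‖ ≤ 1) {κ : ℝ} (hκ : 0 < κ)
    {s : ℂ} (hs : 1 < s.re) :
    mellin (AAn_th k a κ) (s + k / 2) =
      Gamma (s + k / 2) * (((c0 * κ : ℝ) : ℂ) ^ (s + k / 2))⁻¹ * f1_D a s := by
  have hc := c0_pos
  have hre : (s + k / 2).re = s.re + k / 2 := by simp
  have hz : ((‖emb 0‖ : ℝ) : ℂ) ^ k = 0 := by
    rw [map_zero, norm_zero, ofReal_zero, zero_pow (by omega)]
  have hk0 : (0 : ℝ) ≤ k / 2 := by positivity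
  have h := hasSum_mellin (a := fun x : O => (‖emb x‖ : ℂ) ^ k * a x)
    (p := fun x => c0 * κ * Nr x) (F := AAn_th k a κ) (s := s + k / 2)
    (fun x => by
      by_cases hx : x = 0
      · left
        rw [hx, hz, zero_mul]
      · have := Nr_pos hx
        exact Or.inr (by positivity))
    (by linarith)
    (fun t ht => by
      convert (AAn_summable hk ha (mul_pos hκ ht)).hasSum using 2 with x
      · rw [mul_comm, Phi]; congr 3; ring
      · rfl)
    (by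
      refine Summable.of_norm_bounded
        ((summable_Nr_rpow hs).mul_left ((c0 * κ) ^ (-(s.re + k / 2)))) fun x => ?_
      have h0 := Nr_nonneg x
      by_cases hx : x = 0
      · rw [hx, hz, zero_mul, norm_zero, zero_div, norm_zero, ← hx]
        positivity
      have hx' := Nr_pos hx
      rw [Real.norm_of_nonneg (by positivity), hre, norm_mul, norm_pow, norm_real, norm_norm,
        AAn_pow, Real.mul_rpow (by positivity) h0, Real.rpow_add hx', Real.rpow_neg (by positivity),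
        Real.rpow_neg h0, div_le_iff₀ (by positivity)]
      calc Nr x ^ ((k : ℝ) / 2) * ‖a x‖ ≤ Nr x ^ ((k : ℝ) / 2) * 1 := by
            gcongr
            exact ha x
        _ = _ := by field_simp)
  rw [← h.tsum_eq, f1_D, ← tsum_mul_left]
  refine tsum_congr fun x => ?_
  split_ifs with hx
  · rw [hx, hz]
    simp
  · have hx' := Nr_pos hx
    have h1 : ((Nr x : ℝ) : ℂ) ≠ 0 := ofReal_ne_zero.2 hx'.ne'
    have h2 : ((‖emb x‖ : ℝ) : ℂ) ^ k = (Nr x : ℂ) ^ ((k : ℂ) / 2) := by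
      rw [← ofReal_pow, AAn_pow, ofReal_cpow hx'.le]
      push_cast
      rfl
    have h3 : (Nr x : ℂ) ^ ((k : ℂ) / 2) ≠ 0 := by simp [h1]
    rw [ofReal_mul (c0 * κ), mul_cpow_ofReal_nonneg (by positivity) hx'.le, cpow_neg, h2,
      cpow_add s _ h1]
    field_simp

/-- Port of `R017.f1_analytic`.  Use the `WeakFEPair` of weight `1` with
`f t = t ^ (k / 2) ∑ Phi (κ t Nr x) |x| ^ k a x`, `κ = (√N)⁻¹`, `f₀ = g₀ = 0` (the term `x = 0`
vanishes because `k ≥ 1`); `Λ = Λ₀` is entire, `Λ₀ s = Γ(s + k/2) (c0 κ)^(-(s + k/2)) f1_D a s` for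
`1 < re s` (`hasSum_mellin`), and `G s = (c0 κ)^(s + k/2) Γ(s + k/2)⁻¹ Λ₀ s`
(`f1_Λ₀_bound`, `f1_inv_Gamma`). -/
theorem ang_analytic {k : ℕ} (hk : 1 ≤ k) {a : O → ℂ} (ha : ∀ x, ‖a x‖ ≤ 1) {N : ℝ} (hN : 0 < N)
    {w : ℂ} (hw : w ≠ 0)
    (hP : ∀ R : ℝ, 0 < R →
      ∑' x : O, (Phi (Nr x / R) : ℂ) * ((‖emb x‖ : ℂ) ^ k * a x) =
        w * ((R / Real.sqrt N : ℝ) : ℂ) ^ (k + 1) *
          ∑' h : O, (Phi (R * Nr h / N) : ℂ) * ((‖emb h‖ : ℂ) ^ k * conj (a h))) :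
    ∃ G : ℂ → ℂ, Differentiable ℂ G ∧ (∀ s : ℂ, 1 < s.re → G s = f1_D a s) ∧
      (∀ s : ℂ, s.re < 1 → G s = w * (N : ℂ) ^ (1 / 2 - s) * (c0 : ℂ) ^ (2 * s - 1) *
        Complex.Gamma (1 - s + k / 2) * (Complex.Gamma (s + k / 2))⁻¹ * conj (G (conj (1 - s)))) ∧
      (∀ A : ℝ, ∃ C : ℝ, ∀ s : ℂ, |s.re| ≤ A → ‖G s‖ ≤ C * Real.exp (C * |s.im|)) := by
  have hq : 0 < Real.sqrt N := Real.sqrt_pos.2 hN
  set κ := (Real.sqrt N)⁻¹ with hκdef
  have hκ : 0 < κ := inv_pos.2 hq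
  have ha' : ∀ x, ‖conj (a x)‖ ≤ 1 := fun x => by simpa using ha x
  let P : WeakFEPair ℂ :=
    { f := AAn_th k a κ
      g := AAn_th k (fun x => conj (a x)) κ
      k := k + 1
      ε := w
      f₀ := 0
      g₀ := 0
      hf_int := (AAn_cont hk ha hκ).locallyIntegrableOn measurableSet_Ioi
      hg_int := (AAn_cont hk ha' hκ).locallyIntegrableOn measurableSet_Ioi
      hk := by positivity
      hε := hw
      h_feq := fun t ht => by
        have ht' : (0 : ℝ) < t := ht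
        have h := hP (Real.sqrt N * t) (by positivity)
        have e1 : ∀ x : O, κ * (1 / t) * Nr x = Nr x / (Real.sqrt N * t) := fun x => by
          rw [hκdef]; field_simp
        have e2 : ∀ x : O, Real.sqrt N * t * Nr x / N = κ * t * Nr x := fun x => by
          rw [hκdef, div_eq_iff hN.ne']; field_simp; rw [Real.sq_sqrt hN.le, mul_comm]
        have e3 : Real.sqrt N * t / Real.sqrt N = t := by field_simp
        have e4 : t ^ ((k : ℝ) + 1) = t ^ (k + 1) := by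
          rw [← Real.rpow_natCast]; push_cast; rfl
        simp only [AAn_th, e1, h, e2, e3, e4, smul_eq_mul, ofReal_pow]
      hf_top := AAn_top hk ha hκ
      hg_top := AAn_top hk ha' hκ }
  have hPs : IsStrongFEPair P := ⟨rfl, rfl⟩
  have hΛ : ∀ Q : WeakFEPair ℂ, IsStrongFEPair Q → ∀ s, Q.Λ₀ s = mellin Q.f s := fun Q hQ s => by
    rw [Q.Λ₀_eq, hQ.Λ_eq, hQ.hf₀, hQ.hg₀, smul_zero, smul_zero, add_zero, add_zero]
  have hc := c0_pos
  set q : ℝ := c0 * κ with hqd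
  have hq0 : 0 < q := by positivity
  have hqC : (q : ℂ) ≠ 0 := ofReal_ne_zero.2 hq0.ne'
  have hk0 : (0 : ℝ) ≤ k / 2 := by positivity
  have hcj : ∀ s : ℂ, conj s + k / 2 = conj (s + k / 2) := fun s => by
    simp [map_ofNat]
  have hx1 : ∀ s : ℂ, 1 < s.re → P.Λ₀ (s + k / 2) =
      Gamma (s + k / 2) * ((q : ℂ) ^ (s + k / 2))⁻¹ * f1_D a s := fun s hs => by
    rw [hΛ P hPs, ← AAn_mellin hk ha hκ hs]
  have hx2 : ∀ s : ℂ, 1 < s.re → P.symm.Λ₀ (s + k / 2) =
      Gamma (s + k / 2) * ((q : ℂ) ^ (s + k / 2))⁻¹ * f1_D (fun x => conj (a x)) s :=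
    fun s hs => by rw [hΛ _ hPs.symm, ← AAn_mellin hk ha' hκ hs]; rfl
  have hd : ∀ Q : WeakFEPair ℂ, Differentiable ℂ fun s : ℂ => Q.Λ₀ (s + k / 2) := fun Q =>
    Q.differentiable_Λ₀.comp (differentiable_id.add_const _)
  have hsymm : (fun s : ℂ => P.symm.Λ₀ (s + k / 2)) =
      fun s => conj (P.Λ₀ (conj s + k / 2)) := by
    refine f1_ext (hd _) (fun s => ?_) fun s hs => ?_
    · exact differentiableAt_conj_conj_iff.2 (hd P (conj s))
    · rw [hx2 s hs, hx1 (conj s) (by simpa using hs), hcj]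
      simp only [map_mul, map_inv₀, conj_conj, Gamma_conj, f1_conj_cpow hq0.le, f1_D_conj]
  refine ⟨fun s => (q : ℂ) ^ (s + k / 2) * (Gamma (s + k / 2))⁻¹ * P.Λ₀ (s + k / 2),
    ?_, ?_, ?_, ?_⟩
  · refine (Differentiable.mul ?_ ?_).mul (hd P)
    · exact (differentiable_id.add_const _).const_cpow (Or.inl hqC)
    · exact differentiable_one_div_Gamma.comp (differentiable_id.add_const _)
  · intro s hs
    have hG : Gamma (s + k / 2) ≠ 0 := Gamma_ne_zero_of_re_pos (by simp; linarith)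
    have hks : (q : ℂ) ^ (s + k / 2) ≠ 0 := by simp [hqC]
    simp only [hx1 s hs]
    generalize Gamma (s + k / 2) = g at hG ⊢
    generalize (q : ℂ) ^ (s + k / 2) = u at hks ⊢
    field_simp
  · intro s hs
    have h := P.functional_equation₀ (1 - s + k / 2)
    have e0 : ((P.k : ℝ) : ℂ) - (1 - s + k / 2) = s + k / 2 := by
      simp only [P]
      push_cast
      ring
    rw [e0, congrFun hsymm (1 - s), smul_eq_mul] at h
    have hG : Gamma (1 - s + k / 2) ≠ 0 := Gamma_ne_zero_of_re_pos (by simp; linarith)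
    have e2 : (q : ℂ) ^ (s + k / 2) =
        (N : ℂ) ^ (1 / 2 - s) * (c0 : ℂ) ^ (2 * s - 1) * (q : ℂ) ^ (1 - s + k / 2) := by
      have l1 : Real.log q = Real.log c0 - Real.log N / 2 := by
        rw [hqd, Real.log_mul hc.ne' hκ.ne', hκdef, Real.log_inv, Real.log_sqrt hN.le]; ring
      rw [cpow_def_of_ne_zero hqC, cpow_def_of_ne_zero hqC,
        cpow_def_of_ne_zero (ofReal_ne_zero.2 hN.ne'),
        cpow_def_of_ne_zero (ofReal_ne_zero.2 hc.ne'), ← Complex.exp_add, ← Complex.exp_add,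
        ← ofReal_log hq0.le, ← ofReal_log hN.le, ← ofReal_log hc.le, l1]
      congr 1; push_cast; ring
    have e1 : conj (Gamma (conj (1 - s) + k / 2)) = Gamma (1 - s + k / 2) := by
      rw [hcj, Gamma_conj, conj_conj]
    have e3 : conj ((q : ℂ) ^ (conj (1 - s) + k / 2)) = (q : ℂ) ^ (1 - s + k / 2) := by
      rw [hcj, f1_conj_cpow hq0.le]
    simp only [map_mul, map_inv₀, e1, e3, h]
    rw [e2]
    change _ * (w * _) = _
    generalize Gamma (1 - s + k / 2) = g at hG ⊢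
    linear_combination (-w * (N : ℂ) ^ (1 / 2 - s) * (c0 : ℂ) ^ (2 * s - 1) *
      (q : ℂ) ^ (1 - s + k / 2) * (Gamma (s + k / 2))⁻¹ *
      conj (P.Λ₀ (conj (1 - s) + k / 2))) * mul_inv_cancel₀ hG
  · intro A
    obtain ⟨C₁, h₁⟩ := f1_Λ₀_bound P (A + k / 2)
    obtain ⟨C₂, hC₂, h₂⟩ := f1_inv_Gamma (A + k / 2)
    set K := q ^ (A + k / 2) + q ^ (-(A + k / 2)) with hK
    have hK0 : 0 ≤ K := by positivity
    refine ⟨max (K * C₂ * |C₁|) Real.pi, fun s hs => ?_⟩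
    obtain ⟨hs1, hs2⟩ := abs_le.1 hs
    have hre : (s + k / 2).re = s.re + k / 2 := by simp
    have him : (s + k / 2).im = s.im := by simp
    have hs' : |(s + k / 2).re| ≤ A + k / 2 := by
      rw [hre, abs_le]; constructor <;> linarith
    have b1 : ‖(q : ℂ) ^ (s + k / 2)‖ ≤ K := by
      rw [norm_cpow_eq_rpow_re_of_pos hq0]
      rcases le_total 1 q with h | h
      · exact (Real.rpow_le_rpow_of_exponent_le h (abs_le.1 hs').2).trans
          (le_add_of_nonneg_right (by positivity))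
      · exact (Real.rpow_le_rpow_of_exponent_ge hq0 h (abs_le.1 hs').1).trans
          (le_add_of_nonneg_left (by positivity))
    have b2 := h₂ _ hs'
    rw [him] at b2
    have b3 := (h₁ _ hs').trans (le_abs_self _)
    simp only [norm_mul]
    calc _ ≤ K * (C₂ * Real.exp (Real.pi * |s.im|)) * |C₁| := by gcongr
      _ = K * C₂ * |C₁| * Real.exp (Real.pi * |s.im|) := by ring
      _ ≤ _ := by
          gcongr
          · exact le_max_left _ _
          · exact le_max_right _ _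

end Crest.Agent.R012

end
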