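import Crest.Agent.R012.Gt
import Crest.Agent.R017.Reflect

/-! # Row 12: functional equation data (definitions) -/

set_option autoImplicit false

noncomputable section

open scoped BigOperators ComplexConjugate Topology
open Complex MeasureTheory Filter Set Crest.Agent.R017

namespace Crest.Agent.R012

/-- `L` continues `Dser c` to an entire function with `L (1 - ζ) = M ζ · Dser (conj c) ζ`. -/
structure FEq (c : O → ℂ) (L M : ℂ → ℂ) : Prop where
  le : ∀ n, Prim n → ‖c n‖ ≤ 1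
  diff : Differentiable ℂ L
  eq : ∀ s : ℂ, 1 < s.re → L s = Dser c s
  gr : ∀ σ₁ σ₂ : ℝ, ExpGr L σ₁ σ₂
  mdiff : ∀ ζ : ℂ, 0 < ζ.re → DifferentiableAt ℂ M ζ
  fe : ∀ ζ : ℂ, 1 < ζ.re → L (1 - ζ) = M ζ * Dser (fun n => conj (c n)) ζ

/-- The size of the factor in the functional equation. -/
def MB (M : ℂ → ℂ) (B C E Q : ℝ) : Prop :=
  ∀ σ τ : ℝ, 1 / 2 ≤ σ → σ ≤ B → ‖M (σ - τ * I)‖ ≤ E * Q ^ (σ - 1 / 2) * (1 + |τ|) ^ C

end Crest.Agent.R012

end
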