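import Crest.Agent.R012.APois
import Crest.Agent.R012.AAn
import Crest.Agent.R017.FE1

/-! # Row 12: functional equation for characters with an angular twist -/

set_option autoImplicit false

noncomputable section

open scoped BigOperators ComplexConjugate Topology
open Complex MeasureTheory Filter Set Crest.Agent.R017

namespace Crest.Agent.R012

theorem AFE_tilde {q : O} {η : O → ℂ} (h : IsCh q η) {χ : O → ℂ} (hχ1 : χ 1 = 1)
    (hχ : ∀ x y, χ (x * y) = χ x * χ y) :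
    ∃ θ : O → ℂ, IsCh q θ ∧ (∀ u, IsUnit u → θ u * χ u = 1) ∧ ∀ n, Prim n → θ n = η n := by
  classical
  let θ : O → ℂ := fun x =>
    if hx : ¬ lam ∣ x then χ (exists_prim hx).choose * η ((exists_prim hx).choose * x) else 0
  have h0 : ∀ x, lam ∣ x → θ x = 0 := fun x hx => dif_neg (not_not.2 hx)
  have h1 : ∀ x u, IsUnit u → Prim (u * x) → θ x = χ u * η (u * x) := by
    intro x u hu hp
    have hx : ¬ lam ∣ x := fun hx => hp.not_lam_dvd (hx.mul_left _)
    obtain ⟨hv, hp'⟩ := (exists_prim hx).choose_spec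
    simp only [θ, dif_pos hx]
    have e := hp'.eq_of_associated hp
      ((associated_unit_mul_left _ _ hv).trans (associated_unit_mul_left _ _ hu).symm)
    have hx0 : x ≠ 0 := fun h0 => hx (h0 ▸ dvd_zero _)
    rw [mul_right_cancel₀ hx0 e]
  have hne : ∀ u, IsUnit u → χ u ≠ 0 := fun u hu => by
    obtain ⟨v, hv⟩ := hu.exists_left_inv
    exact right_ne_zero_of_mul_eq_one (a := χ v) (by rw [← hχ, hv, hχ1])
  have hlq : lam ∣ q := lam_dvd_three.trans h.three
  have hn : ∀ n, Prim n → θ n = η n := fun n hn => by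
    rw [h1 n 1 isUnit_one (by simpa using hn), one_mul, hχ1, one_mul]
  refine ⟨θ, ⟨h.ne, h.three, by rw [hn 1 prim_one, h.one], fun x y => ?_, fun x y hxy => ?_,
    fun x => ?_⟩, fun u hu => ?_, hn⟩
  · by_cases hx : lam ∣ x
    · rw [h0 x hx, h0 _ (hx.mul_right _), zero_mul]
    by_cases hy : lam ∣ y
    · rw [h0 y hy, h0 _ (hy.mul_left _), mul_zero]
    obtain ⟨u, hu, hpu⟩ := exists_prim hx
    obtain ⟨v, hv, hpv⟩ := exists_prim hy
    have e : u * v * (x * y) = u * x * (v * y) := by ring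
    rw [h1 x u hu hpu, h1 y v hv hpv, h1 (x * y) (u * v) (hu.mul hv) (e ▸ hpu.mul hpv), e, h.mul,
      hχ]
    ring
  · by_cases hx : lam ∣ x
    · have : lam ∣ y := by simpa using hx.sub (hlq.trans hxy)
      rw [h0 x hx, h0 y this]
    obtain ⟨u, hu, hpu⟩ := exists_prim hx
    have hd : q ∣ u * x - u * y := by rw [← mul_sub]; exact hxy.mul_left _
    have hpy : Prim (u * y) := by
      have := Dvd.dvd.sub hpu (h.three.trans hd)
      unfold Prim
      convert this using 1; ring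
    rw [h1 x u hu hpu, h1 y u hu hpy, h.per _ _ hd]
  · by_cases hx : lam ∣ x
    · exact ⟨fun _ hc => f1_lam_not_unit (hc.isUnit_of_dvd' hx hlq), fun _ => h0 x hx⟩
    obtain ⟨u, hu, hpu⟩ := exists_prim hx
    rw [h1 x u hu hpu, mul_eq_zero, or_iff_right (hne u hu), h.zero,
      isCoprime_mul_unit_left_left hu]
  · obtain ⟨v, hv⟩ := hu.exists_left_inv
    rw [h1 u v (IsUnit.of_mul_eq_one _ hv) (hv ▸ prim_one), hv, h.one, mul_one, ← hχ, hv, hχ1]

theorem AFE_norm_mul_ang (x : O) : (‖emb x‖ : ℂ) * ang x = emb x := by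
  by_cases hx : emb x = 0
  · simp [hx]
  · rw [ang, mul_div_cancel₀]
    exact_mod_cast norm_ne_zero_iff.2 hx

theorem AFE_pow (k : ℕ) (x : O) : (‖emb x‖ : ℂ) ^ k * az k x = emb x ^ k := by
  rw [az, zpow_natCast, ← mul_pow, AFE_norm_mul_ang]

theorem AFE_const {f : O} (hf : f ≠ 0) (k : ℕ) (R : ℝ) :
    (‖emb f‖ : ℂ) ^ k * ((R / Nr f : ℝ) : ℂ) ^ (k + 1) =
      ((R / Real.sqrt (Nr f) : ℝ) : ℂ) ^ (k + 1) / (Real.sqrt (Nr f) : ℂ) := by
  have hN := Nr_pos hf
  have hs : Real.sqrt (Nr f) ≠ 0 := (Real.sqrt_pos.2 hN).ne'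
  rw [norm_emb]
  conv_lhs => rw [← Real.mul_self_sqrt hN.le, Real.sqrt_mul_self (Real.sqrt_nonneg _)]
  norm_cast
  field_simp
  rw [div_pow, div_pow]
  field_simp
  ring

/-- The character modulo `3` with `θ₀ u = emb u` on units (every `x` prime to `3` is `u n` with a
unique unit `u` and `n` primary, `exists_prim`). -/
theorem exists_unit_char : ∃ θ₀ : O → ℂ, IsCh 3 θ₀ ∧ (∀ u, IsUnit u → θ₀ u = emb u) ∧
    ∀ n, Prim n → θ₀ n = 1 := by
  classical
  obtain ⟨θ, h1, h2, h3⟩ := AFE_tilde (isCh_triv (q := 3) (by decide) dvd_rfl)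
    (χ := fun x => conj (emb x)) (by simp) (by simp)
  refine ⟨θ, h1, fun u hu => ?_, fun n hn => ?_⟩
  · have e : emb u * conj (emb u) = 1 := by
      rw [mul_conj', ← ofReal_pow, norm_emb_sq, isUnit_iff_Nr.1 hu, ofReal_one]
    linear_combination (emb u) * h2 u hu - θ u * e
  · rw [h3 n hn, if_pos]
    obtain ⟨c, hc⟩ := hn
    exact ⟨1, -c, by linear_combination hc⟩

/-- `f1_tilde` times a power of `θ₀` or of its conjugate. -/
theorem ang_tilde {q : O} {η : O → ℂ} (h : IsCh q η) (l : ℤ) :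
    ∃ θ : O → ℂ, IsCh q θ ∧ (∀ u, IsUnit u → θ u * az l u = 1) ∧ ∀ n, Prim n → θ n = η n := by
  exact AFE_tilde h (az_one l) (az_mul l)

/-- The theta transformation for a primitive character (`poisson_per_pow` with `k = |l|`,
`w = ang f ^ k · gs η₁ f 1 / √(N f)`; for `l < 0` apply it to the conjugate function, conjugate,
use `conj_gs` and reindex `h ↦ -h`: `w = (-1)^k conj (ang f) ^ k · gs η₁ f 1 / √(N f)`). -/
theorem ang_theta {f : O} {η₁ : O → ℂ} (hf : f ≠ 0) (hper : ∀ x y, f ∣ x - y → η₁ x = η₁ y)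
    (hg : ∀ h, gs η₁ f h = conj (η₁ h) * gs η₁ f 1) (hg1 : ‖gs η₁ f 1‖ = Real.sqrt (Nr f)) (l : ℤ) :
    ∃ w : ℂ, ‖w‖ = 1 ∧ ∀ R : ℝ, 0 < R →
      ∑' x : O, (Phi (Nr x / R) : ℂ) * ((‖emb x‖ : ℂ) ^ l.natAbs * (η₁ x * az l x)) =
        w * ((R / Real.sqrt (Nr f) : ℝ) : ℂ) ^ (l.natAbs + 1) *
          ∑' h : O, (Phi (R * Nr h / Nr f) : ℂ) *
            ((‖emb h‖ : ℂ) ^ l.natAbs * conj (η₁ h * az l h)) := by
  have hN := Nr_pos hf
  have hs : 0 < Real.sqrt (Nr f) := Real.sqrt_pos.2 hN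
  have hG : ‖gs η₁ f 1 / (Real.sqrt (Nr f) : ℂ)‖ = 1 := by
    rw [norm_div, hg1, norm_real, Real.norm_of_nonneg hs.le, div_self hs.ne']
  obtain ⟨k, rfl | rfl⟩ := l.eq_nat_or_neg
  · refine ⟨az k f * (gs η₁ f 1 / (Real.sqrt (Nr f) : ℂ)), by rw [norm_mul, norm_az _ hf, hG,
      one_mul], fun R hR => ?_⟩
    have h1 := poisson_per_pow k hR hf η₁ hper
    rw [Int.natAbs_natCast]
    have e1 : ∀ x : O, (‖emb x‖ : ℂ) ^ k * (η₁ x * az k x) = emb x ^ k * η₁ x := fun x => by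
      rw [← AFE_pow]; ring
    have e2 : ∀ h : O, gs η₁ f h * conj (emb h) ^ k * (Phi (R * Nr h / Nr f) : ℂ) =
        gs η₁ f 1 * ((Phi (R * Nr h / Nr f) : ℂ) *
          ((‖emb h‖ : ℂ) ^ k * conj (η₁ h * az k h))) := fun h => by
      rw [hg h, ← map_pow, ← AFE_pow]
      simp only [map_mul, map_pow, conj_ofReal]
      ring
    simp only [e1]
    rw [h1, tsum_congr e2, tsum_mul_left, ← AFE_pow, mul_right_comm _ (az k f), AFE_const hf]
    ring
  · refine ⟨(-1) ^ k * az (-k) f * (gs η₁ f 1 / (Real.sqrt (Nr f) : ℂ)), by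
      rw [norm_mul, norm_mul, norm_az _ hf, hG]; simp, fun R hR => ?_⟩
    have h1 := congrArg conj (poisson_per_pow k hR hf (fun x => conj (η₁ x))
      fun x y hxy => by rw [hper x y hxy])
    rw [map_mul, conj_tsum, conj_tsum, ← (Equiv.neg O).tsum_eq
      fun h => conj (gs (fun x => conj (η₁ x)) f h * conj (emb h) ^ k *
        (Phi (R * Nr h / Nr f) : ℂ))] at h1
    rw [Int.natAbs_neg, Int.natAbs_natCast]
    have e1 : ∀ x : O, (Phi (Nr x / R) : ℂ) * ((‖emb x‖ : ℂ) ^ k * (η₁ x * az (-k) x)) =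
        conj ((Phi (Nr x / R) : ℂ) * (emb x ^ k * conj (η₁ x))) := fun x => by
      rw [← AFE_pow, ← conj_az]
      simp only [map_mul, map_pow, conj_ofReal, conj_conj]
      ring
    have e2 : ∀ h : O, conj (gs (fun x => conj (η₁ x)) f (Equiv.neg O h) *
        conj (emb (Equiv.neg O h)) ^ k * (Phi (R * Nr (Equiv.neg O h) / Nr f) : ℂ)) =
        (-1) ^ k * gs η₁ f 1 * ((Phi (R * Nr h / Nr f) : ℂ) *
          ((‖emb h‖ : ℂ) ^ k * conj (η₁ h * az (-k) h))) := fun h => by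
      simp only [Equiv.neg_apply, map_mul, map_pow, conj_gs, conj_conj, neg_neg, conj_ofReal,
        Nr_neg, conj_az]
      rw [hg h, map_neg, neg_pow, ← AFE_pow]
      ring
    rw [tsum_congr e1, h1, tsum_congr e2, tsum_mul_left, ← AFE_pow, mul_right_comm _ (az k f),
      AFE_const hf]
    simp only [map_mul, map_div₀, map_pow, conj_ofReal, conj_az]
    ring

/-- Port of `R017.IsCh.exists_FE` (with `a₁ = η₁ · az l`, `G = ang_analytic / 6`). -/
theorem exists_FE_az {q : O} {η : O → ℂ} (h : IsCh q η) {l : ℤ} (hl : l ≠ 0) :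
    ∃ (f : O) (S : Finset O) (a₁ : O → ℂ) (w : ℂ) (G : ℂ → ℂ), f ≠ 0 ∧ ‖w‖ = 1 ∧
      S ⊆ pf q ∧ f * ∏ p ∈ S, p ∣ q ∧ (∀ x, ‖a₁ x‖ ≤ 1) ∧ Differentiable ℂ G ∧
      (∀ s : ℂ, 1 < s.re →
        Dser (fun n => η n * az l n) s = G s * ∏ p ∈ S, (1 - a₁ p * (Nr p : ℂ) ^ (-s))) ∧
      (∀ s : ℂ, s.re < 1 → G s = w * (Nr f : ℂ) ^ (1 / 2 - s) * (c0 : ℂ) ^ (2 * s - 1) *
        Complex.Gamma (1 - s + (l.natAbs : ℕ) / 2) * (Complex.Gamma (s + (l.natAbs : ℕ) / 2))⁻¹ *
          conj (G (conj (1 - s)))) ∧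
      (∀ A : ℝ, ∃ C : ℝ, ∀ s : ℂ, |s.re| ≤ A → ‖G s‖ ≤ C * Real.exp (C * |s.im|)) := by
  classical
  obtain ⟨θ, hθ, hθu, hθp⟩ := ang_tilde h l
  obtain ⟨f, η₁, hf0, hfq, hmul, hper, h0, h1, hext, hprim⟩ := f1_prim hθ
  obtain ⟨hg1, hg2⟩ := f1_gauss hf0 hmul hper h0 h1 hprim
  have hN := Nr_pos hf0
  obtain ⟨w, hw1, hw⟩ := ang_theta hf0 hper hg1 hg2 l
  have hw0 : w ≠ 0 := by
    intro h
    rw [h, norm_zero] at hw1
    exact zero_ne_one hw1
  have hle0 : ∀ x, ‖η₁ x‖ ≤ 1 := fun x => by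
    by_cases hx : IsCoprime x f
    · exact (h1 x hx).le
    · rw [h0 x hx, norm_zero]; exact zero_le_one
  set a₁ : O → ℂ := fun x => η₁ x * az l x with ha₁
  have hle : ∀ x, ‖a₁ x‖ ≤ 1 := fun x => by
    by_cases hx : x = 0
    · simp [ha₁, hx, az, ang, zero_zpow l hl]
    · simpa [ha₁, norm_az l hx] using hle0 x
  have hmul₁ : ∀ x y, a₁ (x * y) = a₁ x * a₁ y := fun x y => by
    simp only [ha₁, hmul, az_mul]; ring
  obtain ⟨G, hG1, hG2, hG3, hG4⟩ := ang_analytic (Int.natAbs_pos.2 hl) hle hN hw0 hw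
  set S := (pf q).filter (fun p => ¬ p ∣ f) with hS
  have hSP : ∀ p ∈ S, PP p := fun p hp => (a1_of_mem_pf (Finset.mem_filter.1 hp).1).1
  have hcop : ∀ n, IsCoprime n q ↔ IsCoprime n f ∧ ∀ p ∈ S, ¬ p ∣ n := by
    intro n
    refine ⟨fun hn => ⟨hn.of_isCoprime_of_dvd_right hfq, fun p hp hd => ?_⟩, fun hn => ?_⟩
    · have := a1_of_mem_pf (Finset.mem_filter.1 hp).1
      exact this.1.1.not_isUnit (hn.isUnit_of_dvd' hd this.2)
    · refine isCoprime_of_prime_dvd (fun h' => h.ne h'.2) fun z hz hz1 hz2 => ?_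
      obtain ⟨p, hp, ha⟩ := exists_PP hz
      have hp1 := ha.symm.dvd.trans hz1
      have hp2 : p ∈ pf q := (mem_pf h.ne).2 ⟨hp, ha.symm.dvd.trans hz2⟩
      by_cases hpf : p ∣ f
      · exact hp.1.not_isUnit (hn.1.isUnit_of_dvd' hp1 hpf)
      · exact hn.2 p (Finset.mem_filter.2 ⟨hp2, hpf⟩) hp1
  refine ⟨f, S, a₁, w, fun s => G s / 6, hf0, hw1, Finset.filter_subset _ _, ?_, hle,
    hG1.div_const _, fun s hs => ?_, fun s hs => ?_, fun A => ?_⟩
  · refine IsCoprime.mul_dvd (IsCoprime.prod_right fun p hp => ?_) hfq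
      (Finset.prod_dvd_of_coprime (s := fun p : O => p)
        (fun p hp p' hp' hne => a1_coprime (hSP p hp) (hSP p' hp') hne)
        fun p hp => (a1_of_mem_pf (Finset.mem_filter.1 hp).1).2)
    exact ((hSP p hp).1.coprime_iff_not_dvd.2 (Finset.mem_filter.1 hp).2).symm
  · set a : O → ℂ := fun n => if n = 0 then 0 else a₁ n * (Nr n : ℂ) ^ (-s) with ha
    have has : Summable a := f1_D_summable hle hs
    have hcp : ∀ x y : O, (Nr (x * y) : ℂ) ^ (-s) = (Nr x : ℂ) ^ (-s) * (Nr y : ℂ) ^ (-s) := by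
      intro x y
      rw [Nr_mul, ofReal_mul, mul_cpow_ofReal_nonneg (Nr_nonneg x) (Nr_nonneg y)]
    have ham : ∀ x y, a (x * y) = a x * a y := by
      intro x y
      by_cases hx : x = 0
      · simp [ha, hx]
      by_cases hy : y = 0
      · simp [ha, hy]
      simp only [ha, if_neg hx, if_neg hy, if_neg (mul_ne_zero hx hy), hmul₁, hcp]
      ring
    have hsv := f1_sieve has ham S hSP
    have hlq : lam ∣ q := lam_dvd_three.trans h.three
    have e1 : ∀ n, (if ∀ p ∈ S, ¬ p ∣ n then a n else 0) = θ n * az l n * (Nr n : ℂ) ^ (-s) := by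
      intro n
      by_cases hn : IsCoprime n q
      · have hn0 : n ≠ 0 := by
          rintro rfl
          exact f1_lam_not_unit (hn.isUnit_of_dvd' (dvd_zero _) hlq)
        rw [if_pos ((hcop n).1 hn).2, ← hext n hn]
        exact if_neg hn0
      · rw [(hθ.zero n).2 hn, zero_mul, zero_mul]
        split_ifs with h2
        · simp [ha, ha₁, h0 n fun hc => hn ((hcop n).2 ⟨hc, h2⟩)]
        · rfl
    have hbs : Summable fun n => θ n * az l n * (Nr n : ℂ) ^ (-s) := by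
      refine Summable.of_norm_bounded has.norm fun n => ?_
      rw [← e1]
      split_ifs <;> simp
    have e2 := f1_six hbs (fun u x hu => by
      rw [hθ.mul, az_mul, mul_mul_mul_comm, hθu u hu, one_mul, Nr_mul, isUnit_iff_Nr.1 hu,
        one_mul]) fun x hx => by
        rw [(hθ.zero x).2 fun hc => f1_lam_not_unit (hc.isUnit_of_dvd' hx hlq), zero_mul, zero_mul]
    have e3 : (∑' n, if Prim n then θ n * az l n * (Nr n : ℂ) ^ (-s) else 0) =
        Dser (fun n => η n * az l n) s :=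
      tsum_congr fun n => by
        split_ifs with hn
        · rw [hθp n hn]
        · rfl
    have e4 : ∏ p ∈ S, (1 - a p) = ∏ p ∈ S, (1 - a₁ p * (Nr p : ℂ) ^ (-s)) :=
      Finset.prod_congr rfl fun p hp => by simp only [ha, if_neg (hSP p hp).1.ne_zero]
    rw [tsum_congr e1, e2, e3, e4] at hsv
    have e5 : f1_D a₁ s = ∑' n, a n := rfl
    beta_reduce
    rw [hG2 s hs, e5]
    linear_combination (1 / 6) * hsv
  · have e6 : conj (6 : ℂ) = 6 := by exact_mod_cast conj_ofReal 6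
    beta_reduce
    rw [hG3 s hs, map_div₀, e6]
    ring
  · obtain ⟨C, hC⟩ := hG4 A
    refine ⟨C, fun s hs => le_trans ?_ (hC s hs)⟩
    rw [norm_div]
    exact div_le_self (norm_nonneg _) (by simp)

end Crest.Agent.R012

end
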