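import Crest.Agent.R012.Gt

/-! # Row 12: Poisson summation with a harmonic polynomial -/

set_option autoImplicit false

noncomputable section

open scoped BigOperators ComplexConjugate Topology
open Complex MeasureTheory Filter Set Crest.Agent.R017

namespace Crest.Agent.R012

lemma APois_ec (y : ℂ) : ec y = cexp (c0 * (y - conj y)) := by
  rw [ec, Complex.sub_conj, c0]
  congr 1
  push_cast
  ring

lemma APois_Phi (y : ℝ) : (Phi y : ℂ) = cexp (-(c0 * y)) := by
  rw [Phi]; push_cast; rfl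

lemma APois_gen {R : ℝ} (hR : 0 < R) (z t : ℂ) :
    ∑' x : O, (Phi (‖emb x + z‖ ^ 2 / R) : ℂ) * (emb x + z) ^ 0 * cexp (t * (emb x + z)) =
      ∑' h : O, (R * Phi (R * Nr h) * ec (emb h * z)) * (R * conj (emb h)) ^ 0 *
        cexp (t * (R * conj (emb h))) := by
  have hc : (c0 : ℂ) ≠ 0 := by exact_mod_cast c0_pos.ne'
  have hR' : (R : ℂ) ≠ 0 := by exact_mod_cast hR.ne'
  have h := congrArg (fun y => cexp (conj t * t * R / (4 * c0)) * ec (z * (t / (2 * c0))) * y)
    (poisson_gauss hR (z - conj t * R / (2 * c0)) (t / (2 * c0)))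
  simp only [← tsum_mul_left] at h
  refine (tsum_congr fun x => ?_).trans (h.trans (tsum_congr fun x => ?_))
  · simp only [APois_Phi, APois_ec, pow_zero, mul_one, ← Complex.exp_add]
    congr 1
    push_cast
    simp only [← Complex.mul_conj', map_add, map_sub, map_mul, map_div₀, Complex.conj_conj,
      Complex.conj_ofReal, map_ofNat]
    field_simp
    ring
  · rw [← norm_emb_sq, mul_left_comm _ (R : ℂ), mul_assoc (R : ℂ), mul_assoc (R : ℂ),
      mul_assoc (R : ℂ)]
    congr 1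
    simp only [APois_Phi, APois_ec, pow_zero, mul_one, ← Complex.exp_add]
    congr 1
    push_cast
    simp only [← Complex.mul_conj', map_add, map_sub, map_mul, map_div₀, Complex.conj_conj,
      Complex.conj_ofReal, map_ofNat]
    field_simp
    ring

lemma APois_norm_le (a u : ℂ) (k : ℕ) {t : ℂ} (ht : t ∈ Metric.ball (0 : ℂ) 1) :
    ‖a * u ^ k * cexp (t * u)‖ ≤ k.factorial * (‖a‖ * Real.exp (2 * ‖u‖)) := by
  rw [mem_ball_zero_iff] at ht
  have h1 : ‖u‖ ^ k ≤ k.factorial * Real.exp ‖u‖ := by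
    have := Real.pow_div_factorial_le_exp ‖u‖ (norm_nonneg u) k
    rwa [div_le_iff₀ (by positivity), mul_comm] at this
  have h2 : ‖cexp (t * u)‖ ≤ Real.exp ‖u‖ := by
    refine (Complex.norm_exp_le_exp_norm _).trans (Real.exp_le_exp.2 ?_)
    rw [norm_mul]
    exact mul_le_of_le_one_left (norm_nonneg _) ht.le
  rw [norm_mul, norm_mul, norm_pow, two_mul, Real.exp_add]
  calc ‖a‖ * ‖u‖ ^ k * ‖cexp (t * u)‖ ≤ ‖a‖ * (k.factorial * Real.exp ‖u‖) * Real.exp ‖u‖ := by
        gcongr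
    _ = _ := by ring

lemma APois_summable {ι : Type} {a u : ι → ℂ}
    (hs : Summable fun i => ‖a i‖ * Real.exp (2 * ‖u i‖)) (k : ℕ) {t : ℂ}
    (ht : t ∈ Metric.ball (0 : ℂ) 1) : Summable fun i => a i * u i ^ k * cexp (t * u i) :=
  Summable.of_norm_bounded (hs.mul_left _) fun i => APois_norm_le (a i) (u i) k ht

lemma APois_deriv {ι : Type} {a u : ι → ℂ}
    (hs : Summable fun i => ‖a i‖ * Real.exp (2 * ‖u i‖)) (k : ℕ) {t : ℂ}
    (ht : t ∈ Metric.ball (0 : ℂ) 1) :
    HasDerivAt (fun t => ∑' i, a i * u i ^ k * cexp (t * u i))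
      (∑' i, a i * u i ^ (k + 1) * cexp (t * u i)) t := by
  refine hasDerivAt_tsum_of_isPreconnected (g := fun i t => a i * u i ^ k * cexp (t * u i))
    (g' := fun i t => a i * u i ^ (k + 1) * cexp (t * u i)) (hs.mul_left ((k + 1).factorial : ℝ))
    Metric.isOpen_ball (convex_ball (0 : ℂ) 1).isPreconnected (fun i y _ => ?_)
    (fun i y hy => APois_norm_le (a i) (u i) (k + 1) hy) ht (APois_summable hs k ht) ht
  refine (((hasDerivAt_mul_const (u i)).cexp).const_mul (a i * u i ^ k)).congr_deriv ?_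
  ring

lemma APois_iter {ι ι' : Type} {a u : ι → ℂ} {b v : ι' → ℂ}
    (hs : Summable fun i => ‖a i‖ * Real.exp (2 * ‖u i‖))
    (hs' : Summable fun i => ‖b i‖ * Real.exp (2 * ‖v i‖))
    (h : ∀ t, ∑' i, a i * u i ^ 0 * cexp (t * u i) = ∑' i, b i * v i ^ 0 * cexp (t * v i)) (k : ℕ) :
    ∀ t ∈ Metric.ball (0 : ℂ) 1,
      ∑' i, a i * u i ^ k * cexp (t * u i) = ∑' i, b i * v i ^ k * cexp (t * v i) := by
  induction k with
  | zero => exact fun t _ => h t
  | succ k ih =>
    intro t ht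
    refine (APois_deriv hs k ht).unique ((APois_deriv hs' k ht).congr_of_eventuallyEq ?_)
    filter_upwards [Metric.isOpen_ball.mem_nhds ht] with s hs using ih s hs

lemma APois_exp_le {A : ℝ} (hA : 0 < A) (b s : ℝ) :
    Real.exp (-(2 * A * s ^ 2)) * Real.exp (2 * (b * s)) ≤
      Real.exp (b ^ 2 / A) * Real.exp (-(A * s ^ 2)) := by
  rw [← Real.exp_add, ← Real.exp_add]
  refine Real.exp_le_exp.2 ?_
  have h : 0 ≤ (A * s - b) ^ 2 / A := by positivity
  have h2 : (A * s - b) ^ 2 / A = A * s ^ 2 - 2 * (b * s) + b ^ 2 / A := by field_simp; ring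
  linarith

lemma APois_s1 {R : ℝ} (hR : 0 < R) (z : ℂ) :
    Summable fun x : O => ‖(Phi (‖emb x + z‖ ^ 2 / R) : ℂ)‖ * Real.exp (2 * ‖emb x + z‖) := by
  have hc := c0_pos
  refine Summable.of_nonneg_of_le (fun _ => by positivity) (fun x => ?_)
    ((p1_summable (R := 2 * R) (by positivity) z).mul_left (Real.exp (1 ^ 2 / (c0 / (2 * R)))))
  have h := APois_exp_le (A := c0 / (2 * R)) (by positivity) 1 ‖emb x + z‖
  rw [Complex.norm_real, Real.norm_of_nonneg (Phi_pos _).le, Phi, Phi]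
  rw [one_mul, show 2 * (c0 / (2 * R)) * ‖emb x + z‖ ^ 2 = c0 * (‖emb x + z‖ ^ 2 / R) by field_simp,
    show c0 / (2 * R) * ‖emb x + z‖ ^ 2 = c0 * (‖emb x + z‖ ^ 2 / (2 * R)) by field_simp] at h
  exact h

lemma APois_s2 {R : ℝ} (hR : 0 < R) (z : ℂ) :
    Summable fun h : O => ‖(R * Phi (R * Nr h) * ec (emb h * z) : ℂ)‖ *
      Real.exp (2 * ‖(R * conj (emb h) : ℂ)‖) := by
  have hc := c0_pos
  refine Summable.of_nonneg_of_le (fun _ => by positivity) (fun x => ?_)
    (((p1_summable0' (R := R / 2) (by positivity)).mul_left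
      (Real.exp (R ^ 2 / (c0 * R / 2)))).mul_left R)
  have h := APois_exp_le (A := c0 * R / 2) (by positivity) R ‖emb x‖
  rw [norm_mul, norm_mul, norm_mul, norm_ec, mul_one, Complex.norm_real, Complex.norm_real,
    Real.norm_of_nonneg (Phi_pos _).le, Real.norm_of_nonneg hR.le, Complex.norm_conj, Phi, Phi,
    mul_assoc]
  rw [norm_emb_sq, show 2 * (c0 * R / 2) * Nr x = c0 * (R * Nr x) by ring,
    show c0 * R / 2 * Nr x = c0 * (R / 2 * Nr x) by ring] at h
  exact mul_le_mul_of_nonneg_left h hR.le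

/-- Induction on `k`, starting from `poisson_gauss hR z 0`: apply `∂/∂ conj z`, i.e. differentiate
both series termwise at `s = 0` along `z + s ζ` (`s` real, `ζ = 1` and `ζ = I`;
`hasDerivAt_tsum_of_isPreconnected` on `(-1, 1)`; on the left dominate by a multiple of
`Phi (‖emb x + z‖ ^ 2 / (4 R))`, `p1_summable`; on the right by `Nr h ^ ((k+1)/2) Phi (R Nr h)`,
`summable_Phi`) and add `I` times the second identity to the first.
`Phi y = exp (-c0 y)`, `ec y = exp (c0 (y - conj y))`. -/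
theorem poisson_pow (k : ℕ) {R : ℝ} (hR : 0 < R) (z : ℂ) :
    ∑' x : O, (emb x + z) ^ k * (Phi (‖emb x + z‖ ^ 2 / R) : ℂ) =
      (R : ℂ) ^ (k + 1) * ∑' h : O, conj (emb h) ^ k * (Phi (R * Nr h) : ℂ) * ec (emb h * z) := by
  have h := APois_iter (APois_s1 hR z) (APois_s2 hR z) (APois_gen hR z) k 0
    (Metric.mem_ball_self one_pos)
  simp only [zero_mul, Complex.exp_zero, mul_one] at h
  rw [← tsum_mul_left]
  refine (tsum_congr fun x => ?_).trans (h.trans (tsum_congr fun x => ?_)) <;> ring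

/-- As `poisson_per`: split into classes modulo `n` (`tsum_eq_sum_reps`), `x = a + n y`,
`emb x = emb n (emb y + emb a / emb n)`. -/
theorem poisson_per_pow (k : ℕ) {R : ℝ} (hR : 0 < R) {n : O} (hn : n ≠ 0) (f : O → ℂ)
    (hf : ∀ x y, n ∣ x - y → f x = f y) :
    ∑' x : O, (Phi (Nr x / R) : ℂ) * (emb x ^ k * f x) =
      emb n ^ k * ((R / Nr n : ℝ) : ℂ) ^ (k + 1) *
        ∑' h : O, gs f n h * conj (emb h) ^ k * (Phi (R * Nr h / Nr n) : ℂ) := by
  have hN := Nr_pos hn
  have hR' : 0 < R / Nr n := by positivity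
  have hne : emb n ≠ 0 := fun h => hn (emb_injective (h.trans (map_zero emb).symm))
  have hb : ∀ x, ‖f x‖ ≤ ∑ a ∈ reps n, ‖f a‖ := fun x => by
    obtain ⟨a, ⟨ha, ha'⟩, -⟩ := reps_existsUnique hn x
    rw [← hf a x ha']
    exact Finset.single_le_sum (f := fun a => ‖f a‖) (fun _ _ => norm_nonneg _) ha
  have s1 : Summable fun x : O => (Phi (Nr x / R) : ℂ) * (emb x ^ k * f x) := by
    have h0 := (APois_summable (APois_s1 hR 0) k (Metric.mem_ball_self one_pos)).norm
    simp only [zero_mul, Complex.exp_zero, mul_one, add_zero, norm_emb_sq] at h0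
    refine Summable.of_norm_bounded (h0.mul_right (∑ a ∈ reps n, ‖f a‖)) fun x => ?_
    rw [← mul_assoc, norm_mul]
    exact mul_le_mul_of_nonneg_left (hb x) (norm_nonneg _)
  have a2 : ∀ a h : O, f a * eO (h * a) n * conj (emb h) ^ k * (Phi (R * Nr h / Nr n) : ℂ) =
      f a * (conj (emb h) ^ k * (Phi (R / Nr n * Nr h) : ℂ) * ec (emb h * (emb a / emb n))) :=
    fun a h => by
      rw [eO, map_mul, mul_div_assoc, div_mul_eq_mul_div]
      ring
  have s2 : ∀ a : O, Summable fun h : O =>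
      f a * eO (h * a) n * conj (emb h) ^ k * (Phi (R * Nr h / Nr n) : ℂ) := fun a => by
    have h0 := (APois_summable (APois_s2 hR' (emb a / emb n)) k
      (Metric.mem_ball_self one_pos)).mul_left (f a / ((R / Nr n : ℝ) : ℂ) ^ (k + 1))
    have h1 : ((R / Nr n : ℝ) : ℂ) ≠ 0 := by exact_mod_cast hR'.ne'
    refine h0.congr fun h => ?_
    rw [a2, zero_mul, Complex.exp_zero]
    generalize ((R / Nr n : ℝ) : ℂ) = ρ at h1 ⊢
    field_simp
    ring
  have e1 : ∀ a : O, ∑' y : O, (Phi (Nr (a + n * y) / R) : ℂ) *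
      (emb (a + n * y) ^ k * f (a + n * y)) = emb n ^ k * ((R / Nr n : ℝ) : ℂ) ^ (k + 1) *
        ∑' h : O, f a * eO (h * a) n * conj (emb h) ^ k * (Phi (R * Nr h / Nr n) : ℂ) := by
    intro a
    have h := poisson_pow k hR' (emb a / emb n)
    have a1 : ∀ y : O, (Phi (Nr (a + n * y) / R) : ℂ) * (emb (a + n * y) ^ k * f (a + n * y)) =
        f a * emb n ^ k * ((emb y + emb a / emb n) ^ k *
          (Phi (‖emb y + emb a / emb n‖ ^ 2 / (R / Nr n)) : ℂ)) := fun y => by
      have b1 : emb y + emb a / emb n = emb (a + n * y) / emb n := by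
        rw [map_add, map_mul]; field_simp; ring
      have b2 : Nr (a + n * y) / Nr n / (R / Nr n) = Nr (a + n * y) / R := by field_simp
      rw [hf (a + n * y) a ⟨y, by ring⟩, b1, norm_div, div_pow, div_pow, norm_emb_sq, norm_emb_sq, b2]
      field_simp
    simp only [a1, a2]
    rw [tsum_mul_left, tsum_mul_left, h]
    ring
  rw [tsum_eq_sum_reps hn _ s1]
  simp only [e1]
  rw [← Finset.mul_sum, ← Summable.tsum_finsetSum fun a _ => s2 a]
  simp only [gs, Finset.sum_mul]

end Crest.Agent.R012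

end
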