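import Crest.Agent.R012.AFE
import Crest.Agent.R012.ADefs

/-! # Row 12: the angular functional equation in quotient form -/

set_option autoImplicit false

noncomputable section

open scoped BigOperators ComplexConjugate Topology
open Complex MeasureTheory Filter Set Crest.Agent.R017

namespace Crest.Agent.R012

/-- As `rf_Gamma_strip` (`norm_Gamma_ratio_le`). -/
theorem ang_Gamma_strip (k : ℕ) (B : ℝ) : ∃ C : ℝ, 0 ≤ C ∧ ∀ σ τ : ℝ, 1 / 2 ≤ σ → σ ≤ B →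
    ‖Complex.Gamma (σ - τ * I + k / 2) * (Complex.Gamma (1 - (σ - τ * I) + k / 2))⁻¹‖ ≤
      C * (1 + |τ|) ^ C := by
  have hk0 : (0 : ℝ) ≤ k := Nat.cast_nonneg k
  have hmono : ∀ C C' τ : ℝ, C ≤ C' → 0 ≤ C' → C * (1 + |τ|) ^ C ≤ C' * (1 + |τ|) ^ C' := by
    intro C C' τ h h0
    have h1 : (1 : ℝ) ≤ 1 + |τ| := by linarith [abs_nonneg τ]
    exact mul_le_mul h (Real.rpow_le_rpow_of_exponent_le h1 h) (by positivity) h0
  have key : ∀ j : ℕ, ∃ C : ℝ, 0 ≤ C ∧ ∀ σ τ : ℝ, 1 / 2 ≤ σ → σ ≤ 1 / 2 + 2 * j →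
      ‖Complex.Gamma (((σ + k / 2 : ℝ) : ℂ) - τ * I) *
        (Complex.Gamma (((1 - σ + k / 2 : ℝ) : ℂ) + τ * I))⁻¹‖ ≤ C * (1 + |τ|) ^ C := by
    intro j
    induction j with
    | zero =>
      obtain ⟨C, hC⟩ := norm_Gamma_ratio_le (1 / 2 + k / 2) (1 / 2 + k / 2) (by positivity)
      refine ⟨max C 0, le_max_right _ _, fun σ τ h1 h2 => ?_⟩
      simp only [Nat.cast_zero, mul_zero, add_zero] at h2
      exact (hC _ _ τ (by linarith) (by linarith) (by linarith) (by linarith)).trans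
        (hmono _ _ _ (le_max_left _ _) (le_max_right _ _))
    | succ j ih =>
      obtain ⟨C₁, h0, h1⟩ := ih
      obtain ⟨C, hC⟩ := norm_Gamma_ratio_le (1 / 2 + 2 * j + k / 2) (1 / 2 - 2 * j + k / 2)
        (by positivity)
      refine ⟨max C C₁, le_max_of_le_right h0, fun σ τ h2 h3 => ?_⟩
      push_cast at h3
      rcases le_total σ (1 / 2 + 2 * j) with h4 | h4
      · exact (h1 σ τ h2 h4).trans (hmono _ _ _ (le_max_right _ _) (le_max_of_le_right h0))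
      · exact (hC _ _ τ (by linarith) (by linarith) (by linarith) (by linarith)).trans
          (hmono _ _ _ (le_max_left _ _) (le_max_of_le_right h0))
  obtain ⟨j, hj⟩ := exists_nat_ge B
  obtain ⟨C, h0, h1⟩ := key j
  refine ⟨C, h0, fun σ τ h2 h3 => ?_⟩
  have := h1 σ τ h2 (by linarith [Nat.cast_nonneg (α := ℝ) j])
  rwa [show (((σ + k / 2 : ℝ) : ℂ) - τ * I) = σ - τ * I + k / 2 by push_cast; ring,
    show (((1 - σ + k / 2 : ℝ) : ℂ) + τ * I) = 1 - (σ - τ * I) + k / 2 by push_cast; ring] at this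

/-- On the line `σ = 3/2` the ratio is explicit: `Γ(z + 1) = z Γ(z)`,
`(Γ z)⁻¹ = z (Γ (z + 1))⁻¹` and `|Γ (conj z)| = |Γ z|`. -/
theorem ang_Gamma_half (k : ℕ) : ∃ C : ℝ, 0 ≤ C ∧ ∀ τ : ℝ,
    ‖Complex.Gamma (((3 / 2 : ℝ) : ℂ) - τ * I + k / 2) *
      (Complex.Gamma (1 - (((3 / 2 : ℝ) : ℂ) - τ * I) + k / 2))⁻¹‖ ≤ C * (1 + |τ|) ^ 2 := by
  have hk0 : (0 : ℝ) ≤ k := Nat.cast_nonneg k
  refine ⟨((k : ℝ) + 1) ^ 2, by positivity, fun τ => ?_⟩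
  set z : ℂ := ((1 / 2 + k / 2 : ℝ) : ℂ) - τ * I with hz
  set w : ℂ := ((-(1 / 2) + k / 2 : ℝ) : ℂ) + τ * I with hw
  have hz0 : z ≠ 0 := fun h0 => by
    have := congrArg Complex.re h0
    simp only [hz, sub_re, ofReal_re, mul_re, I_re, mul_zero, ofReal_im, I_im, mul_one, sub_self,
      sub_zero, zero_re] at this
    linarith
  have e1 : ((3 / 2 : ℝ) : ℂ) - τ * I + k / 2 = z + 1 := by rw [hz]; push_cast; ring
  have e2 : 1 - (((3 / 2 : ℝ) : ℂ) - τ * I) + k / 2 = w := by rw [hw]; push_cast; ring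
  have e3 : w + 1 = conj z := by
    rw [hw, hz, map_sub, map_mul, conj_ofReal, conj_ofReal, conj_I]; push_cast; ring
  have hτ := abs_nonneg τ
  have n1 : ‖z‖ ≤ (k + 1) * (1 + |τ|) := by
    refine (norm_sub_le _ _).trans ?_
    rw [norm_mul, norm_I, mul_one, norm_real, norm_real, Real.norm_eq_abs, Real.norm_eq_abs,
      abs_of_nonneg (by positivity)]
    nlinarith
  have n2 : ‖w‖ ≤ (k + 1) * (1 + |τ|) := by
    refine (norm_add_le _ _).trans ?_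
    rw [norm_mul, norm_I, mul_one, norm_real, norm_real, Real.norm_eq_abs, Real.norm_eq_abs]
    have : |-(1 / 2) + (k : ℝ) / 2| ≤ k + 1 := abs_le.2 ⟨by linarith, by linarith⟩
    nlinarith
  have n3 : ‖Complex.Gamma z‖ * ‖Complex.Gamma z‖⁻¹ ≤ 1 := mul_inv_le_one
  rw [e1, e2, Complex.Gamma_add_one z hz0,
    Complex.one_div_Gamma_eq_self_mul_one_div_Gamma_add_one w, e3, Complex.Gamma_conj, norm_mul,
    norm_mul, norm_mul, norm_inv, RCLike.norm_conj]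
  calc ‖z‖ * ‖Complex.Gamma z‖ * (‖w‖ * ‖Complex.Gamma z‖⁻¹)
      = ‖z‖ * ‖w‖ * (‖Complex.Gamma z‖ * ‖Complex.Gamma z‖⁻¹) := by ring
    _ ≤ ((k + 1) * (1 + |τ|)) * ((k + 1) * (1 + |τ|)) * 1 := by gcongr
    _ = _ := by ring

theorem aq_Dser_conj (c : O → ℂ) (ζ : ℂ) :
    Dser (fun n => conj (c n)) ζ = conj (Dser c (conj ζ)) := by
  rw [Dser, Dser, Complex.conj_tsum]
  refine tsum_congr fun n => ?_
  split_ifs with hn
  · rw [map_mul, ← map_neg, Complex.cpow_conj _ _ ?_, Complex.conj_conj, Complex.conj_ofReal]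
    rw [Complex.arg_ofReal_of_nonneg (Nr_nonneg n)]
    exact Real.pi_pos.ne
  · simp

theorem aq_norm_Dser {c : O → ℂ} (hc : ∀ n, Prim n → ‖c n‖ ≤ 1) {ζ : ℂ} (hζ : 1 < ζ.re) :
    ‖Dser c ζ‖ ≤ ∑' x : O, Nr x ^ (-ζ.re) := by
  refine tsum_of_norm_bounded (summable_Nr_rpow hζ).hasSum fun n => ?_
  split_ifs with hn
  · rw [norm_mul, norm_cpow_eq_rpow_re_of_pos (Nr_pos hn.ne_zero), neg_re]
    exact mul_le_of_le_one_left (Real.rpow_nonneg (Nr_nonneg n) _) (hc n hn)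
  · rw [norm_zero]; exact Real.rpow_nonneg (Nr_nonneg n) _

theorem aq_Dser_congr {c c' : O → ℂ} (h : ∀ n, Prim n → c n = c' n) (ζ : ℂ) :
    Dser c ζ = Dser c' ζ := by
  refine tsum_congr fun n => ?_
  split_ifs with hn
  · rw [h n hn]
  · rfl

/-- The functional equation with the elementary factor `N` separated from the Gamma ratio. -/
theorem aq_core {l : ℤ} (hl : l ≠ 0) {q : O} {η : O → ℂ} (h : IsCh q η) :
    ∃ L N : ℂ → ℂ, FEq (fun n => η n * az l n) L (fun ζ => N ζ *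
      (Complex.Gamma (ζ + (l.natAbs : ℕ) / 2) * (Complex.Gamma (1 - ζ + (l.natAbs : ℕ) / 2))⁻¹)) ∧
      ∀ σ τ : ℝ, 1 / 2 ≤ σ → ‖N (σ - τ * I)‖ ≤ 6 ^ (pf q).card * Nr q ^ (σ - 1 / 2) := by
  obtain ⟨f, S, a₁, w, G, hf, hw, hS, hdvd, ha₁, hG, hser, hFE, hgr⟩ := exists_FE_az h hl
  have hp3 : ∀ p ∈ S, 3 ≤ Nr p := fun p hp => three_le_Nr_prime ((mem_pf h.ne).1 (hS hp)).1.1
  have hpC : ∀ p ∈ S, (Nr p : ℂ) ≠ 0 := fun p hp => by
    have := hp3 p hp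
    exact_mod_cast (by linarith : Nr p ≠ 0)
  have hfC : (Nr f : ℂ) ≠ 0 := by exact_mod_cast (Nr_pos hf).ne'
  have hc0 : (c0 : ℂ) ≠ 0 := by exact_mod_cast c0_pos.ne'
  have hne : ∀ ζ : ℂ, 0 < ζ.re → ∀ p ∈ S, 1 - conj (a₁ p) * (Nr p : ℂ) ^ (-ζ) ≠ 0 := by
    intro ζ hζ p hp h0
    have h1 := rf_norm_lt (hp3 p hp) hζ (c := conj (a₁ p)) (by simpa using ha₁ p) le_rfl
    rw [← sub_eq_zero.1 h0, norm_one] at h1
    have : (3 : ℝ) ^ (-ζ.re) < 1 := Real.rpow_lt_one_of_one_lt_of_neg (by norm_num) (by linarith)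
    linarith
  refine ⟨fun s => G s * ∏ p ∈ S, (1 - a₁ p * (Nr p : ℂ) ^ (-s)),
    fun ζ => (∏ p ∈ S, ((1 - a₁ p * (Nr p : ℂ) ^ (-(1 - ζ))) *
      (1 - conj (a₁ p) * (Nr p : ℂ) ^ (-ζ))⁻¹)) * w * (Nr f : ℂ) ^ (ζ - 1 / 2) *
      (c0 : ℂ) ^ (1 - 2 * ζ), ⟨fun n hn => ?_, fun s => ?_, fun s hs => (hser s hs).symm,
      fun σ₁ σ₂ => ?_, fun ζ hζ => ?_, fun ζ hζ => ?_⟩, fun σ τ h1 => ?_⟩
  · rw [norm_mul, norm_az l hn.ne_zero, mul_one]
    exact h.norm_le n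
  · refine (hG s).mul (DifferentiableAt.fun_finsetProd fun p hp => ?_)
    exact (((by fun_prop : DifferentiableAt ℂ (fun ζ : ℂ => -ζ) s).const_cpow
      (Or.inl (hpC p hp))).const_mul _).const_sub _
  · obtain ⟨C, hC⟩ := hgr (|σ₁| + |σ₂|)
    have hG' : ExpGr G σ₁ σ₂ := ⟨C, 0, fun s hs _ => hC s (by
      rw [abs_le]
      constructor <;>
        linarith [hs.1, hs.2, neg_abs_le σ₁, le_abs_self σ₂, abs_nonneg σ₁, abs_nonneg σ₂])⟩
    refine hG'.mul (ExpGr.prod S (F := fun p s => 1 - a₁ p * (Nr p : ℂ) ^ (-s)) fun p hp => ?_)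
    exact (ExpGr.const 1 _ _).sub ((ExpGr.const _ _ _).mul
      (expGr_cpow_neg (by linarith [hp3 p hp]) _ _))
  · refine ((((DifferentiableAt.fun_finsetProd fun p hp => ?_).mul_const w).mul ?_).mul ?_).mul
      (DifferentiableAt.mul ?_ ?_)
    · refine DifferentiableAt.mul ?_ (DifferentiableAt.inv ?_ (hne ζ hζ p hp))
      · exact (((by fun_prop : DifferentiableAt ℂ (fun ζ : ℂ => -(1 - ζ)) ζ).const_cpow
          (Or.inl (hpC p hp))).const_mul _).const_sub _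
      · exact (((by fun_prop : DifferentiableAt ℂ (fun ζ : ℂ => -ζ) ζ).const_cpow
          (Or.inl (hpC p hp))).const_mul _).const_sub _
    · exact (by fun_prop : DifferentiableAt ℂ (fun ζ : ℂ => ζ - 1 / 2) ζ).const_cpow (Or.inl hfC)
    · exact (by fun_prop : DifferentiableAt ℂ (fun ζ : ℂ => 1 - 2 * ζ) ζ).const_cpow (Or.inl hc0)
    · refine (Complex.differentiableAt_Gamma (ζ + (l.natAbs : ℕ) / 2) fun m hm => ?_).comp ζ
        (f := fun ζ : ℂ => ζ + (l.natAbs : ℕ) / 2) (by fun_prop)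
      have h1 := congrArg Complex.re hm
      have h2 : (ζ + (l.natAbs : ℕ) / 2).re = ζ.re + (l.natAbs : ℝ) / 2 := by
        rw [add_re, ← ofReal_natCast, ← ofReal_ofNat, ← ofReal_div, ofReal_re]
      rw [h2, neg_re, natCast_re] at h1
      linarith [Nat.cast_nonneg (α := ℝ) m, Nat.cast_nonneg (α := ℝ) l.natAbs]
    · exact (Complex.differentiable_one_div_Gamma (1 - ζ + (l.natAbs : ℕ) / 2)).comp ζ
        (f := fun ζ : ℂ => 1 - ζ + (l.natAbs : ℕ) / 2) (by fun_prop)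
  · have e3 := hFE (1 - ζ) (by simp; linarith)
    have e4 := hser (conj ζ) (by simpa using hζ)
    have e4' := aq_Dser_conj (fun n => η n * az l n) ζ
    rw [e4, map_mul, map_prod] at e4'
    have e5 : ∀ p ∈ S, conj (1 - a₁ p * (Nr p : ℂ) ^ (-conj ζ)) =
        1 - conj (a₁ p) * (Nr p : ℂ) ^ (-ζ) := by
      intro p hp
      have harg : (Nr p : ℂ).arg ≠ Real.pi := by
        rw [arg_ofReal_of_nonneg (Nr_nonneg p)]; exact Real.pi_pos.ne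
      rw [map_sub, map_one, map_mul, ← map_neg, cpow_conj _ _ harg, conj_ofReal, conj_conj]
    rw [Finset.prod_congr rfl e5] at e4'
    have e6 : (∏ p ∈ S, (1 - conj (a₁ p) * (Nr p : ℂ) ^ (-ζ))) ≠ 0 :=
      Finset.prod_ne_zero_iff.2 (hne ζ (by linarith))
    rw [sub_sub_cancel, show 1 / 2 - (1 - ζ) = ζ - 1 / 2 by ring,
      show 2 * (1 - ζ) - 1 = 1 - 2 * ζ by ring] at e3
    have e9 : conj (G (conj ζ)) = Dser (fun n => conj (η n * az l n)) ζ *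
        (∏ p ∈ S, (1 - conj (a₁ p) * (Nr p : ℂ) ^ (-ζ)))⁻¹ := by
      rw [e4', mul_inv_cancel_right₀ e6]
    beta_reduce
    rw [e3, e9, Finset.prod_mul_distrib, Finset.prod_inv_distrib]
    ring
  · have hq := Nr_pos h.ne
    have b1 : ∀ p ∈ S, ‖(1 - a₁ p * (Nr p : ℂ) ^ (-(1 - (σ - τ * I)))) *
        (1 - conj (a₁ p) * (Nr p : ℂ) ^ (-(σ - τ * I : ℂ)))⁻¹‖ ≤ 6 * Nr p ^ (σ - 1 / 2) := by
      intro p hp
      have h3 := hp3 p hp
      have a1 : ‖1 - a₁ p * (Nr p : ℂ) ^ (-(1 - (σ - τ * I)))‖ ≤ 2 * Nr p ^ (σ - 1 / 2) := by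
        refine (norm_sub_le _ _).trans ?_
        rw [norm_one, norm_mul, norm_cpow_eq_rpow_re_of_pos (by linarith)]
        have a2 : (1 : ℝ) ≤ Nr p ^ (σ - 1 / 2) := Real.one_le_rpow (by linarith) (by linarith)
        have a3 : Nr p ^ (-(1 - (σ - τ * I : ℂ))).re ≤ Nr p ^ (σ - 1 / 2) :=
          Real.rpow_le_rpow_of_exponent_le (by linarith) (by simp; linarith)
        have a4 : 0 ≤ Nr p ^ (-(1 - (σ - τ * I : ℂ))).re := Real.rpow_nonneg (by linarith) _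
        nlinarith [ha₁ p, norm_nonneg (a₁ p)]
      have a2 : ‖(1 - conj (a₁ p) * (Nr p : ℂ) ^ (-(σ - τ * I : ℂ)))⁻¹‖ ≤ 3 := by
        have a3 := (rf_norm_lt h3 (σ := 1 / 2) (by norm_num) (c := conj (a₁ p)) (ζ := σ - τ * I)
          (by simpa using ha₁ p) (by simpa using h1)).trans rf_three
        have a4 := norm_sub_norm_le (1 : ℂ) (conj (a₁ p) * (Nr p : ℂ) ^ (-(σ - τ * I : ℂ)))
        rw [norm_one] at a4
        rw [norm_inv, inv_le_comm₀ (by linarith) (by norm_num)]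
        linarith
      rw [norm_mul]
      calc _ ≤ (2 * Nr p ^ (σ - 1 / 2)) * 3 := mul_le_mul a1 a2 (norm_nonneg _) (by positivity)
        _ = _ := by ring
    have b2 : ‖∏ p ∈ S, ((1 - a₁ p * (Nr p : ℂ) ^ (-(1 - (σ - τ * I)))) *
        (1 - conj (a₁ p) * (Nr p : ℂ) ^ (-(σ - τ * I : ℂ)))⁻¹)‖ ≤
        6 ^ (pf q).card * Nr (∏ p ∈ S, p) ^ (σ - 1 / 2) := by
      rw [norm_prod]
      refine (Finset.prod_le_prod (fun _ _ => norm_nonneg _) b1).trans ?_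
      rw [Finset.prod_mul_distrib, Finset.prod_const, Nr_prod,
        Real.finsetProd_rpow _ _ fun p _ => Nr_nonneg p]
      exact mul_le_mul_of_nonneg_right (pow_le_pow_right₀ (by norm_num) (Finset.card_le_card hS))
        (Real.rpow_nonneg (Finset.prod_nonneg fun p _ => Nr_nonneg p) _)
    have b3 : ‖(Nr f : ℂ) ^ ((σ - τ * I : ℂ) - 1 / 2)‖ = Nr f ^ (σ - 1 / 2) := by
      rw [norm_cpow_eq_rpow_re_of_pos (Nr_pos hf)]; congr 1; simp
    have b4 : ‖(c0 : ℂ) ^ (1 - 2 * (σ - τ * I : ℂ))‖ ≤ 1 := by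
      rw [norm_cpow_eq_rpow_re_of_pos c0_pos]
      exact Real.rpow_le_one_of_one_le_of_nonpos rf_one_le_c0 (by simp; linarith)
    have b6 : Nr (∏ p ∈ S, p) ^ (σ - 1 / 2) * Nr f ^ (σ - 1 / 2) ≤ Nr q ^ (σ - 1 / 2) := by
      rw [← Real.mul_rpow (Nr_nonneg _) (Nr_nonneg _), ← Nr_mul, mul_comm]
      exact Real.rpow_le_rpow (Nr_nonneg _) (Nr_le_of_dvd h.ne hdvd) (by linarith)
    have n1 := Real.rpow_nonneg (Nr_nonneg (∏ p ∈ S, p)) (σ - 1 / 2)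
    have n2 := Real.rpow_nonneg (Nr_nonneg f) (σ - 1 / 2)
    beta_reduce
    rw [norm_mul, norm_mul, norm_mul, hw, mul_one, b3]
    calc _ ≤ 6 ^ (pf q).card * Nr (∏ p ∈ S, p) ^ (σ - 1 / 2) * Nr f ^ (σ - 1 / 2) * 1 := by gcongr
      _ = 6 ^ (pf q).card * (Nr (∏ p ∈ S, p) ^ (σ - 1 / 2) * Nr f ^ (σ - 1 / 2)) := by ring
      _ ≤ _ := by gcongr

/-- Port of `R017.rf_FE` and `rd_Lo_gr`: `L s = G s ∏ (1 - a₁ p N p^(-s))`,
`M ζ = ∏ ((1 - a₁ p N p^(ζ-1)) / (1 - conj (a₁ p) N p^(-ζ))) · w N f^(ζ-1/2) c0^(1-2ζ)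
Γ(ζ + k/2) / Γ(1 - ζ + k/2)`. -/
theorem az_FEq {l : ℤ} (hl : l ≠ 0) (B : ℝ) {ε : ℝ} (hε : 0 < ε) : ∃ C : ℝ, 0 ≤ C ∧
    ∀ (q : O) (η : O → ℂ), IsCh q η → ∃ L M : ℂ → ℂ, FEq (fun n => η n * az l n) L M ∧
      MB M B C (C * Nr q ^ ε) (Nr q) := by
  obtain ⟨C₁, hC₁0, hC₁⟩ := ang_Gamma_strip l.natAbs B
  obtain ⟨C₂, hC₂⟩ := pow_card_pf_le hε (A := 6) (by norm_num)
  refine ⟨max C₁ (C₁ * C₂), le_max_of_le_left hC₁0, fun q η h => ?_⟩
  obtain ⟨L, N, h1, h2⟩ := aq_core hl h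
  refine ⟨L, _, h1, fun σ τ hσ hB => ?_⟩
  have hq := Nr_pos h.ne
  have hC₂0 : 0 ≤ C₂ := by
    have := (pow_pos (by norm_num : (0 : ℝ) < 6) _).le.trans (hC₂ q h.ne)
    exact nonneg_of_mul_nonneg_left this (Real.rpow_pos_of_pos hq _)
  have b1 := (h2 σ τ hσ).trans
    (mul_le_mul_of_nonneg_right (hC₂ q h.ne) (Real.rpow_nonneg hq.le _))
  have b5 := hC₁ σ τ hσ hB
  have b7 : (1 + |τ|) ^ C₁ ≤ (1 + |τ|) ^ max C₁ (C₁ * C₂) :=
    Real.rpow_le_rpow_of_exponent_le (by linarith [abs_nonneg τ]) (le_max_left _ _)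
  rw [norm_mul]
  calc _ ≤ C₂ * Nr q ^ ε * Nr q ^ (σ - 1 / 2) * (C₁ * (1 + |τ|) ^ C₁) := by gcongr
    _ = (C₁ * C₂) * Nr q ^ ε * Nr q ^ (σ - 1 / 2) * (1 + |τ|) ^ C₁ := by ring
    _ ≤ _ := by gcongr; exact le_max_right _ _

theorem aq_three_ne : (3 : O) ≠ 0 := by decide


/-- The trivial character modulo `3` (`isCh_triv`), `l ≠ 0`. -/
theorem az_left {l : ℤ} (hl : l ≠ 0) : ∃ (C : ℝ) (L : ℂ → ℂ), 0 ≤ C ∧ Differentiable ℂ L ∧
    (∀ s : ℂ, 1 < s.re → L s = Dser (az l) s) ∧ (∀ σ₁ σ₂ : ℝ, ExpGr L σ₁ σ₂) ∧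
    ∀ y : ℝ, ‖L (((-(1 / 2) : ℝ) : ℂ) + y * I)‖ ≤ C * (1 + |y|) ^ 2 := by
  classical
  obtain ⟨C₁, hC₁0, hC₁⟩ := ang_Gamma_half l.natAbs
  obtain ⟨L, N, h1, h2⟩ := aq_core hl (isCh_triv aq_three_ne dvd_rfl)
  set Z : ℝ := ∑' x : O, Nr x ^ (-(3 / 2 : ℝ)) with hZ
  have hZ0 : 0 ≤ Z := tsum_nonneg fun x => Real.rpow_nonneg (Nr_nonneg x) _
  have hK : (0 : ℝ) ≤ 6 ^ (pf 3).card * Nr 3 ^ (3 / 2 - 1 / 2 : ℝ) :=
    mul_nonneg (by positivity) (Real.rpow_nonneg (Nr_nonneg _) _)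
  refine ⟨6 ^ (pf 3).card * Nr 3 ^ (3 / 2 - 1 / 2 : ℝ) * C₁ * Z, L, by positivity, h1.diff,
    fun s hs => ?_, h1.gr, fun y => ?_⟩
  · rw [h1.eq s hs]
    refine aq_Dser_congr (fun n hn => ?_) s
    rw [if_pos (coprime_three_iff.2 hn.not_lam_dvd), one_mul]
  · have hre : (((3 / 2 : ℝ) : ℂ) - y * I).re = 3 / 2 := by simp
    have e := h1.fe (((3 / 2 : ℝ) : ℂ) - y * I) (by rw [hre]; norm_num)
    rw [show 1 - (((3 / 2 : ℝ) : ℂ) - y * I) = ((-(1 / 2) : ℝ) : ℂ) + y * I by push_cast; ring] at e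
    have b1 := h2 (3 / 2) y (by norm_num)
    have b2 := hC₁ y
    rw [show 1 - (((3 / 2 : ℝ) : ℂ) - y * I) = ((-(1 / 2) : ℝ) : ℂ) + y * I by push_cast; ring] at b2
    have b3 := aq_norm_Dser (c := fun n => conj ((if IsCoprime n (3 : O) then (1 : ℂ) else 0) *
      az l n)) (fun n hn => by rw [RCLike.norm_conj]; exact h1.le n hn)
      (ζ := ((3 / 2 : ℝ) : ℂ) - y * I) (by rw [hre]; norm_num)
    rw [hre, ← hZ] at b3
    rw [e, norm_mul, norm_mul]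
    calc _ ≤ 6 ^ (pf 3).card * Nr 3 ^ (3 / 2 - 1 / 2 : ℝ) * (C₁ * (1 + |y|) ^ 2) * Z := by gcongr
      _ = _ := by ring

/-- The same for `l = 0`: `H = Lo η₀`, `η₀` trivial modulo `3` (`IsCh.exists_FE`, `rd_Lo_gr`;
the value at `1` from `l1_exists_ch`, `l1_unique`). -/
theorem one_left : ∃ (C : ℝ) (H : ℂ → ℂ), 0 ≤ C ∧ Differentiable ℂ H ∧
    (∀ s : ℂ, 1 < s.re → H s = (s - 1) * Dser (fun _ => 1) s) ∧ (∀ σ₁ σ₂ : ℝ, ExpGr H σ₁ σ₂) ∧
    H 1 = ((c0 / 9 : ℝ) : ℂ) ∧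
    ∀ y : ℝ, ‖H (((-(1 / 2) : ℝ) : ℂ) + y * I) / (((-(1 / 2) : ℝ) : ℂ) + y * I - 1)‖ ≤
      C * (1 + |y|) ^ 2 := by
  classical
  have h := isCh_triv aq_three_ne (dvd_refl (3 : O))
  set η : O → ℂ := fun n => if IsCoprime n (3 : O) then 1 else 0 with hη
  have hη1 : ∀ n, Prim n → η n = 1 := fun n hn => if_pos (coprime_three_iff.2 hn.not_lam_dvd)
  obtain ⟨C₂, hC₂0, h₂⟩ := ang_Gamma_half 2
  have hZ := (summable_Nr_rpow (σ := 3 / 2) (by norm_num)).hasSum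
  set Z := ∑' x : O, Nr x ^ (-(3 / 2 : ℝ)) with hZdef
  have hZ0 : 0 ≤ Z := tsum_nonneg fun x => Real.rpow_nonneg (Nr_nonneg x) _
  obtain ⟨f, S, η₁, w, G, hf, hw, hS, hdvd, -, hb, -, -, -, -, hG1, hLo, hFE, -⟩ := h.exists_FE
  have hc := c0_pos
  have hf0 := Nr_pos hf
  refine ⟨Nr f * c0 ^ (-2 : ℝ) * C₂ * Z * Nr 3 ^ 2, Lo η, by positivity, h.Lo_spec.1,
    fun s hs => ?_, rd_Lo_gr h, ?_, fun y => ?_⟩
  · rw [h.Lo_spec.2 s hs, aq_Dser_congr hη1]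
  · obtain ⟨G', h1, h2, h3⟩ := l1_exists_ch h
    have e : Lo η = G' := l1_unique h.Lo_spec.1 h1 fun s hs => by rw [h.Lo_spec.2 s hs, h2 s hs]
    obtain ⟨x₀, ⟨hx₀, hx₁⟩, hx₂⟩ := reps_existsUnique aq_three_ne 1
    have e2 : ∑ x ∈ reps (3 : O), (if Prim x then η x else 0) = 1 := by
      rw [Finset.sum_eq_single_of_mem x₀ hx₀ fun x hx hne =>
          if_neg fun hp : Prim x => hne (hx₂ x ⟨hx, hp⟩),
        if_pos (show Prim x₀ from hx₁), hη1 x₀ hx₁]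
    have e3 : Nr 3 = 9 := by
      rw [b1_Nr_eq]
      have : nz 3 = 9 := by decide
      rw [this]; norm_num
    rw [e, h3, e2, e3, mul_one]
    push_cast
    rfl
  · set s : ℂ := ((-(1 / 2) : ℝ) : ℂ) + y * I with hs
    have hre : s.re = -(1 / 2) := by simp [hs]
    have him : s.im = y := by simp [hs]
    have hs1 : s ≠ 1 := fun h0 => by
      rw [h0] at hre
      norm_num at hre
    have hns : ‖s‖ ≤ ‖s - 1‖ := by
      refine le_of_pow_le_pow_left₀ (n := 2) (by norm_num) (norm_nonneg _) ?_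
      rw [Complex.sq_norm, Complex.sq_norm, normSq_apply, normSq_apply]
      simp only [sub_re, sub_im, one_re, one_im, hre, him]
      nlinarith
    have hpos : 0 < ‖s - 1‖ := norm_pos_iff.2 (sub_ne_zero.2 hs1)
    have h1 : ‖G (conj (1 - s))‖ ≤ ‖s - 1‖ * Z := by
      have hre' : (conj (1 - s)).re = 3 / 2 := by simp [hre]; norm_num
      rw [hG1 _ (by rw [hre']; norm_num), norm_mul, norm_mul]
      have e : conj (1 - s) - 1 = -conj s := by simp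
      have h3 : ‖∑' n : O, if n = 0 then 0 else η₁ n * (Nr n : ℂ) ^ (-conj (1 - s))‖ ≤ Z := by
        refine tsum_of_norm_bounded hZ fun n => ?_
        split_ifs with hn
        · rw [norm_zero]; exact Real.rpow_nonneg (Nr_nonneg n) _
        · rw [norm_mul, norm_cpow_eq_rpow_re_of_pos (Nr_pos hn), neg_re, hre']
          exact mul_le_of_le_one_left (Real.rpow_nonneg (Nr_nonneg n) _) (hb n)
      rw [e, norm_neg, RCLike.norm_conj]
      refine mul_le_mul hns ?_ (by positivity) hpos.le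
      refine (mul_le_of_le_one_left (norm_nonneg _) ?_).trans h3
      norm_num
    have h2 : ‖Complex.Gamma (2 - s) * (Complex.Gamma (1 + s))⁻¹‖ ≤ C₂ * (1 + |y|) ^ 2 := by
      have := h₂ y
      have e1 : 2 - s = ((3 / 2 : ℝ) : ℂ) - y * I + (2 : ℕ) / 2 := by rw [hs]; push_cast; ring
      have e2 : 1 + s = 1 - (((3 / 2 : ℝ) : ℂ) - y * I) + (2 : ℕ) / 2 := by rw [hs]; push_cast; ring
      rwa [e1, e2]
    have h3 := f3_euler h.ne hS ((dvd_mul_left _ _).trans hdvd) hb (s := s) (by rw [hre]; norm_num)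
    have h5 : ‖G s‖ ≤ Nr f * c0 ^ (-2 : ℝ) * (C₂ * (1 + |y|) ^ 2) * (‖s - 1‖ * Z) := by
      rw [hFE s (by rw [hre]; norm_num), mul_assoc _ (Complex.Gamma _), norm_mul, norm_mul, norm_mul,
        norm_mul, hw, one_mul, RCLike.norm_conj, norm_cpow_eq_rpow_re_of_pos hf0,
        norm_cpow_eq_rpow_re_of_pos c0_pos]
      have e1 : (1 / 2 - s).re = 1 := by simp [hre]; norm_num
      have e2 : (2 * s - 1).re = -2 := by simp [hre]; norm_num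
      rw [e1, e2, Real.rpow_one]
      gcongr
    rw [norm_div, div_le_iff₀ hpos, hLo, norm_mul]
    calc _ ≤ Nr f * c0 ^ (-2 : ℝ) * (C₂ * (1 + |y|) ^ 2) * (‖s - 1‖ * Z) * Nr 3 ^ 2 := by gcongr
      _ = _ := by ring

end Crest.Agent.R012

end
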