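import Crest.Agent.R012.ADefs

/-! # Row 12: reflection and decay from functional equation data -/

set_option autoImplicit false

noncomputable section

open scoped BigOperators ComplexConjugate Topology
open Complex MeasureTheory Filter Set Crest.Agent.R017

namespace Crest.Agent.R012

/-- Port of `R017.rf_left` (use `shift_Wh` with `FEq.gr`). -/
theorem FEq.left {a : ℝ} (ha : 0 < a) {c : O → ℂ} {L M : ℂ → ℂ} (h : FEq c L M) (v t : ℝ) :
    sm a c (Real.exp v) t = (1 / (2 * Real.pi) : ℂ) * ∫ y : ℝ,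
      L (1 - (((3 / 2 : ℝ) : ℂ) + y * I - t * I)) * Wh a (1 - (((3 / 2 : ℝ) : ℂ) + y * I)) *
        cexp (v * (1 - (((3 / 2 : ℝ) : ℂ) + y * I))) := by
  have hX := Real.exp_pos v
  have hF : Differentiable ℂ (fun s : ℂ => L (s + t * I) * ((Real.exp v : ℝ) : ℂ) ^ s) :=
    (h.diff.comp (differentiable_id.add_const _)).mul (rd_diff_cpow hX)
  have h1 := shift_Wh ha (σ₁ := -1 / 2) (σ₂ := 2) (by norm_num) hF.differentiableOn
    (((h.gr _ _).comp_add_I t).mul (expGr_cpow hX _ _))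
  rw [sm_eq_integral ha hX (K := 1) (A := 0) (σ := 2)
    (fun n hn => by simpa using h.le n hn) (by norm_num) t]
  congr 1
  simp only [rf_exp_cpow] at h1 ⊢
  rw [← integral_neg_eq_self] at h1
  refine Eq.trans ?_ (h1.symm.trans ?_)
  · refine integral_congr_ae (Eventually.of_forall fun y => ?_)
    simp only
    rw [h.eq _ (by simp)]
    ring
  · refine integral_congr_ae (Eventually.of_forall fun y => ?_)
    have e : (((-1 / 2 : ℝ) : ℂ) + ((-y : ℝ) : ℂ) * I) = 1 - (((3 / 2 : ℝ) : ℂ) + y * I) := by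
      push_cast; ring
    simp only [e]
    rw [mul_right_comm]
    congr 3
    ring

/-- Port of `R017.rf_repr`. -/
theorem FEq.repr {a : ℝ} (ha : 0 < a) {c : O → ℂ} {L M : ℂ → ℂ} (h : FEq c L M) (v t : ℝ)
    {C D : ℝ} (hK : ∀ y : ℝ, ‖rf_K M a t v (((3 / 2 : ℝ) : ℂ) + y * I)‖ ≤
      C * Real.exp (D * |y| - a * y ^ 2)) :
    sm (2 * a) c (Real.exp v) t = (1 / (2 * Real.pi) : ℂ) * cexp v *
      ∫ u : ℝ, sm a (fun n => conj (c n)) (Real.exp u) (-t) * ∫ y : ℝ,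
        rf_K M a t v (((3 / 2 : ℝ) : ℂ) + y * I) * cexp (-((((3 / 2 : ℝ) : ℂ) + y * I) * u)) := by
  have hM := h.mdiff
  have hM2 := h.fe
  have hc : ∀ n, Prim n → ‖conj (c n)‖ ≤ 1 := fun n hn => by simpa using h.le n hn
  have hcont : Continuous fun u : ℝ => sm a (fun n => conj (c n)) (Real.exp u) (-t) :=
    (continuous_sm ha (K := 1) (A := 0) (fun n hn => by simpa using hc n hn)).comp
      (f := fun u : ℝ => (u, -t)) (by fun_prop)
  have hKc : Continuous fun y : ℝ => rf_K M a t v (((3 / 2 : ℝ) : ℂ) + y * I) :=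
    continuous_iff_continuousAt.2 fun y => ContinuousAt.comp
      (f := fun y : ℝ => ((3 / 2 : ℝ) : ℂ) + y * I) (rf_K_diff hM a t v (by simp)).continuousAt
      (by fun_prop)
  have hKi := rf_integrable_line hKc ha (Y := 0) fun y _ => hK y
  have hint : Integrable (Function.uncurry fun (y u : ℝ) =>
      rf_K M a t v (((3 / 2 : ℝ) : ℂ) + y * I) * (sm a (fun n => conj (c n)) (Real.exp u) (-t) *
        cexp (-((((3 / 2 : ℝ) : ℂ) + y * I) * u)))) (volume.prod volume) := by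
    refine Integrable.mono' (hKi.norm.mul_prod (rf_integrable_sm ha hc (-t))) ?_
      (Eventually.of_forall fun p => le_of_eq ?_)
    · exact ((hKc.comp continuous_fst).mul ((hcont.comp continuous_snd).mul
        (by fun_prop))).aestronglyMeasurable
    · simp only [Function.uncurry, norm_mul, norm_exp]
      congr 3
      simp
  rw [FEq.left (by positivity) h, mul_assoc]
  congr 1
  have h1 := integral_integral_swap hint
  simp only [← integral_const_mul]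
  simp only [mul_left_comm (sm a (fun n => conj (c n)) (Real.exp _) (-t))]
  simp only [integral_const_mul] at h1 ⊢
  simp only [← integral_const_mul (rf_K M a t v _)] at h1
  rw [← h1, ← integral_const_mul]
  refine integral_congr_ae (Eventually.of_forall fun y => ?_)
  simp only
  rw [integral_const_mul, rf_mellin_sm ha hc (by simp; norm_num), hM2 _ (by simp; norm_num)]
  have e1 : (((3 / 2 : ℝ) : ℂ) + y * I + ((-t : ℝ) : ℂ) * I) = ((3 / 2 : ℝ) : ℂ) + y * I - t * I := by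
    push_cast; ring
  rw [e1]
  generalize (((3 / 2 : ℝ) : ℂ) + y * I) = s
  have e2 : Real.sqrt (4 * Real.pi * (2 * a)) = Real.sqrt 2 * Real.sqrt (4 * Real.pi * a) := by
    rw [← Real.sqrt_mul (by norm_num)]; congr 1; ring
  have e3 : cexp (((2 * a : ℝ) : ℂ) * (1 - s) ^ 2) =
      cexp (a * s ^ 2 - 4 * a * s + 2 * a) * cexp (a * s ^ 2) := by
    rw [← Complex.exp_add]; congr 1; push_cast; ring
  have e4 : cexp (v * (1 - s)) = cexp v * cexp (-(v * s)) := by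
    rw [← Complex.exp_add]; congr 1; ring
  simp only [rf_K, Wh]
  rw [e2, e3, e4, ofReal_mul]
  ring

/-- Port of `R017.reflect`. -/
theorem reflect_gen {a ε C₁ : ℝ} (ha : 0 < a) (hε : 0 < ε) (hC₁ : 0 ≤ C₁) : ∃ C : ℝ, 0 ≤ C ∧
    ∀ (x Q : ℝ) (c : O → ℂ) (L M : ℂ → ℂ), 1 ≤ Q → Q ≤ x → FEq c L M →
    MB M (2 + 1 / ε) C₁ (C₁ * Q ^ ε) Q → ∀ v t : ℝ,
    ‖sm (2 * a) c (Real.exp v) t‖ * Real.exp (-v / 2) ≤ C * x ^ ε * (1 + |t|) ^ C *
      (1 + ∫ u in (0 : ℝ)..(max 0 (Real.log Q - v + ε * Real.log x)),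
        ‖sm a c (Real.exp u) t‖ * Real.exp (-u / 2)) := by
  set B : ℝ := 2 + 1 / ε with hB
  have hB2 : 2 ≤ B := by have := one_div_pos.2 hε; linarith
  have hC₁0 := hC₁
  obtain ⟨C₀, hC₀⟩ := norm_sm_le ha 1
  obtain ⟨C₂, hC₂⟩ := norm_sm_le (a := 2 * a) (by positivity) 1
  set J : ℝ := ∫ y : ℝ, Real.exp (C₁ * |y| - a * y ^ 2) with hJ
  have hJ0 : 0 ≤ J := integral_nonneg fun y => (Real.exp_pos _).le
  set A₀ : ℝ := Real.sqrt 2 * Real.exp (a * B ^ 2 + 2 * a) with hA₀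
  have hA₀0 : 0 ≤ A₀ := by positivity
  set C : ℝ := max (max C₁ |C₂|) (C₁ * A₀ * J * (3 * |C₀| + 1)) with hC
  have hCC₁ : C₁ ≤ C := (le_max_left _ _).trans (le_max_left _ _)
  have hC0 : 0 ≤ C := hC₁0.trans hCC₁
  refine ⟨C, hC0, fun x Q c L M hQ1 hq h hM3 v t => ?_⟩
  have hx : 1 ≤ x := hQ1.trans hq
  set U := max 0 (Real.log Q - v + ε * Real.log x) with hU
  have hU0 : 0 ≤ U := le_max_left _ _
  have hI : 0 ≤ ∫ u in (0 : ℝ)..U, ‖sm a c (Real.exp u) t‖ * Real.exp (-u / 2) :=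
    intervalIntegral.integral_nonneg hU0 fun u _ => by positivity
  have hxε : 1 ≤ x ^ ε := Real.one_le_rpow hx hε.le
  have ht1 : (1 : ℝ) ≤ 1 + |t| := by linarith [abs_nonneg t]
  have htC : 1 ≤ (1 + |t|) ^ C := Real.one_le_rpow ht1 hC0
  rcases le_total v 0 with hv | hv
  · have h1 := hC₂ c (Real.exp v) t (Real.exp_pos v) h.le (Or.inl le_rfl)
    rw [Real.rpow_one] at h1
    have h2 : Real.exp v * Real.exp (-v / 2) ≤ 1 := by
      rw [← Real.exp_add, Real.exp_le_one_iff]; linarith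
    calc _ ≤ (|C₂| * Real.exp v) * Real.exp (-v / 2) := by
          gcongr; exact h1.trans (by gcongr; exact le_abs_self _)
      _ ≤ |C₂| * 1 := by rw [mul_assoc]; gcongr
      _ ≤ C * 1 * 1 * 1 := by
          simp only [mul_one]; exact (le_max_right _ _).trans (le_max_left _ _)
      _ ≤ _ := by gcongr; linarith
  have hM1 := h.mdiff
  have hQ : 0 < Q := by linarith
  have hE0 : 0 ≤ C₁ * Q ^ ε := by positivity
  have hK := fun (u σ : ℝ) (h1 : 1 / 2 ≤ σ) (h2 : σ ≤ B) => rf_K_le ha hC₁0 hE0 hQ hM3 t v u h1 h2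
  set k : ℝ → ℝ → ℂ := fun σ u => ∫ y : ℝ, rf_K M a t v (σ + y * I) * cexp (-((σ + y * I) * u))
    with hk
  have hshift : ∀ u σ : ℝ, 1 / 2 ≤ σ → σ ≤ B → k (1 / 2) u = k σ u := by
    intro u σ h1 h2
    refine rf_shift (f := fun s => rf_K M a t v s * cexp (-(s * u))) h1 (fun s hs _ => ?_) ha
      (C := C₁ * Q ^ ε * (1 + |t|) ^ C₁ * A₀ * (Q ^ B * Real.exp (B * |v + u|))) (D := C₁)
      (Y := 0) fun σ' y h3 h4 _ => (hK u σ' h3 (h4.trans h2) y).trans ?_
    · exact (rf_K_diff hM1 a t v (by linarith)).mul (by fun_prop)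
    · gcongr
      · linarith
      · have h5 : σ' * |v + u| ≤ B * |v + u| := by gcongr; linarith
        nlinarith [neg_abs_le (v + u)]
  have hkle : ∀ u σ : ℝ, 1 / 2 ≤ σ → σ ≤ B → ‖k (3 / 2) u‖ ≤ C₁ * Q ^ ε * (1 + |t|) ^ C₁ * A₀ * J *
      (Q ^ (σ - 1 / 2) * Real.exp (-(σ * (v + u)))) := by
    intro u σ h1 h2
    rw [← hshift u (3 / 2) (by norm_num) (by linarith), hshift u σ h1 h2]
    refine (norm_integral_le_of_norm_le ((rf_integrable_gauss ha C₁).const_mul _)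
      (Eventually.of_forall (hK u σ h1 h2))).trans (le_of_eq ?_)
    rw [integral_const_mul]
    ring
  have hrep := FEq.repr ha h v t (fun y => by
    simpa using hK 0 (3 / 2) (by norm_num) (by linarith) y)
  have hcont : Continuous fun u : ℝ => sm a (fun n => conj (c n)) (Real.exp u) (-t) :=
    (continuous_sm ha (K := 1) (A := 0) (fun n hn => by simpa using h.le n hn)).comp
      (f := fun u : ℝ => (u, -t)) (by fun_prop)
  have hconj : ∀ u, ‖sm a (fun n => conj (c n)) (Real.exp u) (-t)‖ = ‖sm a c (Real.exp u) t‖ :=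
    fun u => by rw [← sm_conj, norm_conj]
  have hmain := rf_assemble (k := fun u => cexp ((v / 2 : ℝ) : ℂ) * k (3 / 2) u) hcont (C₀ := |C₀|)
    (E := C₁ * Q ^ ε * (1 + |t|) ^ C₁ * A₀ * J) (c := Q ^ (B - 1 / 2) * Real.exp (v / 2 - B * v))
    (β := B - 1) (abs_nonneg _) (by positivity) (by linarith) hU0 (by positivity) ?_ (fun u => ?_)
    (fun u => ?_) (fun u => ?_)
  · simp only [hconj, mul_left_comm _ (cexp ((v / 2 : ℝ) : ℂ)), integral_const_mul, norm_mul,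
      norm_exp_ofReal] at hmain
    rw [hrep, norm_mul, norm_mul, norm_exp_ofReal]
    have h1 : ‖(1 / (2 * Real.pi) : ℂ)‖ ≤ 1 := by
      rw [norm_div, norm_one, norm_mul, norm_real, Real.norm_of_nonneg Real.pi_pos.le,
        Complex.norm_ofNat, div_le_one (by have := Real.pi_pos; positivity)]
      linarith [Real.pi_gt_three]
    have h2 : Real.exp v * Real.exp (-v / 2) = Real.exp (v / 2) := by
      rw [← Real.exp_add]; congr 1; ring
    have h3 : Q ^ ε ≤ x ^ ε := Real.rpow_le_rpow hQ.le hq hε.le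
    have h4 : (1 + |t|) ^ C₁ ≤ (1 + |t|) ^ C := Real.rpow_le_rpow_of_exponent_le ht1 hCC₁
    calc _ = ‖(1 / (2 * Real.pi) : ℂ)‖ * (Real.exp (v / 2) *
          ‖∫ u : ℝ, sm a (fun n => conj (c n)) (Real.exp u) (-t) * k (3 / 2) u‖) := by
          rw [← h2]; ring
      _ ≤ 1 * (C₁ * Q ^ ε * (1 + |t|) ^ C₁ * A₀ * J * (3 * |C₀| + 1) *
          (1 + ∫ u in (0 : ℝ)..U, ‖sm a c (Real.exp u) t‖ * Real.exp (-u / 2))) := by gcongr
      _ = C₁ * A₀ * J * (3 * |C₀| + 1) * Q ^ ε * (1 + |t|) ^ C₁ *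
          (1 + ∫ u in (0 : ℝ)..U, ‖sm a c (Real.exp u) t‖ * Real.exp (-u / 2)) := by ring
      _ ≤ _ := by gcongr; exact le_max_right _ _
  · rw [Real.rpow_def_of_pos hQ, ← Real.exp_add, ← Real.exp_add, Real.exp_le_one_iff]
    have h1 : Real.log Q - v + ε * Real.log x ≤ U := le_max_right _ _
    have h2 : Real.log Q ≤ Real.log x := Real.log_le_log hQ hq
    have h3 : 0 ≤ Real.log x := Real.log_nonneg hx
    have h4 : (B - 1) * ε = ε + 1 := by rw [hB]; field_simp; ring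
    have h5 := mul_le_mul_of_nonneg_left h1 (show 0 ≤ B - 1 by linarith)
    have h6 : (B - 1) * (ε * Real.log x) = (ε + 1) * Real.log x := by rw [← mul_assoc, h4]
    nlinarith [mul_nonneg hε.le h3]
  · have h1 := hC₀ (fun n => conj (c n)) (Real.exp u) (-t) (Real.exp_pos u)
      (fun n hn => by simpa using h.le n hn) (Or.inl le_rfl)
    rw [Real.rpow_one] at h1
    exact h1.trans (by gcongr; exact le_abs_self _)
  · rw [norm_mul, norm_exp_ofReal]
    refine (mul_le_mul_of_nonneg_left (hkle u (1 / 2) le_rfl (by linarith))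
      (Real.exp_pos _).le).trans (le_of_eq ?_)
    have : Real.exp (-u / 2) = Real.exp (v / 2) * Real.exp (-(1 / 2 * (v + u))) := by
      rw [← Real.exp_add]; congr 1; ring
    rw [sub_self, Real.rpow_zero, this]
    ring
  · rw [norm_mul, norm_exp_ofReal]
    refine (mul_le_mul_of_nonneg_left (hkle u B (by linarith) le_rfl)
      (Real.exp_pos _).le).trans (le_of_eq ?_)
    have : Real.exp (v / 2 - B * v) * Real.exp (-(B - 1 + 1) * u) =
        Real.exp (v / 2) * Real.exp (-(B * (v + u))) := by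
      rw [← Real.exp_add, ← Real.exp_add]; congr 1; ring
    rw [mul_assoc (Q ^ (B - 1 / 2)), this]
    ring

/-- The size of `L` on the line `Re s = -(A + 1/4)`. -/
theorem aref_left {A C₁ : ℝ} (hA : 0 ≤ A) (hC₁ : 0 ≤ C₁) : ∃ C : ℝ, 0 ≤ C ∧
    ∀ (Q : ℝ) (c : O → ℂ) (L M : ℂ → ℂ), 1 ≤ Q → FEq c L M →
    MB M (A + 5 / 4) C₁ (C₁ * Q ^ (1 / 4 : ℝ)) Q →
    ∀ y : ℝ, ‖L ((-(A + 1 / 4) : ℝ) + y * I)‖ ≤ C * (1 + |y|) ^ C * Q ^ (A + 1) := by
  obtain ⟨Z, hZ⟩ : ∃ Z, Z = ∑' n : O, Nr n ^ (-(A + 5 / 4)) := ⟨_, rfl⟩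
  have hZ0 : 0 ≤ Z := hZ ▸ tsum_nonneg fun x => Real.rpow_nonneg (Nr_nonneg x) _
  refine ⟨max (C₁ * Z) C₁, hC₁.trans (le_max_right _ _), fun Q c L M hQ h hMB y => ?_⟩
  have hQ0 : 0 < Q := by linarith
  have e : ((-(A + 1 / 4) : ℝ) : ℂ) + y * I = 1 - (((A + 5 / 4 : ℝ) : ℂ) - y * I) := by
    push_cast; ring
  have hre : (((A + 5 / 4 : ℝ) : ℂ) - y * I).re = A + 5 / 4 := by simp
  rw [e, h.fe _ (by rw [hre]; linarith), norm_mul]
  have h1 := hMB (A + 5 / 4) y (by linarith) le_rfl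
  have h2 : ‖Dser (fun n => conj (c n)) (((A + 5 / 4 : ℝ) : ℂ) - y * I)‖ ≤ Z :=
    hZ ▸ l2_norm_le (fun n hn => by simpa using h.le n hn) (by linarith) hre.ge
  have h3 : Q ^ (1 / 4 : ℝ) * Q ^ (A + 5 / 4 - 1 / 2) = Q ^ (A + 1) := by
    rw [← Real.rpow_add hQ0]; congr 1; ring
  have h4 : C₁ * Z * (1 + |y|) ^ C₁ ≤ max (C₁ * Z) C₁ * (1 + |y|) ^ max (C₁ * Z) C₁ :=
    rd_poly_mono (le_max_left _ _) (le_max_right _ _) (hC₁.trans (le_max_right _ _))
      (by linarith [abs_nonneg y])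
  calc _ ≤ (C₁ * Q ^ (1 / 4 : ℝ) * Q ^ (A + 5 / 4 - 1 / 2) * (1 + |y|) ^ C₁) * Z :=
        mul_le_mul h1 h2 (norm_nonneg _) (by positivity)
    _ = C₁ * Z * (1 + |y|) ^ C₁ * Q ^ (A + 1) := by rw [← h3]; ring
    _ ≤ _ := mul_le_mul_of_nonneg_right h4 (by positivity)

/-- Port of `R017.sm_decay`: on `Re s = -(A + 1/4)` the functional equation (`ζ = 1 - s`) and
`l2_norm_le` give `‖L s‖ ≤ C (1 + |y|)^C Q^(A + 1)`. -/
theorem decay_gen {a A C₁ : ℝ} (ha : 0 < a) (hA : 0 ≤ A) (hC₁ : 0 ≤ C₁) : ∃ C : ℝ, 0 ≤ C ∧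
    ∀ (Q : ℝ) (c : O → ℂ) (L M : ℂ → ℂ), 1 ≤ Q → FEq c L M →
    MB M (A + 5 / 4) C₁ (C₁ * Q ^ (1 / 4 : ℝ)) Q → ∀ X t : ℝ, 0 < X →
    ‖sm a c X t‖ ≤ C * (1 + |t|) ^ C * Q * (Q / X) ^ A := by
  obtain ⟨C₀, h₁⟩ := norm_sm_le ha 1
  obtain ⟨C₂, hC₂, h₂⟩ := aref_left hA hC₁
  obtain ⟨K, hK, hK'⟩ := norm_integral_Wh_le_poly ha hC₂ (-(A + 1 / 4))
  set C := max (max C₀ (K * C₂)) C₂ with hC
  have hC0 : 0 ≤ C := hC₂.trans (le_max_right _ _)
  refine ⟨C, hC0, fun Q c L M hq h hMB X t hX => ?_⟩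
  have ht : 1 ≤ 1 + |t| := by linarith [abs_nonneg t]
  rcases le_total X Q with hXq | hXq
  · have h1 := h₁ c X t hX h.le (Or.inl le_rfl)
    rw [Real.rpow_one] at h1
    have h2 : C₀ ≤ C * (1 + |t|) ^ C := ((le_max_left _ _).trans (le_max_left _ _)).trans
      (le_mul_of_one_le_right hC0 (Real.one_le_rpow ht hC0))
    have h3 : 1 ≤ (Q / X) ^ A := Real.one_le_rpow ((one_le_div hX).2 hXq) hA
    calc ‖sm a c X t‖ ≤ C₀ * X := h1
      _ ≤ C * (1 + |t|) ^ C * Q := mul_le_mul h2 hXq hX.le (by positivity)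
      _ ≤ _ := le_mul_of_one_le_right (by positivity) h3
  · have hX1 : 1 ≤ X := hq.trans hXq
    have hF : Differentiable ℂ (fun s : ℂ => L (s + t * I) * (X : ℂ) ^ s) := by
      refine Differentiable.mul (fun s => ?_) (rd_diff_cpow hX)
      exact (h.diff _).comp s (differentiableAt_id.add_const _)
    have hsh := shift_Wh ha (σ₁ := -(A + 1 / 4)) (σ₂ := 2) (by linarith) hF.differentiableOn
      (((h.gr _ _).comp_add_I t).mul (expGr_cpow hX _ _))
    have h1 := sm_eq_integral ha hX (K := 1) (A := 0) (σ := 2)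
      (fun n hn => by simpa using h.le n hn) (by norm_num) t
    have h2 : ∀ u : ℝ, Dser c ((2 : ℝ) + u * I + t * I) * Wh a ((2 : ℝ) + u * I) *
        (X : ℂ) ^ (((2 : ℝ) : ℂ) + u * I) =
        L ((2 : ℝ) + u * I + t * I) * (X : ℂ) ^ (((2 : ℝ) : ℂ) + u * I) *
          Wh a ((2 : ℝ) + u * I) := by
      intro u
      rw [h.eq _ (by simp)]
      ring
    simp_rw [h2] at h1
    rw [← hsh] at h1
    have h3 := hK' (fun u : ℝ => L ((-(A + 1 / 4) : ℝ) + u * I + t * I) *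
        (X : ℂ) ^ (((-(A + 1 / 4) : ℝ) : ℂ) + u * I))
      (C₂ * (1 + |t|) ^ C₂ * Q ^ (A + 1) * X ^ (-A)) fun u => by
        have h4 := h₂ Q c L M hq h hMB (u + t)
        have e1 : ((-(A + 1 / 4) : ℝ) : ℂ) + u * I + t * I =
            ((-(A + 1 / 4) : ℝ) : ℂ) + (u + t : ℝ) * I := by push_cast; ring
        have e3 : (((-(A + 1 / 4) : ℝ) : ℂ) + u * I).re = -(A + 1 / 4) := by simp
        rw [norm_mul, e1, norm_cpow_eq_rpow_re_of_pos hX, e3]
        have h5 : X ^ (-(A + 1 / 4)) ≤ X ^ (-A) :=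
          Real.rpow_le_rpow_of_exponent_le hX1 (by linarith)
        have h6 : (1 + |u + t|) ^ C₂ ≤ (1 + |t|) ^ C₂ * (1 + |u|) ^ C₂ := by
          rw [← Real.mul_rpow (by positivity) (by positivity)]
          exact Real.rpow_le_rpow (by positivity) (rd_one_add_abs u t) hC₂
        calc _ ≤ (C₂ * ((1 + |t|) ^ C₂ * (1 + |u|) ^ C₂) * Q ^ (A + 1)) * X ^ (-A) := by
              refine mul_le_mul (h4.trans ?_) h5 (by positivity) (by positivity)
              gcongr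
          _ = _ := by ring
    rw [h1, norm_mul]
    refine (mul_le_of_le_one_left (norm_nonneg _) rd_norm_inv_two_pi).trans (h3.trans ?_)
    have h7 : K * C₂ * (1 + |t|) ^ C₂ ≤ C * (1 + |t|) ^ C :=
      rd_poly_mono ((le_max_right _ _).trans (le_max_left _ _)) (le_max_right _ _) hC0 ht
    have e4 : Q ^ (A + 1) * X ^ (-A) = Q * (Q / X) ^ A := by
      rw [Real.rpow_add_one (by linarith), Real.div_rpow (by linarith) hX.le, Real.rpow_neg hX.le]
      ring
    calc _ = K * C₂ * (1 + |t|) ^ C₂ * (Q ^ (A + 1) * X ^ (-A)) := by ring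
      _ ≤ C * (1 + |t|) ^ C * (Q ^ (A + 1) * X ^ (-A)) :=
          mul_le_mul_of_nonneg_right h7 (by positivity)
      _ = _ := by rw [e4]; ring

end Crest.Agent.R012

end
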