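import Crest.Agent.R012.AQuo

/-! # Row 12: lattice points with an angular twist -/

set_option autoImplicit false

noncomputable section

open scoped BigOperators ComplexConjugate Topology
open Complex MeasureTheory Filter Set Crest.Agent.R017

namespace Crest.Agent.R012

theorem ASm_left {a : ℝ} (ha : 0 < a) {G : ℂ → ℂ} {C : ℝ} (hC : 0 ≤ C)
    (hG : ∀ y : ℝ, ‖G (((-(1 / 2) : ℝ) : ℂ) + y * I)‖ ≤ C * (1 + |y|) ^ 2) :
    ∃ K : ℝ, 0 ≤ K ∧ ∀ X τ : ℝ, 1 ≤ X → ‖(1 / (2 * Real.pi) : ℂ) *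
      ∫ u : ℝ, G (((-(1 / 2) : ℝ) : ℂ) + u * I + τ * I) *
        (X : ℂ) ^ (((-(1 / 2) : ℝ) : ℂ) + u * I) * Wh a (((-(1 / 2) : ℝ) : ℂ) + u * I)‖ ≤
      K * (1 + |τ|) ^ 2 := by
  obtain ⟨K, hK, hK'⟩ := norm_integral_Wh_le_poly ha (C := 2) (by norm_num) (-(1 / 2))
  refine ⟨K * C, by positivity, fun X τ hX => ?_⟩
  have hX0 : 0 < X := by linarith
  have h3 := hK' (fun u : ℝ => G (((-(1 / 2) : ℝ) : ℂ) + u * I + τ * I) *
      (X : ℂ) ^ (((-(1 / 2) : ℝ) : ℂ) + u * I)) (C * (1 + |τ|) ^ 2) fun u => by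
    have h4 := hG (u + τ)
    have e1 : ((-(1 / 2) : ℝ) : ℂ) + u * I + τ * I =
        ((-(1 / 2) : ℝ) : ℂ) + (u + τ : ℝ) * I := by push_cast; ring
    have e3 : (((-(1 / 2) : ℝ) : ℂ) + u * I).re = -(1 / 2) := by simp
    rw [norm_mul, e1, norm_cpow_eq_rpow_re_of_pos hX0, e3, Real.rpow_two]
    have h5 : X ^ (-(1 / 2) : ℝ) ≤ 1 := Real.rpow_le_one_of_one_le_of_nonpos hX (by norm_num)
    have h6 : (1 + |u + τ|) ^ 2 ≤ (1 + |τ|) ^ 2 * (1 + |u|) ^ 2 := by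
      rw [← mul_pow]
      exact pow_le_pow_left₀ (by positivity) (rd_one_add_abs u τ) 2
    refine (mul_le_of_le_one_right (norm_nonneg _) h5).trans (h4.trans ?_)
    rw [mul_assoc]
    exact mul_le_mul_of_nonneg_left h6 hC
  rw [norm_mul, mul_assoc]
  exact (mul_le_of_le_one_left (norm_nonneg _) rd_norm_inv_two_pi).trans h3

theorem ASm_large {a : ℝ} (ha : 0 < a) (l : ℤ) : ∃ C : ℝ, 0 ≤ C ∧ ∀ X τ : ℝ, 1 ≤ X →
    ‖sm a (az l) X τ -
      (if l = 0 then ((c0 / 9 : ℝ) : ℂ) * (X : ℂ) ^ (1 - τ * I) * Wh a (1 - τ * I) else 0)‖ ≤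
      C * (1 + |τ|) ^ 2 := by
  have hbd : ∀ n, Prim n → ‖az l n‖ ≤ 1 * Nr n ^ (0 : ℝ) := fun n hn => by
    rw [norm_az l hn.ne_zero]
    simp
  by_cases hl : l = 0
  · subst hl
    obtain ⟨C, H, hC, hH, hD, hgr, h1, hb⟩ := one_left
    obtain ⟨K, hK, hK'⟩ := ASm_left ha (G := fun s => H s / (s - 1)) hC hb
    refine ⟨K, hK, fun X τ hX1 => ?_⟩
    have hX : 0 < X := by linarith
    have hF : Differentiable ℂ (fun s : ℂ => H (s + τ * I) * (X : ℂ) ^ s) :=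
      (hH.comp (differentiable_id.add_const _)).mul (rd_diff_cpow hX)
    have hsh := shift_Wh_pole ha (σ₁ := -(1 / 2)) (σ₂ := 2) (s₀ := 1 - τ * I) (by norm_num)
      (by norm_num) hF.differentiableOn (((hgr _ _).comp_add_I τ).mul (expGr_cpow hX _ _))
    have h0 := sm_eq_integral ha hX (σ := 2) hbd (by norm_num) τ
    have haz : az 0 = fun _ => 1 := funext az_zero
    have h2 : ∀ u : ℝ, Dser (az 0) ((2 : ℝ) + u * I + τ * I) * Wh a ((2 : ℝ) + u * I) *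
        (X : ℂ) ^ (((2 : ℝ) : ℂ) + u * I) =
        H ((2 : ℝ) + u * I + τ * I) * (X : ℂ) ^ (((2 : ℝ) : ℂ) + u * I) /
          ((2 : ℝ) + u * I - (1 - τ * I)) * Wh a ((2 : ℝ) + u * I) := by
      intro u
      have e : ((2 : ℝ) : ℂ) + u * I - (1 - τ * I) = (2 : ℝ) + u * I + τ * I - 1 := by ring
      have hne : ((2 : ℝ) : ℂ) + u * I + τ * I - 1 ≠ 0 := fun h0 => by
        have := congrArg Complex.re h0
        norm_num at this
      rw [hD _ (by simp), e, mul_assoc (_ - 1 : ℂ), mul_div_cancel_left₀ _ hne, haz]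
      ring
    simp_rw [h2] at h0
    rw [hsh, sub_add_cancel, h1] at h0
    have hπ : (Real.pi : ℂ) ≠ 0 := ofReal_ne_zero.2 Real.pi_ne_zero
    rw [if_pos rfl, h0, mul_add, ← mul_assoc, one_div_mul_cancel (mul_ne_zero two_ne_zero hπ),
      one_mul, add_sub_cancel_left]
    refine le_of_eq_of_le ?_ (hK' X τ hX1)
    congr 3
    funext u
    rw [show ((-(1 / 2) : ℝ) : ℂ) + u * I - (1 - τ * I) =
      ((-(1 / 2) : ℝ) : ℂ) + u * I + τ * I - 1 by ring]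
    ring
  · obtain ⟨C, L, hC, hL, hD, hgr, hb⟩ := az_left hl
    obtain ⟨K, hK, hK'⟩ := ASm_left ha hC hb
    refine ⟨K, hK, fun X τ hX1 => ?_⟩
    have hX : 0 < X := by linarith
    have hF : Differentiable ℂ (fun s : ℂ => L (s + τ * I) * (X : ℂ) ^ s) :=
      (hL.comp (differentiable_id.add_const _)).mul (rd_diff_cpow hX)
    have hsh := shift_Wh ha (σ₁ := -(1 / 2)) (σ₂ := 2) (by norm_num) hF.differentiableOn
      (((hgr _ _).comp_add_I τ).mul (expGr_cpow hX _ _))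
    have h0 := sm_eq_integral ha hX (σ := 2) hbd (by norm_num) τ
    have h2 : ∀ u : ℝ, Dser (az l) ((2 : ℝ) + u * I + τ * I) * Wh a ((2 : ℝ) + u * I) *
        (X : ℂ) ^ (((2 : ℝ) : ℂ) + u * I) =
        L ((2 : ℝ) + u * I + τ * I) * (X : ℂ) ^ (((2 : ℝ) : ℂ) + u * I) *
          Wh a ((2 : ℝ) + u * I) := by
      intro u
      rw [hD _ (by simp)]
      ring
    simp_rw [h2] at h0
    rw [← hsh] at h0
    rw [if_neg hl, sub_zero, h0]
    exact hK' X τ hX1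

/-- `X ≤ 1`: both terms are bounded (`norm_sm_le`, `norm_Wh`).  `X ≥ 1`: `sm_eq_integral` on
`Re s = 2`, then `shift_Wh` (`az_left`) or `shift_Wh_pole` (`one_left`) to `Re s = -1/2` and
`norm_integral_Wh_le_poly`; see `R017.sm_decay`, `R017.sm_asymp`. -/
theorem sm_az' {a : ℝ} (ha : 0 < a) (l : ℤ) : ∃ C : ℝ, 0 ≤ C ∧ ∀ X τ : ℝ, 0 < X →
    ‖sm a (az l) X τ -
      (if l = 0 then ((c0 / 9 : ℝ) : ℂ) * (X : ℂ) ^ (1 - τ * I) * Wh a (1 - τ * I) else 0)‖ ≤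
      C * (1 + |τ|) ^ 2 := by
  obtain ⟨C₁, h₁⟩ := norm_sm_le ha 1
  obtain ⟨C₂, hC₂, h₂⟩ := ASm_large ha l
  have hc := c0_pos
  set B : ℝ := c0 / 9 * (Real.sqrt (4 * Real.pi * a) * Real.exp a) with hB
  have hB0 : 0 ≤ B := by positivity
  refine ⟨|C₁| + B + C₂, by positivity, fun X τ hX => ?_⟩
  have hτ : 1 ≤ (1 + |τ|) ^ 2 := one_le_pow₀ (by linarith [abs_nonneg τ])
  rcases le_total X 1 with hX1 | hX1
  · have h3 := h₁ (az l) X τ hX (fun n hn => (norm_az l hn.ne_zero).le) (Or.inl le_rfl)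
    rw [Real.rpow_one] at h3
    have h4 : C₁ * X ≤ |C₁| := (mul_le_mul_of_nonneg_right (le_abs_self _) hX.le).trans
      (mul_le_of_le_one_right (abs_nonneg _) hX1)
    have h5 : ‖(if l = 0 then ((c0 / 9 : ℝ) : ℂ) * (X : ℂ) ^ (1 - τ * I) * Wh a (1 - τ * I)
        else 0)‖ ≤ B := by
      split_ifs
      · have h6 := norm_Wh ha 1 (-τ)
        rw [show (((1 : ℝ) : ℂ) + ((-τ : ℝ) : ℂ) * I) = 1 - τ * I by push_cast; ring] at h6
        rw [norm_mul, norm_mul, h6, norm_cpow_eq_rpow_re_of_pos hX, Complex.norm_real,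
          Real.norm_of_nonneg (by positivity), show ((1 : ℂ) - τ * I).re = 1 by simp,
          Real.rpow_one]
        refine mul_le_mul (mul_le_of_le_one_right (by positivity) hX1) ?_ (by positivity)
          (by positivity)
        refine mul_le_mul_of_nonneg_left (Real.exp_le_exp.2 ?_) (Real.sqrt_nonneg _)
        nlinarith [mul_nonneg ha.le (sq_nonneg τ)]
      · simpa using hB0
    refine (norm_sub_le _ _).trans (le_trans ?_ (le_mul_of_one_le_right (by positivity) hτ))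
    linarith
  · refine (h₂ X τ hX1).trans (mul_le_mul_of_nonneg_right ?_ (by positivity))
    linarith [abs_nonneg C₁]

end Crest.Agent.R012

end
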