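import Crest.Agent.R012.Gt
import Crest.Agent.R017.Reflect
import Crest.Agent.R012.ASm
import Crest.Agent.R012.ARef

/-! # Row 12: angular characters (interface) -/

set_option autoImplicit false

noncomputable section

open scoped BigOperators ComplexConjugate Topology
open Complex MeasureTheory Filter Set Crest.Agent.R017

namespace Crest.Agent.R012

/-- Lattice points with an angular twist. -/
theorem sm_az {a : ℝ} (ha : 0 < a) (l : ℤ) : ∃ C : ℝ, 0 ≤ C ∧ ∀ X τ : ℝ, 0 < X →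
    ‖sm a (az l) X τ -
      (if l = 0 then ((c0 / 9 : ℝ) : ℂ) * (X : ℂ) ^ (1 - τ * I) * Wh a (1 - τ * I) else 0)‖ ≤
      C * (1 + |τ|) ^ 2 := sm_az' ha l

/-- Reflection of a smooth character sum with an angular twist (cf. `R017.reflect`). -/
theorem reflect_az {a ε : ℝ} (ha : 0 < a) (hε : 0 < ε) (l : ℤ) : ∃ C : ℝ, 0 ≤ C ∧
    ∀ (x : ℝ) (q : O) (η : O → ℂ), 1 ≤ x → IsCh q η → (l ≠ 0 ∨ ¬ Princ η) → Nr q ≤ x → ∀ v t : ℝ,
    ‖sm (2 * a) (fun n => η n * az l n) (Real.exp v) t‖ * Real.exp (-v / 2) ≤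
      C * x ^ ε * (1 + |t|) ^ C *
      (1 + ∫ u in (0 : ℝ)..(max 0 (Real.log (Nr q) - v + ε * Real.log x)),
        ‖sm a (fun n => η n * az l n) (Real.exp u) t‖ * Real.exp (-u / 2)) := by
  rcases eq_or_ne l 0 with rfl | hl
  · obtain ⟨C, hC, H⟩ := reflect ha hε
    refine ⟨C, hC, fun x q η hx h hη hq v t => ?_⟩
    simp only [az_zero, mul_one]
    exact H x q η hx h (hη.resolve_left fun e => e rfl) hq v t
  · obtain ⟨C₁, hC₁, H₁⟩ := az_FEq hl (2 + 1 / ε) hε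
    obtain ⟨C, hC, H⟩ := reflect_gen ha hε hC₁
    refine ⟨C, hC, fun x q η hx h hη hq v t => ?_⟩
    obtain ⟨L, M, h1, h2⟩ := H₁ q η h
    exact H x (Nr q) _ L M (one_le_Nr h.ne) hq h1 h2 v t

/-- Long sums are negligible (cf. `R017.sm_decay`). -/
theorem sm_decay_az {a : ℝ} (ha : 0 < a) (A : ℝ) (hA : 0 ≤ A) (l : ℤ) : ∃ C : ℝ, 0 ≤ C ∧
    ∀ (q : O) (η : O → ℂ), IsCh q η → (l ≠ 0 ∨ ¬ Princ η) → ∀ X t : ℝ, 0 < X →
    ‖sm a (fun n => η n * az l n) X t‖ ≤ C * (1 + |t|) ^ C * Nr q * (Nr q / X) ^ A := by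
  rcases eq_or_ne l 0 with rfl | hl
  · obtain ⟨C, hC, H⟩ := sm_decay ha A hA
    refine ⟨C, hC, fun q η h hη X t hX => ?_⟩
    simp only [az_zero, mul_one]
    exact H q η h (hη.resolve_left fun e => e rfl) X t hX
  · obtain ⟨C₁, hC₁, H₁⟩ := az_FEq hl (A + 5 / 4) (ε := 1 / 4) (by norm_num)
    obtain ⟨C, hC, H⟩ := decay_gen ha hA hC₁
    refine ⟨C, hC, fun q η h hη X t hX => ?_⟩
    obtain ⟨L, M, h1, h2⟩ := H₁ q η h
    exact H (Nr q) _ L M (one_le_Nr h.ne) h1 h2 X t hX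

end Crest.Agent.R012

end
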