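import Crest.Agent.R012.SDefs
import Crest.Agent.R017.BridgeK
import Crest.Prelude.Def_CubicGauss

/-! # Row 12: from the Prelude definitions to `O` -/

set_option autoImplicit false

noncomputable section

open scoped BigOperators ComplexConjugate Topology
open Complex MeasureTheory Filter Set Crest.Agent.R017

namespace Crest.Agent.R012

open Crest.NumberTheoryR.CubicGauss

theorem bi_decomp (x : O) : x = (x.re : O) + (x.im : O) * om := by
  ext <;> simp [om]

theorem bi_equiv {w : EisR} (hsq : w ^ 2 = -w - 1) (htop : Algebra.adjoin ℤ {w} = ⊤) :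
    ∃ e : O ≃+* EisR, e om = w := by
  let f : O →+* EisR :=
    { toFun := fun x => (x.re : EisR) + (x.im : EisR) * w
      map_one' := by simp [QuadraticAlgebra.re_one, QuadraticAlgebra.im_one]
      map_zero' := by simp
      map_add' := fun x y => by simp; ring
      map_mul' := fun x y => by
        simp only [QuadraticAlgebra.re_mul, QuadraticAlgebra.im_mul]
        push_cast
        linear_combination (-(x.im : EisR) * (y.im : EisR)) * hsq }
  have hom : f om = w := by simp [f, om]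
  refine ⟨RingEquiv.ofBijective f ⟨?_, ?_⟩, hom⟩
  · rw [injective_iff_map_eq_zero]
    intro x hx
    have h1 := congrArg f (mul_star_self x)
    rw [map_mul, hx, zero_mul, map_intCast] at h1
    exact nz_eq_zero.1 (by exact_mod_cast h1.symm)
  · intro y
    have hy : y ∈ Algebra.adjoin ℤ {w} := by rw [htop]; trivial
    have hle : Algebra.adjoin ℤ {w} ≤ f.toIntAlgHom.range := by
      refine Algebra.adjoin_le ?_
      rintro _ rfl
      exact ⟨om, hom⟩
    exact hle hy

theorem bi_emb (σ : EisK →+* ℂ) (e : O ≃+* EisR) (h : σ (e om : EisK) = omC) (x : O) :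
    σ (e x : EisK) = emb x := by
  let F : O →+* ℂ := σ.comp ((algebraMap EisR EisK).comp (e : O →+* EisR))
  have hF : F om = omC := h
  change F x = emb x
  conv_lhs => rw [bi_decomp x]
  rw [map_add, map_mul, map_intCast, map_intCast, hF]
  rfl

theorem bi_trace (σ : EisK →+* ℂ) {w : EisK} (hw : (σ w).im ≠ 0) (y : EisK) :
    ((Algebra.trace ℚ EisK y : ℚ) : ℝ) = 2 * (σ y).re := by
  classical
  have : IsCyclotomicExtension {3} ℚ EisK := CyclotomicField.isCyclotomicExtension 3 ℚ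
  have hr : Module.finrank ℚ EisK = 2 := by
    rw [IsCyclotomicExtension.finrank (n := 3) EisK
      (Polynomial.cyclotomic.irreducible_rat (by norm_num))]
    decide
  let s1 : EisK →ₐ[ℚ] ℂ := σ.toRatAlgHom
  let s2 : EisK →ₐ[ℚ] ℂ := ((starRingEnd ℂ).comp σ).toRatAlgHom
  have hne : s1 ≠ s2 := by
    intro h
    have h1 : σ w = conj (σ w) := DFunLike.congr_fun h w
    have h2 := congrArg Complex.im h1
    rw [Complex.conj_im] at h2
    exact hw (by linarith)
  have hu : (Finset.univ : Finset (EisK →ₐ[ℚ] ℂ)) = {s1, s2} := by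
    symm
    apply Finset.eq_univ_of_card
    rw [Finset.card_pair hne, AlgHom.card, hr]
  have h := trace_eq_sum_embeddings ℂ (K := ℚ) (x := y)
  rw [hu, Finset.sum_pair hne] at h
  have h2 : ((Algebra.trace ℚ EisK y : ℚ) : ℂ) = σ y + conj (σ y) := h
  have h3 := congrArg Complex.re h2
  rw [Complex.add_re, Complex.conj_re, Complex.ratCast_re] at h3
  linarith

theorem bi_emb_sq3 : emb sq3 = (Real.sqrt 3 : ℂ) * I := by
  apply Complex.ext
  · rw [b3_emb_re]; simp [sq3]
  · rw [b3_emb_im]; simp [sq3]; ring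

theorem bi_om_sq : om ^ 2 = (⟨-1, -1⟩ : O) := by
  ext <;> simp [om, sq]

theorem bi_nz {w : O} (hw : w = om ∨ w = om ^ 2) (a b : ℤ) :
    nz ((a : O) + (b : O) * w) = a ^ 2 - a * b + b ^ 2 := by
  rcases hw with rfl | rfl
  · simp [nz, om]
  · rw [bi_om_sq]; simp [nz]; ring

theorem bi_surj {w : O} (hw : w = om ∨ w = om ^ 2) (y : O) :
    ∃ a b : ℤ, y = (a : O) + (b : O) * w := by
  rcases hw with rfl | rfl
  · exact ⟨_, _, bi_decomp y⟩
  · refine ⟨y.re - y.im, -y.im, ?_⟩
    rw [bi_om_sq]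
    ext <;> simp

theorem bi_dvd {w : O} (hw : w = om ∨ w = om ^ 2) {N a b : ℤ}
    (h : (N : O) ∣ (a : O) + (b : O) * w) : N ∣ a ∧ N ∣ b := by
  obtain ⟨c, hc⟩ := h
  have h1 := congrArg QuadraticAlgebra.re hc
  have h2 := congrArg QuadraticAlgebra.im hc
  rcases hw with rfl | rfl
  · simp [om] at h1 h2
    exact ⟨⟨_, h1⟩, ⟨_, h2⟩⟩
  · rw [bi_om_sq] at h1 h2
    simp at h1 h2
    exact ⟨⟨c.re - c.im, by linear_combination h1 - h2⟩, ⟨-c.im, by linear_combination -h2⟩⟩

theorem bi_coords {e : O ≃+* EisR} {w : O} (hz : e w = eisZeta) (a b : ℤ) :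
    eisOfCoords a b = e ((a : O) + (b : O) * w) := by
  rw [map_add, map_mul, map_intCast, map_intCast, hz, eisOfCoords]

theorem bi_box {w : O} (hw : w = om ∨ w = om ^ 2) {N : ℕ} (hN : N ≠ 0) (G : O → ℂ)
    (hG : ∀ x y, (N : O) ∣ x - y → G x = G y) :
    ∑ x ∈ reps (N : O), G x =
      ∑ a ∈ Finset.range N, ∑ b ∈ Finset.range N, G (((a : ℤ) : O) + ((b : ℤ) : O) * w) := by
  have hN' : (0 : ℤ) < N := by exact_mod_cast Nat.pos_of_ne_zero hN
  rw [← Finset.sum_product']
  refine b3_sum_map (by exact_mod_cast hN) G hG _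
    (fun t : ℕ × ℕ => ((t.1 : ℤ) : O) + ((t.2 : ℤ) : O) * w) (fun y => ?_) ?_
  · obtain ⟨a, b, rfl⟩ := bi_surj hw y
    have ha := Int.emod_nonneg a hN'.ne'
    have hb := Int.emod_nonneg b hN'.ne'
    have ha' := Int.emod_lt_of_pos a hN'
    have hb' := Int.emod_lt_of_pos b hN'
    refine ⟨((a % N).toNat, (b % N).toNat), ?_, ?_⟩
    · simp only [Finset.mem_product, Finset.mem_range]
      omega
    · dsimp only
      rw [Int.toNat_of_nonneg ha, Int.toNat_of_nonneg hb, Int.emod_def, Int.emod_def]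
      refine ⟨-((a / N : ℤ) : O) - ((b / N : ℤ) : O) * w, ?_⟩
      push_cast
      ring
  · rintro ⟨a, b⟩ hs ⟨c, d⟩ ht h
    simp only [Finset.mem_product, Finset.mem_range] at hs ht
    have h1 : (((N : ℤ)) : O) ∣ (((a : ℤ) - c : ℤ) : O) + (((b : ℤ) - d : ℤ) : O) * w := by
      convert h using 1
      · simp
      · push_cast; ring
    obtain ⟨h2, h3⟩ := bi_dvd hw h1
    have h4 := Int.eq_zero_of_abs_lt_dvd h2 (by rw [abs_lt]; omega)
    have h5 := Int.eq_zero_of_abs_lt_dvd h3 (by rw [abs_lt]; omega)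
    ext <;> simp only <;> omega

/-- As `bk_exists_equiv`, with `ω ↦ ζ` or `ω ↦ ζ²` according to the value of `σ ζ`. -/
theorem br_exists (σ : EisK →+* ℂ) : ∃ e : O ≃+* EisR, (∀ x, σ (e x : EisK) = emb x) ∧
    (e om = eisZeta ∨ e (om ^ 2) = eisZeta) := by
  have : IsCyclotomicExtension {3} ℚ EisK := CyclotomicField.isCyclotomicExtension 3 ℚ
  have hζ := IsCyclotomicExtension.zeta_spec 3 ℚ EisK
  have hsq : eisZeta ^ 2 = -eisZeta - 1 := IsCyclotomicExtension.Rat.Three.eta_sq hζ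
  have htop : Algebra.adjoin ℤ {eisZeta} = ⊤ :=
    IsCyclotomicExtension.Rat.adjoin_singleton_eq_top hζ
  generalize eisZeta = w at hsq htop
  let F : EisR →+* ℂ := σ.comp (algebraMap EisR EisK)
  have h1 : F w ^ 2 = -F w - 1 := by rw [← map_pow, hsq, map_sub, map_neg, map_one]
  have h2 : (F w - omC) * (F w - omC ^ 2) = 0 := by
    linear_combination h1 - F w * s1_omC_sum + s1_omC_cube
  rcases mul_eq_zero.1 h2 with h | h
  · obtain ⟨e, he⟩ := bi_equiv hsq htop
    exact ⟨e, bi_emb σ e (by rw [he]; exact sub_eq_zero.1 h), Or.inl he⟩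
  · have h3 : (w ^ 2) ^ 2 = w := by linear_combination (w ^ 2 - w) * hsq
    have h4 : Algebra.adjoin ℤ {w ^ 2} = ⊤ := by
      rw [eq_top_iff, ← htop]
      refine Algebra.adjoin_le ?_
      rintro _ rfl
      rw [SetLike.mem_coe]
      conv_rhs => rw [← h3]
      exact pow_mem (Algebra.self_mem_adjoin_singleton ℤ _) 2
    obtain ⟨e, he⟩ := bi_equiv (w := w ^ 2) (by linear_combination h3 + hsq) h4
    refine ⟨e, bi_emb σ e ?_, Or.inr (by rw [map_pow, he, h3])⟩
    rw [he]
    change F (w ^ 2) = omC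
    rw [map_pow, sub_eq_zero.1 h]
    linear_combination omC * s1_omC_cube

variable {σ : EisK →+* ℂ} {e : O ≃+* EisR}

/-- `bk_absNorm`, `Ideal.absNorm_span_singleton`. -/
theorem br_norm (e : O ≃+* EisR) (x : O) : eisNorm (e x) = nm x := by
  by_cases hx : x = 0
  · rw [hx, map_zero, eisNorm, Algebra.norm_zero, nm_eq_zero.2 rfl]
    rfl
  · rw [eisNorm, ← Ideal.absNorm_span_singleton]
    exact bk_absNorm e hx

theorem br_primary (e : O ≃+* EisR) (x : O) : IsPrimary (e x) ↔ Prim x := by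
  rw [IsPrimary, Prim, ← map_dvd_iff e, map_sub, map_one, map_ofNat]

theorem br_char (he : ∀ x, σ (e x : EisK) = emb x) {p : O} (hp : Prime p) (x : O) :
    cubicChar σ (e p) (e x) = kap p x := by
  classical
  rw [cubicChar, br_norm, kap_prime hp, kapP, ← Finset.sum_filter]
  have hset : {u : EisR | u ^ 3 = 1 ∧ e p ∣ e x ^ ((nm p - 1) / 3) - u} =
      (fun j : ℕ => e (om ^ j)) ''
        ((Finset.range 3).filter (fun j => p ∣ x ^ ((nm p - 1) / 3) - om ^ j) : Finset ℕ) := by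
    ext u
    obtain ⟨v, rfl⟩ := e.surjective u
    simp only [mem_setOf_eq, mem_image, Finset.mem_coe, Finset.mem_filter, Finset.mem_range]
    rw [← map_pow, ← map_pow, ← map_sub, map_dvd_iff, ← map_one e, e.injective.eq_iff]
    constructor
    · rintro ⟨h1, h2⟩
      have h3 : (v - om ^ 0) * (v - om ^ 1) * (v - om ^ 2) = 0 := by
        linear_combination h1 + (v - v ^ 2) * om_sq + (v - 1) * om_cube
      rcases mul_eq_zero.1 h3 with h | h
      · rcases mul_eq_zero.1 h with h | h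
        · exact ⟨0, ⟨by norm_num, by rwa [← sub_eq_zero.1 h]⟩, by rw [sub_eq_zero.1 h]⟩
        · exact ⟨1, ⟨by norm_num, by rwa [← sub_eq_zero.1 h]⟩, by rw [sub_eq_zero.1 h]⟩
      · exact ⟨2, ⟨by norm_num, by rwa [← sub_eq_zero.1 h]⟩, by rw [sub_eq_zero.1 h]⟩
    · rintro ⟨j, ⟨_, h2⟩, h3⟩
      obtain rfl := e.injective h3
      exact ⟨by rw [← pow_mul, mul_comm, pow_mul, om_cube, one_pow], h2⟩
  rw [hset, finsum_mem_image, finsum_mem_coe_finset]
  · exact Finset.sum_congr rfl fun j _ => he _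
  · intro i hi j hj hij
    have h := e.injective hij
    simp only [Finset.mem_coe, Finset.mem_filter, Finset.mem_range] at hi hj
    obtain ⟨hi, -⟩ := hi
    obtain ⟨hj, -⟩ := hj
    interval_cases i <;> interval_cases j <;> first | rfl | exact absurd h (by decide)

/-- `x / p = x p̄ / N p`, `Tr (e a) = 2 a.re - a.im = 2 Re (emb a)`, `emb sq3 = √3 I`. -/
theorem br_add (he : ∀ x, σ (e x : EisK) = emb x) {p : O} (hp : p ≠ 0) (x : O) :
    eisAddChar (e p) (e x) = eO (sq3 * x) p := by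
  have hw : (σ (e om : EisK)).im ≠ 0 := by
    rw [he, emb_om]
    simp [omC]
  have h3 : Real.sqrt 3 ≠ 0 := by positivity
  rw [eisAddChar, eO, ec, bi_trace σ hw, map_div₀, he, he, map_mul, bi_emb_sq3, mul_div_assoc]
  congr 3
  generalize emb x / emb p = z
  simp
  field_simp

theorem br_ang (he : ∀ x, σ (e x : EisK) = emb x) (l : ℤ) (p : O) :
    angularChar σ l (e p) = az l p := by
  rw [angularChar, he, az, ang]

/-- The box is a complete residue system modulo `N p = p p̄` (`b3_sum_map`, `sum_reps_tower`,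
`r1_nm_cast`). -/
theorem br_gauss (he : ∀ x, σ (e x : EisK) = emb x) (hz : e om = eisZeta ∨ e (om ^ 2) = eisZeta)
    {p : O} (hp : Prime p) : cubicGaussSum σ (e p) = gt p := by
  obtain ⟨w, hw, hz⟩ : ∃ w : O, (w = om ∨ w = om ^ 2) ∧ e w = eisZeta :=
    hz.elim (fun h => ⟨_, Or.inl rfl, h⟩) (fun h => ⟨_, Or.inr rfl, h⟩)
  have hp0 := hp.ne_zero
  have hs0 : star p ≠ 0 := star_ne_zero.2 hp0
  set G : O → ℂ := fun x => kap p x * eO (sq3 * x) p with hG
  have hper : ∀ x y, p ∣ x - y → G x = G y := fun x y h => by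
    simp only [hG]
    rw [kap_congr' hp0 h, eO_congr (by rw [← mul_sub]; exact h.mul_left _)]
  have hper' : ∀ x y, p * star p ∣ x - y → G x = G y := fun x y h =>
    hper x y ((dvd_mul_right _ _).trans h)
  have h1 := bi_box hw (fun h => hp0 (nm_eq_zero.1 h)) G (by rw [r1_nm_cast]; exact hper')
  rw [r1_nm_cast, sum_reps_tower hp0 hs0 G hper'] at h1
  have h2 : ∑ x ∈ reps p, ∑ y ∈ reps (star p), G (x + p * y) = (Nr p : ℂ) * gs (kap p) p sq3 := by
    rw [gs, Finset.mul_sum]
    refine Finset.sum_congr rfl fun x _ => ?_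
    rw [Finset.sum_congr rfl fun y _ => hper (x + p * y) x ⟨y, by ring⟩, Finset.sum_const,
      card_reps hs0, nsmul_eq_mul, ← Nr_star, Nr, Complex.ofReal_natCast]
  rw [cubicGaussSum, br_norm, gt, if_pos hp.squarefree]
  simp only [bi_coords hz, br_char he hp, br_add he hp0]
  rw [← h1, h2]
  have hN : 0 < Nr p := Nr_pos hp0
  have h3 : Nr p ^ (-(3 : ℝ) / 2) * Nr p = (Real.sqrt (Nr p))⁻¹ := by
    rw [Real.sqrt_eq_rpow, ← Real.rpow_neg hN.le, ← Real.rpow_add_one hN.ne']
    norm_num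
  rw [← mul_assoc, ← Complex.ofReal_mul]
  change ((Nr p ^ (-(3 : ℝ) / 2) * Nr p : ℝ) : ℂ) * _ = _
  rw [h3, Complex.ofReal_inv, div_eq_inv_mul]

open Classical in
theorem br_defect (σ : EisK →+* ℂ) (l : ℤ) (X : ℕ) :
    twistedFirstMomentDefect σ l X = psum (fun n => if Prime n then az l n * FF n else 0) X := by
  obtain ⟨e, he, hz0⟩ := br_exists σ
  obtain ⟨w, hw, hz⟩ : ∃ w : O, (w = om ∨ w = om ^ 2) ∧ e w = eisZeta :=
    hz0.elim (fun h => ⟨_, Or.inl rfl, h⟩) (fun h => ⟨_, Or.inr rfl, h⟩)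
  set H : O → ℂ := fun n => if Prime n ∧ Prim n ∧ nm n ≤ X then az l n * FF n else 0 with hH
  set g : ℤ × ℤ → O := fun t => (t.1 : O) + (t.2 : O) * w with hg
  have hinj : Function.Injective g := by
    rintro ⟨a, b⟩ ⟨c, d⟩ h
    have h1 : ((0 : ℤ) : O) ∣ ((a - c : ℤ) : O) + ((b - d : ℤ) : O) * w := by
      have h2 : (a : O) + (b : O) * w = (c : O) + (d : O) * w := h
      refine ⟨0, ?_⟩
      push_cast
      linear_combination h2
    obtain ⟨h2, h3⟩ := bi_dvd hw h1
    rw [zero_dvd_iff, sub_eq_zero] at h2 h3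
    rw [h2, h3]
  have hL : twistedFirstMomentDefect σ l X =
      ∑ t ∈ Finset.Icc (-(X : ℤ)) X ×ˢ Finset.Icc (-(X : ℤ)) X, H (g t) := by
    refine Finset.sum_congr rfl fun t _ => ?_
    rw [bi_coords hz, MulEquiv.prime_iff e, br_primary, br_norm]
    simp only [hH]
    refine if_ctx_congr Iff.rfl (fun h => ?_) fun _ => rfl
    rw [br_ang he, br_gauss he hz0 h.1, FF, md, if_pos (Prime.squarefree h.1), Complex.ofReal_mul,
      neg_div]
    rfl
  have hX : ∀ n : O, Nr n ≤ X ↔ nm n ≤ X := fun n => by rw [Nr]; exact Nat.cast_le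
  rw [hL, ← Finset.sum_image (f := H) fun a _ b _ h => hinj h, psum,
    ← Finset.sum_subset (s₁ := pbox X)]
  · refine Finset.sum_congr rfl fun n hn => ?_
    rw [mem_pbox, hX] at hn
    simp only [hH, hn, and_self, and_true]
  · intro n hn
    rw [mem_pbox, hX] at hn
    obtain ⟨a, b, rfl⟩ := bi_surj hw n
    have h1 := bi_nz hw a b
    rw [← nm_cast] at h1
    have h2 : a ^ 2 - a * b + b ^ 2 ≤ X := by rw [← h1]; exact_mod_cast hn.2
    have h0 : (0 : ℤ) ≤ X := Int.natCast_nonneg X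
    refine Finset.mem_image.2 ⟨(a, b), ?_, rfl⟩
    simp only [Finset.mem_product, Finset.mem_Icc]
    refine ⟨⟨?_, ?_⟩, ?_, ?_⟩ <;> by_contra h <;> push Not at h <;>
      nlinarith [sq_nonneg (2 * a - b), sq_nonneg (2 * b - a), sq_nonneg ((X : ℤ) - 1)]
  · intro n _ hn
    rw [mem_pbox, hX] at hn
    exact if_neg fun h => hn h.2

end Crest.Agent.R012

end
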