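import Crest.Agent.R012.SLay

/-! # Row 12: removing the logarithm; prime sums over `ℕ` -/

set_option autoImplicit false

noncomputable section

open scoped BigOperators ComplexConjugate Topology
open Complex MeasureTheory Filter Set Crest.Agent.R017

namespace Crest.Agent.R012

open Classical in
theorem bl_unlog_bound {b : O → ℂ} {K X E : ℝ} (hb : ∀ n, Prim n → ‖b n‖ ≤ K) (hK : 0 ≤ K)
    (hX : 1 < X) (hE : ∀ y, y ≤ X → ‖psum (fun n => Lp n * b n) y‖ ≤ E) :
    ‖psum (fun n => if Prime n then b n else 0) X‖ ≤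
      25 * Real.sqrt X * K + 2 / Real.log X * (2 * E) := by
  have hX0 : 0 < X := by linarith
  have hL : 0 < Real.log X := Real.log_pos hX
  set φ : ℝ → ℝ := fun y => (Real.log X / 2) / max (Real.log X / 2) (Real.log y) with hφ
  have hanti : AntitoneOn φ (Ici 1) := by
    intro x hx y hy hxy
    refine div_le_div_of_nonneg_left (by positivity) (lt_max_of_lt_left (by positivity)) ?_
    exact max_le_max le_rfl (Real.log_le_log (lt_of_lt_of_le one_pos hx) hxy)
  have h01 : ∀ y, 1 ≤ y → 0 ≤ φ y ∧ φ y ≤ 1 := fun y _ =>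
    ⟨div_nonneg (by positivity) (le_max_of_le_left (by positivity)),
      (div_le_one (lt_max_of_lt_left (by positivity))).2 (le_max_left _ _)⟩
  have h1 : ∀ y, y ≤ X → ‖psum (cut (Ioi (Real.sqrt X)) (fun n => Lp n * b n)) y‖ ≤ 2 * E :=
    fun y hy => psum_cut (fun z hz => hE z (hz.trans hy)) ordConnected_Ioi
  have h2 := psum_anti h1 hanti h01
  have hsX : Real.sqrt X ≤ X := by
    rw [Real.sqrt_le_left hX0.le]; nlinarith
  have h3 : psum (fun n => if Prime n then b n else 0) X =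
      psum (fun n => if Prime n then b n else 0) (Real.sqrt X) + ((2 / Real.log X : ℝ) : ℂ) *
        psum (fun n => cut (Ioi (Real.sqrt X)) (fun n => Lp n * b n) n * (φ (Nr n) : ℂ)) X := by
    have e : pbox (Real.sqrt X) = (pbox X).filter (fun n => Nr n ≤ Real.sqrt X) := by
      ext n
      rw [Finset.mem_filter, mem_pbox, mem_pbox]
      exact ⟨fun h => ⟨⟨h.1, h.2.trans hsX⟩, h.2⟩, fun h => ⟨h.1.1, h.2⟩⟩
    rw [psum, psum, psum, e, Finset.sum_filter, Finset.mul_sum, ← Finset.sum_add_distrib]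
    refine Finset.sum_congr rfl fun n hn => ?_
    by_cases hn1 : Nr n ≤ Real.sqrt X
    · have : Nr n ∉ Ioi (Real.sqrt X) := fun h => absurd hn1 (not_le.2 h)
      simp [cut, hn1, this]
    · have hm : Nr n ∈ Ioi (Real.sqrt X) := not_le.1 hn1
      have hlt : Real.log X / 2 < Real.log (Nr n) := by
        rw [← Real.log_sqrt hX0.le]
        exact Real.log_lt_log (Real.sqrt_pos.2 hX0) hm
      have hl0 : 0 < Real.log (Nr n) := lt_trans (by positivity) hlt
      have e2 : φ (Nr n) = (Real.log X / 2) / Real.log (Nr n) := by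
        simp only [hφ]; rw [max_eq_right hlt.le]
      rw [if_neg hn1, cut, if_pos hm, e2, Lp, zero_add]
      split_ifs with hp
      · have a1 : (Real.log X : ℂ) ≠ 0 := Complex.ofReal_ne_zero.2 hL.ne'
        have a2 : (Real.log (Nr n) : ℂ) ≠ 0 := Complex.ofReal_ne_zero.2 hl0.ne'
        rw [Complex.ofReal_div, Complex.ofReal_div, Complex.ofReal_div]
        generalize (Real.log X : ℂ) = u at a1 ⊢
        generalize (Real.log (Nr n) : ℂ) = v at a2 ⊢
        push_cast
        field_simp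
      · simp
  rw [h3]
  refine (norm_add_le _ _).trans (add_le_add ?_ ?_)
  · refine norm_psum_le (Real.sqrt_nonneg _) hK fun n hn _ => ?_
    split_ifs
    · exact hb n hn
    · simpa using hK
  · rw [norm_mul, Complex.norm_real, Real.norm_of_nonneg (by positivity)]
    exact mul_le_mul_of_nonneg_left h2 (by positivity)

open Classical in
/-- Norms `≤ √X` trivially (`norm_psum_le`); on `(√X, X]` apply `psum_cut` and `psum_anti` with
`φ y = (log X / 2) / max (log X / 2) (log y)` and `E = ε X^(5/6) + C_ε`. -/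
theorem tendsto_unlog {b : O → ℂ} {K : ℝ} (hb : ∀ n, Prim n → ‖b n‖ ≤ K)
    (h : Tendsto (fun X : ℝ => psum (fun n => Lp n * b n) X / ((X ^ (5 / 6 : ℝ) : ℝ) : ℂ))
      atTop (𝓝 0)) :
    Tendsto (fun X : ℝ => psum (fun n => if Prime n then b n else 0) X /
      ((X ^ (5 / 6 : ℝ) / Real.log X : ℝ) : ℂ)) atTop (𝓝 0) := by
  have hK : 0 ≤ K := (norm_nonneg _).trans (hb 1 (by simp [Prim]))
  rw [NormedAddGroup.tendsto_nhds_zero] at h ⊢
  intro ε hε
  obtain ⟨y₀, hy₀⟩ := eventually_atTop.1 ((h (ε / 16) (by positivity)).and (eventually_ge_atTop 1))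
  have hy1 : 1 ≤ y₀ := (hy₀ y₀ le_rfl).2
  -- a uniform bound below `y₀`
  obtain ⟨C, hC0, hC⟩ : ∃ C : ℝ, 0 ≤ C ∧ ∀ y, y ≤ y₀ → ‖psum (fun n => Lp n * b n) y‖ ≤ C := by
    refine ⟨∑ n ∈ pbox y₀, ‖Lp n * b n‖, Finset.sum_nonneg fun _ _ => norm_nonneg _,
      fun y hy => (norm_sum_le _ _).trans ?_⟩
    refine Finset.sum_le_sum_of_subset_of_nonneg (fun n hn => ?_) fun _ _ _ => norm_nonneg _
    exact mem_pbox.2 ⟨(mem_pbox.1 hn).1, (mem_pbox.1 hn).2.trans hy⟩
  have l1 : Tendsto (fun X : ℝ => 25 * K * (Real.log X / X ^ (1 / 3 : ℝ)) +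
      4 * C * (X ^ (5 / 6 : ℝ))⁻¹) atTop (𝓝 (25 * K * 0 + 4 * C * 0)) :=
    (((isLittleO_log_rpow_atTop (by norm_num)).tendsto_div_nhds_zero).const_mul _).add
      (((tendsto_rpow_atTop (by norm_num)).inv_tendsto_atTop).const_mul _)
  rw [mul_zero, mul_zero, add_zero] at l1
  filter_upwards [l1.eventually (gt_mem_nhds (show (0 : ℝ) < ε / 2 by positivity)),
    eventually_gt_atTop 1] with X hX hX1
  have hX0 : 0 < X := by linarith
  have hL : 0 < Real.log X := Real.log_pos hX1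
  have hP : 0 < X ^ (5 / 6 : ℝ) := Real.rpow_pos_of_pos hX0 _
  have hE : ∀ y, y ≤ X → ‖psum (fun n => Lp n * b n) y‖ ≤ ε / 16 * X ^ (5 / 6 : ℝ) + C := by
    intro y hy
    rcases le_total y y₀ with h1 | h1
    · have := hC y h1
      have : 0 ≤ ε / 16 * X ^ (5 / 6 : ℝ) := by positivity
      linarith
    · obtain ⟨h2, h3⟩ := hy₀ y h1
      have hyp : 0 < y ^ (5 / 6 : ℝ) := Real.rpow_pos_of_pos (by linarith) _
      rw [norm_div, Complex.norm_real, Real.norm_of_nonneg hyp.le, div_lt_iff₀ hyp] at h2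
      have h4 : y ^ (5 / 6 : ℝ) ≤ X ^ (5 / 6 : ℝ) :=
        Real.rpow_le_rpow (by linarith) hy (by norm_num)
      have : ε / 16 * y ^ (5 / 6 : ℝ) ≤ ε / 16 * X ^ (5 / 6 : ℝ) := by gcongr
      linarith
  have hb2 := bl_unlog_bound hb hK hX1 hE
  rw [norm_div, Complex.norm_real, Real.norm_of_nonneg (div_pos hP hL).le,
    div_lt_iff₀ (div_pos hP hL)]
  refine hb2.trans_lt ?_
  have e1 : Real.sqrt X = X ^ (5 / 6 : ℝ) / X ^ (1 / 3 : ℝ) := by
    rw [Real.sqrt_eq_rpow, ← Real.rpow_sub hX0]; norm_num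
  have hQ : 0 < X ^ (1 / 3 : ℝ) := Real.rpow_pos_of_pos hX0 _
  have e2 : 25 * Real.sqrt X * K + 2 / Real.log X * (2 * (ε / 16 * X ^ (5 / 6 : ℝ) + C)) =
      (25 * K * (Real.log X / X ^ (1 / 3 : ℝ)) + 4 * C * (X ^ (5 / 6 : ℝ))⁻¹ + ε / 4) *
        (X ^ (5 / 6 : ℝ) / Real.log X) := by
    rw [e1]; field_simp; ring
  rw [e2]
  exact mul_lt_mul_of_pos_right (by linarith) (div_pos hP hL)

/-- From `Lib.PNT.tendsto_residueClass_div`, `tendsto_psi_div`, `tendsto_theta_div` (cf.
`a4_primes_count`). -/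
theorem tendsto_theta_three : Tendsto (fun x : ℝ =>
    (∑ p ∈ (Finset.Ioc 0 ⌊x⌋₊).filter (fun p => p.Prime ∧ p % 3 = 1), Real.log p) / x)
    atTop (𝓝 (1 / 2)) := by
  have hF := Lib.PNT.tendsto_residueClass_div (q := 3) (a := 1) isUnit_one
  have ht : ((Nat.totient 3 : ℕ) : ℝ)⁻¹ = 1 / 2 := by
    rw [show Nat.totient 3 = 2 by decide]; norm_num
  rw [ht] at hF
  have lim := hF.sub (Lib.PNT.tendsto_psi_div.sub Lib.PNT.tendsto_theta_div)
  rw [sub_self, sub_zero] at lim
  set F : ℕ → ℝ := fun k => ArithmeticFunction.vonMangoldt.residueClass (1 : ZMod 3) k with hFdef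
  have hpr : ∀ k : ℕ, k.Prime → F k = if k % 3 = 1 then Real.log k else 0 := by
    intro k hp
    split_ifs with h1
    · simp only [hFdef, ArithmeticFunction.vonMangoldt.residueClass]
      rw [Set.indicator_of_mem, ArithmeticFunction.vonMangoldt_apply_prime hp]
      have := (ZMod.natCast_eq_natCast_iff' k 1 3).2 (by simpa using h1)
      simpa using this
    · refine Set.indicator_of_notMem (fun h => h1 ?_) _
      exact (ZMod.natCast_eq_natCast_iff' k 1 3).1 (by simpa using h)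
  have key : ∀ N : ℕ, ∑ k ∈ Finset.Icc 1 N, F k =
      ∑ p ∈ (Finset.Ioc 0 N).filter (fun p => p.Prime ∧ p % 3 = 1), Real.log p +
        ∑ k ∈ (Finset.Ioc 0 N).filter (fun k => ¬ k.Prime), F k := by
    intro N
    rw [Finset.sum_filter, Finset.sum_filter, ← Finset.sum_add_distrib]
    refine Finset.sum_congr rfl fun k _ => ?_
    by_cases hp : k.Prime
    · rw [hpr k hp]; simp [hp]
    · simp [hp]
  refine tendsto_of_tendsto_of_tendsto_of_le_of_le' lim hF ?_ ?_
  · filter_upwards [eventually_gt_atTop 0] with x hx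
    rw [← sub_div, ← sub_div, key, Chebyshev.psi_sub_theta_eq_sum_not_prime]
    refine div_le_div_of_nonneg_right ?_ hx.le
    have : ∑ k ∈ (Finset.Ioc 0 ⌊x⌋₊).filter (fun k => ¬ k.Prime), F k ≤
        ∑ k ∈ (Finset.Ioc 0 ⌊x⌋₊).filter (fun k => ¬ k.Prime), ArithmeticFunction.vonMangoldt k :=
      Finset.sum_le_sum fun k _ => ArithmeticFunction.vonMangoldt.residueClass_le _ k
    linarith
  · filter_upwards [eventually_gt_atTop 0] with x hx
    rw [key]
    refine div_le_div_of_nonneg_right (le_add_of_nonneg_right ?_) hx.le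
    exact Finset.sum_nonneg fun k _ => ArithmeticFunction.vonMangoldt.residueClass_nonneg _ k

/-- Abel summation against a decreasing weight. -/
theorem bl_small {c f : ℕ → ℝ} (hf : Antitone f) (hf0 : ∀ k, 0 ≤ f k)
    (hF : Tendsto (fun n => ∑ k ∈ Finset.range n, f k) atTop atTop)
    (hc : (fun n => ∑ k ∈ Finset.range n, c k) =o[atTop] fun n : ℕ => (n : ℝ)) :
    (fun n => ∑ k ∈ Finset.range n, f k * c k) =o[atTop] fun n => ∑ k ∈ Finset.range n, f k := by
  have abel : ∀ (c : ℕ → ℝ) (n : ℕ), ∑ k ∈ Finset.range n, f k * c k =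
      f n * ∑ k ∈ Finset.range n, c k +
        ∑ k ∈ Finset.range n, (f k - f (k + 1)) * ∑ j ∈ Finset.range (k + 1), c j := by
    intro c n
    induction n with
    | zero => simp
    | succ n ih =>
      rw [Finset.sum_range_succ, ih, Finset.sum_range_succ (fun k => (f k - f (k + 1)) * _),
        Finset.sum_range_succ c n]
      ring
  have hd : ∀ k, 0 ≤ f k - f (k + 1) := fun k => sub_nonneg.2 (hf (Nat.le_succ k))
  have h1 : ∀ n : ℕ, ∑ k ∈ Finset.range n, f k =
      f n * n + ∑ k ∈ Finset.range n, (f k - f (k + 1)) * ((k + 1 : ℕ) : ℝ) := by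
    intro n
    simpa using abel (fun _ => 1) n
  have hA : ∀ n : ℕ, 0 ≤ f n * n := fun n => mul_nonneg (hf0 n) (Nat.cast_nonneg n)
  have hB : ∀ n : ℕ, 0 ≤ ∑ k ∈ Finset.range n, (f k - f (k + 1)) * ((k + 1 : ℕ) : ℝ) := fun n =>
    Finset.sum_nonneg fun k _ => mul_nonneg (hd k) (Nat.cast_nonneg _)
  have hF0 : ∀ n, 0 ≤ ∑ k ∈ Finset.range n, f k := fun n => Finset.sum_nonneg fun k _ => hf0 k
  simp only [abel c]
  refine Asymptotics.IsLittleO.add ?_ ?_
  · refine ((Asymptotics.isBigO_refl f atTop).mul_isLittleO hc).trans_isBigO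
      (Asymptotics.IsBigO.of_bound 1 (Eventually.of_forall fun n => ?_))
    rw [Real.norm_of_nonneg (hA n), Real.norm_of_nonneg (hF0 n), one_mul, h1 n]
    linarith [hB n]
  · set g : ℕ → ℝ := fun k => (f k - f (k + 1)) * ((k + 1 : ℕ) : ℝ) + f k with hg
    have hg0 : ∀ k, 0 ≤ g k := fun k => add_nonneg (mul_nonneg (hd k) (Nat.cast_nonneg _)) (hf0 k)
    have hs : ∀ n, ∑ k ∈ Finset.range n, g k =
        ∑ k ∈ Finset.range n, (f k - f (k + 1)) * ((k + 1 : ℕ) : ℝ) + ∑ k ∈ Finset.range n, f k :=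
      fun n => Finset.sum_add_distrib
    have h2 : (fun k => (f k - f (k + 1)) * ∑ j ∈ Finset.range (k + 1), c j) =o[atTop] g := by
      refine ((Asymptotics.isBigO_refl (fun k => f k - f (k + 1)) atTop).mul_isLittleO
        (hc.comp_tendsto (tendsto_add_atTop_nat 1))).trans_isBigO
        (Asymptotics.IsBigO.of_bound 1 (Eventually.of_forall fun n => ?_))
      rw [Real.norm_of_nonneg (hg0 n), one_mul, Function.comp,
        Real.norm_of_nonneg (mul_nonneg (hd n) (Nat.cast_nonneg _))]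
      exact le_add_of_nonneg_right (hf0 n)
    refine (h2.sum_range hg0 (tendsto_atTop_mono (fun n => ?_) hF)).trans_isBigO
      (Asymptotics.IsBigO.of_bound 2 (Eventually.of_forall fun n => ?_))
    · rw [hs]; linarith [hB n]
    · rw [Real.norm_of_nonneg (Finset.sum_nonneg fun k _ => hg0 k), Real.norm_of_nonneg (hF0 n), hs]
      linarith [h1 n, hA n]

theorem bl_concave {x h p : ℝ} (hx : 0 < x) (hh : -x ≤ h) (hp0 : 0 ≤ p) (hp1 : p ≤ 1) :
    (x + h) ^ p ≤ x ^ p + p * h * x ^ (p - 1) := by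
  have h1 : -1 ≤ h / x := by rw [le_div_iff₀ hx]; linarith
  have h2 := rpow_one_add_le_one_add_mul_self h1 hp0 hp1
  have e : x + h = x * (1 + h / x) := by field_simp
  rw [e, Real.mul_rpow hx.le (by linarith), Real.rpow_sub_one hx.ne']
  have := mul_le_mul_of_nonneg_left h2 (Real.rpow_nonneg hx.le p)
  refine this.trans (le_of_eq ?_)
  field_simp

theorem bl_sum_rpow {s : ℝ} (hs0 : 0 ≤ s) (hs1 : s < 1) :
    Tendsto (fun n : ℕ => (∑ k ∈ Finset.range n, ((k : ℝ) + 1) ^ (-s)) / (n : ℝ) ^ (1 - s)) atTop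
      (𝓝 (1 / (1 - s))) := by
  have hp : 0 < 1 - s := by linarith
  have up : ∀ n : ℕ, (1 - s) * ∑ k ∈ Finset.range n, ((k : ℝ) + 1) ^ (-s) ≤ (n : ℝ) ^ (1 - s) := by
    intro n
    induction n with
    | zero => simp [Real.zero_rpow hp.ne']
    | succ n ih =>
      have hn : (0 : ℝ) ≤ n := Nat.cast_nonneg n
      have := bl_concave (x := (n : ℝ) + 1) (h := -1) (p := 1 - s) (by positivity) (by linarith)
        hp.le (by linarith)
      rw [add_neg_cancel_right, show 1 - s - 1 = -s by ring] at this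
      rw [Finset.sum_range_succ, mul_add]
      push_cast
      linarith
  have lo : ∀ n : ℕ, ((n : ℝ) + 1) ^ (1 - s) - 1 ≤
      (1 - s) * ∑ k ∈ Finset.range n, ((k : ℝ) + 1) ^ (-s) := by
    intro n
    induction n with
    | zero => simp
    | succ n ih =>
      have hn : (0 : ℝ) ≤ n := Nat.cast_nonneg n
      have := bl_concave (x := (n : ℝ) + 1) (h := 1) (p := 1 - s) (by positivity) (by linarith)
        hp.le (by linarith)
      rw [show 1 - s - 1 = -s by ring] at this
      rw [Finset.sum_range_succ, mul_add]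
      push_cast
      linarith
  have l1 : Tendsto (fun n : ℕ => (1 - ((n : ℝ) ^ (1 - s))⁻¹) / (1 - s)) atTop
      (𝓝 ((1 - 0) / (1 - s))) :=
    (tendsto_const_nhds.sub (((tendsto_rpow_atTop hp).comp
      tendsto_natCast_atTop_atTop).inv_tendsto_atTop)).div_const _
  rw [sub_zero] at l1
  refine tendsto_of_tendsto_of_tendsto_of_le_of_le' l1 tendsto_const_nhds ?_ ?_
  · filter_upwards [eventually_gt_atTop 0] with n hn
    have hn0 : (0 : ℝ) < n := by exact_mod_cast hn
    have hP : 0 < (n : ℝ) ^ (1 - s) := Real.rpow_pos_of_pos hn0 _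
    have h1 : (n : ℝ) ^ (1 - s) ≤ ((n : ℝ) + 1) ^ (1 - s) :=
      Real.rpow_le_rpow hn0.le (by linarith) hp.le
    rw [div_le_div_iff₀ hp hP, sub_mul, inv_mul_cancel₀ hP.ne']
    linarith [lo n]
  · filter_upwards [eventually_gt_atTop 0] with n hn
    have hn0 : (0 : ℝ) < n := by exact_mod_cast hn
    have hP : 0 < (n : ℝ) ^ (1 - s) := Real.rpow_pos_of_pos hn0 _
    rw [div_le_div_iff₀ hP hp]
    linarith [up n]

theorem bl_weighted {c : ℕ → ℝ} {L s : ℝ} (hs0 : 0 ≤ s) (hs1 : s < 1)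
    (h : Tendsto (fun n : ℕ => (∑ k ∈ Finset.range n, c k) / n) atTop (𝓝 L)) :
    Tendsto (fun n : ℕ => (∑ k ∈ Finset.range n, ((k : ℝ) + 1) ^ (-s) * c k) / (n : ℝ) ^ (1 - s))
      atTop (𝓝 (L / (1 - s))) := by
  have hp : 0 < 1 - s := by linarith
  have l1 := bl_sum_rpow hs0 hs1
  have l0 : Tendsto (fun n : ℕ => (n : ℝ) ^ (1 - s)) atTop atTop :=
    (tendsto_rpow_atTop hp).comp tendsto_natCast_atTop_atTop
  have hF : Tendsto (fun n : ℕ => ∑ k ∈ Finset.range n, ((k : ℝ) + 1) ^ (-s)) atTop atTop := by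
    refine (l1.pos_mul_atTop (by positivity) l0).congr' ?_
    filter_upwards [eventually_gt_atTop 0] with n hn
    have hn0 : (0 : ℝ) < n := by exact_mod_cast hn
    exact div_mul_cancel₀ _ (Real.rpow_pos_of_pos hn0 _).ne'
  have hc : (fun n => ∑ k ∈ Finset.range n, (c k - L)) =o[atTop] fun n : ℕ => (n : ℝ) := by
    rw [Asymptotics.isLittleO_iff_tendsto' (by
      filter_upwards [eventually_gt_atTop 0] with n hn h using absurd (by exact_mod_cast h) hn.ne')]
    have := h.sub_const L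
    rw [sub_self] at this
    refine this.congr' ?_
    filter_upwards [eventually_gt_atTop 0] with n hn
    have hn0 : (0 : ℝ) < n := by exact_mod_cast hn
    rw [Finset.sum_sub_distrib, Finset.sum_const, Finset.card_range, nsmul_eq_mul]
    field_simp
  have h2 := bl_small (f := fun k : ℕ => ((k : ℝ) + 1) ^ (-s)) (fun a b hab =>
    Real.rpow_le_rpow_of_nonpos (by positivity) (by
      have : (a : ℝ) ≤ b := by exact_mod_cast hab
      linarith) (by linarith)) (fun k => by positivity) hF hc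
  have l2 := ((h2.tendsto_div_nhds_zero.add_const L).mul l1)
  rw [zero_add, mul_one_div] at l2
  refine l2.congr' ?_
  filter_upwards [hF.eventually_gt_atTop 0] with n hn
  simp only [mul_sub, Finset.sum_sub_distrib, ← Finset.sum_mul]
  field_simp
  ring

/-- Partial summation (Abel summation against `y^(-1/6) / log y`, or in two steps). -/
theorem tendsto_sum_rpow : Tendsto (fun X : ℕ =>
    (∑ p ∈ (Nat.primesBelow (X + 1)).filter (fun p => p % 3 = 1), (p : ℝ) ^ (-(1 / 6) : ℝ)) /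
      ((X : ℝ) ^ (5 / 6 : ℝ) / Real.log X)) atTop (𝓝 (3 / 5)) := by
  -- the weights
  set a : ℕ → ℝ := fun k => if k.Prime ∧ k % 3 = 1 then Real.log k else 0 with ha
  set u : ℕ → ℝ := fun k => if k.Prime then 1 else 0 with hu
  have hsh : ∀ (g : ℕ → ℝ) (n : ℕ), ∑ k ∈ Finset.range n, g (k + 1) = ∑ k ∈ Finset.Ioc 0 n, g k := by
    intro g n
    induction n with
    | zero => simp
    | succ n ih => rw [Finset.sum_range_succ, ih, Finset.sum_Ioc_succ_top (Nat.zero_le n)]
  have h1 : Tendsto (fun n : ℕ => (∑ k ∈ Finset.range n, a (k + 1)) / n) atTop (𝓝 (1 / 2)) := by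
    refine (tendsto_theta_three.comp tendsto_natCast_atTop_atTop).congr fun n => ?_
    simp only [Function.comp, Nat.floor_natCast]
    rw [hsh a, Finset.sum_filter]
  have h2 : Tendsto (fun n : ℕ => (∑ k ∈ Finset.range n, u (k + 1)) / n) atTop (𝓝 0) := by
    have l := (Lib.PNT.tendsto_primeCounting_mul_log_div.mul
      Real.tendsto_log_atTop.inv_tendsto_atTop).comp tendsto_natCast_atTop_atTop
    rw [mul_zero] at l
    refine l.congr' ?_
    filter_upwards [eventually_gt_atTop 1] with n hn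
    have hL : 0 < Real.log n := Real.log_pos (by exact_mod_cast hn)
    have e : ∑ k ∈ Finset.range n, u (k + 1) = Nat.primeCounting n := by
      rw [Nat.primeCounting, Nat.primeCounting', Nat.count_eq_card_filter_range,
        Finset.card_filter, Finset.sum_range_succ']
      simp [hu]
    simp only [Function.comp, Nat.floor_natCast, Pi.inv_apply]
    rw [e]; field_simp
  have l1 := bl_weighted (s := 1 / 6) (by norm_num) (by norm_num) h1
  have l2 := (bl_weighted (s := 1 / 3) (by norm_num) (by norm_num) h2).const_mul 6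
  have l3 := l1.add l2
  rw [zero_div, mul_zero, add_zero] at l3
  rw [show (1 / 2 : ℝ) / (1 - 1 / 6) = 3 / 5 by norm_num] at l1 l3
  have hS : ∀ n : ℕ, ∑ p ∈ (Nat.primesBelow (n + 1)).filter (fun p => p % 3 = 1),
      (p : ℝ) ^ (-(1 / 6) : ℝ) = ∑ k ∈ Finset.range n,
        if (k + 1).Prime ∧ (k + 1) % 3 = 1 then ((k + 1 : ℕ) : ℝ) ^ (-(1 / 6) : ℝ) else 0 := by
    intro n
    rw [Nat.primesBelow, Finset.filter_filter, Finset.sum_filter, Finset.sum_range_succ']
    simp
  refine tendsto_of_tendsto_of_tendsto_of_le_of_le' l1 l3 ?_ ?_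
  · filter_upwards [eventually_gt_atTop 1] with n hn
    have hn1 : (1 : ℝ) < n := by exact_mod_cast hn
    have hP : 0 < (n : ℝ) ^ (5 / 6 : ℝ) := Real.rpow_pos_of_pos (by linarith) _
    rw [hS, div_div_eq_mul_div, show (1 : ℝ) - 1 / 6 = 5 / 6 by norm_num, Finset.sum_mul]
    refine div_le_div_of_nonneg_right (Finset.sum_le_sum fun k hk => ?_) hP.le
    simp only [ha]
    split_ifs with hp
    · push_cast
      refine mul_le_mul_of_nonneg_left (Real.log_le_log (by positivity) ?_) (by positivity)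
      exact_mod_cast Finset.mem_range.1 hk
    · simp
  · filter_upwards [eventually_gt_atTop 1] with n hn
    have hn1 : (1 : ℝ) < n := by exact_mod_cast hn
    have hn0 : (0 : ℝ) < n := by linarith
    have hP : 0 < (n : ℝ) ^ (5 / 6 : ℝ) := Real.rpow_pos_of_pos hn0 _
    have hQ : 0 < (n : ℝ) ^ (1 / 6 : ℝ) := Real.rpow_pos_of_pos hn0 _
    have e1 : (n : ℝ) ^ (1 - 1 / 3 : ℝ) = (n : ℝ) ^ (5 / 6 : ℝ) / (n : ℝ) ^ (1 / 6 : ℝ) := by
      rw [← Real.rpow_sub hn0]; norm_num
    rw [hS, div_div_eq_mul_div, show (1 : ℝ) - 1 / 6 = 5 / 6 by norm_num, e1, div_div_eq_mul_div,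
      ← mul_div_assoc, ← add_div, Finset.sum_mul, Finset.sum_mul, Finset.mul_sum,
      ← Finset.sum_add_distrib]
    refine div_le_div_of_nonneg_right (Finset.sum_le_sum fun k hk => ?_) hP.le
    have hk0 : (0 : ℝ) < k + 1 := by positivity
    simp only [ha, hu]
    by_cases hp : (k + 1).Prime ∧ (k + 1) % 3 = 1
    · rw [if_pos hp, if_pos hp, if_pos hp.1]
      push_cast
      have h3 := Real.log_le_rpow_div (div_pos hn0 hk0).le (show (0 : ℝ) < 1 / 6 by norm_num)
      rw [Real.log_div hn0.ne' hk0.ne', Real.div_rpow hn0.le hk0.le] at h3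
      have e2 : ((k : ℝ) + 1) ^ (-(1 / 3) : ℝ) =
          ((k : ℝ) + 1) ^ (-(1 / 6) : ℝ) / ((k : ℝ) + 1) ^ (1 / 6 : ℝ) := by
        rw [← Real.rpow_sub hk0]; norm_num
      have h4 := mul_le_mul_of_nonneg_left h3 (Real.rpow_nonneg hk0.le (-(1 / 6) : ℝ))
      rw [e2]
      have e3 : ((k : ℝ) + 1) ^ (-(1 / 6) : ℝ) *
          ((n : ℝ) ^ (1 / 6 : ℝ) / ((k : ℝ) + 1) ^ (1 / 6 : ℝ) / (1 / 6)) =
          6 * (((k : ℝ) + 1) ^ (-(1 / 6) : ℝ) / ((k : ℝ) + 1) ^ (1 / 6 : ℝ) * 1 *
            (n : ℝ) ^ (1 / 6 : ℝ)) := by ring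
      linarith
    · rw [if_neg hp, if_neg hp]
      have : (0 : ℝ) ≤ if (k + 1).Prime then 1 else 0 := by split_ifs <;> norm_num
      rw [zero_mul, mul_zero, zero_add]
      positivity

end Crest.Agent.R012

end
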