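import Crest.Agent.R012.SDefs

/-! # Row 12: cubic exponential sums modulo rational primes -/

set_option autoImplicit false

noncomputable section

open scoped BigOperators ComplexConjugate Topology
open Complex MeasureTheory Filter Set Crest.Agent.R017

namespace Crest.Agent.R012

/-- The cubic exponential sum. -/
def cS (p : ℕ) : ℂ :=
  ∑ x ∈ Finset.range p, Complex.exp (2 * Real.pi * Complex.I * ((x : ℂ) ^ 3 / (p : ℂ)))

/-- A primary prime above `p ≡ 1 mod 3`. -/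
def spl (p : ℕ) : O := if h : p.Prime ∧ p % 3 = 1 then (a4_split h.1 h.2).choose else 1

theorem spl_spec {p : ℕ} (hp : p.Prime) (h : p % 3 = 1) :
    Prime (spl p) ∧ Prim (spl p) ∧ nm (spl p) = p := by
  rw [spl, dif_pos ⟨hp, h⟩]
  exact (a4_split hp h).choose_spec

/-- `(ϖ̄ / ϖ) = (ϖ / ϖ̄) = conj (ϖ̄ / ϖ)` (`cubic_recip`, `kap_star`), a real cube root of unity. -/
theorem kap_star_self {ϖ : O} (hP : Prim ϖ) (h : IsCoprime ϖ (star ϖ)) : kap ϖ (star ϖ) = 1 := by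
  have h0 : kap ϖ (star ϖ) ≠ 0 := fun h0 =>
    ((kap_eq_zero hP.ne_zero).1 h0).elim hP.not_lam_dvd fun h' => h' h
  have h1 := kap_star ϖ (star ϖ)
  rw [star_star, ← cubic_recip hP hP.star, conj_kap, sq] at h1
  exact (mul_eq_left₀ h0).1 h1.symm

theorem BN_cube {L : Type} [Field L] [Fintype L] (h3 : Fintype.card L % 3 = 1) {y : L} (hy : y ≠ 0)
    (h : y ^ ((Fintype.card L - 1) / 3) = 1) : ∃ z : L, z ^ 3 = y := by
  classical
  obtain ⟨g, hg⟩ := IsCyclic.exists_monoid_generator (α := Lˣ)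
  obtain ⟨m, hm⟩ := hg (Units.mk0 y hy)
  have ho : orderOf g = Fintype.card L - 1 := by
    rw [← Fintype.card_units, ← Nat.card_eq_fintype_card]
    exact orderOf_eq_card_of_forall_mem_powers hg
  have h1 : 1 < Fintype.card L := Fintype.one_lt_card
  obtain ⟨e, he⟩ : ∃ e, Fintype.card L - 1 = 3 * e := ⟨(Fintype.card L - 1) / 3, by omega⟩
  have he0 : 0 < e := by omega
  have hm' : (g : L) ^ m = y := by
    have := congrArg Units.val hm
    simpa using this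
  rw [he, Nat.mul_div_cancel_left _ (by norm_num), ← hm', ← pow_mul, ← Units.val_pow_eq_pow_val,
    Units.val_eq_one, ← orderOf_dvd_iff_pow_eq_one, ho, he] at h
  obtain ⟨k, rfl⟩ := Nat.dvd_of_mul_dvd_mul_right he0 h
  exact ⟨(g : L) ^ k, by rw [← pow_mul, mul_comm, hm']⟩

theorem BN_card {L : Type} [Field L] [Fintype L] [DecidableEq L] {w : L} (hw : w ^ 2 + w + 1 = 0)
    (h1 : w ≠ 1) {z : L} (hz : z ≠ 0) :
    (Finset.univ.filter fun x : L => x ^ 3 = z ^ 3).card = 3 := by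
  have hw0 : w ≠ 0 := fun h => by rw [h] at hw; simp at hw
  have h2 : w ^ 2 ≠ 1 := fun h => by
    have : (w - 1) * (w + 1) = 0 := by linear_combination h
    rcases mul_eq_zero.1 this with h' | h'
    · exact h1 (sub_eq_zero.1 h')
    · exact hw0 (pow_eq_zero_iff two_ne_zero |>.1 (by linear_combination hw - h'))
  have e : (Finset.univ.filter fun x : L => x ^ 3 = z ^ 3) = {z, z * w, z * w ^ 2} := by
    ext x
    have : x ^ 3 - z ^ 3 = (x - z) * ((x - z * w) * (x - z * w ^ 2)) := by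
      linear_combination ((x - z) * (x * z - z ^ 2 * (w - 1))) * hw
    simp only [Finset.mem_filter, Finset.mem_univ, true_and, Finset.mem_insert,
      Finset.mem_singleton]
    rw [← sub_eq_zero, this, mul_eq_zero, mul_eq_zero, sub_eq_zero, sub_eq_zero, sub_eq_zero]
  rw [e, Finset.card_eq_three]
  refine ⟨_, _, _, fun h => h1 ?_, fun h => h2 ?_, fun h => h1 ?_, rfl⟩
  · exact ((mul_eq_left₀ hz).1 h.symm)
  · exact ((mul_eq_left₀ hz).1 h.symm)
  · rw [sq, ← mul_assoc] at h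
    exact (mul_eq_left₀ (mul_ne_zero hz hw0)).1 h.symm

/-- The number of cube roots of `y` modulo a prime `ϖ ∤ 3` is `1 + κ(y) + κ(y)²` (`g3_field`). -/
theorem sum_cube_eq {ϖ : O} (hϖ : Prime ϖ) (h3 : ¬ lam ∣ ϖ) (F : O → ℂ)
    (hF : ∀ x y, ϖ ∣ x - y → F x = F y) :
    ∑ x ∈ reps ϖ, F (x ^ 3) = ∑ y ∈ reps ϖ, (1 + kap ϖ y + kap ϖ y ^ 2) * F y := by
  classical
  obtain ⟨L, _, _, π, hs, hk, hc⟩ := g3_field hϖ
  obtain ⟨G, hG⟩ := g3_desc hs hk F hF
  obtain ⟨κ, hκ⟩ := g3_desc hs hk (kap ϖ) fun x y h => kap_congr' hϖ.ne_zero h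
  have hw : π om ^ 2 + π om + 1 = 0 := by
    rw [← map_pow, ← map_one π, ← map_add, ← map_add, om_sq, map_zero]
  have hw1 : π om ≠ 1 := fun h => by
    have := s1_distinct hϖ h3 (i := 1) (j := 0) (by norm_num) (by norm_num)
      ((g3_eq_iff hk _ _).1 (by rw [pow_one, pow_zero, h, map_one]))
    omega
  have key : ∀ y : L, ((Finset.univ.filter fun x : L => x ^ 3 = y).card : ℂ) =
      1 + κ y + κ y ^ 2 := by
    intro y
    obtain ⟨y, rfl⟩ := hs y
    rw [hκ]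
    by_cases hy : ϖ ∣ y
    · have e : (Finset.univ.filter fun x : L => x ^ 3 = π y) = {0} := by
        ext x; simp [(hk y).2 hy]
      rw [e, kap_prime hϖ, s1_kapP_dvd hϖ hy]; simp
    have hy0 : π y ≠ 0 := fun h => hy ((hk y).1 h)
    by_cases hcu : ∃ z : L, z ^ 3 = π y
    · obtain ⟨z, hz⟩ := hcu
      obtain ⟨z, rfl⟩ := hs z
      have hz0 : π z ≠ 0 := fun h => hy0 (by rw [← hz, h]; simp)
      have e1 : kap ϖ y = 1 := by
        rw [← hκ, ← hz, ← map_pow, hκ, kap_pow_right _ _ (by norm_num)]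
        refine kap_cube fun h => ((kap_eq_zero hϖ.ne_zero).1 h).elim h3 fun h' => h' ?_
        exact (hϖ.irreducible.coprime_iff_not_dvd).2 fun h'' => hz0 ((hk z).2 h'')
      rw [← hz, BN_card hw hw1 hz0, e1]; norm_num
    · have e : (Finset.univ.filter fun x : L => x ^ 3 = π y) = ∅ :=
        Finset.filter_eq_empty_iff.2 fun x _ h => hcu ⟨x, h⟩
      obtain ⟨j, hj, h1, h2⟩ := kap_prime_spec hϖ h3 hy
      rw [e, h2, Finset.card_empty, Nat.cast_zero]
      have hs3 := s1_omC_sum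
      have hc3 := s1_omC_cube
      interval_cases j
      · refine absurd (BN_cube (by rw [hc]; exact s1_nm_mod h3) hy0 ?_) hcu
        rw [hc, ← map_pow, ← map_one π, g3_eq_iff hk]
        simpa using h1
      · linear_combination -hs3
      · linear_combination -hs3 - omC * hc3
  have e1 : ∑ x ∈ reps ϖ, F (x ^ 3) = ∑ x : L, G (x ^ 3) := by
    rw [← g3_sum hϖ.ne_zero hs hk]
    exact Finset.sum_congr rfl fun x _ => by rw [← map_pow, hG]
  have e2 : ∑ y ∈ reps ϖ, (1 + kap ϖ y + kap ϖ y ^ 2) * F y =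
      ∑ y : L, (1 + κ y + κ y ^ 2) * G y := by
    rw [← g3_sum hϖ.ne_zero hs hk]
    exact Finset.sum_congr rfl fun x _ => by rw [hκ, hG]
  rw [e1, e2, ← Finset.sum_fiberwise Finset.univ fun x : L => x ^ 3]
  refine Finset.sum_congr rfl fun y _ => ?_
  rw [Finset.sum_congr rfl (g := fun _ => G y) fun x hx => by rw [(Finset.mem_filter.1 hx).2],
    Finset.sum_const, nsmul_eq_mul, key]

theorem BN_nm_star (x : O) : nm (star x) = nm x := by rw [nm, nm, nz_star]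

theorem BN_assoc {a b : O} (hb : b ≠ 0) (h : a ∣ b) (hn : nm a = nm b) : Associated a b := by
  obtain ⟨c, rfl⟩ := h
  have h0 : nm a ≠ 0 := fun h0 => hb (by rw [nm_eq_zero.1 h0, zero_mul])
  rw [nm_mul] at hn
  have h1 : nm c = 1 := (mul_eq_left₀ h0).1 hn.symm
  exact associated_mul_unit_right a c (isUnit_iff_Nr.2 (by rw [Nr, h1, Nat.cast_one]))

theorem BN_ne_star {ϖ : O} (hp : (nm ϖ).Prime) : ϖ ≠ star ϖ := fun h => by
  have h1 : ϖ.im = 0 := by
    have := congrArg QuadraticAlgebra.im h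
    rw [QuadraticAlgebra.im_star] at this
    omega
  have h2 : nm ϖ = ϖ.re.natAbs * ϖ.re.natAbs := by
    rw [nm, nz, h1, ← Int.natAbs_mul]; congr 1; ring
  rw [h2] at hp
  rcases Nat.prime_mul_iff.1 hp with ⟨h3, h4⟩ | ⟨h3, h4⟩ <;> exact h3.ne_one h4

theorem BN_not_dvd {ϖ : O} (hP : Prim ϖ) (hp : (nm ϖ).Prime) : ¬ ϖ ∣ star ϖ := fun h =>
  BN_ne_star hp (hP.eq_of_associated hP.star (BN_assoc hP.star.ne_zero h (BN_nm_star ϖ).symm))

theorem BN_nz_int (a : ℤ) : nz (a : O) = a ^ 2 := by simp [nz]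

theorem BN_dvd_int {ϖ : O} {p : ℕ} (hp : p.Prime) (h : nm ϖ = p) {a : ℤ} (ha : ϖ ∣ (a : O)) :
    (p : ℤ) ∣ a := by
  obtain ⟨c, hc⟩ := ha
  have h1 := congrArg nz hc
  rw [BN_nz_int, nz_mul, ← nm_cast ϖ, h] at h1
  exact (Nat.prime_iff_prime_int.1 hp).dvd_of_dvd_pow ⟨_, h1⟩

theorem BN_sum {ϖ : O} {p : ℕ} (hp : p.Prime) (h : nm ϖ = p) (f : O → ℂ)
    (hf : ∀ x y, ϖ ∣ x - y → f x = f y) : ∑ x ∈ reps ϖ, f x = ∑ t ∈ Finset.range p, f t := by
  have h0 : ϖ ≠ 0 := fun h0 => hp.ne_zero (by rw [← h, nm_eq_zero.2 h0])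
  have h2 : ∀ s ∈ Finset.range p, ∀ t ∈ Finset.range p, ϖ ∣ (s : O) - (t : O) → s = t := by
    intro s hs t ht hst
    rw [Finset.mem_range] at hs ht
    have h3 : (p : ℤ) ∣ (s : ℤ) - t := BN_dvd_int hp h (by push_cast; exact hst)
    have h4 := Int.eq_zero_of_abs_lt_dvd h3 (by rw [abs_lt]; constructor <;> omega)
    omega
  refine b3_sum_map h0 f hf _ _ (fun y => ?_) h2
  obtain ⟨t, ht, e⟩ := Finset.surj_on_of_inj_on_of_card_le (s := Finset.range p) (t := reps ϖ)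
    (fun t _ => b3_r ϖ t) (fun t _ => b3_r_mem h0 _) (fun s t hs ht hst => h2 s hs t ht (by
      have := dvd_sub (b3_r_dvd ϖ t) (b3_r_dvd ϖ s)
      rwa [show b3_r ϖ s = b3_r ϖ t from hst, sub_sub_sub_cancel_left] at this))
    (by rw [card_reps h0, h, Finset.card_range]) _ (b3_r_mem h0 y)
  refine ⟨t, ht, ?_⟩
  have := dvd_sub (b3_r_dvd ϖ y) (b3_r_dvd ϖ t)
  rwa [show b3_r ϖ y = b3_r ϖ t from e, sub_sub_sub_cancel_left] at this

theorem BN_eO {ϖ : O} (h0 : ϖ ≠ 0) (a : ℤ) : eO (sq3 * a) ϖ =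
    cexp (2 * Real.pi * I * ((a * (2 * ϖ.re - ϖ.im) : ℤ) / (nm ϖ : ℂ))) := by
  have hN : (0 : ℝ) < nm ϖ := Nr_pos h0
  have h3 : Real.sqrt 3 ≠ 0 := by positivity
  have e : 2 / Real.sqrt 3 * (emb (sq3 * a) / emb ϖ).im =
      ((a * (2 * ϖ.re - ϖ.im) : ℤ) : ℝ) / nm ϖ := by
    rw [Complex.div_im, Complex.normSq_eq_norm_sq, norm_emb_sq, map_mul, emb_sq3, map_intCast,
      b3_emb_re, Nr]
    simp only [mul_re, mul_im, ofReal_re, ofReal_im, I_re, I_im, intCast_re, intCast_im]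
    push_cast
    field_simp
    ring
  rw [eO, ec, e]
  push_cast
  rfl

theorem BN_eq_or {ϖ n : O} (hϖ : Prime ϖ) (hP : Prim ϖ) (hn : Prime n) (hn' : Prim n)
    (h : nm n = nm ϖ) : n = ϖ ∨ n = star ϖ := by
  have h1 : n ∣ ϖ * star ϖ := ⟨star n, by rw [← r1_nm_cast, ← h, r1_nm_cast]⟩
  rcases hn.dvd_or_dvd h1 with h2 | h2
  · exact Or.inl (hn'.eq_of_associated hP (BN_assoc hϖ.ne_zero h2 h))
  · exact Or.inr (hn'.eq_of_associated hP.star
      (BN_assoc hP.star.ne_zero h2 (h.trans (BN_nm_star ϖ).symm)))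

theorem BN_inert {n : O} (hn : Prime n) (h : ¬ (nm n).Prime) :
    ∃ l : ℕ, 0 < l ∧ nm n = l * l ∧ Associated n (l : O) := by
  obtain ⟨l, k, hl, hd, hk⟩ := r1_prime_under hn
  have hl0 : (l : O) ≠ 0 := fun h0 => by
    have := r1_nm_natCast l
    rw [h0, nm_eq_zero.2 rfl] at this
    exact pow_ne_zero 2 hl.ne_zero this.symm
  have h1 : l ^ k ∣ l ^ 2 := by
    obtain ⟨c, hc⟩ := hd
    rw [← hk, ← r1_nm_natCast, hc, nm_mul]
    exact dvd_mul_right _ _
  have h2 := (Nat.pow_dvd_pow_iff_le_right hl.one_lt).1 h1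
  interval_cases k
  · exact absurd (isUnit_iff_Nr.2 (by rw [Nr, hk]; simp)) hn.not_unit
  · exact absurd (by rwa [hk, pow_one]) h
  · exact ⟨l, hl.pos, by rw [hk, sq], BN_assoc hl0 hd (by rw [hk, r1_nm_natCast])⟩

/-- The integers `0 ≤ x < p` are a complete residue system modulo `ϖ`; for an integer `y`,
`eO (sq3 * y) ϖ = e(y T / p)` with `T = ϖ + ϖ̄ ≡ ϖ̄`; `kap ϖ̄ y = conj (kap ϖ y) = kap ϖ y ^ 2`. -/
theorem cS_eq {ϖ : O} (hϖ : Prime ϖ) (hP : Prim ϖ) {p : ℕ} (hp : p.Prime) (h : nm ϖ = p) :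
    cS p = (Real.sqrt p : ℂ) * (gt ϖ + gt (star ϖ)) := by
  have h0 := hϖ.ne_zero
  have h3 := hP.not_lam_dvd
  have hnd := BN_not_dvd hP (h ▸ hp)
  have hT : ((2 * ϖ.re - ϖ.im : ℤ) : O) = ϖ + star ϖ := by
    ext
    · rw [QuadraticAlgebra.re_intCast]; simp [QuadraticAlgebra.re_star]; ring
    · rw [QuadraticAlgebra.im_intCast]; simp [QuadraticAlgebra.im_star]
  have hcop : IsCoprime (p : ℤ) (2 * ϖ.re - ϖ.im) := by
    refine ((Nat.prime_iff_prime_int.1 hp).irreducible.coprime_iff_not_dvd).2 fun hd => hnd ?_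
    have h1 : ϖ ∣ ((p : ℤ) : O) := ⟨star ϖ, by rw [Int.cast_natCast, ← h, r1_nm_cast]⟩
    have h2 := h1.trans (Int.cast_dvd_cast _ _ hd)
    rw [hT] at h2
    exact (dvd_add_right dvd_rfl).1 h2
  obtain ⟨k, t, hkt⟩ := hcop
  have hp0 : (p : ℂ) ≠ 0 := by exact_mod_cast hp.ne_zero
  have hkap : kap ϖ t = 1 := by
    have h1 : ϖ ∣ (t : O) * star ϖ - 1 := by
      have h2 := congrArg (fun z : ℤ => (z : O)) hkt
      simp only [Int.cast_add, Int.cast_mul, Int.cast_one, Int.cast_natCast, hT] at h2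
      rw [← h, r1_nm_cast] at h2
      exact ⟨-(k * star ϖ + t), by linear_combination h2⟩
    have h2 := kap_congr' h0 h1
    rwa [kap_mul_right, kap_star_self hP (hϖ.irreducible.coprime_iff_not_dvd.2 hnd), mul_one,
      kap_one_right h3] at h2
  have hF : ∀ x y : O, ϖ ∣ x - y → eO (sq3 * t * x) ϖ = eO (sq3 * t * y) ϖ := fun x y hxy =>
    eO_congr (by rw [← mul_sub]; exact hxy.mul_left _)
  have e1 : cS p = ∑ x ∈ reps ϖ, eO (sq3 * t * x ^ 3) ϖ := by
    rw [BN_sum hp h (fun x => eO (sq3 * t * x ^ 3) ϖ) fun x y hxy =>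
      hF _ _ (hxy.trans (sub_dvd_pow_sub_pow x y 3)), cS]
    refine Finset.sum_congr rfl fun x _ => ?_
    have h1 := BN_eO h0 (t * (x : ℤ) ^ 3)
    rw [show (t * (x : ℤ) ^ 3 * (2 * ϖ.re - ϖ.im) : ℤ) = x ^ 3 + (-(k * x ^ 3)) * p by
      linear_combination (x : ℤ) ^ 3 * hkt, h] at h1
    push_cast at h1
    rw [mul_assoc sq3, h1, add_div, mul_div_cancel_right₀ _ hp0, mul_add, Complex.exp_add]
    have h2 := Complex.exp_int_mul_two_pi_mul_I (-(k * (x : ℤ) ^ 3))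
    push_cast at h2
    rw [mul_comm (2 * Real.pi * I : ℂ) (-(k * (x : ℂ) ^ 3)), h2, mul_one]
  have hsq : Squarefree ϖ := hϖ.irreducible.squarefree
  have e2 : gs (kap ϖ) ϖ (sq3 * t) = gs (kap ϖ) ϖ sq3 := by
    rw [gt_gs hP hsq, gt_gs hP hsq sq3, kap_mul_right, hkap, mul_one]
  have e3 : gs (fun x => kap ϖ x ^ 2) ϖ (sq3 * t) = conj (gs (kap ϖ) ϖ sq3) := by
    have h1 := conj_gs (kap ϖ) ϖ (-(sq3 * t))
    simp only [conj_kap, neg_neg] at h1
    rw [← h1, gt_gs hP hsq, gt_gs hP hsq sq3, kap_neg_right, kap_mul_right, hkap, mul_one]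
  have e4 : ∑ x ∈ reps ϖ, eO (sq3 * t * x) ϖ = 0 := by
    rw [sum_reps_eO h0, if_neg]
    intro hd
    have h1 : kap ϖ (sq3 * t) = 0 := by rw [kap_prime hϖ, s1_kapP_dvd hϖ hd]
    rw [kap_mul_right, hkap, mul_one] at h1
    exact gt_kap_sq3_ne hP h1
  have hs0 : (Real.sqrt p : ℂ) ≠ 0 := by
    have : (0 : ℝ) < p := by exact_mod_cast hp.pos
    exact_mod_cast (Real.sqrt_pos.2 this).ne'
  have e5 : gs (kap ϖ) ϖ sq3 = (Real.sqrt p : ℂ) * gt ϖ := by
    rw [gt, if_pos hsq, Nr, h, mul_div_cancel₀ _ hs0]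
  rw [e1, sum_cube_eq hϖ h3 (fun x => eO (sq3 * t * x) ϖ) hF]
  simp only [add_mul, one_mul, Finset.sum_add_distrib]
  rw [e4, zero_add, gt_star hP, mul_add]
  refine (congrArg₂ (· + ·) e2 e3).trans ?_
  rw [e5, map_mul, Complex.conj_ofReal]

open Classical in
/-- The primary primes of prime norm `p` are `spl p ≠ star (spl p)`; the others are associated
to rational primes `ℓ` with `ℓ² ≤ X` (`r1_prime_under`). -/
theorem psum_primes {f : O → ℂ} {K : ℝ} (hf : ∀ n, Prim n → ‖f n‖ ≤ K) (X : ℕ) :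
    ‖psum (fun n => if Prime n then f n else 0) X -
      ∑ p ∈ (Nat.primesBelow (X + 1)).filter (fun p => p % 3 = 1),
        (f (spl p) + f (star (spl p)))‖ ≤ K * Real.sqrt X := by
  have hK : 0 ≤ K := (norm_nonneg _).trans (hf 1 prim_one)
  set P := (pbox X).filter fun n => Prime n with hPdef
  have hmem : ∀ n, n ∈ P ↔ Prime n ∧ Prim n ∧ nm n ≤ X := fun n => by
    rw [hPdef, Finset.mem_filter, mem_pbox, Nr, Nat.cast_le]; tauto
  have e1 : ∑ n ∈ P.filter (fun n => (nm n).Prime), f n =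
      ∑ p ∈ (Nat.primesBelow (X + 1)).filter (fun p => p % 3 = 1),
        (f (spl p) + f (star (spl p))) := by
    rw [← Finset.sum_fiberwise_of_maps_to (g := nm)
      (t := (Nat.primesBelow (X + 1)).filter (fun p => p % 3 = 1))]
    · refine Finset.sum_congr rfl fun p hp => ?_
      rw [Finset.mem_filter, Nat.mem_primesBelow] at hp
      obtain ⟨h1, h2, h3⟩ := spl_spec hp.1.2 hp.2
      rw [← Finset.sum_pair (BN_ne_star (ϖ := spl p) (by rw [h3]; exact hp.1.2))]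
      refine Finset.sum_congr ?_ fun _ _ => rfl
      ext n
      simp only [Finset.mem_filter, hmem, Finset.mem_insert, Finset.mem_singleton]
      constructor
      · rintro ⟨⟨⟨a1, a2, -⟩, -⟩, a3⟩
        exact BN_eq_or h1 h2 a1 a2 (a3.trans h3.symm)
      · rintro (rfl | rfl)
        · exact ⟨⟨⟨h1, h2, by omega⟩, by rw [h3]; exact hp.1.2⟩, h3⟩
        · have h4 := (BN_nm_star (spl p)).trans h3
          exact ⟨⟨⟨r1_prime_star h1, h2.star, by omega⟩, by rw [h4]; exact hp.1.2⟩, h4⟩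
    · intro n hn
      rw [Finset.mem_filter, hmem] at hn
      rw [Finset.mem_filter, Nat.mem_primesBelow]
      exact ⟨⟨by omega, hn.2⟩, hn.1.2.1.nm_mod_three⟩
  have e2 : (P.filter fun n => ¬ (nm n).Prime).card ≤ Nat.sqrt X := by
    have := Finset.card_le_card_of_injOn (s := P.filter fun n => ¬ (nm n).Prime)
      (t := Finset.Icc 1 (Nat.sqrt X)) (fun n => Nat.sqrt (nm n)) (fun n hn => ?_)
      (fun n hn n' hn' e => ?_)
    · simpa using this
    · rw [Finset.mem_coe, Finset.mem_filter, hmem] at hn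
      obtain ⟨l, hl, h1, -⟩ := BN_inert hn.1.1 hn.2
      rw [Finset.mem_coe, Finset.mem_Icc]
      exact ⟨by simp only [h1, Nat.sqrt_eq]; exact hl, Nat.sqrt_le_sqrt hn.1.2.2⟩
    · rw [Finset.mem_coe, Finset.mem_filter, hmem] at hn hn'
      obtain ⟨l, -, h1, h2⟩ := BN_inert hn.1.1 hn.2
      obtain ⟨l', -, h1', h2'⟩ := BN_inert hn'.1.1 hn'.2
      simp only [h1, h1', Nat.sqrt_eq] at e
      subst e
      exact hn.1.2.1.eq_of_associated hn'.1.2.1 (h2.trans h2'.symm)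
  rw [psum, ← Finset.sum_filter, ← hPdef,
    ← Finset.sum_filter_add_sum_filter_not P (fun n => (nm n).Prime), e1, add_sub_cancel_left]
  refine (norm_sum_le _ _).trans ((Finset.sum_le_card_nsmul _ _ K fun n hn =>
    hf n ((hmem n).1 (Finset.mem_filter.1 hn).1).2.1).trans ?_)
  rw [nsmul_eq_mul, mul_comm]
  refine mul_le_mul_of_nonneg_left (le_trans ?_ Real.nat_sqrt_le_real_sqrt) hK
  exact_mod_cast e2

end Crest.Agent.R012

end
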