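import Crest.Agent.R012.Top
import Crest.Agent.R012.BridgeIso
import Crest.Agent.R012.BridgeLog
import Crest.Agent.R012.BridgeNat

/-! # Row 12: the two statements -/

set_option autoImplicit false

noncomputable section

open scoped BigOperators ComplexConjugate Topology
open Complex MeasureTheory Filter Set Crest.Agent.R017

namespace Crest.Agent.R012

open Crest.NumberTheoryR.CubicGauss

theorem bf_sbox (b : O → ℂ) (X : ℝ) : ∑ n ∈ sbox X, Lp n * b n = psum (fun n => Lp n * b n) X := by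
  refine Finset.sum_subset (fun n hn => ?_) fun n hn hn' => ?_
  · obtain ⟨h1, -, h3⟩ := q_mem_sbox.1 hn
    exact mem_pbox.2 ⟨h1, h3⟩
  · obtain ⟨h1, h3⟩ := mem_pbox.1 hn
    have : ¬ Prime n := fun hp => hn' (q_mem_sbox.2 ⟨h1, hp.squarefree, h3⟩)
    simp [Lp, this]

open Classical in
theorem bf_main (l : ℤ) :
    Tendsto (fun X : ℝ => psum (fun n => if Prime n then az l n * FF n else 0) X /
      ((X ^ (5 / 6 : ℝ) / Real.log X : ℝ) : ℂ)) atTop (𝓝 0) := by
  refine tendsto_unlog (K := 1 + cst) (fun n hn => ?_) ?_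
  · rw [norm_mul, norm_az l hn.ne_zero, one_mul]
    exact norm_FF_le hn
  · simpa only [← bf_sbox, mul_assoc] using main_log l

theorem bf_S0014 (σ : EisK →+* ℂ) (l : ℤ) :
    Tendsto (fun X : ℕ => twistedFirstMomentDefect σ l X /
        (((X : ℝ) ^ ((5 : ℝ) / 6) / Real.log (X : ℝ) : ℝ) : ℂ)) atTop (𝓝 0) := by
  simp only [br_defect]
  exact (bf_main l).comp tendsto_natCast_atTop_atTop

theorem bf_sqrt : Tendsto (fun X : ℝ => Real.sqrt X / (X ^ (5 / 6 : ℝ) / Real.log X)) atTop (𝓝 0) := by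
  have h := (isLittleO_log_rpow_atTop (r := 1 / 3) (by norm_num)).tendsto_div_nhds_zero
  refine h.congr' ?_
  filter_upwards [eventually_gt_atTop 0] with X hX
  have e : X ^ (5 / 6 : ℝ) = Real.sqrt X * X ^ (1 / 3 : ℝ) := by
    rw [Real.sqrt_eq_rpow, ← Real.rpow_add hX]; norm_num
  have := Real.sqrt_pos.2 hX
  rw [e, div_div_eq_mul_div, mul_div_mul_left _ _ this.ne']

theorem bf_S0013 :
    Tendsto (fun X : ℕ =>
      (∑ p ∈ (Nat.primesBelow (X + 1)).filter (fun p => p % 3 = 1),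
          cS p / (2 * (Real.sqrt (p : ℝ) : ℂ))) /
        (((X : ℝ) ^ ((5 : ℝ) / 6) / Real.log (X : ℝ) : ℝ) : ℂ))
      atTop (𝓝 ((((2 * Real.pi) ^ ((2 : ℝ) / 3) / (5 * Real.Gamma (2 / 3)) : ℝ) : ℂ))) := by
  classical
  set P : ℕ → Finset ℕ := fun X => (Nat.primesBelow (X + 1)).filter (fun p => p % 3 = 1) with hP
  set D : ℕ → ℝ := fun X => (X : ℝ) ^ ((5 : ℝ) / 6) / Real.log (X : ℝ) with hD
  have h1 : Tendsto (fun X : ℕ => psum (fun n => if Prime n then FF n else 0) X / (D X : ℂ))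
      atTop (𝓝 0) := by
    have h := (bf_main 0).comp tendsto_natCast_atTop_atTop
    simp only [az_zero, one_mul] at h
    exact h
  have h2 : Tendsto (fun X : ℕ => (psum (fun n => if Prime n then FF n else 0) X -
      ∑ p ∈ P X, (FF (spl p) + FF (star (spl p)))) / (D X : ℂ)) atTop (𝓝 0) := by
    have h := ((bf_sqrt.comp tendsto_natCast_atTop_atTop).norm).const_mul (1 + cst)
    rw [norm_zero, mul_zero] at h
    refine squeeze_zero_norm (fun X => ?_) h
    rw [norm_div, Function.comp, norm_div, norm_real, ← mul_div_assoc,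
      Real.norm_of_nonneg (Real.sqrt_nonneg _)]
    exact div_le_div_of_nonneg_right (psum_primes (fun n hn => norm_FF_le hn) X) (norm_nonneg _)
  have h3 : Tendsto (fun X : ℕ => (((∑ p ∈ P X, (p : ℝ) ^ (-(1 / 6) : ℝ)) / D X : ℝ) : ℂ))
      atTop (𝓝 ((3 / 5 : ℝ) : ℂ)) := (continuous_ofReal.tendsto _).comp tendsto_sum_rpow
  have h4 := ((h1.sub h2).const_mul (1 / 2)).add (h3.const_mul (cst : ℂ))
  have e : (1 / 2 : ℂ) * (0 - 0) + cst * ((3 / 5 : ℝ) : ℂ) =
      (((2 * Real.pi) ^ ((2 : ℝ) / 3) / (5 * Real.Gamma (2 / 3)) : ℝ) : ℂ) := by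
    rw [sub_self, mul_zero, zero_add, ← ofReal_mul, cst]
    congr 1
    have := (Real.Gamma_pos_of_pos (show (0 : ℝ) < 2 / 3 by norm_num)).ne'
    field_simp
  rw [e] at h4
  refine h4.congr fun X => ?_
  have e2 : ∑ p ∈ P X, cS p / (2 * (Real.sqrt (p : ℝ) : ℂ)) =
      (1 / 2) * ∑ p ∈ P X, (FF (spl p) + FF (star (spl p))) +
        cst * ((∑ p ∈ P X, (p : ℝ) ^ (-(1 / 6) : ℝ) : ℝ) : ℂ) := by
    rw [ofReal_sum, Finset.mul_sum, Finset.mul_sum, ← Finset.sum_add_distrib]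
    refine Finset.sum_congr rfl fun p hp => ?_
    obtain ⟨hp1, hp2⟩ := Finset.mem_filter.1 hp
    have hpp := Nat.prime_of_mem_primesBelow hp1
    obtain ⟨a1, a2, a3⟩ := spl_spec hpp hp2
    have a4 : Nr (spl p) = p := by rw [Nr, a3]
    have a5 : (Real.sqrt p : ℂ) ≠ 0 := by
      exact_mod_cast (Real.sqrt_pos.2 (by exact_mod_cast hpp.pos)).ne'
    rw [cS_eq a1 a2 hpp a3, FF, FF, md, md, if_pos a1.squarefree,
      if_pos (gt_sqf_star a1.squarefree), Nr_star, a4]
    field_simp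
    ring
  change _ = _ / (D X : ℂ)
  rw [e2, ofReal_div _ (D X)]
  ring

end Crest.Agent.R012

end
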