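import Crest.Agent.R012.Gt
import Crest.Agent.R017.LS1

/-! # Row 12: large sieve constants (definitions and formal properties) -/

set_option autoImplicit false

noncomputable section

open scoped BigOperators ComplexConjugate Topology
open Complex MeasureTheory Filter Crest.Agent.R017

namespace Crest.Agent.R012

/-- The row sum `∑_{b ∈ sbox M} a(b) (r / b)₃`. -/
def cr (M : ℝ) (a : O → ℂ) (r : O) : ℂ := ∑ b ∈ sbox M, a b * kap b r

/-- The `ℓ²` mass of the coefficients. -/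
def cl2 (M : ℝ) (a : O → ℂ) : ℝ := ∑ b ∈ sbox M, ‖a b‖ ^ 2

/-- The large sieve inequality with rows `S`, columns `sbox M` and constant `Λ`. -/
def LSb (S : Finset O) (M Λ : ℝ) : Prop :=
  ∀ a : O → ℂ, ∑ r ∈ S, ‖cr M a r‖ ^ 2 ≤ Λ * cl2 M a

theorem cl2_nonneg (M : ℝ) (a : O → ℂ) : 0 ≤ cl2 M a := by
  exact Finset.sum_nonneg fun _ _ => sq_nonneg _

theorem sbox_mono {M M' : ℝ} (h : M ≤ M') : sbox M ⊆ sbox M' := by
  intro b hb
  rw [q_mem_sbox] at hb ⊢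
  exact ⟨hb.1, hb.2.1, hb.2.2.trans h⟩

theorem sbox_subset_box (M : ℝ) : sbox M ⊆ box M := by
  intro b hb
  rw [q_mem_sbox] at hb
  exact mem_box.2 ⟨hb.1.ne_zero, hb.2.2⟩

theorem card_sbox_le {M : ℝ} (hM : 0 ≤ M) : ((sbox M).card : ℝ) ≤ 25 * M := by
  exact le_trans (by exact_mod_cast Finset.card_le_card (sbox_subset_box M)) (card_box_le hM)

theorem cl2_le {M : ℝ} {a a' : O → ℂ} (h : ∀ b ∈ sbox M, ‖a' b‖ ≤ ‖a b‖) : cl2 M a' ≤ cl2 M a := by
  exact Finset.sum_le_sum fun b hb => pow_le_pow_left₀ (norm_nonneg _) (h b hb) 2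

theorem cl2_le_of_bdd {M c : ℝ} (hM : 0 ≤ M) {a : O → ℂ} (h : ∀ b ∈ sbox M, ‖a b‖ ≤ c) :
    cl2 M a ≤ 25 * M * c ^ 2 := by
  have h1 := Finset.sum_le_card_nsmul (sbox M) (fun b => ‖a b‖ ^ 2) (c ^ 2) fun b hb =>
    pow_le_pow_left₀ (norm_nonneg _) (h b hb) 2
  rw [nsmul_eq_mul] at h1
  exact h1.trans (mul_le_mul_of_nonneg_right (card_sbox_le hM) (sq_nonneg c))

/-- `kap_mul_right`. -/
theorem cr_mul (M : ℝ) (a : O → ℂ) (s r : O) :
    cr M a (s * r) = cr M (fun b => a b * kap b s) r := by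
  simp only [cr, kap_mul_right, mul_assoc]

/-- `conj_kap`, `kap_pow_right`. -/
theorem norm_cr_sq (M : ℝ) (a : O → ℂ) (r : O) :
    ‖cr M a (r ^ 2)‖ = ‖cr M (fun b => conj (a b)) r‖ := by
  rw [← RCLike.norm_conj (cr M (fun b => conj (a b)) r)]
  simp only [cr, map_sum, map_mul, Complex.conj_conj, conj_kap, kap_pow_right _ _ two_ne_zero]

theorem LSb.mono {S S' : Finset O} {M Λ Λ' : ℝ} (h : LSb S M Λ) (hS : S' ⊆ S) (hΛ : Λ ≤ Λ') :
    LSb S' M Λ' := by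
  intro a
  exact (Finset.sum_le_sum_of_subset_of_nonneg hS fun _ _ _ => sq_nonneg _).trans
    ((h a).trans (mul_le_mul_of_nonneg_right hΛ (cl2_nonneg M a)))

theorem ca_cr {M M' : ℝ} (hM : M' ≤ M) {a : O → ℂ} (h : ∀ b ∈ sbox M, a b ≠ 0 → Nr b ≤ M')
    (r : O) : cr M a r = cr M' a r :=
  (Finset.sum_subset (sbox_mono hM) fun b hb hb' => by
    have h0 : a b = 0 := by_contra fun h0 =>
      hb' (q_mem_sbox.2 ⟨(q_mem_sbox.1 hb).1, (q_mem_sbox.1 hb).2.1, h b hb h0⟩)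
    rw [h0, zero_mul]).symm

theorem ca_cl2 {M M' : ℝ} (hM : M' ≤ M) (a : O → ℂ) : cl2 M' a ≤ cl2 M a :=
  Finset.sum_le_sum_of_subset_of_nonneg (sbox_mono hM) fun _ _ _ => sq_nonneg _

/-- Extend the coefficients by zero. -/
theorem LSb.mono_cols {S : Finset O} {M M' Λ : ℝ} (h : LSb S M Λ) (hM : M' ≤ M) : LSb S M' Λ := by
  classical
  intro a
  have h1 := h fun b => if b ∈ sbox M' then a b else 0
  have h2 : ∀ r, cr M (fun b => if b ∈ sbox M' then a b else 0) r = cr M' a r := fun r => by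
    simp only [cr, ite_mul, zero_mul, Finset.sum_ite_mem,
      Finset.inter_eq_right.2 (sbox_mono hM)]
  have h3 : cl2 M (fun b => if b ∈ sbox M' then a b else 0) = cl2 M' a := by
    simp only [cl2, apply_ite (fun z : ℂ => ‖z‖ ^ 2), norm_zero, ne_eq, OfNat.ofNat_ne_zero,
      not_false_eq_true, zero_pow, Finset.sum_ite_mem, Finset.inter_eq_right.2 (sbox_mono hM)]
  simpa only [h2, h3] using h1

theorem LSb_empty {M Λ : ℝ} (hΛ : 0 ≤ Λ) : LSb ∅ M Λ := by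
  intro a
  rw [Finset.sum_empty]
  exact mul_nonneg hΛ (cl2_nonneg M a)

/-- Twisting all the rows by a fixed element. -/
theorem LSb.twist {S : Finset O} {M Λ : ℝ} (h : LSb S M Λ) (hΛ : 0 ≤ Λ) (s : O) (a : O → ℂ) :
    ∑ r ∈ S, ‖cr M a (s * r)‖ ^ 2 ≤ Λ * cl2 M a := by
  simp only [cr_mul]
  refine (h _).trans (mul_le_mul_of_nonneg_left (cl2_le fun b _ => ?_) hΛ)
  rw [norm_mul]
  exact mul_le_of_le_one_right (norm_nonneg _) (norm_kap_le _ _)

theorem LSb.twist_sq {S : Finset O} {M Λ : ℝ} (h : LSb S M Λ) (hΛ : 0 ≤ Λ) (s : O) (a : O → ℂ) :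
    ∑ r ∈ S, ‖cr M a (s * r ^ 2)‖ ^ 2 ≤ Λ * cl2 M a := by
  simp only [cr_mul, norm_cr_sq]
  refine (h _).trans (mul_le_mul_of_nonneg_left (cl2_le fun b _ => ?_) hΛ)
  rw [RCLike.norm_conj, norm_mul]
  exact mul_le_of_le_one_right (norm_nonneg _) (norm_kap_le _ _)

/-- Duality: `q_duality` and `cubic_recip`. -/
theorem LSb.dual {K M Λ : ℝ} (h : LSb (sbox K) M Λ) (hΛ : 0 ≤ Λ) : LSb (sbox M) K Λ := by
  intro c
  refine le_of_eq_of_le (Finset.sum_congr rfl fun n hn => ?_)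
    (q_duality (sbox K) (sbox M) (fun m n => kap n m) hΛ h c)
  congr 2
  exact Finset.sum_congr rfl fun m hm => by
    rw [cubic_recip (q_mem_sbox.1 hm).1 (q_mem_sbox.1 hn).1]

/-- The trivial large sieve `ls_kap`. -/
theorem LSb_triv {ε : ℝ} (hε : 0 < ε) : ∃ C : ℝ, 0 ≤ C ∧ ∀ R M : ℝ, 1 ≤ R → 1 ≤ M →
    LSb (box R) M (C * M ^ ε * (R + M ^ 2)) := by
  obtain ⟨C, hC, h⟩ := ls_kap hε
  exact ⟨C, hC, fun R M hR hM a => h R M a hR hM⟩

/-- Reduction to dyadic columns: `q_dyadic`, `q_split` (the pieces are `a` restricted to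
`M / 2^i / 2 < N b ≤ M / 2^i`; a non-empty piece has `1 ≤ M / 2^i`). -/
theorem LSb_dyadic {ε : ℝ} (hε : 0 < ε) : ∃ C : ℝ, 0 ≤ C ∧ ∀ (S : Finset O) (M Λ : ℝ), 1 ≤ M → 0 ≤ Λ →
    (∀ (M' : ℝ) (a : O → ℂ), 1 ≤ M' → M' ≤ M → (∀ b ∈ sbox M', a b ≠ 0 → M' / 2 < Nr b) →
      ∑ r ∈ S, ‖cr M' a r‖ ^ 2 ≤ Λ * cl2 M' a) →
    LSb S M (C * M ^ ε * Λ) := by
  classical
  obtain ⟨C, hC, h⟩ := q_dyadic hε
  refine ⟨C, hC, fun S M Λ hM hΛ hS a => ?_⟩
  obtain ⟨J, ι, hJ, hι⟩ := h M hM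
  have hb : ∀ b ∈ sbox M, ι (Nr b) < J ∧ M / 2 ^ ι (Nr b) / 2 < Nr b ∧ Nr b ≤ M / 2 ^ ι (Nr b) :=
    fun b hb => hι _ (one_le_Nr (q_mem_sbox.1 hb).1.ne_zero) (q_mem_sbox.1 hb).2.2
  have h1 : ∀ r, ‖cr M a r‖ ^ 2 ≤ J * ∑ k ∈ Finset.range J,
      ‖cr M (fun b => if ι (Nr b) = k then a b else 0) r‖ ^ 2 := fun r => by
    have h2 := q_split (sbox M) (Finset.range J) (fun b => ι (Nr b))
      (fun b h => Finset.mem_range.2 (hb b h).1) fun b => a b * kap b r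
    rw [Finset.card_range] at h2
    simpa only [cr, ite_mul, zero_mul] using h2
  have h2 : ∀ k : ℕ, ∑ r ∈ S, ‖cr M (fun b => if ι (Nr b) = k then a b else 0) r‖ ^ 2 ≤
      Λ * cl2 M fun b => if ι (Nr b) = k then a b else 0 := by
    intro k
    have hk : M / 2 ^ k ≤ M := div_le_self (by linarith) (one_le_pow₀ one_le_two)
    have h3 : ∀ b, (if ι (Nr b) = k then a b else 0) ≠ 0 → ι (Nr b) = k := fun b h0 =>
      by_contra fun h1 => h0 (if_neg h1)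
    simp only [ca_cr hk (a := fun b => if ι (Nr b) = k then a b else 0) fun b h h0 =>
      h3 b h0 ▸ (hb b h).2.2]
    rcases lt_or_ge (M / 2 ^ k) 1 with h4 | h4
    · have h5 : sbox (M / 2 ^ k) = ∅ :=
        Finset.subset_empty.1 (box_eq_empty h4 ▸ sbox_subset_box _)
      simp only [cr, h5, Finset.sum_empty, norm_zero, ne_eq, OfNat.ofNat_ne_zero,
        not_false_eq_true, zero_pow, Finset.sum_const_zero]
      exact mul_nonneg hΛ (cl2_nonneg _ _)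
    · exact (hS _ _ h4 hk fun b h h0 => h3 b h0 ▸ (hb b (sbox_mono hk h)).2.1).trans
        (mul_le_mul_of_nonneg_left (ca_cl2 hk _) hΛ)
  have h3 : ∑ k ∈ Finset.range J, cl2 M (fun b => if ι (Nr b) = k then a b else 0) = cl2 M a := by
    unfold cl2
    rw [Finset.sum_comm]
    refine Finset.sum_congr rfl fun b h => ?_
    simp only [apply_ite (fun z : ℂ => ‖z‖ ^ 2), norm_zero, ne_eq, OfNat.ofNat_ne_zero,
      not_false_eq_true, zero_pow, Finset.sum_ite_eq, Finset.mem_range, (hb b h).1, if_true]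
  calc _ ≤ ∑ r ∈ S, J * ∑ k ∈ Finset.range J,
        ‖cr M (fun b => if ι (Nr b) = k then a b else 0) r‖ ^ 2 := Finset.sum_le_sum fun r _ => h1 r
    _ ≤ J * (Λ * cl2 M a) := by
        rw [← Finset.mul_sum, Finset.sum_comm, ← h3, Finset.mul_sum _ _ Λ]
        exact mul_le_mul_of_nonneg_left (Finset.sum_le_sum fun k _ => h2 k) (Nat.cast_nonneg J)
    _ ≤ _ := by
        rw [mul_assoc (C * M ^ ε)]
        exact mul_le_mul_of_nonneg_right hJ (mul_nonneg hΛ (cl2_nonneg _ _))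

end Crest.Agent.R012

end
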