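import Crest.Agent.R012.CA

/-! # Row 12: decomposition of the rows into blocks -/

set_option autoImplicit false

noncomputable section

open scoped BigOperators ComplexConjugate Topology
open Complex MeasureTheory Filter Crest.Agent.R017

namespace Crest.Agent.R012

open Classical in
/-- The rows `s k₁ k₂² j³` with `N s ≤ 9`, `N k₁ ≤ X`, `N k₂ ≤ Y`, `N j ≤ J`, `k₁ k₂` squarefree
and `k₁`, `k₂` primary. -/
def blk (X Y J : ℝ) : Finset O :=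
  ((box 9 ×ˢ box J ×ˢ sbox X ×ˢ sbox Y).filter (fun p => Squarefree (p.2.2.1 * p.2.2.2))).image
    (fun p => p.1 * p.2.1 ^ 3 * (p.2.2.1 * p.2.2.2 ^ 2))

theorem mem_blk {X Y J : ℝ} {r : O} : r ∈ blk X Y J ↔ ∃ s j k₁ k₂ : O, s ∈ box 9 ∧ j ∈ box J ∧
    k₁ ∈ sbox X ∧ k₂ ∈ sbox Y ∧ Squarefree (k₁ * k₂) ∧ r = s * j ^ 3 * (k₁ * k₂ ^ 2) := by
  classical
  simp only [blk, Finset.mem_image, Finset.mem_filter, Finset.mem_product]
  constructor
  · rintro ⟨⟨s, j, k₁, k₂⟩, ⟨⟨h1, h2, h3, h4⟩, h5⟩, h6⟩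
    exact ⟨s, j, k₁, k₂, h1, h2, h3, h4, h5, h6.symm⟩
  · rintro ⟨s, j, k₁, k₂, h1, h2, h3, h4, h5, h6⟩
    exact ⟨⟨s, j, k₁, k₂⟩, ⟨⟨h1, h2, h3, h4⟩, h5⟩, h6.symm⟩

/-- Primary elements (`Prim.induction`, or through multiplicities as in `exists_six`). -/
theorem exists_cubefree_prim {n : O} (hn : Prim n) : ∃ j k₁ k₂ : O, Prim j ∧ Prim k₁ ∧ Prim k₂ ∧
    Squarefree (k₁ * k₂) ∧ n = j ^ 3 * (k₁ * k₂ ^ 2) := by
  refine Prim.induction (P := fun n => ∃ j k₁ k₂ : O, Prim j ∧ Prim k₁ ∧ Prim k₂ ∧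
    Squarefree (k₁ * k₂) ∧ n = j ^ 3 * (k₁ * k₂ ^ 2)) ?_ ?_ hn
  · exact ⟨1, 1, 1, prim_one, prim_one, prim_one, by simp, by simp⟩
  · rintro p m hp hpp _ ⟨j, k₁, k₂, hj, h1, h2, hs, rfl⟩
    by_cases hd2 : p ∣ k₂
    · obtain ⟨c, rfl⟩ := hd2
      refine ⟨p * j, k₁, c, hpp.mul hj, h1, hpp.of_mul h2, ?_, by ring⟩
      exact hs.squarefree_of_dvd ⟨p, by ring⟩
    · by_cases hd1 : p ∣ k₁
      · obtain ⟨c, rfl⟩ := hd1
        refine ⟨j, c, p * k₂, hj, hpp.of_mul h1, hpp.mul h2, ?_, by ring⟩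
        have : c * (p * k₂) = p * c * k₂ := by ring
        rw [this]; exact hs
      · refine ⟨j, p * k₁, k₂, hj, hpp.mul h1, h2, ?_, by ring⟩
        rw [mul_assoc, squarefree_mul_iff]
        refine ⟨?_, hp.squarefree, hs⟩
        rw [hp.irreducible.isRelPrime_iff_not_dvd]
        intro h
        rcases hp.dvd_or_dvd h with h | h
        · exact hd1 h
        · exact hd2 h

/-- `exists_decomp`: `r = u λ^k n`, `k = 3 i + e`; `s = u λ^e`. -/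
theorem exists_cubefree {r : O} (hr : r ≠ 0) : ∃ s j k₁ k₂ : O, s ∈ box 9 ∧ rad s ∣ lam ∧ j ≠ 0 ∧
    Prim k₁ ∧ Prim k₂ ∧ Squarefree (k₁ * k₂) ∧ r = s * j ^ 3 * (k₁ * k₂ ^ 2) := by
  obtain ⟨u, k, n, hu, hn, rfl⟩ := exists_decomp hr
  obtain ⟨j, k₁, k₂, hj, h1, h2, hs, rfl⟩ := exists_cubefree_prim hn
  have hl : lam ≠ 0 := prime_lam.ne_zero
  refine ⟨u * lam ^ (k % 3), lam ^ (k / 3) * j, k₁, k₂, ?_, ?_, ?_, h1, h2, hs, ?_⟩
  · rw [mem_box]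
    refine ⟨mul_ne_zero hu.ne_zero (pow_ne_zero _ hl), ?_⟩
    rw [Nr_mul, Nr_pow, isUnit_iff_Nr.1 hu, Nr_lam, one_mul]
    have h3 : k % 3 ≤ 2 := by omega
    calc (3 : ℝ) ^ (k % 3) ≤ 3 ^ 2 := pow_le_pow_right₀ (by norm_num) h3
      _ = 9 := by norm_num
  · refine a1_rad_dvd_of fun p hp hd => ?_
    rcases hp.dvd_or_dvd hd with h | h
    · exact absurd (isUnit_of_dvd_unit h hu) hp.not_isUnit
    · exact hp.dvd_of_dvd_pow h
  · exact mul_ne_zero (pow_ne_zero _ hl) hj.ne_zero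
  · have hk : lam ^ k = lam ^ (k % 3) * (lam ^ (k / 3)) ^ 3 := by
      rw [← pow_mul, ← pow_add]
      congr 1
      omega
    rw [hk]; ring

theorem not_near_zero {r : O} (hr : r ≠ 0) : ¬ Near 0 r := by
  rintro ⟨k, y, rfl, hk⟩
  have : k = 0 := Nr_eq_zero.1 (le_antisymm hk (Nr_nonneg k))
  exact hr (by rw [this, zero_mul])

open Classical in
/-- A sum over a block is at most the sum over the parameters
(`Finset.sum_image_le_of_nonneg` or a chosen preimage). -/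
theorem sum_blk_le (X Y J : ℝ) (f : O → ℝ) (hf : ∀ r, 0 ≤ f r) :
    ∑ r ∈ blk X Y J, f r ≤ ∑ s ∈ box 9, ∑ j ∈ box J, ∑ k₁ ∈ sbox X, ∑ k₂ ∈ sbox Y,
      if Squarefree (k₁ * k₂) then f (s * j ^ 3 * (k₁ * k₂ ^ 2)) else 0 := by
  unfold blk
  refine (Finset.sum_image_le_of_nonneg (fun r _ => hf r)).trans (le_of_eq ?_)
  rw [Finset.sum_filter, Finset.sum_product]
  refine Finset.sum_congr rfl fun s _ => ?_
  rw [Finset.sum_product]
  refine Finset.sum_congr rfl fun j _ => ?_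
  rw [Finset.sum_product]

theorem cb_cover {ι : Type*} (S : Finset O) (I : Finset ι) (T : ι → Finset O) (f : O → ℝ)
    (hf : ∀ r, 0 ≤ f r) (h : ∀ r ∈ S, ∃ i ∈ I, r ∈ T i) :
    ∑ r ∈ S, f r ≤ ∑ i ∈ I, ∑ r ∈ T i, f r := by
  classical
  calc ∑ r ∈ S, f r ≤ ∑ r ∈ S, ∑ i ∈ I, (if r ∈ T i then f r else 0) := by
        refine Finset.sum_le_sum fun r hr => ?_
        obtain ⟨i, hi, hri⟩ := h r hr
        have := Finset.single_le_sum (f := fun i => if r ∈ T i then f r else 0)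
          (fun i _ => by split_ifs; exacts [hf r, le_rfl]) hi
        simpa only [if_pos hri] using this
    _ = ∑ i ∈ I, ∑ r ∈ S, (if r ∈ T i then f r else 0) := Finset.sum_comm
    _ ≤ ∑ i ∈ I, ∑ r ∈ T i, f r := by
        refine Finset.sum_le_sum fun i _ => ?_
        rw [← Finset.sum_filter]
        exact Finset.sum_le_sum_of_subset_of_nonneg
          (fun r hr => (Finset.mem_filter.1 hr).2) (fun r _ _ => hf r)

theorem cb_sum_le {ι : Type*} (S : Finset ι) (f : ι → ℝ) {N B : ℝ} (hN : (S.card : ℝ) ≤ N)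
    (hB : 0 ≤ B) (h : ∀ i ∈ S, f i ≤ B) : ∑ i ∈ S, f i ≤ N * B := by
  calc ∑ i ∈ S, f i ≤ ∑ i ∈ S, B := Finset.sum_le_sum h
    _ = S.card * B := by rw [Finset.sum_const, nsmul_eq_mul]
    _ ≤ N * B := mul_le_mul_of_nonneg_right hN hB

/-- Covering of the rows by `≪ R^ε` blocks: `exists_cubefree`, `q_dyadic` (with `V = R`, applied to
`N k₁` and `N k₂`): `X / 2 < N k₁ ≤ X`, `Y / 2 < N k₂ ≤ Y`, so `X Y² ≤ 8 R`,
`N j³ ≤ R / (N k₁ N k₂²) ≤ 8 R / (X Y²)`, and `Z < N (s k₁ k₂²) ≤ 9 X Y²` if the row is not `Near Z`.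
Bound the sum by the sum over the pairs of dyadic indices `(i₁, i₂)` that satisfy the side
conditions. -/
theorem rows_cover {ε : ℝ} (hε : 0 < ε) : ∃ C : ℝ, 0 ≤ C ∧ ∀ (R Z Λ : ℝ) (f : O → ℝ), 1 ≤ R → 0 ≤ Λ →
    (∀ r, 0 ≤ f r) →
    (∀ X Y : ℝ, 1 ≤ X → 1 ≤ Y → X ≤ R → Y ≤ R → X * Y ^ 2 ≤ 8 * R → Z < 9 * (X * Y ^ 2) →
      ∑ r ∈ (blk X Y ((8 * R / (X * Y ^ 2)) ^ (1 / 3 : ℝ))).filter (fun r => ¬ Near Z r), f r ≤ Λ) →
    ∑ r ∈ (box R).filter (fun r => ¬ Near Z r), f r ≤ C * R ^ ε * Λ := by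
  classical
  obtain ⟨C, hC0, hC⟩ := q_dyadic (half_pos hε)
  refine ⟨C ^ 2, by positivity, fun R Z Λ f hR hΛ hf h => ?_⟩
  obtain ⟨J, ι, hJ, hι⟩ := hC R hR
  have hR0 : 0 < R := by linarith
  let cond : ℕ × ℕ → Prop := fun i => 1 ≤ R / 2 ^ i.1 ∧ 1 ≤ R / 2 ^ i.2 ∧
    R / 2 ^ i.1 * (R / 2 ^ i.2) ^ 2 ≤ 8 * R ∧ Z < 9 * (R / 2 ^ i.1 * (R / 2 ^ i.2) ^ 2)
  let T : ℕ × ℕ → Finset O := fun i => if cond i then
    (blk (R / 2 ^ i.1) (R / 2 ^ i.2)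
      ((8 * R / (R / 2 ^ i.1 * (R / 2 ^ i.2) ^ 2)) ^ (1 / 3 : ℝ))).filter (fun r => ¬ Near Z r)
    else ∅
  have hle : ∀ i : ℕ, R / 2 ^ i ≤ R := fun i =>
    div_le_self hR0.le (one_le_pow₀ (by norm_num))
  have hT : ∀ i, ∑ r ∈ T i, f r ≤ Λ := by
    intro i
    by_cases hc : cond i
    · simp only [T, if_pos hc]
      exact h _ _ hc.1 hc.2.1 (hle _) (hle _) hc.2.2.1 hc.2.2.2
    · simp only [T, if_neg hc, Finset.sum_empty]
      exact hΛ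
  have hcov : ∀ r ∈ (box R).filter (fun r => ¬ Near Z r),
      ∃ i ∈ Finset.range J ×ˢ Finset.range J, r ∈ T i := by
    intro r hr
    obtain ⟨hr1, hr2⟩ := Finset.mem_filter.1 hr
    obtain ⟨hr0, hrR⟩ := mem_box.1 hr1
    obtain ⟨s, j, k₁, k₂, hs, -, hj, h1, h2, hsq, hre⟩ := exists_cubefree hr0
    obtain ⟨hs0, hs9⟩ := mem_box.1 hs
    have ns := one_le_Nr hs0
    have nj := one_le_Nr hj
    have n1 := one_le_Nr h1.ne_zero
    have n2 := one_le_Nr h2.ne_zero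
    have hN : Nr s * Nr j ^ 3 * (Nr k₁ * Nr k₂ ^ 2) ≤ R := by
      have := hrR
      rw [hre, Nr_mul, Nr_mul, Nr_mul, Nr_pow, Nr_pow] at this
      exact this
    have nj3 : 1 ≤ Nr j ^ 3 := one_le_pow₀ nj
    have n22 : 1 ≤ Nr k₂ ^ 2 := one_le_pow₀ n2
    have nk : 1 ≤ Nr k₁ * Nr k₂ ^ 2 := one_le_mul_of_one_le_of_one_le n1 n22
    have hN1 : Nr j ^ 3 * (Nr k₁ * Nr k₂ ^ 2) ≤ R := by
      have : 1 * (Nr j ^ 3 * (Nr k₁ * Nr k₂ ^ 2)) ≤ Nr s * (Nr j ^ 3 * (Nr k₁ * Nr k₂ ^ 2)) :=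
        mul_le_mul_of_nonneg_right ns (by positivity)
      linarith
    have hN2 : Nr k₁ * Nr k₂ ^ 2 ≤ R := by
      have : 1 * (Nr k₁ * Nr k₂ ^ 2) ≤ Nr j ^ 3 * (Nr k₁ * Nr k₂ ^ 2) :=
        mul_le_mul_of_nonneg_right nj3 (by positivity)
      linarith
    have hk1 : Nr k₁ ≤ R := by
      have : Nr k₁ * 1 ≤ Nr k₁ * Nr k₂ ^ 2 := mul_le_mul_of_nonneg_left n22 (by positivity)
      linarith
    have hk2 : Nr k₂ ≤ R := by
      have h3 : 1 * Nr k₂ ^ 2 ≤ Nr k₁ * Nr k₂ ^ 2 := mul_le_mul_of_nonneg_right n1 (by positivity)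
      nlinarith
    obtain ⟨a1, a2, a3⟩ := hι _ n1 hk1
    obtain ⟨b1, b2, b3⟩ := hι _ n2 hk2
    refine ⟨(ι (Nr k₁), ι (Nr k₂)), Finset.mem_product.2
      ⟨Finset.mem_range.2 a1, Finset.mem_range.2 b1⟩, ?_⟩
    set X := R / 2 ^ ι (Nr k₁) with hX
    set Y := R / 2 ^ ι (Nr k₂) with hY
    have hX1 : 1 ≤ X := n1.trans a3
    have hY1 : 1 ≤ Y := n2.trans b3
    have hXY : X * Y ^ 2 ≤ 8 * (Nr k₁ * Nr k₂ ^ 2) := by
      have e1 : X ≤ 2 * Nr k₁ := by linarith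
      have e2 : Y ^ 2 ≤ (2 * Nr k₂) ^ 2 := pow_le_pow_left₀ (by linarith) (by linarith) 2
      calc X * Y ^ 2 ≤ (2 * Nr k₁) * (2 * Nr k₂) ^ 2 :=
            mul_le_mul e1 e2 (by positivity) (by positivity)
        _ = 8 * (Nr k₁ * Nr k₂ ^ 2) := by ring
    have hXY' : Nr k₁ * Nr k₂ ^ 2 ≤ X * Y ^ 2 :=
      mul_le_mul a3 (pow_le_pow_left₀ (by linarith) b3 2) (by positivity) (by linarith)
    have hZ : Z < 9 * (X * Y ^ 2) := by
      by_contra hc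
      apply hr2
      refine ⟨s * (k₁ * k₂ ^ 2), j, by rw [hre]; ring, ?_⟩
      rw [Nr_mul, Nr_mul, Nr_pow]
      calc Nr s * (Nr k₁ * Nr k₂ ^ 2) ≤ 9 * (X * Y ^ 2) :=
            mul_le_mul hs9 hXY' (by positivity) (by norm_num)
        _ ≤ Z := not_lt.1 hc
    have hc : cond (ι (Nr k₁), ι (Nr k₂)) := ⟨hX1, hY1, by linarith, hZ⟩
    simp only [T, if_pos hc]
    refine Finset.mem_filter.2 ⟨mem_blk.2 ⟨s, j, k₁, k₂, hs, mem_box.2 ⟨hj, ?_⟩,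
      q_mem_sbox.2 ⟨h1, hsq.squarefree_of_dvd (dvd_mul_right _ _), a3⟩,
      q_mem_sbox.2 ⟨h2, hsq.squarefree_of_dvd (dvd_mul_left _ _), b3⟩, hsq, hre⟩, hr2⟩
    have hp : 0 < X * Y ^ 2 := by positivity
    have h3 : Nr j ^ 3 ≤ 8 * R / (X * Y ^ 2) := by
      rw [le_div_iff₀ hp]
      calc Nr j ^ 3 * (X * Y ^ 2) ≤ Nr j ^ 3 * (8 * (Nr k₁ * Nr k₂ ^ 2)) :=
            mul_le_mul_of_nonneg_left hXY (by positivity)
        _ = 8 * (Nr j ^ 3 * (Nr k₁ * Nr k₂ ^ 2)) := by ring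
        _ ≤ 8 * R := by linarith
    have h4 : Nr j = (Nr j ^ 3) ^ (1 / 3 : ℝ) := by
      rw [show (1 / 3 : ℝ) = ((3 : ℕ) : ℝ)⁻¹ by norm_num,
        Real.pow_rpow_inv_natCast (by linarith) (by norm_num)]
    rw [h4]
    exact Real.rpow_le_rpow (by positivity) h3 (by norm_num)
  refine (cb_cover _ _ T f hf hcov).trans ?_
  calc ∑ i ∈ Finset.range J ×ˢ Finset.range J, ∑ r ∈ T i, f r
      ≤ ∑ i ∈ Finset.range J ×ˢ Finset.range J, Λ := Finset.sum_le_sum fun i _ => hT i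
    _ = (J : ℝ) ^ 2 * Λ := by
      rw [Finset.sum_const, Finset.card_product, Finset.card_range, nsmul_eq_mul]
      push_cast; ring
    _ ≤ (C * R ^ (ε / 2)) ^ 2 * Λ :=
      mul_le_mul_of_nonneg_right (pow_le_pow_left₀ (by positivity) hJ 2) hΛ
    _ = C ^ 2 * R ^ ε * Λ := by
      have : R ^ ε = (R ^ (ε / 2)) ^ 2 := by
        rw [sq, ← Real.rpow_add hR0]; congr 1; ring
      rw [this]; ring

/-- Large sieve in `k₁` (`sum_blk_le`, `LSb.twist`, `card_box_le`). -/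
theorem blk_ls₁ {X Y J M Λ : ℝ} (hY : 0 ≤ Y) (hJ : 0 ≤ J) (hΛ : 0 ≤ Λ) (h : LSb (sbox X) M Λ) :
    LSb (blk X Y J) M (225 * 625 * Y * J * Λ) := by
  classical
  intro a
  have hl := cl2_nonneg M a
  refine (sum_blk_le X Y J _ (fun r => by positivity)).trans ?_
  have key : ∀ s j : O, ∑ k₁ ∈ sbox X, ∑ k₂ ∈ sbox Y,
      (if Squarefree (k₁ * k₂) then ‖cr M a (s * j ^ 3 * (k₁ * k₂ ^ 2))‖ ^ 2 else 0) ≤
      25 * Y * (Λ * cl2 M a) := by
    intro s j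
    rw [Finset.sum_comm]
    refine cb_sum_le _ _ (card_sbox_le hY) (by positivity) fun k₂ _ => ?_
    refine le_trans (Finset.sum_le_sum fun k₁ _ => ?_) (h.twist hΛ (s * j ^ 3 * k₂ ^ 2) a)
    split_ifs
    · exact le_of_eq (by congr 3; ring)
    · positivity
  have h9 : ((box 9).card : ℝ) ≤ 225 := (card_box_le (by norm_num)).trans (by norm_num)
  refine (cb_sum_le _ _ h9 (B := 25 * J * (25 * Y * (Λ * cl2 M a))) (by positivity) fun s _ =>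
    cb_sum_le _ _ (card_box_le hJ) (by positivity) fun j _ => key s j).trans (le_of_eq (by ring))

/-- Large sieve in `k₂` (`LSb.twist_sq`). -/
theorem blk_ls₂ {X Y J M Λ : ℝ} (hX : 0 ≤ X) (hJ : 0 ≤ J) (hΛ : 0 ≤ Λ) (h : LSb (sbox Y) M Λ) :
    LSb (blk X Y J) M (225 * 625 * X * J * Λ) := by
  classical
  intro a
  have hl := cl2_nonneg M a
  refine (sum_blk_le X Y J _ (fun r => by positivity)).trans ?_
  have key : ∀ s j : O, ∑ k₁ ∈ sbox X, ∑ k₂ ∈ sbox Y,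
      (if Squarefree (k₁ * k₂) then ‖cr M a (s * j ^ 3 * (k₁ * k₂ ^ 2))‖ ^ 2 else 0) ≤
      25 * X * (Λ * cl2 M a) := by
    intro s j
    refine cb_sum_le _ _ (card_sbox_le hX) (by positivity) fun k₁ _ => ?_
    refine le_trans (Finset.sum_le_sum fun k₂ _ => ?_) (h.twist_sq hΛ (s * j ^ 3 * k₁) a)
    split_ifs
    · exact le_of_eq (by congr 3; ring)
    · positivity
  have h9 : ((box 9).card : ℝ) ≤ 225 := (card_box_le (by norm_num)).trans (by norm_num)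
  refine (cb_sum_le _ _ h9 (B := 25 * J * (25 * X * (Λ * cl2 M a))) (by positivity) fun s _ =>
    cb_sum_le _ _ (card_box_le hJ) (by positivity) fun j _ => key s j).trans (le_of_eq (by ring))

theorem card_blk_le {X Y J : ℝ} (hX : 0 ≤ X) (hY : 0 ≤ Y) (hJ : 0 ≤ J) :
    ((blk X Y J).card : ℝ) ≤ 225 * 15625 * (X * Y * J) := by
  classical
  have h9 : ((box 9).card : ℝ) ≤ 225 := (card_box_le (by norm_num)).trans (by norm_num)
  have h1 : (blk X Y J).card ≤ (box 9).card * ((box J).card * ((sbox X).card * (sbox Y).card)) := by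
    unfold blk
    refine Finset.card_image_le.trans ((Finset.card_filter_le _ _).trans (le_of_eq ?_))
    rw [Finset.card_product, Finset.card_product, Finset.card_product]
  have h2 : ((blk X Y J).card : ℝ) ≤
      (box 9).card * ((box J).card * ((sbox X).card * (sbox Y).card)) := by exact_mod_cast h1
  refine h2.trans ?_
  calc ((box 9).card : ℝ) * ((box J).card * ((sbox X).card * (sbox Y).card))
      ≤ 225 * (25 * J * (25 * X * (25 * Y))) := by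
        have := card_box_le hJ
        have := card_sbox_le hX
        have := card_sbox_le hY
        gcongr
    _ = 225 * 15625 * (X * Y * J) := by ring

end Crest.Agent.R012

end
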