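import Crest.Agent.R012.CB

/-! # Row 12: the simple large sieve in terms of the conductor -/

set_option autoImplicit false

noncomputable section

open scoped BigOperators ComplexConjugate Topology
open Complex MeasureTheory Filter Crest.Agent.R017

namespace Crest.Agent.R012

theorem cc_exists_u {p N : O} (hp : Prime p) (hN : Prim N) (hpN : p ∣ N) : ∃ u : O,
    ∀ n, Squarefree n → n ∣ N → (p ∣ n → kap n u = omC) ∧ (¬ p ∣ n → kap n u = 1) := by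
  obtain ⟨e, N', hN', rfl⟩ := WfDvdMonoid.max_power_factor hN.ne_zero hp.irreducible
  obtain ⟨x₀, hx₀⟩ := kap_nontrivial hp fun h => hN.not_lam_dvd (h.trans hpN)
  obtain ⟨s, t, hst⟩ := hp.irreducible.coprime_iff_not_dvd.2 hN'
  set u := s * p + t * N' * x₀ with hu
  have u1 : p ∣ u - x₀ := ⟨s * (1 - x₀), by rw [hu]; linear_combination x₀ * hst⟩
  have u2 : N' ∣ u - 1 := ⟨t * (x₀ - 1), by rw [hu]; linear_combination hst⟩
  have key : ∀ n, n ≠ 0 → n ∣ p ^ e * N' → ¬ p ∣ n → kap n u = 1 := fun n hn h1 h2 => by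
    have h3 : n ∣ N' :=
      (hp.irreducible.coprime_iff_not_dvd.2 h2).symm.pow_right.dvd_of_dvd_mul_left h1
    rw [kap_congr' hn (h3.trans u2), kap_one_right fun h => hN.not_lam_dvd (h.trans h1)]
  refine ⟨u, fun n hn h1 => ⟨?_, key n hn.ne_zero h1⟩⟩
  rintro ⟨m, rfl⟩
  have hm : m ≠ 0 := right_ne_zero_of_mul hn.ne_zero
  rw [kap_mul_left hp.ne_zero hm, kap_congr' hp.ne_zero u1, hx₀, key m hm
    ((dvd_mul_left _ _).trans h1) fun hd => hp.not_isUnit (hn p (mul_dvd_mul_left p hd)), mul_one]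

theorem cc_kap {k₁ k₂ : O} (h₁ : Prim k₁) (h₂ : Prim k₂) (x : O) :
    kap (k₁ * k₂ ^ 2) x = kap k₁ x * kap k₂ x ^ 2 := by
  rw [kap_mul_left h₁.ne_zero (h₂.pow 2).ne_zero, kap_pow_left h₂.ne_zero]

theorem cc_per {k₁ k₂ : O} (h₁ : Prim k₁) (h₂ : Prim k₂) {x y : O} (h : k₁ * k₂ ∣ x - y) :
    kap (k₁ * k₂ ^ 2) x = kap (k₁ * k₂ ^ 2) y := by
  rw [cc_kap h₁ h₂, cc_kap h₁ h₂, kap_congr' h₁.ne_zero ((dvd_mul_right _ _).trans h),
    kap_congr' h₂.ne_zero ((dvd_mul_left _ _).trans h)]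

theorem cc_eq {a b : O} (ha : Prim a) (hb : Prim b) (sa : Squarefree a) (sb : Squarefree b)
    (h : ∀ p, Prime p → (p ∣ a ↔ p ∣ b)) : a = b := by
  refine ha.eq_of_associated hb (associated_of_dvd_dvd ?_ ?_)
  · rw [← rad_eq_self ha sa]; exact a1_rad_dvd_of fun p hp => (h p hp).1
  · rw [← rad_eq_self hb sb]; exact a1_rad_dvd_of fun p hp => (h p hp).2

/-- Orthogonality of the characters `x ↦ κ(k₁, x) κ(k₂, x)²` for distinct pairs. Choose a prime `p`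
whose exponent differs in `k₁ k₂²` and `k₁' k₂'²` (exponents lie in `{0, 1, 2}`); with
`n = p n'`, where `n'` collects the rest (or directly `ls_sum_zero` with `u ≡ x₀ mod p`,
`u ≡ 1` modulo the other primes, `kap p x₀ = ω` from `kap_nontrivial`; compare `ls_Sym.orth_aux`
in `R017/LS1.lean`). -/
theorem cc_orth {k₁ k₂ m₁ m₂ : O} (h₁ : Prim k₁) (h₂ : Prim k₂) (h₃ : Prim m₁) (h₄ : Prim m₂)
    (hk : Squarefree (k₁ * k₂)) (hm : Squarefree (m₁ * m₂)) (hne : (k₁, k₂) ≠ (m₁, m₂)) :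
    ∑ x ∈ reps (k₁ * k₂ * (m₁ * m₂)),
      kap (k₁ * k₂ ^ 2) x * conj (kap (m₁ * m₂ ^ 2) x) = 0 := by
  have s₁ := hk.of_mul_left
  have s₂ := hk.of_mul_right
  have s₃ := hm.of_mul_left
  have s₄ := hm.of_mul_right
  have hN := (h₁.mul h₂).mul (h₃.mul h₄)
  have d₁ : k₁ ∣ k₁ * k₂ * (m₁ * m₂) := (dvd_mul_right _ _).mul_right _
  have d₂ : k₂ ∣ k₁ * k₂ * (m₁ * m₂) := (dvd_mul_left _ _).mul_right _
  have d₃ : m₁ ∣ k₁ * k₂ * (m₁ * m₂) := (dvd_mul_right _ _).mul_left _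
  have d₄ : m₂ ∣ k₁ * k₂ * (m₁ * m₂) := (dvd_mul_left _ _).mul_left _
  obtain ⟨p, hp, hd⟩ : ∃ p, Prime p ∧ ¬ ((p ∣ k₁ ↔ p ∣ m₁) ∧ (p ∣ k₂ ↔ p ∣ m₂)) := by
    by_contra hc
    push Not at hc
    exact hne (Prod.ext (cc_eq h₁ h₃ s₁ s₃ fun p hp => (hc p hp).1)
      (cc_eq h₂ h₄ s₂ s₄ fun p hp => (hc p hp).2))
  have hpN : p ∣ k₁ * k₂ * (m₁ * m₂) := by
    by_contra hc
    exact hd ⟨iff_of_false (fun h => hc (h.trans d₁)) fun h => hc (h.trans d₃),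
      iff_of_false (fun h => hc (h.trans d₂)) fun h => hc (h.trans d₄)⟩
  obtain ⟨u, hu⟩ := cc_exists_u hp hN hpN
  have hc : ∀ n, Squarefree n → n ∣ k₁ * k₂ * (m₁ * m₂) → IsCoprime n u := fun n hn h => by
    by_contra hc
    have h0 := (kap_eq_zero hn.ne_zero).2 (Or.inr hc)
    by_cases h1 : p ∣ n
    · exact s1_omC_ne (((hu n hn h).1 h1).symm.trans h0)
    · exact one_ne_zero (((hu n hn h).2 h1).symm.trans h0)
  refine ls_sum_zero (u := u) hN.ne_zero _ (fun x y h => ?_) (fun x y => ?_)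
    ((hc _ hk (dvd_mul_right _ _)).mul_left (hc _ hm (dvd_mul_left _ _))).symm fun h1 => ?_
  · rw [cc_per h₁ h₂ ((dvd_mul_right _ _).trans h), cc_per h₃ h₄ ((dvd_mul_left _ _).trans h)]
  · rw [kap_mul_right, kap_mul_right, map_mul]; ring
  · have n₁ : ¬ (p ∣ k₁ ∧ p ∣ k₂) := fun h => hp.not_isUnit (hk p (mul_dvd_mul h.1 h.2))
    have n₂ : ¬ (p ∣ m₁ ∧ p ∣ m₂) := fun h => hp.not_isUnit (hm p (mul_dvd_mul h.1 h.2))
    have w3 := s1_omC_cube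
    have w1 : omC ≠ 1 := g3_omC_ne.2.1
    have w2 : omC ^ 2 ≠ 1 := fun h => w1 (by linear_combination w3 - omC * h)
    rw [conj_kap, cc_kap h₁ h₂, cc_kap h₃ h₄] at h1
    by_cases a₁ : p ∣ k₁ <;> by_cases a₂ : p ∣ k₂ <;> by_cases a₃ : p ∣ m₁ <;>
      by_cases a₄ : p ∣ m₂ <;>
      first
      | exact n₁ ⟨a₁, a₂⟩
      | exact n₂ ⟨a₃, a₄⟩
      | exact hd ⟨by tauto, by tauto⟩
      | (first | rw [(hu _ s₁ d₁).1 a₁] at h1 | rw [(hu _ s₁ d₁).2 a₁] at h1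
         first | rw [(hu _ s₂ d₂).1 a₂] at h1 | rw [(hu _ s₂ d₂).2 a₂] at h1
         first | rw [(hu _ s₃ d₃).1 a₃] at h1 | rw [(hu _ s₃ d₃).2 a₃] at h1
         first | rw [(hu _ s₄ d₄).1 a₄] at h1 | rw [(hu _ s₄ d₄).2 a₄] at h1
         first
         | exact w1 (by linear_combination h1)
         | exact w2 (by linear_combination h1)
         | exact w1 (by linear_combination h1 - omC * w3)
         | exact w2 (by linear_combination h1 - omC ^ 2 * w3))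

/-- A general large sieve for an orthogonal family (follow `ls_Sym.main` in `R017/LS1.lean` with
`T = max R (B ^ (2 + ε))`: majorise `box R` by `Phi (N x / T) / Phi 1`, expand the square, diagonal
`tsum_Phi_le`, off-diagonal `ls_off`, `2 |c_i c_j| ≤ |c_i|² + |c_j|²`). -/
theorem cc_gls {ε : ℝ} (hε : 0 < ε) : ∃ C : ℝ, 0 ≤ C ∧ ∀ {ι : Type} (S : Finset ι) (q : ι → O)
    (ψ : ι → O → ℂ) (c : ι → ℂ) (R B D : ℝ), 1 ≤ R → 1 ≤ B → 0 ≤ D → (S.card : ℝ) ≤ D * B →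
    (∀ i ∈ S, q i ≠ 0 ∧ Nr (q i) ≤ B ∧ (∀ x y, q i ∣ x - y → ψ i x = ψ i y) ∧ ∀ x, ‖ψ i x‖ ≤ 1) →
    (∀ i ∈ S, ∀ j ∈ S, i ≠ j → ∑ x ∈ reps (q i * q j), ψ i x * conj (ψ j x) = 0) →
    ∑ x ∈ box R, ‖∑ i ∈ S, c i * ψ i x‖ ^ 2 ≤ C * (1 + D) * (R + B ^ (2 + ε)) * ∑ i ∈ S, ‖c i‖ ^ 2 := by
  classical
  obtain ⟨C₁, hC₁, H₁⟩ := ls_off hε
  obtain ⟨C₂, H₂⟩ := tsum_Phi_le
  have hC₂ : 0 ≤ C₂ := by
    have h1 := H₂ 1 one_pos
    have h2 : 0 ≤ ∑' x : O, Phi (Nr x / 1) := tsum_nonneg fun x => (Phi_pos _).le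
    linarith
  have hP := Phi_pos 1
  refine ⟨(2 * C₂ + C₁) / Phi 1, by positivity,
    fun {ι} S q ψ a R B D hR hB hD hcard hS horth => ?_⟩
  have hB0 : 0 < B := by linarith
  set T := R + B ^ (2 + ε) with hT
  have hBp : 0 < B ^ (2 + ε) := Real.rpow_pos_of_pos hB0 _
  have hT1 : 1 ≤ T := by linarith
  have hT0 : 0 < T := by linarith
  set F : O → ℂ := fun r => ∑ b ∈ S, a b * ψ b r with hF
  have hsum := p1_summable0 hT0
  have hsf : ∀ f : O → ℂ, (∀ x, ‖f x‖ ≤ 1) → Summable fun x : O => (Phi (Nr x / T) : ℂ) * f x := by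
    intro f hf
    refine Summable.of_norm_bounded hsum fun x => ?_
    rw [norm_mul, Complex.norm_real, Real.norm_of_nonneg (Phi_pos _).le]
    exact mul_le_of_le_one_right (Phi_pos _).le (hf x)
  have hkk : ∀ b₁ ∈ S, ∀ b₂ ∈ S, ∀ x, ‖ψ b₁ x * conj (ψ b₂ x)‖ ≤ 1 := fun b₁ h₁ b₂ h₂ x => by
    rw [norm_mul, Complex.norm_conj]
    exact mul_le_one₀ ((hS _ h₁).2.2.2 _) (norm_nonneg _) ((hS _ h₂).2.2.2 _)
  have hexp : ∀ x, ((Phi (Nr x / T) * ‖F x‖ ^ 2 : ℝ) : ℂ) =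
      ∑ b₁ ∈ S, ∑ b₂ ∈ S, a b₁ * conj (a b₂) *
        ((Phi (Nr x / T) : ℂ) * (ψ b₁ x * conj (ψ b₂ x))) := by
    intro x
    rw [Complex.ofReal_mul, ← Complex.normSq_eq_norm_sq, ← Complex.mul_conj, hF]
    simp only [map_sum, map_mul]
    rw [Finset.sum_mul_sum]
    simp only [Finset.mul_sum]
    refine Finset.sum_congr rfl fun b₁ _ => Finset.sum_congr rfl fun b₂ _ => by ring
  have hs2 : HasSum (fun x => ((Phi (Nr x / T) * ‖F x‖ ^ 2 : ℝ) : ℂ))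
      (∑ b₁ ∈ S, ∑ b₂ ∈ S, a b₁ * conj (a b₂) *
        ∑' x, (Phi (Nr x / T) : ℂ) * (ψ b₁ x * conj (ψ b₂ x))) := by
    simp only [hexp]
    exact hasSum_sum fun b₁ h₁ => hasSum_sum fun b₂ h₂ =>
      (hsf _ (hkk b₁ h₁ b₂ h₂)).hasSum.mul_left _
  have hs3 : HasSum (fun x => Phi (Nr x / T) * ‖F x‖ ^ 2)
      (∑ b₁ ∈ S, ∑ b₂ ∈ S, a b₁ * conj (a b₂) *
        ∑' x, (Phi (Nr x / T) : ℂ) * (ψ b₁ x * conj (ψ b₂ x))).re := by
    simpa only [Complex.ofReal_re] using Complex.hasSum_re hs2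
  have hE : ∀ b₁ ∈ S, ∀ b₂ ∈ S, ‖∑' x, (Phi (Nr x / T) : ℂ) * (ψ b₁ x * conj (ψ b₂ x))‖ ≤
      (if b₁ = b₂ then 2 * C₂ * T else 0) + C₁ * T / B := by
    intro b₁ h₁ b₂ h₂
    obtain ⟨n₁, l₁, p₁, -⟩ := hS _ h₁
    obtain ⟨n₂, l₂, p₂, -⟩ := hS _ h₂
    split_ifs with he
    · have h1 : ‖∑' x, (Phi (Nr x / T) : ℂ) * (ψ b₁ x * conj (ψ b₂ x))‖ ≤
          ∑' x : O, Phi (Nr x / T) := by
        refine tsum_of_norm_bounded hsum.hasSum fun x => ?_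
        rw [norm_mul, Complex.norm_real, Real.norm_of_nonneg (Phi_pos _).le]
        exact mul_le_of_le_one_right (Phi_pos _).le (hkk _ h₁ _ h₂ x)
      have h2 := H₂ T hT0
      have h3 : 0 ≤ C₁ * T / B := by positivity
      nlinarith
    · rw [zero_add]
      refine H₁ T B (q b₁ * q b₂) _ hB (by linarith) (mul_ne_zero n₁ n₂) ?_ (fun x y hxy => ?_)
        (hkk _ h₁ _ h₂) (horth _ h₁ _ h₂ he)
      · rw [Nr_mul, sq]
        exact mul_le_mul l₁ l₂ (Nr_nonneg _) hB0.le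
      · rw [p₁ x y ((dvd_mul_right _ _).trans hxy), p₂ x y ((dvd_mul_left _ _).trans hxy)]
  set N := ∑ b ∈ S, ‖a b‖ ^ 2 with hN
  have hN0 : 0 ≤ N := Finset.sum_nonneg fun _ _ => by positivity
  have hbig : (∑ b₁ ∈ S, ∑ b₂ ∈ S, a b₁ * conj (a b₂) *
        ∑' x, (Phi (Nr x / T) : ℂ) * (ψ b₁ x * conj (ψ b₂ x))).re ≤
      (2 * C₂ + D * C₁) * T * N := by
    refine (Complex.re_le_norm _).trans ?_
    calc _ ≤ ∑ b₁ ∈ S, ∑ b₂ ∈ S, ‖a b₁‖ * ‖a b₂‖ *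
            ((if b₁ = b₂ then 2 * C₂ * T else 0) + C₁ * T / B) := by
          refine norm_sum_le_of_le _ fun b₁ h₁ => norm_sum_le_of_le _ fun b₂ h₂ => ?_
          rw [norm_mul, norm_mul, Complex.norm_conj]
          exact mul_le_mul_of_nonneg_left (hE b₁ h₁ b₂ h₂) (by positivity)
      _ = 2 * C₂ * T * N + C₁ * T / B * (∑ b ∈ S, ‖a b‖) ^ 2 := by
          simp only [mul_add, Finset.sum_add_distrib, mul_ite, mul_zero]
          congr 1
          · rw [hN, Finset.mul_sum]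
            refine Finset.sum_congr rfl fun b hb => ?_
            rw [Finset.sum_ite_eq, if_pos hb]; ring
          · rw [sq, Finset.sum_mul_sum, Finset.mul_sum]
            refine Finset.sum_congr rfl fun b _ => ?_
            rw [Finset.mul_sum]
            exact Finset.sum_congr rfl fun b' _ => by ring
      _ ≤ 2 * C₂ * T * N + C₁ * T / B * (D * B * N) := by
          gcongr
          exact sq_sum_le_card_mul_sum_sq.trans (by gcongr)
      _ = _ := by field_simp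
  have hlow : Phi 1 * ∑ r ∈ box R, ‖F r‖ ^ 2 ≤ (2 * C₂ + D * C₁) * T * N := by
    refine le_trans ?_ hbig
    rw [Finset.mul_sum]
    refine le_trans (Finset.sum_le_sum fun r hr => ?_)
      (sum_le_hasSum (box R) (fun x _ => mul_nonneg (Phi_pos _).le (by positivity)) hs3)
    refine mul_le_mul_of_nonneg_right (p1_anti ?_) (by positivity)
    rw [div_le_one hT0]
    have := (mem_box.1 hr).2
    linarith
  rw [← le_div_iff₀' hP] at hlow
  refine hlow.trans ?_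
  have hc : 2 * C₂ + D * C₁ ≤ (2 * C₂ + C₁) * (1 + D) := by nlinarith [mul_nonneg hC₂ hD]
  calc (2 * C₂ + D * C₁) * T * N / Phi 1
      ≤ (2 * C₂ + C₁) * (1 + D) * T * N / Phi 1 := by gcongr
    _ = _ := by ring

/-- Dual form: `q_duality`, `cubic_recip`, `sbox M ⊆ box M`; the modulus of the pair is `k₁ k₂`
(`kap_mul_left`, `kap_pow_left`, `kap_congr'`). No `ε`-power of `M` is lost. -/
theorem ls_pairs {ε : ℝ} (hε : 0 < ε) : ∃ C : ℝ, 0 ≤ C ∧ ∀ (S : Finset (O × O)) (B D M : ℝ) (a : O → ℂ),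
    1 ≤ B → 0 ≤ D → 1 ≤ M → (S.card : ℝ) ≤ D * B →
    (∀ p ∈ S, Prim p.1 ∧ Prim p.2 ∧ Squarefree (p.1 * p.2) ∧ Nr (p.1 * p.2) ≤ B) →
    ∑ p ∈ S, ‖cr M a (p.1 * p.2 ^ 2)‖ ^ 2 ≤ C * (1 + D) * (M + B ^ (2 + ε)) * cl2 M a := by
  obtain ⟨C, hC, H⟩ := cc_gls hε
  refine ⟨C, hC, fun S B D M a hB hD hM hcard hS => ?_⟩
  have hBp : 0 < B ^ (2 + ε) := Real.rpow_pos_of_pos (by linarith) _
  refine q_duality (sbox M) S (fun b p => kap b (p.1 * p.2 ^ 2)) (by positivity) (fun c => ?_) a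
  refine le_trans ?_ (H S (fun p => p.1 * p.2) (fun p => kap (p.1 * p.2 ^ 2)) c M B D hM hB hD
    hcard (fun p hp => ?_) fun p hp p' hp' hne => ?_)
  · refine le_trans (le_of_eq (Finset.sum_congr rfl fun b hb => ?_))
      (Finset.sum_le_sum_of_subset_of_nonneg (sbox_subset_box M) fun _ _ _ => by positivity)
    congr 2
    refine Finset.sum_congr rfl fun p hp => ?_
    rw [cubic_recip (q_mem_sbox.1 hb).1 ((hS p hp).1.mul ((hS p hp).2.1.pow 2))]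
  · obtain ⟨h₁, h₂, h₃, h₄⟩ := hS p hp
    exact ⟨h₃.ne_zero, h₄, fun x y h => cc_per h₁ h₂ h, norm_kap_le _⟩
  · obtain ⟨h₁, h₂, h₃, -⟩ := hS p hp
    obtain ⟨h₁', h₂', h₃', -⟩ := hS p' hp'
    exact cc_orth h₁ h₂ h₁' h₂' h₃ h₃' hne

/-- The simple large sieve on a block (`sum_blk_le`, `cr_mul`, `ls_pairs` with `B = X Y`,
`D = 625`). -/
theorem blk_ls₃ {ε : ℝ} (hε : 0 < ε) : ∃ C : ℝ, 0 ≤ C ∧ ∀ X Y J M : ℝ, 1 ≤ X → 1 ≤ Y → 0 ≤ J → 1 ≤ M →
    LSb (blk X Y J) M (C * J * (M + (X * Y) ^ (2 + ε))) := by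
  classical
  obtain ⟨C, hC, H⟩ := ls_pairs hε
  refine ⟨225 * 25 * (C * (1 + 625)), by positivity, fun X Y J M hX hY hJ hM a => ?_⟩
  have hB : 1 ≤ X * Y := one_le_mul_of_one_le_of_one_le hX hY
  have hBp : 0 < (X * Y) ^ (2 + ε) := Real.rpow_pos_of_pos (by linarith) _
  set S := (sbox X ×ˢ sbox Y).filter fun p => Squarefree (p.1 * p.2) with hS
  have hcard : (S.card : ℝ) ≤ 625 * (X * Y) := by
    calc (S.card : ℝ) ≤ ((sbox X ×ˢ sbox Y).card : ℝ) := by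
          exact_mod_cast Finset.card_filter_le _ _
      _ = ((sbox X).card : ℝ) * (sbox Y).card := by rw [Finset.card_product, Nat.cast_mul]
      _ ≤ (25 * X) * (25 * Y) :=
          mul_le_mul (card_sbox_le (by linarith)) (card_sbox_le (by linarith)) (by positivity)
            (by positivity)
      _ = _ := by ring
  have hmem : ∀ p ∈ S, Prim p.1 ∧ Prim p.2 ∧ Squarefree (p.1 * p.2) ∧ Nr (p.1 * p.2) ≤ X * Y := by
    intro p hp
    rw [hS, Finset.mem_filter, Finset.mem_product] at hp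
    obtain ⟨⟨h₁, h₂⟩, h₃⟩ := hp
    rw [q_mem_sbox] at h₁ h₂
    refine ⟨h₁.1, h₂.1, h₃, ?_⟩
    rw [Nr_mul]
    exact mul_le_mul h₁.2.2 h₂.2.2 (Nr_nonneg _) (by linarith)
  set K := C * (1 + 625) * (M + (X * Y) ^ (2 + ε)) * cl2 M a with hK
  have hK0 : 0 ≤ K := by have := cl2_nonneg M a; positivity
  have key : ∀ t : O, (∑ k₁ ∈ sbox X, ∑ k₂ ∈ sbox Y,
      if Squarefree (k₁ * k₂) then ‖cr M a (t * (k₁ * k₂ ^ 2))‖ ^ 2 else 0) ≤ K := by
    intro t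
    rw [← Finset.sum_product', ← Finset.sum_filter]
    simp only [cr_mul M a t]
    refine (H S (X * Y) 625 M _ hB (by norm_num) hM hcard hmem).trans ?_
    refine mul_le_mul_of_nonneg_left (cl2_le fun b _ => ?_) (by positivity)
    rw [norm_mul]
    exact mul_le_of_le_one_right (norm_nonneg _) (norm_kap_le _ _)
  refine (sum_blk_le X Y J (fun r => ‖cr M a r‖ ^ 2) fun r => by positivity).trans ?_
  calc _ ≤ ∑ s ∈ box 9, ∑ j ∈ box J, K :=
        Finset.sum_le_sum fun s _ => Finset.sum_le_sum fun j _ => by convert key (s * j ^ 3)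
    _ = ((box 9).card : ℝ) * ((box J).card * K) := by
        simp only [Finset.sum_const, nsmul_eq_mul]
    _ ≤ (25 * 9) * (25 * J * K) :=
        mul_le_mul (card_box_le (by norm_num))
          (mul_le_mul_of_nonneg_right (card_box_le hJ) hK0) (by positivity) (by norm_num)
    _ = _ := by rw [hK]; ring

end Crest.Agent.R012

end
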