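import Crest.Agent.R012.CPsd

/-! # Row 12: Poisson steps for the cubic symbol -/

set_option autoImplicit false

noncomputable section

open scoped BigOperators ComplexConjugate Topology
open Complex MeasureTheory Filter Crest.Agent.R017

namespace Crest.Agent.R012

/-- a term of the dual sum -/
def c3_term (a : O → ℂ) (R : ℝ) (p : O × O) (h : O) : ℂ :=
  a p.1 * conj (kap p.1 h) * conj (a p.2 * conj (kap p.2 h)) *
    (Phi (R * Nr h / (Nr p.1 * Nr p.2)) : ℂ)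

theorem c3_norm_b (a : O → ℂ) (n h : O) : ‖a n * conj (kap n h)‖ ≤ ‖a n‖ := by
  rw [norm_mul, Complex.norm_conj]
  exact mul_le_of_le_one_right (norm_nonneg _) (norm_kap_le _ _)

theorem c3_term_le (a : O → ℂ) (R : ℝ) (p : O × O) (h : O) :
    ‖c3_term a R p h‖ ≤ ‖a p.1‖ * ‖a p.2‖ * Phi (R * Nr h / (Nr p.1 * Nr p.2)) := by
  rw [c3_term, norm_mul, norm_mul, Complex.norm_conj, norm_real,
    Real.norm_of_nonneg (Phi_pos _).le]
  exact mul_le_mul_of_nonneg_right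
    (mul_le_mul (c3_norm_b a _ _) (c3_norm_b a _ _) (norm_nonneg _) (norm_nonneg _)) (Phi_pos _).le

theorem c3_term_tail {a : O → ℂ} (ha : ∀ n, a n ≠ 0 → Prim n) {R A C : ℝ} (hR : 0 < R)
    (hC : ∀ y : ℝ, 0 < y → Phi y ≤ C * y ^ (-A)) (p : O × O) {h : O} (hh : h ≠ 0) :
    ‖c3_term a R p h‖ ≤
      C * R ^ (-A) * Nr h ^ (-A) * (‖a p.1‖ * Nr p.1 ^ A * (‖a p.2‖ * Nr p.2 ^ A)) := by
  have b0 := Nr_pos hh
  refine (c3_term_le a R p h).trans ?_
  by_cases h1 : a p.1 = 0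
  · simp [h1]
  by_cases h2 : a p.2 = 0
  · simp [h2]
  have b1 := Nr_pos (ha _ h1).ne_zero
  have b2 := Nr_pos (ha _ h2).ne_zero
  refine (mul_le_mul_of_nonneg_left (hC _ (by positivity)) (by positivity)).trans (le_of_eq ?_)
  rw [Real.div_rpow (by positivity) (by positivity), Real.mul_rpow hR.le b0.le,
    Real.mul_rpow b1.le b2.le, Real.rpow_neg b1.le, Real.rpow_neg b2.le]
  field_simp

theorem c3_sum_zero {a : O → ℂ} (ha : ∀ n, a n ≠ 0 → Prim n) (R : ℝ) :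
    ‖∑' p, c3_term a R p 0‖ = ‖a 1‖ ^ 2 := by
  have hb : ∀ n, n ≠ 1 → a n * conj (kap n 0) = 0 := by
    intro n hn
    by_cases h : a n = 0
    · rw [h, zero_mul]
    have : kap n 0 = 0 := (kap_eq_zero (ha n h).ne_zero).2 (Or.inr fun hc => hn
      ((ha n h).eq_one_of_isUnit (isCoprime_zero_right.1 hc)))
    rw [this, map_zero, mul_zero]
  rw [tsum_eq_single (1, 1)]
  · simp [c3_term, kap_unit_left isUnit_one, Nr_zero, Phi, sq]
  · rintro ⟨n, m⟩ hp
    by_cases hn : n = 1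
    · have hm : m ≠ 1 := by rintro rfl; exact hp (by rw [hn])
      rw [c3_term, hb m hm]
      simp
    · rw [c3_term, hb n hn]
      simp

/-- the twisted column sum -/
def c3_X (a : O → ℂ) (σ : ℝ) (h : O) (t : ℝ) : ℂ :=
  colC (fun n => a n * (Nr n : ℂ) ^ ((σ : ℂ) + t * I)) h

theorem c3_X_term {σ : ℝ} (hσ : 0 < σ) (a : O → ℂ) (h n : O) (t : ℝ) :
    ‖a n * (Nr n : ℂ) ^ ((σ : ℂ) + t * I) * conj (kap n h)‖ ≤ ‖a n‖ * Nr n ^ σ := by
  refine (c3_norm_b (fun n => a n * (Nr n : ℂ) ^ ((σ : ℂ) + t * I)) n h).trans ?_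
  rw [norm_mul, l3_norm_cpow hσ (Nr_nonneg _)]

theorem c3_X_int {σ : ℝ} (hσ : 0 < σ) {a : O → ℂ} (hr : Rap a) (h : O) :
    Integrable fun t : ℝ => ‖Complex.Gamma (σ + t * I)‖ * ‖c3_X a σ h t‖ ^ 2 := by
  have hc : Continuous (c3_X a σ h) :=
    continuous_tsum (fun n => (continuous_const.mul (l3_cont_cpow hσ _)).mul continuous_const)
      (hr σ) fun n t => c3_X_term hσ a h n t
  refine (l3_int_Gamma hσ).mul_bdd (c := (∑' n, ‖a n‖ * Nr n ^ σ) ^ 2)
    (hc.norm.pow 2).aestronglyMeasurable (Eventually.of_forall fun t => ?_)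
  rw [Real.norm_of_nonneg (sq_nonneg _)]
  exact pow_le_pow_left₀ (norm_nonneg _)
    (tsum_of_norm_bounded (hr σ).hasSum fun n => c3_X_term hσ a h n t) 2

theorem c3_sum_mid {σ : ℝ} (hσ : 0 < σ) {a : O → ℂ} (ha : ∀ n, a n ≠ 0 → Prim n) (hr : Rap a)
    {R : ℝ} (hR : 0 < R) {h : O} (hh : h ≠ 0) :
    ‖∑' p, c3_term a R p h‖ ≤ (c0 ^ (-σ) * R ^ (-σ)) *
      ∫ t : ℝ, ‖Complex.Gamma (σ + t * I)‖ * ‖c3_X a σ h t‖ ^ 2 := by
  have b0 := Nr_pos hh
  have hc := c0_pos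
  have hnn : ∀ n : O, 0 ≤ ‖a n‖ * Nr n ^ σ := fun n =>
    mul_nonneg (norm_nonneg _) (Real.rpow_nonneg (Nr_nonneg _) _)
  have h1 := l3_sep hσ (mul_pos hR b0)
    (fun p : O × O => a p.1 * conj (kap p.1 h) * conj (a p.2 * conj (kap p.2 h)))
    (fun p hp => ⟨(ha _ fun h0 => hp (by simp [h0])).ne_zero,
      (ha _ fun h0 => hp (by simp [h0])).ne_zero⟩)
    (Summable.of_nonneg_of_le
      (fun p => mul_nonneg (norm_nonneg _)
        (Real.rpow_nonneg (mul_nonneg (Nr_nonneg _) (Nr_nonneg _)) _))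
      (fun p => by
        rw [norm_mul, Complex.norm_conj, Real.mul_rpow (Nr_nonneg _) (Nr_nonneg _),
          mul_mul_mul_comm]
        exact mul_le_mul
          (mul_le_mul_of_nonneg_right (c3_norm_b a _ _) (Real.rpow_nonneg (Nr_nonneg _) _))
          (mul_le_mul_of_nonneg_right (c3_norm_b a _ _) (Real.rpow_nonneg (Nr_nonneg _) _))
          (mul_nonneg (norm_nonneg _) (Real.rpow_nonneg (Nr_nonneg _) _)) (hnn _))
      ((hr σ).mul_of_nonneg (hr σ) hnn hnn))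
  have h2 : ∀ t : ℝ, ∑' p : O × O, a p.1 * conj (kap p.1 h) * conj (a p.2 * conj (kap p.2 h)) *
      ((Nr p.1 : ℂ) ^ ((σ : ℂ) + t * I) * (Nr p.2 : ℂ) ^ ((σ : ℂ) + t * I)) =
      c3_X a σ h t * conj (c3_X a σ h (-t)) := by
    intro t
    have s1 : ∀ t : ℝ, Summable fun n => ‖a n * (Nr n : ℂ) ^ ((σ : ℂ) + t * I) * conj (kap n h)‖ :=
      fun t => Summable.of_nonneg_of_le (fun _ => norm_nonneg _) (fun n => c3_X_term hσ a h n t)
        (hr σ)
    have s2 : Summable fun n =>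
        ‖conj (a n * (Nr n : ℂ) ^ ((σ : ℂ) + (-t : ℝ) * I) * conj (kap n h))‖ := by
      simpa only [Complex.norm_conj] using s1 (-t)
    rw [c3_X, c3_X, colC, colC, Complex.conj_tsum, tsum_mul_tsum_of_summable_norm (s1 t) s2]
    refine tsum_congr fun p => ?_
    simp only [map_mul]
    rw [l3_conj_cpow (Nr_nonneg _)]
    ring
  simp only [h2] at h1
  set g : ℝ → ℝ := fun t => ‖Complex.Gamma (σ + t * I)‖ * ‖c3_X a σ h t‖ ^ 2 with hg
  have gi : Integrable g := c3_X_int hσ hr h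
  have hI : 0 ≤ ∫ t, g t := integral_nonneg fun t => by positivity
  have h3 : ‖∫ t : ℝ, Complex.Gamma (σ + t * I) * ((c0 * (R * Nr h) : ℝ) : ℂ) ^ (-(σ + t * I)) *
      (c3_X a σ h t * conj (c3_X a σ h (-t)))‖ ≤
      ∫ t : ℝ, (c0 ^ (-σ) * R ^ (-σ) / 2) * (g t + g (-t)) := by
    refine norm_integral_le_of_norm_le ((gi.add gi.comp_neg).const_mul _)
      (Eventually.of_forall fun t => ?_)
    rw [norm_mul, norm_mul, norm_mul, Complex.norm_conj,
      Complex.norm_cpow_eq_rpow_re_of_pos (by positivity), neg_re, l3_re,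
      Real.mul_rpow hc.le (by positivity), Real.mul_rpow hR.le b0.le]
    simp only [hg]
    rw [l3_norm_Gamma_neg]
    have e1 : Nr h ^ (-σ) ≤ 1 :=
      Real.rpow_le_one_of_one_le_of_nonpos (one_le_Nr hh) (by linarith)
    have e2 : ‖c3_X a σ h t‖ * ‖c3_X a σ h (-t)‖ ≤
        (‖c3_X a σ h t‖ ^ 2 + ‖c3_X a σ h (-t)‖ ^ 2) / 2 := by
      nlinarith [sq_nonneg (‖c3_X a σ h t‖ - ‖c3_X a σ h (-t)‖)]
    calc _ ≤ ‖Complex.Gamma (σ + t * I)‖ * (c0 ^ (-σ) * (R ^ (-σ) * 1)) *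
          ((‖c3_X a σ h t‖ ^ 2 + ‖c3_X a σ h (-t)‖ ^ 2) / 2) := by gcongr
      _ = _ := by ring
  rw [integral_const_mul, integral_add gi gi.comp_neg, integral_neg_eq_self] at h3
  have h4 : ‖(1 / (2 * Real.pi) : ℂ)‖ ≤ 1 := by
    rw [norm_div, norm_one, norm_mul, norm_real, Real.norm_of_nonneg Real.pi_pos.le,
      Complex.norm_two, div_le_one (by positivity)]
    linarith [Real.two_le_pi]
  unfold c3_term
  rw [h1, norm_mul]
  refine (mul_le_of_le_one_left (norm_nonneg _) h4).trans (h3.trans (le_of_eq ?_))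
  ring

theorem c3_dual {σ A : ℝ} (hσ : 0 < σ) (hA : 2 ≤ A) : ∃ C : ℝ, 0 ≤ C ∧
    ∀ (a : O → ℂ) (R H : ℝ), (∀ n, a n ≠ 0 → Prim n) → Rap a → 0 < R → 0 < H →
      ‖∑' p, ∑' h, c3_term a R p h‖ ≤ ‖a 1‖ ^ 2 + C *
        (R ^ (-σ) * (∫ t : ℝ, ‖Complex.Gamma (σ + t * I)‖ *
          NS H (colC fun n => a n * (Nr n : ℂ) ^ ((σ : ℂ) + t * I))) +
        R ^ (-A) * H ^ (1 - A) * (∑' n : O, ‖a n‖ * Nr n ^ A) ^ 2) := by
  classical
  obtain ⟨C₁, hC₁⟩ := Phi_le_rpow (A := A) (by linarith)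
  have hC₁0 : 0 ≤ C₁ := by simpa using (Phi_pos 1).le.trans (hC₁ 1 one_pos)
  obtain ⟨C₂, hC₂⟩ := tsum_tail_rpow_le (σ := A) (by linarith)
  have hc := c0_pos
  refine ⟨c0 ^ (-σ) + C₁ * |C₂|, by positivity, fun a R H ha hr hR hH => ?_⟩
  have hnn : ∀ n : O, 0 ≤ ‖a n‖ * Nr n ^ A := fun n =>
    mul_nonneg (norm_nonneg _) (Real.rpow_nonneg (Nr_nonneg _) _)
  have hNA : ∀ n : O, 0 ≤ Nr n ^ (-A) := fun n => Real.rpow_nonneg (Nr_nonneg _) _
  have sA : Summable fun h : O => Nr h ^ (-A) := summable_Nr_rpow (by linarith)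
  have s2 := (hr A).mul_of_nonneg (hr A) hnn hnn
  have hle : ∀ n, ‖a n‖ ≤ ‖a n‖ * Nr n ^ A := fun n => by
    by_cases h : a n = 0
    · simp [h]
    · exact le_mul_of_one_le_right (norm_nonneg _)
        (Real.one_le_rpow (one_le_Nr (ha n h).ne_zero) (by linarith))
  have hsum : Summable (Function.uncurry (c3_term a R)) := by
    have sβ : Summable fun h : O => (if h = 0 then 1 else 0) + C₁ * R ^ (-A) * Nr h ^ (-A) :=
      (hasSum_ite_eq (0 : O) (1 : ℝ)).summable.add (sA.mul_left _)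
    refine Summable.of_norm_bounded (s2.mul_of_nonneg sβ (fun p => mul_nonneg (hnn _) (hnn _))
      fun h => add_nonneg (by split_ifs <;> norm_num) (mul_nonneg (by positivity) (hNA _)))
      fun ⟨p, h⟩ => ?_
    simp only [Function.uncurry_apply_pair]
    by_cases hh : h = 0
    · subst hh
      refine (c3_term_le a R p 0).trans ?_
      rw [if_pos rfl]
      refine mul_le_mul (mul_le_mul (hle _) (hle _) (norm_nonneg _) (hnn _)) ?_ (Phi_pos _).le
        (mul_nonneg (hnn _) (hnn _))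
      refine (Phi_le_one (by simp [Nr_zero])).trans (le_add_of_nonneg_right ?_)
      exact mul_nonneg (by positivity) (hNA _)
    · rw [if_neg hh, zero_add, mul_comm]
      exact c3_term_tail ha hR hC₁ p hh
  rw [← hsum.tsum_comm]
  set S := ∑' n : O, ‖a n‖ * Nr n ^ A with hS
  set J : O → ℝ := fun h => ∫ t : ℝ, ‖Complex.Gamma (σ + t * I)‖ * ‖c3_X a σ h t‖ ^ 2 with hJ
  have hJ0 : ∀ h, 0 ≤ J h := fun h => integral_nonneg fun t => by positivity
  have f0 := hasSum_ite_eq (0 : O) (‖a 1‖ ^ 2)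
  have f1 : HasSum (fun h => if h ∈ box H then c0 ^ (-σ) * R ^ (-σ) * J h else 0)
      (∑ h ∈ box H, c0 ^ (-σ) * R ^ (-σ) * J h) := by
    have := hasSum_sum_of_ne_finset_zero (L := SummationFilter.unconditional O)
      (f := fun h => if h ∈ box H then c0 ^ (-σ) * R ^ (-σ) * J h else 0) (s := box H)
      fun b hb => if_neg hb
    rwa [Finset.sum_congr rfl fun x hx => if_pos hx] at this
  have st : Summable fun h : O => if H < Nr h then Nr h ^ (-A) else 0 :=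
    Summable.of_nonneg_of_le (fun h => by split_ifs; exacts [hNA h, le_rfl])
      (fun h => by split_ifs; exacts [le_rfl, hNA h]) sA
  have f2 := st.hasSum.mul_left (C₁ * R ^ (-A) * S ^ 2)
  refine (tsum_of_norm_bounded ((f0.add f1).add f2) fun h => ?_).trans ?_
  · have p1 : 0 ≤ if h = 0 then ‖a 1‖ ^ 2 else 0 := by split_ifs; exacts [sq_nonneg _, le_rfl]
    have p2 : 0 ≤ if h ∈ box H then c0 ^ (-σ) * R ^ (-σ) * J h else 0 := by
      split_ifs; exacts [mul_nonneg (by positivity) (hJ0 h), le_rfl]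
    have p3 : 0 ≤ C₁ * R ^ (-A) * S ^ 2 * if H < Nr h then Nr h ^ (-A) else 0 :=
      mul_nonneg (by positivity) (by split_ifs; exacts [hNA h, le_rfl])
    by_cases hh : h = 0
    · subst hh
      rw [c3_sum_zero ha, if_pos rfl]
      linarith
    by_cases hb : h ∈ box H
    · have := c3_sum_mid hσ ha hr hR hh
      rw [if_pos hb]
      linarith
    · have hlt : H < Nr h := by
        by_contra hle
        exact hb (mem_box.2 ⟨hh, not_lt.1 hle⟩)
      have h1 := tsum_of_norm_bounded (s2.hasSum.mul_left (C₁ * R ^ (-A) * Nr h ^ (-A)))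
        fun p => c3_term_tail ha hR hC₁ p hh
      rw [← (hr A).tsum_mul_tsum (hr A) s2, ← hS] at h1
      rw [if_pos hlt]
      calc _ ≤ _ := h1
        _ = C₁ * R ^ (-A) * S ^ 2 * Nr h ^ (-A) := by ring
        _ ≤ _ := by linarith
  · have e : ∫ t : ℝ, ‖Complex.Gamma (σ + t * I)‖ *
        NS H (colC fun n => a n * (Nr n : ℂ) ^ ((σ : ℂ) + t * I)) = ∑ h ∈ box H, J h := by
      rw [hJ, ← integral_finsetSum _ fun h _ => c3_X_int hσ hr h]
      simp only [NS, Finset.mul_sum, c3_X]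
    rw [e, ← Finset.mul_sum]
    have hJs : 0 ≤ ∑ h ∈ box H, J h := Finset.sum_nonneg fun h _ => hJ0 h
    have h1 : ∑' h : O, (if H < Nr h then Nr h ^ (-A) else 0) ≤ |C₂| * H ^ (1 - A) :=
      (hC₂ H hH).trans (mul_le_mul_of_nonneg_right (le_abs_self _) (by positivity))
    have h2 := mul_le_mul_of_nonneg_left h1 (by positivity : 0 ≤ C₁ * R ^ (-A) * S ^ 2)
    have q1 : 0 ≤ C₁ * |C₂| * (R ^ (-σ) * ∑ h ∈ box H, J h) := by positivity
    have q2 : 0 ≤ c0 ^ (-σ) * (R ^ (-A) * H ^ (1 - A) * S ^ 2) := by positivity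
    nlinarith

/-- normalised coefficients -/
def c3_a (γ : O → ℂ) (d n : O) : ℂ := γ (d * n) * g3 n * ((Nr n ^ (-(1 / 2) : ℝ) : ℝ) : ℂ)

theorem c3_norm_a {Q d : O} {γ : O → ℂ} (hs : Supp Q γ) (hd : Prim d) (n : O)
    (B : ℝ) : ‖c3_a γ d n‖ * Nr n ^ B = ‖γ (d * n)‖ * Nr n ^ (B - 1 / 2) := by
  by_cases h : γ (d * n) = 0
  · simp [c3_a, h]
  obtain ⟨pn, sn, cn⟩ := c3_adm (hs _ h) hd
  have h0 := Nr_pos pn.ne_zero
  rw [c3_a, norm_mul, norm_mul, norm_g3 cn sn, mul_one, norm_real,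
    Real.norm_of_nonneg (by positivity), mul_assoc, ← Real.rpow_add h0]
  congr 2
  ring

theorem c3_poisson {Q d : O} {γ : O → ℂ} (hs : Supp Q γ)
    (hd : Adm Q d) {R : ℝ} (hR : 0 < R) (p : O × O) :
    ∑' r : O, (Phi (Nr r / R) : ℂ) * c3_G Q γ r (d, p) = R * ∑' h, c3_term (c3_a γ d) R p h := by
  obtain ⟨n, m⟩ := p
  simp only [c3_G, if_pos hd]
  by_cases h1 : γ (d * n) = 0
  · simp [h1, c3_term, c3_a]
  by_cases h2 : γ (d * m) = 0
  · simp [h2, c3_term, c3_a]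
  obtain ⟨pn, -, -⟩ := c3_adm (hs _ h1) hd.1
  obtain ⟨pm, -, -⟩ := c3_adm (hs _ h2) hd.1
  have b1 := Nr_pos pn.ne_zero
  have b2 := Nr_pos pm.ne_zero
  have hP := poisson_KC pn pm (H := Nr (n * m) / R) (by rw [Nr_mul]; positivity)
  have e1 : ∀ r : O, Nr (n * m) / R * Nr r / Nr (n * m) = Nr r / R := fun r => by
    rw [Nr_mul]; field_simp
  have e2 : ∀ h : O, Nr h / (Nr (n * m) / R) = R * Nr h / (Nr n * Nr m) := fun h => by
    rw [Nr_mul]; field_simp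
  simp only [e1, e2] at hP
  have e3 : R * (Nr n ^ (-(1 / 2) : ℝ) * Nr m ^ (-(1 / 2) : ℝ)) *
      (Nr (n * m) / R / Real.sqrt (Nr (n * m))) = 1 := by
    rw [← Real.mul_rpow b1.le b2.le, ← Nr_mul, Real.rpow_neg (Nr_nonneg _), ← Real.sqrt_eq_rpow]
    have h0 : 0 < Nr (n * m) := by rw [Nr_mul]; positivity
    have h1 := Real.sqrt_pos.2 h0
    have h2 := Real.mul_self_sqrt h0.le
    field_simp
    linarith
  have e4 := congrArg (fun x : ℝ => (x : ℂ)) e3
  simp only [ofReal_mul, ofReal_one] at e4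
  have L : ∑' r : O, (Phi (Nr r / R) : ℂ) *
      (γ (d * n) * conj (γ (d * m)) * (g3 n * conj (g3 m) * KC n m r)) =
      γ (d * n) * conj (γ (d * m)) * (g3 n * conj (g3 m)) *
        ∑' r : O, KC n m r * (Phi (Nr r / R) : ℂ) := by
    rw [← tsum_mul_left]
    exact tsum_congr fun r => by ring
  have L' : ∑' h, c3_term (c3_a γ d) R (n, m) h =
      γ (d * n) * conj (γ (d * m)) * (g3 n * conj (g3 m)) *
        (((Nr n ^ (-(1 / 2) : ℝ) : ℝ) : ℂ) * ((Nr m ^ (-(1 / 2) : ℝ) : ℝ) : ℂ)) *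
        ∑' h : O, (Phi (R * Nr h / (Nr n * Nr m)) : ℂ) * (conj (kap n h) * kap m h) := by
    rw [← tsum_mul_left]
    refine tsum_congr fun h => ?_
    simp only [c3_term, c3_a, map_mul, Complex.conj_conj, Complex.conj_ofReal]
    ring
  rw [L, L', hP]
  linear_combination (-(γ (d * n) * conj (γ (d * m)) * (g3 n * conj (g3 m)) *
    ∑' r : O, KC n m r * (Phi (Nr r / R) : ℂ))) * e4

theorem c3_NS_le {Q : O} {γ : O → ℂ} (hs : Supp Q γ) (hr : Rap γ) {R : ℝ}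
    (hR : 0 < R) : NS R (rowC γ) ≤ Real.exp c0 *
      ‖∑' d : O, ∑' p : O × O, ∑' r : O, (Phi (Nr r / R) : ℂ) * c3_G Q γ r (d, p)‖ := by
  obtain ⟨M, hM, hG⟩ := c3_G_bound hs hr
  have sP : Summable fun r : O => Phi (Nr r / R) := by
    have := summable_Phi hR 0 0
    simpa [norm_emb_sq] using this
  have hsum : Summable (Function.uncurry fun (r : O) (x : O × O × O) =>
      (Phi (Nr r / R) : ℂ) * c3_G Q γ r x) := by
    refine Summable.of_norm_bounded (sP.mul_of_nonneg hM (fun _ => (Phi_pos _).le)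
      fun x => (norm_nonneg _).trans (hG 0 x)) fun ⟨r, x⟩ => ?_
    simp only [Function.uncurry_apply_pair]
    rw [norm_mul, norm_real, Real.norm_of_nonneg (Phi_pos _).le]
    exact mul_le_mul_of_nonneg_left (hG r x) (Phi_pos _).le
  have s1 : Summable fun r : O => ∑' x, (Phi (Nr r / R) : ℂ) * c3_G Q γ r x := hsum.prod
  have s2 : Summable fun x : O × O × O => ∑' r : O, (Phi (Nr r / R) : ℂ) * c3_G Q γ r x :=
    hsum.prod_symm.prod
  rw [← s2.tsum_prod, hsum.tsum_comm]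
  refine le_trans ?_ (mul_le_mul_of_nonneg_left (re_le_norm _) (Real.exp_pos _).le)
  have hre := (Complex.hasSum_re s1.hasSum)
  simp only [tsum_mul_left, re_ofReal_mul] at hre ⊢
  rw [← hre.tsum_eq, ← tsum_mul_left]
  have hP : ∀ r, 0 ≤ (∑' x, c3_G Q γ r x).re := fun r =>
    (sq_nonneg _).trans (c3_psd_row hs hr r)
  refine le_trans (Finset.sum_le_sum fun r hr' => ?_) ((hre.summable.mul_left _).sum_le_tsum (box R)
    fun r _ => mul_nonneg (Real.exp_pos _).le (mul_nonneg (Phi_pos _).le (hP r)))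
  refine (c3_psd_row hs hr r).trans ?_
  rw [← mul_assoc]
  refine le_mul_of_one_le_left (hP r) ?_
  rw [Phi, ← Real.exp_add]
  refine Real.one_le_exp ?_
  have h1 : Nr r / R ≤ 1 := (div_le_one hR).2 (mem_box.1 hr').2
  nlinarith [c0_pos]

open Classical in
/-- Poisson step: from rows `χ_n(r)` to dual rows. -/
theorem cpstep {σ A : ℝ} (hσ : 0 < σ) (hA : 2 ≤ A) : ∃ C : ℝ, 0 ≤ C ∧
    ∀ (Q : O) (R : ℝ) (H : O → ℝ) (γ : O → ℂ), 0 < R → (∀ d, 0 < H d) →
    Supp Q γ → Rap γ → ∀ B : O → ℝ, Summable B → (∀ d, 0 ≤ B d) →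
    (∀ d, Adm Q d →
      R ^ (1 - σ) * (∫ t : ℝ, ‖Complex.Gamma (σ + t * I)‖ *
        NS (H d) (colC (fun n => γ (d * n) * g3 n * (Nr n : ℂ) ^ (((σ - 1 / 2 : ℝ) : ℂ) + t * I)))) +
      R ^ (1 - A) * H d ^ (1 - A) * (∑' n : O, ‖γ (d * n)‖ * Nr n ^ (A - 1 / 2)) ^ 2 ≤ B d) →
    NS R (rowC γ) ≤ C * (R * (∑' n : O, ‖γ n‖ ^ 2) + ∑' d : O, B d) := by
  obtain ⟨C, hC0, hC⟩ := c3_dual hσ hA
  refine ⟨Real.exp c0 * (1 + C), by positivity,
    fun Q R H γ hR hH hs hr B hB hB0 hBd => ?_⟩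
  have s2 := l3_summable_sq hr
  have key : ∀ d : O, ‖∑' p : O × O, ∑' r : O, (Phi (Nr r / R) : ℂ) * c3_G Q γ r (d, p)‖ ≤
      R * ‖γ d‖ ^ 2 + C * B d := by
    intro d
    by_cases hd : Adm Q d
    swap
    · have := hB0 d
      simp only [c3_G, if_neg hd, mul_zero, tsum_zero, norm_zero]
      positivity
    simp only [c3_poisson hs hd hR, tsum_mul_left]
    have ha : ∀ n, c3_a γ d n ≠ 0 → Prim n := fun n hn =>
      (c3_adm (hs _ fun h0 => hn (by simp [c3_a, h0])) hd.1).1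
    have hra : Rap (c3_a γ d) := fun B => by
      simp only [c3_norm_a hs hd.1]
      exact l3_summable_dn hs hr _ d
    have h1 := hC (c3_a γ d) R (H d) ha hra hR (hH d)
    have e1 : ‖c3_a γ d 1‖ = ‖γ d‖ := by simp [c3_a, g3_one, Nr_one]
    have e2 : ∀ t : ℝ, (fun n => c3_a γ d n * (Nr n : ℂ) ^ ((σ : ℂ) + t * I)) =
        fun n => γ (d * n) * g3 n * (Nr n : ℂ) ^ (((σ - 1 / 2 : ℝ) : ℂ) + t * I) := by
      intro t
      funext n
      by_cases h : γ (d * n) = 0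
      · simp [c3_a, h]
      have h0 := Nr_pos (c3_adm (hs _ h) hd.1).1.ne_zero
      rw [c3_a, ofReal_cpow h0.le, mul_assoc, ← cpow_add _ _ (by exact_mod_cast h0.ne')]
      congr 2
      push_cast
      ring
    simp only [e1, e2, c3_norm_a hs hd.1] at h1
    have h2 := mul_le_mul_of_nonneg_left (hBd d hd) hC0
    rw [norm_mul, norm_real, Real.norm_of_nonneg hR.le]
    refine (mul_le_mul_of_nonneg_left h1 hR.le).trans ?_
    rw [sub_eq_add_neg 1 σ, Real.rpow_add hR, sub_eq_add_neg 1 A, Real.rpow_add hR,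
      Real.rpow_one, ← sub_eq_add_neg 1 A] at h2
    linarith
  have h1 := tsum_of_norm_bounded ((s2.hasSum.mul_left R).add (hB.hasSum.mul_left C)) key
  refine (c3_NS_le hs hr hR).trans ?_
  rw [mul_assoc]
  refine mul_le_mul_of_nonneg_left (h1.trans ?_) (Real.exp_pos _).le
  have p1 : 0 ≤ R * ∑' n, ‖γ n‖ ^ 2 := mul_nonneg hR.le (tsum_nonneg fun _ => sq_nonneg _)
  have p2 : 0 ≤ ∑' d, B d := tsum_nonneg hB0
  nlinarith [mul_nonneg hC0 p1]

open Classical in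
/-- The same step from dual rows back to rows `χ_n(r)`. -/
theorem cdstep {σ A : ℝ} (hσ : 0 < σ) (hA : 2 ≤ A) : ∃ C : ℝ, 0 ≤ C ∧
    ∀ (Q : O) (R : ℝ) (H : O → ℝ) (γ : O → ℂ), 0 < R → (∀ d, 0 < H d) →
    Supp Q γ → Rap γ → ∀ B : O → ℝ, Summable B → (∀ d, 0 ≤ B d) →
    (∀ d, Adm Q d →
      R ^ (1 - σ) * (∫ t : ℝ, ‖Complex.Gamma (σ + t * I)‖ *
        NS (H d) (rowC (fun n => γ (d * n) * conj (g3 n) * (Nr n : ℂ) ^ (((σ - 1 / 2 : ℝ) : ℂ) + t * I)))) +
      R ^ (1 - A) * H d ^ (1 - A) * (∑' n : O, ‖γ (d * n)‖ * Nr n ^ (A - 1 / 2)) ^ 2 ≤ B d) →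
    NS R (colC γ) ≤ C * (R * (∑' n : O, ‖γ n‖ ^ 2) + ∑' d : O, B d) := by
  obtain ⟨C, hC0, hC⟩ := cpstep hσ hA
  refine ⟨C, hC0, fun Q R H γ hR hH hs hr B hB hB0 hBd => ?_⟩
  have h := hC Q R H (fun n => conj (γ n)) hR hH (fun n hn => hs n (by simpa using hn))
    (fun B => by simpa only [Complex.norm_conj] using hr B)
    B hB hB0 fun d hd => ?_
  · simp only [Complex.norm_conj] at h
    convert h using 1
    refine Finset.sum_congr rfl fun r _ => ?_
    rw [← Complex.norm_conj, colC, rowC, Complex.conj_tsum]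
    simp
  · simp only [Complex.norm_conj]
    convert hBd d hd using 3
    rw [← integral_neg_eq_self]
    refine integral_congr_ae (Filter.Eventually.of_forall fun t => ?_)
    simp only
    rw [l3_norm_Gamma_neg]
    congr 1
    refine Finset.sum_congr rfl fun r _ => ?_
    rw [← Complex.norm_conj, colC, rowC, Complex.conj_tsum]
    simp only [map_mul, Complex.conj_conj, l3_conj_cpow (Nr_nonneg _)]

end Crest.Agent.R012

end
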