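import Crest.Agent.R012.CA
import Crest.Agent.R012.CStep

/-! # Row 12: the Poisson step for finite sums -/

set_option autoImplicit false

noncomputable section

open scoped BigOperators ComplexConjugate Topology
open Complex MeasureTheory Filter Crest.Agent.R017

namespace Crest.Agent.R012

theorem cd_div {M : ℝ} {d n : O} (hd : Prim d) (h : d * n ∈ sbox M) : n ∈ sbox (M / Nr d) := by
  obtain ⟨h1, h2, h3⟩ := q_mem_sbox.1 h
  refine q_mem_sbox.2 ⟨hd.of_mul h1, h2.of_mul_right, ?_⟩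
  rwa [le_div_iff₀' (Nr_pos hd.ne_zero), ← Nr_mul]

theorem cd_tail {ε R M Y : ℝ} (hε : 0 < ε) (hR : 1 ≤ R) (hM : 1 ≤ M) (hY : 0 < Y) (hYM : Y ≤ M) :
    R ^ (1 - (2 + 2 / ε)) * ((R * M) ^ ε * Y ^ 2 / R) ^ (1 - (2 + 2 / ε)) *
      (Y * (Y ^ (2 + 2 / ε - 1 / 2)) ^ 2) ≤ 1 := by
  have hR0 : 0 < R := by linarith
  have hRM : 1 ≤ R * M := one_le_mul_of_one_le_of_one_le hR hM
  have e1 : (Y ^ 2) ^ (1 - (2 + 2 / ε)) * (Y * (Y ^ (2 + 2 / ε - 1 / 2)) ^ 2) = Y ^ 2 := by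
    rw [← Real.rpow_natCast Y 2, ← Real.rpow_natCast (Y ^ _) 2, ← Real.rpow_mul hY.le,
      ← Real.rpow_mul hY.le, mul_comm Y, ← Real.rpow_add_one hY.ne', ← Real.rpow_add hY]
    congr 1
    push_cast
    ring
  have e2 : ((R * M) ^ ε) ^ (1 - (2 + 2 / ε)) ≤ ((R * M) ^ 2)⁻¹ := by
    rw [← Real.rpow_mul (by linarith), ← Real.rpow_natCast, ← Real.rpow_neg (by linarith)]
    refine Real.rpow_le_rpow_of_exponent_le hRM ?_
    have : ε * (1 - (2 + 2 / ε)) = -ε - 2 := by field_simp; ring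
    rw [this]
    push_cast
    linarith
  rw [← Real.mul_rpow hR0.le (by positivity), mul_div_cancel₀ _ hR0.ne',
    Real.mul_rpow (by positivity) (by positivity), mul_assoc, e1]
  calc _ ≤ ((R * M) ^ 2)⁻¹ * (R * M) ^ 2 := by
        gcongr
        exact hYM.trans (le_mul_of_one_le_left (by linarith) hR)
    _ = 1 := inv_mul_cancel₀ (by positivity)

open Classical in
/-- `∑_d ∑_n |a(d n)|² ≪ M^ε ∑ |a|²` (compare `q_sh_l2` in `R017/QLSAux5.lean`). -/
theorem cd_shift_l2 {ε : ℝ} (hε : 0 < ε) : ∃ C : ℝ, 0 ≤ C ∧ ∀ (M : ℝ) (a : O → ℂ), 1 ≤ M →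
    ∑ d ∈ sbox M, cl2 (M / Nr d) (fun n => if d * n ∈ sbox M then a (d * n) else 0) ≤
      C * M ^ ε * cl2 M a := by
  obtain ⟨C, hC0, hC⟩ := q_card_pdiv hε
  refine ⟨C, hC0, fun X a _ => ?_⟩
  have h1 : ∀ g ∈ sbox X, cl2 (X / Nr g) (fun n => if g * n ∈ sbox X then a (g * n) else 0) ≤
      ∑ n ∈ sbox X, if g ∈ pdiv n then ‖a n‖ ^ 2 else 0 := fun g hg => by
    have gp := (q_mem_sbox.1 hg).1
    have e1 : cl2 (X / Nr g) (fun n => if g * n ∈ sbox X then a (g * n) else 0) =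
        ∑ x ∈ (sbox (X / Nr g)).filter (fun x => g * x ∈ sbox X), ‖a (g * x)‖ ^ 2 := by
      rw [Finset.sum_filter]
      refine Finset.sum_congr rfl fun x _ => ?_
      by_cases h : g * x ∈ sbox X <;> simp [h]
    rw [e1, ← Finset.sum_filter, ← Finset.sum_image (f := fun n => ‖a n‖ ^ 2) (g := fun x => g * x)
      fun x _ y _ e => mul_left_cancel₀ gp.ne_zero e]
    refine Finset.sum_le_sum_of_subset_of_nonneg (fun n hn => ?_) fun _ _ _ => by positivity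
    obtain ⟨x, hx, rfl⟩ := Finset.mem_image.1 hn
    have h2 := (Finset.mem_filter.1 hx).2
    exact Finset.mem_filter.2 ⟨h2, (mem_pdiv (q_mem_sbox.1 h2).1.ne_zero).2 ⟨gp, dvd_mul_right _ _⟩⟩
  refine (Finset.sum_le_sum h1).trans ?_
  rw [Finset.sum_comm, cl2, Finset.mul_sum]
  refine Finset.sum_le_sum fun n hn => ?_
  rw [← Finset.sum_filter, Finset.sum_const, nsmul_eq_mul]
  refine mul_le_mul_of_nonneg_right (le_trans ?_
    (hC X n (q_mem_sbox.1 hn).1.ne_zero (q_mem_sbox.1 hn).2.2)) (by positivity)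
  exact_mod_cast Finset.card_le_card fun g hg => (Finset.mem_filter.1 hg).2

open Classical in
/-- The form of `cpstep` for finite sums. Take `Q = 1`, `γ = a` on `sbox M` and `0` elsewhere,
`σ = ε / 4`, `A = 2 + 2 / ε`, `H d = (R M)^ε (M / N d)² / R`, and `B d = 0` off `sbox M` (there
`γ (d n) = 0` for all `n`). For `d ∈ sbox M` the function `colC (fun n => γ (d n) * w n) h` is the
conjugate of `cr (M / N d) (fun n => conj (γ (d n) * w n)) h`.  The tail is at most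
`25 ∑_n |γ(d n)|²` by Cauchy–Schwarz. The hypothesis is on the dual sums themselves. -/
theorem fin_pstep' {ε : ℝ} (hε : 0 < ε) {C₀ : ℝ} (_hC₀ : 0 ≤ C₀) :
    ∃ C : ℝ, 0 ≤ C ∧ ∀ (R M : ℝ) (a : O → ℂ) (E : O → ℝ),
    1 ≤ R → 1 ≤ M → (∀ d, 0 ≤ E d) →
    (∀ d ∈ sbox M, ∀ σ t : ℝ, 0 < σ → σ ≤ ε →
      ∑ h ∈ box ((R * M) ^ ε * (M / Nr d) ^ 2 / R),
        ‖cr (M / Nr d) (fun n => if d * n ∈ sbox M then conj (a (d * n) * g3 n) *
          (Nr n : ℂ) ^ (((σ - 1 / 2 : ℝ) : ℂ) + t * I) else 0) h‖ ^ 2 ≤ E d * (1 + |t|) ^ C₀) →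
    ∑ r ∈ box R, ‖cr M a r‖ ^ 2 ≤ C * R * (M ^ ε * cl2 M a + ∑ d ∈ sbox M, E d) := by
  have hσ : 0 < ε / 4 := by positivity
  obtain ⟨C, hC0, hC⟩ := cpstep (σ := ε / 4) (A := 2 + 2 / ε) hσ (le_add_of_nonneg_right (by positivity))
  obtain ⟨C', hC0', hC'⟩ := cd_shift_l2 hε
  set G : ℝ := ∫ t : ℝ, ‖Complex.Gamma ((ε / 4 : ℝ) + t * I)‖ * (1 + |t|) ^ C₀ with hG
  have hG0 : 0 ≤ G := integral_nonneg fun t => by positivity
  refine ⟨C * (1 + G + 25 * C'), by positivity, fun R M a E hR hM hE hd => ?_⟩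
  set γ : O → ℂ := fun n => if n ∈ sbox M then a n else 0 with hγ
  have hγ0 : ∀ n ∉ sbox M, γ n = 0 := fun n hn => if_neg hn
  have hγ1 : ∀ n, γ n ≠ 0 → n ∈ sbox M := fun n hn => by
    by_contra h
    exact hn (hγ0 n h)
  set B : O → ℝ := fun d => if d ∈ sbox M then R * G * E d + 25 * cl2 (M / Nr d) (fun n => γ (d * n))
    else 0 with hB
  have hBz : ∀ d ∉ sbox M, B d = 0 := fun d hd => if_neg hd
  have h := hC 1 R (fun d => if d = 0 then 1 else (R * M) ^ ε * (M / Nr d) ^ 2 / R) γ (by linarith)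
    (fun d => by
      split_ifs with hd
      · exact one_pos
      · have := Nr_pos hd
        positivity)
    (fun n hn => ⟨(q_mem_sbox.1 (hγ1 n hn)).1, (q_mem_sbox.1 (hγ1 n hn)).2.1, isCoprime_one_right⟩)
    (fun A => summable_of_ne_finset_zero (s := sbox M) fun n hn => by simp [hγ0 n hn]) B
    (summable_of_ne_finset_zero hBz) (fun d => by
      simp only [hB]
      split_ifs
      · exact add_nonneg (mul_nonneg (by positivity) (hE d))
          (mul_nonneg (by norm_num) (cl2_nonneg _ _))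
      · exact le_rfl) fun d hd' => ?_
  · have e1 : ∑ r ∈ box R, ‖cr M a r‖ ^ 2 = NS R (rowC γ) := by
      refine Finset.sum_congr rfl fun r _ => ?_
      rw [rowC, tsum_eq_sum (s := sbox M) fun n hn => by simp [hγ0 n hn], cr]
      congr 2
      exact Finset.sum_congr rfl fun n hn => by simp [hγ, hn]
    have e2 : ∑' n, ‖γ n‖ ^ 2 = cl2 M a := by
      rw [tsum_eq_sum (s := sbox M) fun n hn => by simp [hγ0 n hn], cl2]
      exact Finset.sum_congr rfl fun n hn => by simp [hγ, hn]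
    have e3 : ∑' d, B d = R * G * ∑ d ∈ sbox M, E d +
        25 * ∑ d ∈ sbox M, cl2 (M / Nr d) (fun n => γ (d * n)) := by
      rw [tsum_eq_sum hBz, Finset.mul_sum, Finset.mul_sum, ← Finset.sum_add_distrib]
      exact Finset.sum_congr rfl fun d hd => if_pos hd
    rw [e2, e3] at h
    rw [e1]
    refine h.trans ?_
    have h1 : ∑ d ∈ sbox M, cl2 (M / Nr d) (fun n => γ (d * n)) ≤ C' * M ^ ε * cl2 M a :=
      hC' M a hM
    have h2 : 1 ≤ M ^ ε := Real.one_le_rpow hM hε.le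
    have h3 := cl2_nonneg M a
    have h4 : 0 ≤ ∑ d ∈ sbox M, E d := Finset.sum_nonneg fun d _ => hE d
    set T := M ^ ε * cl2 M a + ∑ d ∈ sbox M, E d with hT
    have h5 : M ^ ε * cl2 M a ≤ T := by linarith
    have h6 : cl2 M a ≤ M ^ ε * cl2 M a := le_mul_of_one_le_left h3 h2
    have h7 : ∑ d ∈ sbox M, E d ≤ T := by linarith
    calc _ ≤ C * (R * T + (R * G * T + 25 * (C' * (R * T)))) := by
          gcongr
          · linarith
          · refine h1.trans ?_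
            rw [mul_assoc]
            exact mul_le_mul_of_nonneg_left
              (h5.trans (le_mul_of_one_le_left (by linarith) hR)) hC0'
      _ = _ := by ring
  by_cases hdM : d ∈ sbox M
  swap
  · have hz : ∀ n, γ (d * n) = 0 := fun n => hγ0 _ fun h => hdM (q_mem_sbox.2 ⟨hd'.1, hd'.2.1,
      (Nr_le_of_dvd (q_mem_sbox.1 h).1.ne_zero (dvd_mul_right _ _)).trans (q_mem_sbox.1 h).2.2⟩)
    simp [hz, hBz d hdM, NS, colC]
  have hd0 := Nr_pos hd'.1.ne_zero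
  have hd1 := one_le_Nr hd'.1.ne_zero
  have hz : ∀ n ∉ sbox (M / Nr d), γ (d * n) = 0 := fun n hn => hγ0 _ fun h => hn (cd_div hd'.1 h)
  simp only [if_neg hd'.1.ne_zero, hB, if_pos hdM]
  refine add_le_add ?_ ?_
  · have h1 : ∫ t : ℝ, ‖Complex.Gamma ((ε / 4 : ℝ) + t * I)‖ * NS ((R * M) ^ ε * (M / Nr d) ^ 2 / R)
        (colC fun n => γ (d * n) * g3 n * (Nr n : ℂ) ^ (((ε / 4 - 1 / 2 : ℝ) : ℂ) + t * I)) ≤
        G * E d := by
      rw [hG, ← integral_mul_const]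
      refine integral_mono_of_nonneg (Filter.Eventually.of_forall fun t => ?_)
        ((integrable_Gamma_mul hσ C₀).mul_const _) (Filter.Eventually.of_forall fun t => ?_)
      · exact mul_nonneg (norm_nonneg _) (Finset.sum_nonneg fun _ _ => sq_nonneg _)
      have hdt := hd d hdM (ε / 4) (-t) hσ (by linarith)
      rw [abs_neg, mul_comm (E d)] at hdt
      simp only [mul_assoc _ _ (E d)]
      refine mul_le_mul_of_nonneg_left (le_trans (le_of_eq ?_) hdt) (norm_nonneg _)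
      refine Finset.sum_congr rfl fun h _ => ?_
      rw [← Complex.norm_conj (cr _ _ _), colC,
        tsum_eq_sum (s := sbox (M / Nr d)) fun n hn => by simp [hz n hn], cr, map_sum]
      congr 2
      refine Finset.sum_congr rfl fun n _ => ?_
      simp only [hγ]
      split_ifs
      · simp only [map_mul, Complex.conj_conj, l3_conj_cpow (Nr_nonneg _)]
      · simp
    have h2 : R ^ (1 - ε / 4) ≤ R := by
      simpa using Real.rpow_le_rpow_of_exponent_le hR (show 1 - ε / 4 ≤ 1 by linarith)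
    rw [mul_assoc R]
    exact mul_le_mul h2 h1 (integral_nonneg fun t =>
      mul_nonneg (norm_nonneg _) (Finset.sum_nonneg fun _ _ => sq_nonneg _)) (by linarith)
  · set Y := M / Nr d with hY
    have hY0 : 0 < Y := by positivity
    have hYM : Y ≤ M := div_le_self (by linarith) hd1
    have hA : 0 ≤ 2 + 2 / ε - 1 / 2 := by
      have : 0 < 2 / ε := by positivity
      linarith
    rw [tsum_eq_sum (s := sbox Y) fun n hn => by simp [hz n hn]]
    have h1 : ∑ n ∈ sbox Y, ‖γ (d * n)‖ * Nr n ^ (2 + 2 / ε - 1 / 2) ≤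
        (∑ n ∈ sbox Y, ‖γ (d * n)‖) * Y ^ (2 + 2 / ε - 1 / 2) := by
      rw [Finset.sum_mul]
      refine Finset.sum_le_sum fun n hn => ?_
      have := Nr_nonneg n
      have := (q_mem_sbox.1 hn).2.2
      gcongr
    have h2 : (∑ n ∈ sbox Y, ‖γ (d * n)‖) ^ 2 ≤ 25 * Y * cl2 Y (fun n => γ (d * n)) := by
      refine sq_sum_le_card_mul_sum_sq.trans ?_
      exact mul_le_mul_of_nonneg_right (card_sbox_le hY0.le) (cl2_nonneg _ _)
    have h0 : 0 ≤ ∑ n ∈ sbox Y, ‖γ (d * n)‖ * Nr n ^ (2 + 2 / ε - 1 / 2) :=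
      Finset.sum_nonneg fun n _ => mul_nonneg (norm_nonneg _) (Real.rpow_nonneg (Nr_nonneg _) _)
    have h3 := cd_tail hε hR hM hY0 hYM
    have h4 := cl2_nonneg Y (fun n => γ (d * n))
    calc _ ≤ R ^ (1 - (2 + 2 / ε)) * ((R * M) ^ ε * Y ^ 2 / R) ^ (1 - (2 + 2 / ε)) *
          ((∑ n ∈ sbox Y, ‖γ (d * n)‖) * Y ^ (2 + 2 / ε - 1 / 2)) ^ 2 := by gcongr
      _ ≤ R ^ (1 - (2 + 2 / ε)) * ((R * M) ^ ε * Y ^ 2 / R) ^ (1 - (2 + 2 / ε)) *
          (25 * Y * cl2 Y (fun n => γ (d * n)) * (Y ^ (2 + 2 / ε - 1 / 2)) ^ 2) := by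
          rw [mul_pow]
          gcongr
      _ = 25 * cl2 Y (fun n => γ (d * n)) * (R ^ (1 - (2 + 2 / ε)) *
          ((R * M) ^ ε * Y ^ 2 / R) ^ (1 - (2 + 2 / ε)) * (Y * (Y ^ (2 + 2 / ε - 1 / 2)) ^ 2)) := by
          ring
      _ ≤ _ := mul_le_of_le_one_right (by positivity) h3

/-- With a large sieve inequality for the dual sums. Apply `fin_pstep'` with `ε / 4`; on the support
`N n > M / (2 N d)`, so `N n ^ (2 σ - 1) ≤ M ^ (2 σ) * 2 N d / M`; `cd_shift_l2`. -/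
theorem fin_pstep {ε : ℝ} (hε : 0 < ε) : ∃ C : ℝ, 0 ≤ C ∧ ∀ (R M Λ : ℝ) (a : O → ℂ),
    1 ≤ R → 1 ≤ M → 0 ≤ Λ → (∀ b ∈ sbox M, a b ≠ 0 → M / 2 < Nr b) →
    (∀ M₁ : ℝ, 1 ≤ M₁ → M₁ ≤ M → LSb (box ((R * M) ^ ε * M₁ ^ 2 / R)) M₁ (Λ * M₁)) →
    ∑ r ∈ box R, ‖cr M a r‖ ^ 2 ≤ C * M ^ ε * R * (1 + Λ) * cl2 M a := by
  classical
  obtain ⟨C, hC0, hC⟩ := fin_pstep' (ε := ε / 4) (by positivity) (le_refl 0)
  obtain ⟨C', hC0', hC'⟩ := cd_shift_l2 (ε := ε / 2) (by positivity)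
  refine ⟨C * (1 + 2 * C'), by positivity, fun R M Λ a hR hM hΛ ha hL => ?_⟩
  have h := hC R M a (fun d => 2 * Λ * M ^ (ε / 2) *
    cl2 (M / Nr d) (fun n => if d * n ∈ sbox M then a (d * n) else 0)) hR hM
    (fun d => mul_nonneg (by positivity) (cl2_nonneg _ _)) fun d hd σ t hσ hσ' => ?_
  · refine h.trans ?_
    rw [← Finset.mul_sum]
    have h1 := hC' M a hM
    have h2 : M ^ (ε / 4) ≤ M ^ ε := Real.rpow_le_rpow_of_exponent_le hM (by linarith)
    have h3 := cl2_nonneg M a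
    have h4 : M ^ (ε / 2) * M ^ (ε / 2) = M ^ ε := by
      rw [← Real.rpow_add (by linarith), add_halves]
    calc _ ≤ C * R * (M ^ ε * cl2 M a + 2 * Λ * M ^ (ε / 2) * (C' * M ^ (ε / 2) * cl2 M a)) := by
          gcongr
      _ = C * R * (M ^ ε * cl2 M a) * (1 + 2 * C' * Λ) := by rw [← h4]; ring
      _ ≤ C * R * (M ^ ε * cl2 M a) * ((1 + 2 * C') * (1 + Λ)) := by
          gcongr
          nlinarith
      _ = _ := by ring
  rw [Real.rpow_zero, mul_one]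
  obtain ⟨pd, sd, hdM⟩ := q_mem_sbox.1 hd
  have hd0 := Nr_pos pd.ne_zero
  have hd1 := one_le_Nr pd.ne_zero
  set Y := M / Nr d with hY
  have hY1 : 1 ≤ Y := (one_le_div hd0).2 hdM
  have hYM : Y ≤ M := div_le_self (by linarith) hd1
  have hRM : 1 ≤ R * M := one_le_mul_of_one_le_of_one_le hR hM
  refine (((hL Y hY1 hYM).mono (box_mono ?_) le_rfl) _).trans ?_
  · gcongr
    linarith
  rw [cl2, cl2, Finset.mul_sum, Finset.mul_sum]
  refine Finset.sum_le_sum fun n hn => ?_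
  split_ifs with h1
  swap
  · simp
  by_cases h0 : a (d * n) = 0
  · simp [h0]
  obtain ⟨pn, sn, hnY⟩ := q_mem_sbox.1 hn
  have hn0 := Nr_pos pn.ne_zero
  have h2 : Y ≤ 2 * Nr n := by
    have := ha _ h1 h0
    rw [Nr_mul] at this
    rw [hY, div_le_iff₀ hd0]
    linarith
  rw [norm_mul, Complex.norm_conj, norm_mul, norm_g3 pn.not_lam_dvd sn, mul_one,
    Complex.norm_cpow_eq_rpow_re_of_pos hn0, l3_re, mul_pow]
  have h3 : Nr n * (Nr n ^ (σ - 1 / 2)) ^ 2 ≤ M ^ (ε / 2) := by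
    rw [← Real.rpow_natCast, ← Real.rpow_mul hn0.le, mul_comm, ← Real.rpow_add_one hn0.ne']
    refine (Real.rpow_le_rpow hn0.le (hnY.trans hYM) (by push_cast; linarith)).trans
      (Real.rpow_le_rpow_of_exponent_le hM (by push_cast; linarith))
  calc Λ * Y * (‖a (d * n)‖ ^ 2 * (Nr n ^ (σ - 1 / 2)) ^ 2) ≤
      Λ * (2 * Nr n) * (‖a (d * n)‖ ^ 2 * (Nr n ^ (σ - 1 / 2)) ^ 2) := by gcongr
    _ = 2 * Λ * (Nr n * (Nr n ^ (σ - 1 / 2)) ^ 2) * ‖a (d * n)‖ ^ 2 := by ring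
    _ ≤ _ := by gcongr

end Crest.Agent.R012

end
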