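import Crest.Agent.R012.CD

/-! # Row 12: the Poisson step for finite sums, with a polynomial weight -/

set_option autoImplicit false

noncomputable section

open scoped BigOperators ComplexConjugate Topology
open Complex MeasureTheory Filter Crest.Agent.R017

namespace Crest.Agent.R012

open Classical in
/-- The form of `cpstep` for finite sums. Take `Q = 1`, `γ = a` on `sbox M` and `0` elsewhere,
`σ = ε / 4`, `A = 2 + 2 / ε`, `H d = (R M)^ε (M / N d)² / R`, and `B d = 0` off `sbox M` (there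
`γ (d n) = 0` for all `n`). For `d ∈ sbox M` the function `colC (fun n => γ (d n) * w n) h` is the
conjugate of `cr (M / N d) (fun n => conj (γ (d n) * w n)) h`.  The tail is at most
`25 ∑_n |γ(d n)|²` by Cauchy–Schwarz. The hypothesis is on the dual sums themselves. -/
theorem fin_pstepW {ε : ℝ} (hε : 0 < ε) (C₀ : ℝ) : ∃ C : ℝ, 0 ≤ C ∧ ∀ (R M : ℝ) (a : O → ℂ) (E : O → ℝ),
    1 ≤ R → 1 ≤ M → (∀ d, 0 ≤ E d) →
    (∀ d ∈ sbox M, ∀ σ t : ℝ, 0 < σ → σ ≤ ε →
      ∑ h ∈ box ((R * M) ^ ε * (M / Nr d) ^ 2 / R),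
        ‖cr (M / Nr d) (fun n => if d * n ∈ sbox M then conj (a (d * n) * g3 n) *
          (Nr n : ℂ) ^ (((σ - 1 / 2 : ℝ) : ℂ) + t * I) else 0) h‖ ^ 2 ≤ E d * (1 + |t|) ^ C₀) →
    ∑ r ∈ box R, ‖cr M a r‖ ^ 2 ≤ C * R * (M ^ ε * cl2 M a + ∑ d ∈ sbox M, E d) := by
  have hσ : 0 < ε / 4 := by positivity
  obtain ⟨C, hC0, hC⟩ := cpstep (σ := ε / 4) (A := 2 + 2 / ε) hσ (le_add_of_nonneg_right (by positivity))
  obtain ⟨C', hC0', hC'⟩ := cd_shift_l2 hε
  set G : ℝ := ∫ t : ℝ, ‖Complex.Gamma ((ε / 4 : ℝ) + t * I)‖ * (1 + |t|) ^ C₀ with hG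
  have hG0 : 0 ≤ G := integral_nonneg fun t => by positivity
  refine ⟨C * (1 + G + 25 * C'), by positivity, fun R M a E hR hM hE hd => ?_⟩
  set γ : O → ℂ := fun n => if n ∈ sbox M then a n else 0 with hγ
  have hγ0 : ∀ n ∉ sbox M, γ n = 0 := fun n hn => if_neg hn
  have hγ1 : ∀ n, γ n ≠ 0 → n ∈ sbox M := fun n hn => by
    by_contra h
    exact hn (hγ0 n h)
  set B : O → ℝ := fun d => if d ∈ sbox M then R * G * E d + 25 * cl2 (M / Nr d) (fun n => γ (d * n))
    else 0 with hB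
  have hBz : ∀ d ∉ sbox M, B d = 0 := fun d hd => if_neg hd
  have h := hC 1 R (fun d => if d = 0 then 1 else (R * M) ^ ε * (M / Nr d) ^ 2 / R) γ (by linarith)
    (fun d => by
      split_ifs with hd
      · exact one_pos
      · have := Nr_pos hd
        positivity)
    (fun n hn => ⟨(q_mem_sbox.1 (hγ1 n hn)).1, (q_mem_sbox.1 (hγ1 n hn)).2.1, isCoprime_one_right⟩)
    (fun A => summable_of_ne_finset_zero (s := sbox M) fun n hn => by simp [hγ0 n hn]) B
    (summable_of_ne_finset_zero hBz) (fun d => by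
      simp only [hB]
      split_ifs
      · exact add_nonneg (mul_nonneg (by positivity) (hE d))
          (mul_nonneg (by norm_num) (cl2_nonneg _ _))
      · exact le_rfl) fun d hd' => ?_
  · have e1 : ∑ r ∈ box R, ‖cr M a r‖ ^ 2 = NS R (rowC γ) := by
      refine Finset.sum_congr rfl fun r _ => ?_
      rw [rowC, tsum_eq_sum (s := sbox M) fun n hn => by simp [hγ0 n hn], cr]
      congr 2
      exact Finset.sum_congr rfl fun n hn => by simp [hγ, hn]
    have e2 : ∑' n, ‖γ n‖ ^ 2 = cl2 M a := by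
      rw [tsum_eq_sum (s := sbox M) fun n hn => by simp [hγ0 n hn], cl2]
      exact Finset.sum_congr rfl fun n hn => by simp [hγ, hn]
    have e3 : ∑' d, B d = R * G * ∑ d ∈ sbox M, E d +
        25 * ∑ d ∈ sbox M, cl2 (M / Nr d) (fun n => γ (d * n)) := by
      rw [tsum_eq_sum hBz, Finset.mul_sum, Finset.mul_sum, ← Finset.sum_add_distrib]
      exact Finset.sum_congr rfl fun d hd => if_pos hd
    rw [e2, e3] at h
    rw [e1]
    refine h.trans ?_
    have h1 : ∑ d ∈ sbox M, cl2 (M / Nr d) (fun n => γ (d * n)) ≤ C' * M ^ ε * cl2 M a :=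
      hC' M a hM
    have h2 : 1 ≤ M ^ ε := Real.one_le_rpow hM hε.le
    have h3 := cl2_nonneg M a
    have h4 : 0 ≤ ∑ d ∈ sbox M, E d := Finset.sum_nonneg fun d _ => hE d
    set T := M ^ ε * cl2 M a + ∑ d ∈ sbox M, E d with hT
    have h5 : M ^ ε * cl2 M a ≤ T := by linarith
    have h6 : cl2 M a ≤ M ^ ε * cl2 M a := le_mul_of_one_le_left h3 h2
    have h7 : ∑ d ∈ sbox M, E d ≤ T := by linarith
    calc _ ≤ C * (R * T + (R * G * T + 25 * (C' * (R * T)))) := by
          gcongr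
          · linarith
          · refine h1.trans ?_
            rw [mul_assoc]
            exact mul_le_mul_of_nonneg_left
              (h5.trans (le_mul_of_one_le_left (by linarith) hR)) hC0'
      _ = _ := by ring
  by_cases hdM : d ∈ sbox M
  swap
  · have hz : ∀ n, γ (d * n) = 0 := fun n => hγ0 _ fun h => hdM (q_mem_sbox.2 ⟨hd'.1, hd'.2.1,
      (Nr_le_of_dvd (q_mem_sbox.1 h).1.ne_zero (dvd_mul_right _ _)).trans (q_mem_sbox.1 h).2.2⟩)
    simp [hz, hBz d hdM, NS, colC]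
  have hd0 := Nr_pos hd'.1.ne_zero
  have hd1 := one_le_Nr hd'.1.ne_zero
  have hz : ∀ n ∉ sbox (M / Nr d), γ (d * n) = 0 := fun n hn => hγ0 _ fun h => hn (cd_div hd'.1 h)
  simp only [if_neg hd'.1.ne_zero, hB, if_pos hdM]
  refine add_le_add ?_ ?_
  · have h1 : ∫ t : ℝ, ‖Complex.Gamma ((ε / 4 : ℝ) + t * I)‖ * NS ((R * M) ^ ε * (M / Nr d) ^ 2 / R)
        (colC fun n => γ (d * n) * g3 n * (Nr n : ℂ) ^ (((ε / 4 - 1 / 2 : ℝ) : ℂ) + t * I)) ≤
        G * E d := by
      rw [hG, ← integral_mul_const]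
      refine integral_mono_of_nonneg (Filter.Eventually.of_forall fun t => ?_)
        ((integrable_Gamma_mul hσ C₀).mul_const _) (Filter.Eventually.of_forall fun t => ?_)
      · exact mul_nonneg (norm_nonneg _) (Finset.sum_nonneg fun _ _ => sq_nonneg _)
      have h5 := hd d hdM (ε / 4) (-t) hσ (by linarith)
      rw [abs_neg, mul_comm (E d)] at h5
      simp only
      rw [mul_assoc]
      refine mul_le_mul_of_nonneg_left (le_trans (le_of_eq ?_) h5) (norm_nonneg _)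
      refine Finset.sum_congr rfl fun h _ => ?_
      rw [← Complex.norm_conj (cr _ _ _), colC,
        tsum_eq_sum (s := sbox (M / Nr d)) fun n hn => by simp [hz n hn], cr, map_sum]
      congr 2
      refine Finset.sum_congr rfl fun n _ => ?_
      simp only [hγ]
      split_ifs
      · simp only [map_mul, Complex.conj_conj, l3_conj_cpow (Nr_nonneg _)]
      · simp
    have h2 : R ^ (1 - ε / 4) ≤ R := by
      simpa using Real.rpow_le_rpow_of_exponent_le hR (show 1 - ε / 4 ≤ 1 by linarith)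
    rw [mul_assoc R]
    exact mul_le_mul h2 h1 (integral_nonneg fun t =>
      mul_nonneg (norm_nonneg _) (Finset.sum_nonneg fun _ _ => sq_nonneg _)) (by linarith)
  · set Y := M / Nr d with hY
    have hY0 : 0 < Y := by positivity
    have hYM : Y ≤ M := div_le_self (by linarith) hd1
    have hA : 0 ≤ 2 + 2 / ε - 1 / 2 := by
      have : 0 < 2 / ε := by positivity
      linarith
    rw [tsum_eq_sum (s := sbox Y) fun n hn => by simp [hz n hn]]
    have h1 : ∑ n ∈ sbox Y, ‖γ (d * n)‖ * Nr n ^ (2 + 2 / ε - 1 / 2) ≤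
        (∑ n ∈ sbox Y, ‖γ (d * n)‖) * Y ^ (2 + 2 / ε - 1 / 2) := by
      rw [Finset.sum_mul]
      refine Finset.sum_le_sum fun n hn => ?_
      have := Nr_nonneg n
      have := (q_mem_sbox.1 hn).2.2
      gcongr
    have h2 : (∑ n ∈ sbox Y, ‖γ (d * n)‖) ^ 2 ≤ 25 * Y * cl2 Y (fun n => γ (d * n)) := by
      refine sq_sum_le_card_mul_sum_sq.trans ?_
      exact mul_le_mul_of_nonneg_right (card_sbox_le hY0.le) (cl2_nonneg _ _)
    have h0 : 0 ≤ ∑ n ∈ sbox Y, ‖γ (d * n)‖ * Nr n ^ (2 + 2 / ε - 1 / 2) :=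
      Finset.sum_nonneg fun n _ => mul_nonneg (norm_nonneg _) (Real.rpow_nonneg (Nr_nonneg _) _)
    have h3 := cd_tail hε hR hM hY0 hYM
    have h4 := cl2_nonneg Y (fun n => γ (d * n))
    calc _ ≤ R ^ (1 - (2 + 2 / ε)) * ((R * M) ^ ε * Y ^ 2 / R) ^ (1 - (2 + 2 / ε)) *
          ((∑ n ∈ sbox Y, ‖γ (d * n)‖) * Y ^ (2 + 2 / ε - 1 / 2)) ^ 2 := by gcongr
      _ ≤ R ^ (1 - (2 + 2 / ε)) * ((R * M) ^ ε * Y ^ 2 / R) ^ (1 - (2 + 2 / ε)) *
          (25 * Y * cl2 Y (fun n => γ (d * n)) * (Y ^ (2 + 2 / ε - 1 / 2)) ^ 2) := by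
          rw [mul_pow]
          gcongr
      _ = 25 * cl2 Y (fun n => γ (d * n)) * (R ^ (1 - (2 + 2 / ε)) *
          ((R * M) ^ ε * Y ^ 2 / R) ^ (1 - (2 + 2 / ε)) * (Y * (Y ^ (2 + 2 / ε - 1 / 2)) ^ 2)) := by
          ring
      _ ≤ _ := mul_le_of_le_one_right (by positivity) h3

end Crest.Agent.R012

end
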