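import Crest.Agent.R012.CB
import Crest.Agent.R012.CD

/-! # Row 12: Heath-Brown's iteration for the cubic large sieve -/

set_option autoImplicit false

noncomputable section

open scoped BigOperators ComplexConjugate Topology
open Complex MeasureTheory Filter Crest.Agent.R017

namespace Crest.Agent.R012

theorem ce_rp {x : ℝ} (hx : 0 ≤ x) (n : ℕ) {r : ℝ} (h : 3 * r = n) : (x ^ 3) ^ r = x ^ n := by
  rw [← Real.rpow_natCast, ← Real.rpow_mul hx, ← Real.rpow_natCast x n, ← h]; norm_num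

theorem ce_root {x : ℝ} (hx : 1 ≤ x) : ∃ y : ℝ, 1 ≤ y ∧ x = y ^ 3 :=
  ⟨x ^ ((3 : ℕ) : ℝ)⁻¹, Real.one_le_rpow hx (by positivity),
    (Real.rpow_inv_natCast_pow (by linarith) (by norm_num)).symm⟩

theorem ce_num {K M X Y : ℝ} (hK : 1 ≤ K) (hM : 1 ≤ M) (hX : 1 ≤ X) (hY : 1 ≤ Y) (hXK : X ≤ K)
    (h : X * Y ^ 2 ≤ 8 * K) :
    (Y ≤ X → Y * (8 * K / (X * Y ^ 2)) ^ (1 / 3 : ℝ) * (X + M + (X * M) ^ (2 / 3 : ℝ)) ≤
      8 * (K + K ^ (1 / 3 : ℝ) * M + (K * M) ^ (2 / 3 : ℝ))) ∧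
    (X ≤ Y → X * (8 * K / (X * Y ^ 2)) ^ (1 / 3 : ℝ) * (Y + M + (Y * M) ^ (2 / 3 : ℝ)) ≤
      8 * (K + K ^ (1 / 3 : ℝ) * M + (K * M) ^ (2 / 3 : ℝ))) := by
  obtain ⟨k, hk, rfl⟩ := ce_root hK
  obtain ⟨m, hm, rfl⟩ := ce_root hM
  obtain ⟨x, hx, rfl⟩ := ce_root hX
  obtain ⟨y, hy, rfl⟩ := ce_root hY
  have k0 : 0 < k := by linarith
  have m0 : 0 < m := by linarith
  have x0 : 0 < x := by linarith
  have y0 : 0 < y := by linarith
  have e1 : 8 * k ^ 3 / (x ^ 3 * (y ^ 3) ^ 2) = (2 * k / (x * y ^ 2)) ^ 3 := by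
    field_simp; norm_num
  rw [e1, ← mul_pow, ← mul_pow, ← mul_pow, ce_rp (by positivity) 1 (r := 1 / 3) (by norm_num),
    ce_rp k0.le 1 (by norm_num), ce_rp (by positivity) 2 (r := 2 / 3) (by norm_num),
    ce_rp (by positivity) 2 (r := 2 / 3) (by norm_num),
    ce_rp (by positivity) 2 (r := 2 / 3) (by norm_num), pow_one, pow_one]
  have a1 : x ≤ k := (pow_le_pow_iff_left₀ x0.le k0.le (by norm_num)).1 hXK
  have a2 : x * y ^ 2 ≤ 2 * k := by
    refine (pow_le_pow_iff_left₀ (by positivity) (by positivity) (show 3 ≠ 0 by norm_num)).1 ?_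
    calc (x * y ^ 2) ^ 3 = x ^ 3 * (y ^ 3) ^ 2 := by ring
      _ ≤ 8 * k ^ 3 := h
      _ = (2 * k) ^ 3 := by ring
  have a3 : x * y ≤ 2 * k :=
    le_trans (mul_le_mul_of_nonneg_left (le_self_pow₀ hy (by norm_num)) x0.le) a2
  have p1 : 0 ≤ k ^ 3 := by positivity
  have p2 : 0 ≤ k * m ^ 3 := by positivity
  have p3 : 0 ≤ (k * m) ^ 2 := by positivity
  constructor
  · intro hyx
    have a4 : y ≤ x := (pow_le_pow_iff_left₀ y0.le x0.le (by norm_num)).1 hyx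
    have e2 : y ^ 3 * (2 * k / (x * y ^ 2)) * (x ^ 3 + m ^ 3 + (x * m) ^ 2) =
        2 * k * (x * (x * y)) + 2 * (k * m ^ 3) * (y / x) + 2 * k * m ^ 2 * (x * y) := by
      field_simp
    have b1 : 2 * k * (x * (x * y)) ≤ 2 * k * (k * (2 * k)) := by gcongr
    have b2 : 2 * (k * m ^ 3) * (y / x) ≤ 2 * (k * m ^ 3) * 1 := by
      gcongr; exact (div_le_one x0).2 a4
    have b3 : 2 * k * m ^ 2 * (x * y) ≤ 2 * k * m ^ 2 * (2 * k) := by gcongr
    rw [e2]
    nlinarith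
  · intro hxy
    have a4 : x ≤ y := (pow_le_pow_iff_left₀ x0.le y0.le (by norm_num)).1 hxy
    have e2 : x ^ 3 * (2 * k / (x * y ^ 2)) * (y ^ 3 + m ^ 3 + (y * m) ^ 2) =
        2 * k * (x * (x * y)) + 2 * (k * m ^ 3) * (x / y) ^ 2 + 2 * k * m ^ 2 * (x * x) := by
      field_simp
    have b1 : 2 * k * (x * (x * y)) ≤ 2 * k * (k * (2 * k)) := by gcongr
    have b2 : 2 * (k * m ^ 3) * (x / y) ^ 2 ≤ 2 * (k * m ^ 3) * 1 := by
      gcongr; exact pow_le_one₀ (by positivity) ((div_le_one y0).2 a4)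
    have b3 : 2 * k * m ^ 2 * (x * x) ≤ 2 * k * m ^ 2 * (2 * k) :=
      mul_le_mul_of_nonneg_left ((mul_le_mul_of_nonneg_left a4 x0.le).trans a3) (by positivity)
    rw [e2]
    nlinarith

/-- From squarefree rows to all rows: `rows_cover` with `Z = 0` (`not_near_zero`); on the block
`(X, Y)` with `J = (8 K / (X Y²))^{1/3}` use `blk_ls₁` if `Y ≤ X` and `blk_ls₂` otherwise.
If `Y ≤ X`: `Y J = 2 K^{1/3} (Y / X)^{1/3} ≤ 2 K^{1/3}`, `Y J X ≤ 8 K`,
`Y J X^{2/3} = 2 K^{1/3} (X Y)^{1/3} ≤ 4 K^{2/3}`.  If `X ≤ Y`: `X J = 2 K^{1/3} (X / Y)^{2/3}`,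
`X J Y ≤ 8 K`, `X J Y^{2/3} = 2 K^{1/3} X^{2/3} ≤ 2 K^{1/3} (X Y²)^{1/3}`. -/
theorem b2_of_b1 {ε : ℝ} (hε : 0 < ε) : ∃ C : ℝ, 0 ≤ C ∧ ∀ K M κ : ℝ, 1 ≤ K → 1 ≤ M → 0 ≤ κ →
    (∀ X : ℝ, 1 ≤ X → X ≤ K → LSb (sbox X) M (κ * (X + M + (X * M) ^ (2 / 3 : ℝ)))) →
    LSb (box K) M (C * K ^ ε * κ * (K + K ^ (1 / 3 : ℝ) * M + (K * M) ^ (2 / 3 : ℝ))) := by
  classical
  obtain ⟨C, hC, h⟩ := rows_cover hε
  refine ⟨C * (225 * 625 * 8), by positivity, fun K M κ hK hM hκ hb a => ?_⟩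
  have hl := cl2_nonneg M a
  set β := K + K ^ (1 / 3 : ℝ) * M + (K * M) ^ (2 / 3 : ℝ) with hβ
  have hβ0 : 0 ≤ β := by positivity
  have key := h K 0 (225 * 625 * 8 * κ * β * cl2 M a) (fun r => ‖cr M a r‖ ^ 2) hK (by positivity)
    (fun r => by positivity) fun X Y hX hY hXK hYK hXY _ => by
      refine (Finset.sum_le_sum_of_subset_of_nonneg (Finset.filter_subset _ _)
        fun r _ _ => by positivity).trans ?_
      obtain ⟨n1, n2⟩ := ce_num hK hM hX hY hXK hXY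
      rcases le_total Y X with hYX | hYX
      · refine (blk_ls₁ (Y := Y) (by linarith) (by positivity) (by positivity) (hb X hX hXK)).mono
          subset_rfl ?_ a
        have := mul_le_mul_of_nonneg_left (n1 hYX) hκ
        nlinarith
      · refine (blk_ls₂ (X := X) (by linarith) (by positivity) (by positivity) (hb Y hY hYK)).mono
          subset_rfl ?_ a
        have := mul_le_mul_of_nonneg_left (n2 hYX) hκ
        nlinarith
  rw [Finset.filter_true_of_mem fun r hr => not_near_zero (mem_box.1 hr).1] at key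
  refine key.trans (le_of_eq ?_)
  ring

/-- The large sieve inequality for `K ≥ M ^ ρ`. -/
def CP (ρ : ℝ) : Prop := ∀ ε : ℝ, 0 < ε → ∃ C : ℝ, 0 ≤ C ∧ ∀ K M : ℝ, 1 ≤ M → M ^ ρ ≤ K →
  LSb (sbox K) M (C * K ^ ε * (K + (K * M) ^ (2 / 3 : ℝ)))

/-- `LSb_triv`. -/
theorem cp_two : CP 2 := by
  intro ε hε
  obtain ⟨C, hC, h⟩ := LSb_triv hε
  refine ⟨2 * C, by positivity, fun K M hM hK => ?_⟩
  rw [Real.rpow_two] at hK
  have h1 : M ≤ K := le_trans (by nlinarith) hK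
  refine (h K M (hM.trans h1) hM).mono (sbox_subset_box K) ?_
  have h2 : 0 ≤ (K * M) ^ (2 / 3 : ℝ) := Real.rpow_nonneg (by nlinarith) _
  have K0 : 0 ≤ K := by linarith
  calc C * M ^ ε * (K + M ^ 2) ≤ C * K ^ ε * (2 * (K + (K * M) ^ (2 / 3 : ℝ))) := by
        gcongr; linarith
    _ = _ := by ring

theorem ce_mono {ρ ρ' : ℝ} (h : CP ρ) (hρ : ρ ≤ ρ') : CP ρ' := by
  intro ε hε
  obtain ⟨C, hC, h⟩ := h ε hε
  exact ⟨C, hC, fun K M hM hK => h K M hM ((Real.rpow_le_rpow_of_exponent_le hM hρ).trans hK)⟩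

theorem ce_half {x ε : ℝ} (hx : 0 < x) : x ^ ε = x ^ (ε / 2) * x ^ (ε / 2) := by
  rw [← Real.rpow_add hx]; congr 1; ring

/-- The dual bound used in the step: `LSb.dual` of `CP ρ'` for the rows `sbox X`, `X ≤ K`, then
`b2_of_b1`; `K ≤ M`, so all three terms are at most `K^{1/3} M`. For `K < 1` the box is empty. -/
theorem cp_dual {ρ : ℝ} (h1 : 1 ≤ ρ) (h : CP ρ) {ε : ℝ} (hε : 0 < ε) : ∃ C : ℝ, 0 ≤ C ∧
    ∀ K M : ℝ, 0 ≤ K → 1 ≤ M → K ^ ρ ≤ M → LSb (box K) M (C * M ^ ε * K ^ (1 / 3 : ℝ) * M) := by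
  obtain ⟨C1, hC1, hp⟩ := h (ε / 2) (half_pos hε)
  obtain ⟨C2, hC2, hb⟩ := b2_of_b1 (half_pos hε)
  refine ⟨3 * C1 * C2, by positivity, fun K M hK0 hM hKM => ?_⟩
  rcases lt_or_ge K 1 with hK | hK
  · rw [box_eq_empty hK]
    exact LSb_empty (by positivity)
  have hKM' : K ≤ M := by
    have := Real.rpow_le_rpow_of_exponent_le hK h1
    rw [Real.rpow_one] at this
    exact this.trans hKM
  refine (hb K M (C1 * M ^ (ε / 2)) hK hM (by positivity) fun X hX hXK => ?_).mono subset_rfl ?_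
  · refine ((hp M X hX ((Real.rpow_le_rpow (by linarith) hXK (by linarith)).trans hKM)).dual
      (by positivity)).mono subset_rfl ?_
    rw [mul_comm M X]
    gcongr
    linarith
  · have a1 : K + K ^ (1 / 3 : ℝ) * M + (K * M) ^ (2 / 3 : ℝ) ≤ 3 * (K ^ (1 / 3 : ℝ) * M) := by
      obtain ⟨k, hk, rfl⟩ := ce_root hK
      obtain ⟨m, hm, rfl⟩ := ce_root hM
      have a2 : k ≤ m := (pow_le_pow_iff_left₀ (by linarith) (by linarith) (by norm_num)).1 hKM'
      rw [← mul_pow, ce_rp (by linarith) 1 (r := 1 / 3) (by norm_num),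
        ce_rp (by positivity) 2 (r := 2 / 3) (by norm_num), pow_one]
      have b1 : k * k ^ 2 ≤ k * m ^ 3 := by
        gcongr
        exact (pow_le_pow_left₀ (by linarith) a2 2).trans (pow_le_pow_right₀ hm (by norm_num))
      have b2 : k * (k * m ^ 2) ≤ k * (m * m ^ 2) := by gcongr
      nlinarith
    rw [ce_half (ε := ε) (show 0 < M by linarith)]
    calc _ ≤ C2 * M ^ (ε / 2) * (C1 * M ^ (ε / 2)) * (3 * (K ^ (1 / 3 : ℝ) * M)) := by gcongr
      _ = _ := by ring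

/-- The step. If `M² ≤ K` use `cp_two`. Otherwise `LSb_dyadic` and `fin_pstep` with a small `ε₁`,
`ρ' (2 - ρ + 3 ε₁) ≤ 1`, `3 ε₁ ≤ ρ - 1`: for `M₁ ≤ M' ≤ M` the dual length
`K₁ = (K M')^{ε₁} M₁² / K ≤ M^{3 ε₁ - ρ} M₁² ≤ M₁^{2 - ρ + 3 ε₁}` satisfies `K₁^{ρ'} ≤ M₁`, so
`cp_dual` gives `Λ = C M^{ε₁} ((K M)^{ε₁} M² / K)^{1/3}` and `K Λ ≤ C K^{2 ε₁} (K M)^{2/3}`. -/
theorem cp_step {ρ ρ' : ℝ} (h1 : 1 < ρ') (h : CP ρ') (h2 : 2 - 1 / ρ' < ρ) : CP ρ := by
  intro ε hε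
  have r0 : 0 < ρ' := by linarith
  have r1 : ρ' * (2 - ρ) < 1 := by
    have : 2 - ρ < 1 / ρ' := by linarith
    rwa [lt_div_iff₀ r0, mul_comm] at this
  have r2 : 1 < ρ := by
    have : 1 / ρ' < 1 := (div_lt_one r0).2 h1
    linarith
  obtain ⟨e, e0, e1, e2, e3⟩ : ∃ e : ℝ, 0 < e ∧ 4 * e ≤ ε ∧ ρ' * (2 - ρ + 3 * e) ≤ 1 ∧
      3 * e ≤ ρ - 1 := by
    refine ⟨min (ε / 4) (min ((1 - ρ' * (2 - ρ)) / (3 * ρ')) ((ρ - 1) / 3)),
      lt_min (by linarith) (lt_min (div_pos (by linarith) (by linarith)) (by linarith)), ?_, ?_, ?_⟩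
    · linarith [min_le_left (ε / 4) (min ((1 - ρ' * (2 - ρ)) / (3 * ρ')) ((ρ - 1) / 3))]
    · have := (min_le_right (ε / 4) _).trans
        (min_le_left ((1 - ρ' * (2 - ρ)) / (3 * ρ')) ((ρ - 1) / 3))
      rw [le_div_iff₀ (by linarith)] at this
      linarith
    · have := (min_le_right (ε / 4) _).trans
        (min_le_right ((1 - ρ' * (2 - ρ)) / (3 * ρ')) ((ρ - 1) / 3))
      linarith
  obtain ⟨C0, hC0, h0⟩ := cp_two ε hε
  obtain ⟨C1, hC1, hd⟩ := LSb_dyadic e0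
  obtain ⟨C2, hC2, hs⟩ := fin_pstep e0
  obtain ⟨C3, hC3, hu⟩ := cp_dual h1.le h e0
  refine ⟨C0 + C1 * C2 * (1 + C3), by positivity, fun K M hM hK => ?_⟩
  have hMK : M ≤ K := by
    have := Real.rpow_le_rpow_of_exponent_le hM r2.le
    rw [Real.rpow_one] at this
    exact this.trans hK
  have hK1 : 1 ≤ K := hM.trans hMK
  have K0 : 0 < K := by linarith
  have M0 : 0 < M := by linarith
  rcases le_total (M ^ 2) K with hc | hc
  · refine (h0 K M hM (by rwa [Real.rpow_two])).mono subset_rfl ?_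
    gcongr
    exact le_add_of_nonneg_right (by positivity)
  set Λ := C3 * M ^ e * ((K * M) ^ e * M ^ 2 / K) ^ (1 / 3 : ℝ) with hΛ
  have hΛ0 : 0 ≤ Λ := by positivity
  refine (hd (sbox K) M (C2 * M ^ e * K * (1 + Λ)) hM (by positivity)
    fun M' a hM1 hM2 ha => ?_).mono subset_rfl ?_
  · refine (Finset.sum_le_sum_of_subset_of_nonneg (sbox_subset_box K)
      fun r _ _ => by positivity).trans ((hs K M' Λ a hK1 hM1 hΛ0 ha fun M₁ m1 m2 => ?_).trans ?_)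
    · have m0 : 0 < M₁ := by linarith
      have m3 : M₁ ≤ M := m2.trans hM2
      have b1 : (K * M') ^ e * M₁ ^ 2 / K ≤ M₁ ^ (2 - ρ + 3 * e) := by
        calc (K * M') ^ e * M₁ ^ 2 / K ≤ (M ^ 2 * M) ^ e * M₁ ^ 2 / M ^ ρ := by gcongr
          _ = M ^ (3 * e - ρ) * M₁ ^ 2 := by
              rw [← pow_succ, ← Real.rpow_natCast, ← Real.rpow_mul M0.le, Real.rpow_sub M0]
              push_cast
              ring
          _ ≤ M₁ ^ (3 * e - ρ) * M₁ ^ 2 := by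
              gcongr ?_ * _
              exact Real.rpow_le_rpow_of_nonpos m0 m3 (by linarith)
          _ = _ := by
              rw [← Real.rpow_two, ← Real.rpow_add m0]; congr 1; ring
      refine (hu _ M₁ (by positivity) m1 ?_).mono subset_rfl ?_
      · refine (Real.rpow_le_rpow (by positivity) b1 r0.le).trans ?_
        rw [← Real.rpow_mul m0.le]
        conv_rhs => rw [← Real.rpow_one M₁]
        exact Real.rpow_le_rpow_of_exponent_le m1 (by linarith)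
      · rw [hΛ]
        gcongr
    · have := cl2_nonneg M' a
      gcongr
  · set y := K ^ e with hy
    have y1 : 1 ≤ y := Real.one_le_rpow hK1 e0.le
    have y2 : M ^ e ≤ y := Real.rpow_le_rpow M0.le hMK e0.le
    have y3 : y ^ 4 ≤ K ^ ε := by
      rw [hy, ← Real.rpow_natCast, ← Real.rpow_mul K0.le]
      exact Real.rpow_le_rpow_of_exponent_le hK1 (by push_cast; linarith)
    have y4 : K * ((K * M) ^ e * M ^ 2 / K) ^ (1 / 3 : ℝ) ≤ y * (K * M) ^ (2 / 3 : ℝ) := by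
      have c1 : (K * M) ^ e ≤ y ^ 3 := by
        rw [Real.mul_rpow K0.le M0.le]
        calc K ^ e * M ^ e ≤ y * y * y := by
              rw [mul_assoc]
              exact mul_le_mul le_rfl (y2.trans (le_mul_of_one_le_left (by linarith) y1))
                (by positivity) (by positivity)
          _ = y ^ 3 := by ring
      have c2 : K * ((K * M) ^ e * M ^ 2 / K) ^ (1 / 3 : ℝ) ≤
          K * (y ^ 3 * M ^ 2 / K) ^ (1 / 3 : ℝ) := by gcongr
      refine c2.trans (le_of_eq ?_)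
      clear_value y
      obtain ⟨k, hk, rfl⟩ := ce_root hK1
      obtain ⟨m, hm, rfl⟩ := ce_root hM
      have k0 : 0 < k := by linarith
      rw [show y ^ 3 * (m ^ 3) ^ 2 / k ^ 3 = (y * m ^ 2 / k) ^ 3 by field_simp, ← mul_pow,
        ce_rp (by positivity) 1 (r := 1 / 3) (by norm_num),
        ce_rp (by positivity) 2 (r := 2 / 3) (by norm_num)]
      field_simp
    set Q := (K * M) ^ (2 / 3 : ℝ) with hQ
    have Q0 : 0 ≤ Q := by positivity
    have y5 : K * (1 + Λ) ≤ (1 + C3) * y ^ 2 * (K + Q) := by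
      have d1 : K * Λ ≤ C3 * y * (y * Q) := by
        calc K * Λ = C3 * M ^ e * (K * ((K * M) ^ e * M ^ 2 / K) ^ (1 / 3 : ℝ)) := by
              rw [hΛ]; ring
          _ ≤ _ := by gcongr
      have d2 : K ≤ y ^ 2 * K := le_mul_of_one_le_left K0.le (one_le_pow₀ y1)
      have d3 : 0 ≤ y ^ 2 * Q := by positivity
      have d4 : 0 ≤ C3 * (y ^ 2 * K) := by positivity
      nlinarith
    calc C1 * M ^ e * (C2 * M ^ e * K * (1 + Λ)) = C1 * C2 * (M ^ e * M ^ e) * (K * (1 + Λ)) := by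
          ring
      _ ≤ C1 * C2 * (y * y) * ((1 + C3) * y ^ 2 * (K + Q)) := by gcongr
      _ = C1 * C2 * (1 + C3) * y ^ 4 * (K + Q) := by ring
      _ ≤ _ := by
          gcongr
          exact le_add_of_nonneg_left hC0

/-- Induction on `k`: `CP ρ` for all `ρ > 1 + 1 / (k + 1)` (for `ρ < 2` choose `ρ'` between
`1 + 1 / (k + 1)` and `1 / (2 - ρ)`). -/
theorem cp_all {ρ : ℝ} (h : 1 < ρ) : CP ρ := by
  have key : ∀ k : ℕ, ∀ ρ : ℝ, 1 + 1 / ((k : ℝ) + 1) < ρ → CP ρ := by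
    intro k
    induction k with
    | zero => intro ρ h; exact ce_mono cp_two (by norm_num at h; linarith)
    | succ k ih =>
      intro ρ h
      rcases le_or_gt 2 ρ with h2 | h2
      · exact ce_mono cp_two h2
      have k0 : (0 : ℝ) < k + 1 := by positivity
      have h3 : 1 + 1 / ((k : ℝ) + 1) < 1 / (2 - ρ) := by
        push_cast at h
        have a1 : 2 - ρ < (k + 1) / (k + 2) := by
          have : 1 + 1 / ((k : ℝ) + 1 + 1) = 2 - (k + 1) / (k + 2) := by field_simp; ring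
          linarith
        rw [lt_div_iff₀ (by positivity)] at a1
        rw [lt_div_iff₀ (by linarith), show 1 + 1 / ((k : ℝ) + 1) = (k + 2) / (k + 1) by
          field_simp; ring, div_mul_eq_mul_div, div_lt_one k0]
        linarith
      obtain ⟨ρ', a1, a2⟩ := exists_between h3
      have a3 : 1 < ρ' := lt_of_le_of_lt (le_add_of_nonneg_right (by positivity)) a1
      refine cp_step a3 (ih ρ' a1) ?_
      rw [lt_div_iff₀ (by linarith)] at a2
      have : 2 - ρ < 1 / ρ' := by rw [lt_div_iff₀ (by linarith)]; linarith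
      linarith
  obtain ⟨k, hk⟩ := exists_nat_one_div_lt (show 0 < ρ - 1 by linarith)
  exact key k ρ (by linarith)

/-- For `M ≤ K`: `cp_all` with `ρ = 1 + ε / 4`, enlarging the rows to `max K (M ^ ρ)`; for `K ≤ M`
use `LSb.dual`. -/
theorem cls' {ε : ℝ} (hε : 0 < ε) : ∃ C : ℝ, 0 ≤ C ∧ ∀ K M : ℝ, 1 ≤ K → 1 ≤ M →
    LSb (sbox K) M (C * (K * M) ^ ε * (K + M + (K * M) ^ (2 / 3 : ℝ))) := by
  obtain ⟨C, hC, h⟩ := cp_all (ρ := 1 + ε / 4) (by linarith) (min ε 1) (lt_min hε one_pos)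
  have key : ∀ K M : ℝ, 1 ≤ M → M ≤ K →
      LSb (sbox K) M (C * (K * M) ^ ε * (K + M + (K * M) ^ (2 / 3 : ℝ))) := by
    intro K M hM hMK
    have hK : 1 ≤ K := hM.trans hMK
    have M0 : 0 < M := by linarith
    set y := M ^ (ε / 4) with hy
    have y1 : 1 ≤ y := Real.one_le_rpow hM (by linarith)
    refine (h (K * y) M hM ?_).mono (sbox_mono (le_mul_of_one_le_right (by linarith) y1)) ?_
    · rw [Real.rpow_add M0, Real.rpow_one]
      gcongr
    have a1 : (K * y) ^ min ε 1 ≤ K ^ ε * y := by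
      rw [Real.mul_rpow (by linarith) (by linarith)]
      refine mul_le_mul (Real.rpow_le_rpow_of_exponent_le hK (min_le_left _ _)) ?_
        (by positivity) (by positivity)
      conv_rhs => rw [← Real.rpow_one y]
      exact Real.rpow_le_rpow_of_exponent_le y1 (min_le_right _ _)
    have a2 : (K * y * M) ^ (2 / 3 : ℝ) ≤ y * (K * M) ^ (2 / 3 : ℝ) := by
      rw [show K * y * M = y * (K * M) by ring, Real.mul_rpow (by linarith) (by positivity)]
      gcongr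
      conv_rhs => rw [← Real.rpow_one y]
      exact Real.rpow_le_rpow_of_exponent_le y1 (by norm_num)
    have a3 : y * y ≤ M ^ ε := by
      rw [hy, ← Real.rpow_add M0]
      exact Real.rpow_le_rpow_of_exponent_le hM (by linarith)
    have a4 : K * y + (K * y * M) ^ (2 / 3 : ℝ) ≤ y * (K + M + (K * M) ^ (2 / 3 : ℝ)) := by
      nlinarith
    rw [Real.mul_rpow (x := K) (y := M) (z := ε) (by linarith) M0.le]
    calc _ ≤ C * (K ^ ε * y) * (y * (K + M + (K * M) ^ (2 / 3 : ℝ))) := by gcongr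
      _ = C * (K ^ ε * (y * y)) * (K + M + (K * M) ^ (2 / 3 : ℝ)) := by ring
      _ ≤ _ := by gcongr
  refine ⟨C, hC, fun K M hK hM => ?_⟩
  rcases le_total M K with hc | hc
  · exact key K M hM hc
  · have := (key M K hK hc).dual (by positivity)
    rwa [mul_comm M K, add_comm M K] at this

theorem cls_all' {ε : ℝ} (hε : 0 < ε) : ∃ C : ℝ, 0 ≤ C ∧ ∀ R M : ℝ, 1 ≤ R → 1 ≤ M →
    LSb (box R) M (C * (R * M) ^ ε * (R + R ^ (1 / 3 : ℝ) * M + (R * M) ^ (2 / 3 : ℝ))) := by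
  obtain ⟨C1, hC1, h1⟩ := cls' (half_pos hε)
  obtain ⟨C2, hC2, h2⟩ := b2_of_b1 (half_pos hε)
  refine ⟨C2 * C1, by positivity, fun R M hR hM => ?_⟩
  refine (h2 R M (C1 * (R * M) ^ (ε / 2)) hR hM (by positivity) fun X hX hXR =>
    (h1 X M hX hM).mono subset_rfl (by gcongr)).mono subset_rfl ?_
  rw [ce_half (ε := ε) (show 0 < R * M by positivity)]
  have : R ^ (ε / 2) ≤ (R * M) ^ (ε / 2) :=
    Real.rpow_le_rpow (by linarith) (le_mul_of_one_le_right (by linarith) hM) (by linarith)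
  calc _ ≤ C2 * (R * M) ^ (ε / 2) * (C1 * (R * M) ^ (ε / 2)) *
        (R + R ^ (1 / 3 : ℝ) * M + (R * M) ^ (2 / 3 : ℝ)) := by gcongr
    _ = _ := by ring

end Crest.Agent.R012

end
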