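import Crest.Agent.R012.CE
import Crest.Agent.R012.CC

/-! # Row 12: rows far from cubes and rows of small conductor -/

set_option autoImplicit false

noncomputable section

open scoped BigOperators ComplexConjugate Topology
open Complex MeasureTheory Filter Crest.Agent.R017

namespace Crest.Agent.R012

theorem cg_cube {t : ℝ} (ht : 0 < t) : ∃ u : ℝ, 0 < u ∧ t = u ^ 3 :=
  ⟨t ^ (1 / 3 : ℝ), Real.rpow_pos_of_pos ht _, by
    rw [← Real.rpow_natCast, ← Real.rpow_mul ht.le]; norm_num⟩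

theorem cg_rp {u : ℝ} (hu : 0 ≤ u) (k : ℕ) {e : ℝ} (he : 3 * e = k) : (u ^ 3) ^ e = u ^ k := by
  rw [← Real.rpow_natCast, ← Real.rpow_mul hu, ← Real.rpow_natCast, ← he]; norm_num

theorem cg_rp1 {u : ℝ} (hu : 0 ≤ u) : (u ^ 3) ^ (1 / 3 : ℝ) = u := by
  rw [cg_rp hu 1 (by norm_num), pow_one]

theorem cg_rpn {u : ℝ} (hu : 0 ≤ u) : (u ^ 3) ^ (-(1 / 3) : ℝ) = u⁻¹ := by
  rw [Real.rpow_neg (by positivity), cg_rp1 hu]

theorem cg_le {u v : ℝ} (hv : 0 ≤ v) (h : u ^ 3 ≤ v ^ 3) : u ≤ v :=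
  le_of_pow_le_pow_left₀ (by norm_num) hv h

theorem cg_cover {ι : Type*} (T : Finset O) (I : Finset ι) (g : ι → Finset O) (f : O → ℝ)
    (hf : ∀ r, 0 ≤ f r) (h : ∀ r ∈ T, ∃ i ∈ I, r ∈ g i) :
    ∑ r ∈ T, f r ≤ ∑ i ∈ I, ∑ r ∈ g i, f r := by
  calc ∑ r ∈ T, f r ≤ ∑ r ∈ T, ∑ i ∈ I, if r ∈ g i then f r else 0 := by
        refine Finset.sum_le_sum fun r hr => ?_
        obtain ⟨i, hi, hri⟩ := h r hr
        have := Finset.single_le_sum (f := fun i => if r ∈ g i then f r else 0)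
          (fun j _ => by split_ifs; exacts [hf r, le_rfl]) hi
        simpa only [hri, if_true] using this
    _ = ∑ i ∈ I, ∑ r ∈ T, if r ∈ g i then f r else 0 := Finset.sum_comm
    _ ≤ ∑ i ∈ I, ∑ r ∈ g i, f r := by
        refine Finset.sum_le_sum fun i _ => ?_
        rw [← Finset.sum_filter]
        exact Finset.sum_le_sum_of_subset_of_nonneg (fun r hr => (Finset.mem_filter.1 hr).2)
          fun r _ _ => hf r

theorem cg_geom_lt {q B : ℝ} (h0 : 0 ≤ q) (h1 : q < 1) (hB : 0 ≤ B) (I : Finset ℕ)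
    (h : ∀ i ∈ I, q ^ i ≤ B) : ∑ i ∈ I, q ^ i ≤ B / (1 - q) := by
  have hq : 0 < 1 - q := by linarith
  rcases I.eq_empty_or_nonempty with rfl | hI
  · simp only [Finset.sum_empty]; positivity
  calc ∑ i ∈ I, q ^ i ≤ ∑ i ∈ Finset.Ico (I.min' hI) (I.max' hI + 1), q ^ i :=
        Finset.sum_le_sum_of_subset_of_nonneg (fun i hi => Finset.mem_Ico.2
          ⟨I.min'_le i hi, Nat.lt_succ_of_le (I.le_max' i hi)⟩) fun i _ _ => by positivity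
    _ ≤ q ^ I.min' hI / (1 - q) := geom_sum_Ico_le_of_lt_one h0 h1
    _ ≤ B / (1 - q) := div_le_div_of_nonneg_right (h _ (I.min'_mem hI)) hq.le

theorem cg_geom_four {B : ℝ} (hB : 0 ≤ B) (I : Finset ℕ) (h : ∀ i ∈ I, (4 : ℝ) ^ i ≤ B) :
    ∑ i ∈ I, (4 : ℝ) ^ i ≤ 2 * B := by
  rcases I.eq_empty_or_nonempty with rfl | hI
  · simp only [Finset.sum_empty]; positivity
  have h1 : ∀ n : ℕ, ∑ i ∈ Finset.range (n + 1), (4 : ℝ) ^ i ≤ 2 * 4 ^ n := fun n => by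
    induction n with
    | zero => norm_num
    | succ n ih =>
      rw [Finset.sum_range_succ, pow_succ]
      have : (0 : ℝ) ≤ 4 ^ n := by positivity
      linarith
  calc ∑ i ∈ I, (4 : ℝ) ^ i ≤ ∑ i ∈ Finset.range (I.max' hI + 1), (4 : ℝ) ^ i :=
        Finset.sum_le_sum_of_subset_of_nonneg (fun i hi => Finset.mem_range.2
          (Nat.lt_succ_of_le (I.le_max' i hi))) fun i _ _ => by positivity
    _ ≤ 2 * 4 ^ I.max' hI := h1 _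
    _ ≤ 2 * B := by linarith [h _ (I.max'_mem hI)]

/-- One block. With `J = (8 R / (X Y²))^{1/3}`: if `V Y ≤ X` use `blk_ls₁` and `cls'`
(`Y J = 2 R^{1/3} (Y / X)^{1/3} ≤ 2 R^{1/3} V^{-1/3}`, `Y J X ≤ 8 R`, `Y J X^{2/3} ≤ 4 R^{2/3}`),
otherwise `blk_ls₃` (`J ≤ 2 R^{1/3} (Z / 9)^{-1/3}`,
`J (X Y)² = 2 R^{1/3} (X Y²) (X / Y)^{2/3} ≤ 16 R^{4/3} V^{2/3}`, `X Y ≤ 8 R`). -/
theorem cg_far_blk {ε : ℝ} (hε : 0 < ε) : ∃ C : ℝ, 0 ≤ C ∧ ∀ R M Z V X Y : ℝ, 1 ≤ R → 1 ≤ M →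
    1 ≤ Z → 1 ≤ V → 1 ≤ X → 1 ≤ Y → X ≤ R → X * Y ^ 2 ≤ 8 * R → Z < 9 * (X * Y ^ 2) →
    LSb (blk X Y ((8 * R / (X * Y ^ 2)) ^ (1 / 3 : ℝ))) M
      (C * (R * M) ^ ε * (R + (R * M) ^ (2 / 3 : ℝ) +
        R ^ (1 / 3 : ℝ) * M * (Z ^ (-(1 / 3) : ℝ) + V ^ (-(1 / 3) : ℝ)) +
        R ^ (4 / 3 : ℝ) * V ^ (2 / 3 : ℝ))) := by
  obtain ⟨C₁, hC₁, H₁⟩ := cls' hε
  obtain ⟨C₃, hC₃, H₃⟩ := blk_ls₃ hε
  refine ⟨225 * 625 * 4 * C₁ + C₃ * (6 + 16 * 8 ^ ε), by positivity, ?_⟩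
  intro R M Z V X Y hR hM hZ hV hX hY hXR hXY hZX
  have hE : 1 ≤ (R * M) ^ ε := Real.one_le_rpow (one_le_mul_of_one_le_of_one_le hR hM) hε.le
  have hE1 : (X * M) ^ ε ≤ (R * M) ^ ε := by gcongr
  have hE2 : (X * Y) ^ (2 + ε) ≤ (X * Y) ^ 2 * (8 ^ ε * (R * M) ^ ε) := by
    rw [Real.rpow_add (by positivity), Real.rpow_two, ← Real.mul_rpow (by norm_num) (by positivity)]
    have h1 : X * Y ≤ X * Y ^ 2 := by
      have : Y ≤ Y ^ 2 := by nlinarith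
      gcongr
    have h2 : R ≤ R * M := le_mul_of_one_le_right (by linarith) hM
    exact mul_le_mul_of_nonneg_left
      (Real.rpow_le_rpow (by positivity) (by linarith) hε.le) (by positivity)
  have G₁ := H₁ X M hX hM
  have G₃ := H₃ X Y ((8 * R / (X * Y ^ 2)) ^ (1 / 3 : ℝ)) M hX hY (by positivity) hM
  have G₁' := blk_ls₁ (Y := Y) (J := (8 * R / (X * Y ^ 2)) ^ (1 / 3 : ℝ)) (by linarith)
    (by positivity) (by positivity) G₁
  have h8 : (0 : ℝ) < 8 ^ ε := by positivity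
  generalize (8 : ℝ) ^ ε = c at *
  generalize (R * M) ^ ε = E at *
  generalize hF : (X * M) ^ ε = F at *
  have hF0 : 0 ≤ F := by rw [← hF]; positivity
  generalize (X * Y) ^ (2 + ε) = G at *
  obtain ⟨r, hr, rfl⟩ := cg_cube (show 0 < R by linarith)
  obtain ⟨m, hm, rfl⟩ := cg_cube (show 0 < M by linarith)
  obtain ⟨z, hz, rfl⟩ := cg_cube (show 0 < Z by linarith)
  obtain ⟨v, hv, rfl⟩ := cg_cube (show 0 < V by linarith)
  obtain ⟨x, hx, rfl⟩ := cg_cube (show 0 < X by linarith)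
  obtain ⟨y, hy, rfl⟩ := cg_cube (show 0 < Y by linarith)
  have eJ : (8 * r ^ 3 / (x ^ 3 * (y ^ 3) ^ 2)) ^ (1 / 3 : ℝ) = 2 * r / (x * y ^ 2) := by
    rw [← cg_rp1 (u := 2 * r / (x * y ^ 2)) (by positivity)]
    congr 1
    ring
  rw [eJ] at G₁' G₃ ⊢
  rw [← mul_pow x m, cg_rp (by positivity) 2 (by norm_num)] at G₁'
  rw [← mul_pow r m, cg_rp (u := r * m) (by positivity) 2 (by norm_num), cg_rp1 hr.le, cg_rpn hz.le,
    cg_rpn hv.le, cg_rp hr.le 4 (by norm_num), cg_rp hv.le 2 (by norm_num)]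
  have hxr : x ≤ r := cg_le hr.le hXR
  have hy1 : 1 ≤ y := cg_le hy.le (by simpa using hY)
  have hxy : x * y ^ 2 ≤ 2 * r := cg_le (by positivity) (by nlinarith)
  have hzx : z ≤ 3 * (x * y ^ 2) := cg_le (by positivity) (by
    have : 0 ≤ (x * y ^ 2) ^ 3 := by positivity
    nlinarith)
  have hxy' : x * y ≤ 2 * r := by
    have : x * y ≤ x * y ^ 2 := by
      have : y ≤ y ^ 2 := by nlinarith
      gcongr
    linarith
  have p1 : 0 ≤ r ^ 3 := by positivity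
  have p2 : 0 ≤ (r * m) ^ 2 := by positivity
  have p3 : 0 ≤ r * m ^ 3 * z⁻¹ := by positivity
  have p4 : 0 ≤ r * m ^ 3 * v⁻¹ := by positivity
  have p5 : 0 ≤ r ^ 4 * v ^ 2 := by positivity
  set S := r ^ 3 + (r * m) ^ 2 + r * m ^ 3 * (z⁻¹ + v⁻¹) + r ^ 4 * v ^ 2 with hS
  have hS0 : 0 ≤ S := by positivity
  have hE0 : 0 ≤ E := by linarith
  rcases le_or_gt (v * y) x with h | h
  · refine G₁'.mono subset_rfl ?_
    have e1 : y ^ 3 * (2 * r / (x * y ^ 2)) * (x ^ 3 + m ^ 3 + (x * m) ^ 2) =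
        2 * r * (x * y) * x + 2 * r * m ^ 3 * (y / x) + 2 * r * (x * y) * m ^ 2 := by
      field_simp
    have b1 : 2 * r * (x * y) * x ≤ 2 * r * (2 * r) * r := by gcongr
    have b2 : y / x ≤ v⁻¹ := by
      rw [div_le_iff₀ hx, inv_mul_eq_div, le_div_iff₀ hv]
      linarith
    have b3 : 2 * r * m ^ 3 * (y / x) ≤ 2 * r * m ^ 3 * v⁻¹ := by gcongr
    have b4 : 2 * r * (x * y) * m ^ 2 ≤ 2 * r * (2 * r) * m ^ 2 := by gcongr
    have b5 : y ^ 3 * (2 * r / (x * y ^ 2)) * (x ^ 3 + m ^ 3 + (x * m) ^ 2) ≤ 4 * S := by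
      rw [e1, hS]
      nlinarith
    calc 225 * 625 * y ^ 3 * (2 * r / (x * y ^ 2)) * (C₁ * F * (x ^ 3 + m ^ 3 + (x * m) ^ 2))
        = 225 * 625 * C₁ * F * (y ^ 3 * (2 * r / (x * y ^ 2)) * (x ^ 3 + m ^ 3 + (x * m) ^ 2)) := by
          ring
      _ ≤ 225 * 625 * C₁ * E * (4 * S) := by gcongr
      _ = (225 * 625 * 4 * C₁) * E * S := by ring
      _ ≤ (225 * 625 * 4 * C₁ + C₃ * (6 + 16 * c)) * E * S := by
          gcongr
          exact le_add_of_nonneg_right (by positivity)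
  · refine G₃.mono subset_rfl ?_
    have b1 : 2 * r / (x * y ^ 2) ≤ 6 * r * z⁻¹ := by
      rw [div_le_iff₀ (by positivity), mul_assoc, inv_mul_eq_div, ← mul_div_assoc, le_div_iff₀ hz]
      nlinarith
    have b2 : 2 * r / (x * y ^ 2) * (x ^ 3 * y ^ 3) ^ 2 ≤ 16 * (r ^ 4 * v ^ 2) := by
      have e1 : 2 * r / (x * y ^ 2) * (x ^ 3 * y ^ 3) ^ 2 =
          2 * r * (x * y ^ 2) ^ 3 * (x / y) ^ 2 := by
        field_simp
      have b3 : x / y ≤ v := by rw [div_le_iff₀ hy]; exact h.le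
      rw [e1]
      calc 2 * r * (x * y ^ 2) ^ 3 * (x / y) ^ 2 ≤ 2 * r * (2 * r) ^ 3 * v ^ 2 := by gcongr
        _ = 16 * (r ^ 4 * v ^ 2) := by ring
    have b4 : 2 * r / (x * y ^ 2) * m ^ 3 ≤ 6 * S * E := by
      calc 2 * r / (x * y ^ 2) * m ^ 3 ≤ 6 * r * z⁻¹ * m ^ 3 := by gcongr
        _ ≤ 6 * S := by rw [hS]; nlinarith
        _ ≤ 6 * S * E := le_mul_of_one_le_right (by positivity) hE
    have b5 : 2 * r / (x * y ^ 2) * G ≤ 16 * S * (c * E) := by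
      calc 2 * r / (x * y ^ 2) * G ≤ 2 * r / (x * y ^ 2) * ((x ^ 3 * y ^ 3) ^ 2 * (c * E)) := by
            gcongr
        _ = 2 * r / (x * y ^ 2) * (x ^ 3 * y ^ 3) ^ 2 * (c * E) := by ring
        _ ≤ 16 * (r ^ 4 * v ^ 2) * (c * E) := by gcongr
        _ ≤ 16 * S * (c * E) := by
            gcongr
            rw [hS]
            nlinarith
    calc C₃ * (2 * r / (x * y ^ 2)) * (m ^ 3 + G)
        = C₃ * (2 * r / (x * y ^ 2) * m ^ 3 + 2 * r / (x * y ^ 2) * G) := by ring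
      _ ≤ C₃ * (6 * S * E + 16 * S * (c * E)) := by gcongr
      _ = (C₃ * (6 + 16 * c)) * E * S := by ring
      _ ≤ (225 * 625 * 4 * C₁ + C₃ * (6 + 16 * c)) * E * S := by
          gcongr
          exact le_add_of_nonneg_left (by positivity)

/-- `rows_cover` and `cg_far_blk`. -/
theorem cls_far' {ε : ℝ} (hε : 0 < ε) : ∃ C : ℝ, 0 ≤ C ∧ ∀ R M Z V : ℝ, 1 ≤ R → 1 ≤ M →
    1 ≤ Z → 1 ≤ V →
    LSb ((box R).filter (fun r => ¬ Near Z r)) M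
      (C * (R * M) ^ ε * (R + (R * M) ^ (2 / 3 : ℝ) +
        R ^ (1 / 3 : ℝ) * M * (Z ^ (-(1 / 3) : ℝ) + V ^ (-(1 / 3) : ℝ)) +
        R ^ (4 / 3 : ℝ) * V ^ (2 / 3 : ℝ))) := by
  obtain ⟨C₁, hC₁, H₁⟩ := rows_cover (half_pos hε)
  obtain ⟨C₂, hC₂, H₂⟩ := cg_far_blk (half_pos hε)
  refine ⟨C₁ * C₂, by positivity, fun R M Z V hR hM hZ hV a => ?_⟩
  have h0 := cl2_nonneg M a
  set S := R + (R * M) ^ (2 / 3 : ℝ) +
    R ^ (1 / 3 : ℝ) * M * (Z ^ (-(1 / 3) : ℝ) + V ^ (-(1 / 3) : ℝ)) +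
    R ^ (4 / 3 : ℝ) * V ^ (2 / 3 : ℝ) with hS
  have hS0 : 0 ≤ S := by positivity
  have h1 := H₁ R Z (C₂ * (R * M) ^ (ε / 2) * S * cl2 M a) (fun r => ‖cr M a r‖ ^ 2) hR
    (by positivity) (fun r => by positivity) fun X Y hX hY hXR _ h2 h3 =>
      ((H₂ R M Z V X Y hR hM hZ hV hX hY hXR h2 h3).mono (Finset.filter_subset _ _) le_rfl) a
  refine h1.trans ?_
  have h2 : R ^ (ε / 2) ≤ (R * M) ^ (ε / 2) := by
    have : R ≤ R * M := le_mul_of_one_le_right (by linarith) hM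
    gcongr
  have h3 : (R * M) ^ ε = (R * M) ^ (ε / 2) * (R * M) ^ (ε / 2) := by
    rw [← Real.rpow_add (by positivity), add_halves]
  calc C₁ * R ^ (ε / 2) * (C₂ * (R * M) ^ (ε / 2) * S * cl2 M a)
      ≤ C₁ * (R * M) ^ (ε / 2) * (C₂ * (R * M) ^ (ε / 2) * S * cl2 M a) := by gcongr
    _ = C₁ * C₂ * (R * M) ^ ε * S * cl2 M a := by rw [h3]; ring

open Classical in
/-- The rows `s j³ k₁ k₂²` of norm `≤ R` with `K / 2 < N (k₁ k₂²) ≤ K`. -/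
def midb (R K : ℝ) : Finset O := (box R).filter (fun r => ∃ s j k₁ k₂ : O, s ∈ box 9 ∧ j ≠ 0 ∧
  Prim k₁ ∧ Prim k₂ ∧ Squarefree (k₁ * k₂) ∧ K / 2 < Nr (k₁ * k₂ ^ 2) ∧ Nr (k₁ * k₂ ^ 2) ≤ K ∧
  r = s * j ^ 3 * (k₁ * k₂ ^ 2))

/-- `ls_pairs` with `ε = 1/3`, `B = K`, `D = 25`: the map `(k₁, k₂) ↦ k₁ k₂²` is injective on the
pairs (`exists_sqf_sq`), so there are at most `25 K` of them; `N j ≤ (2 R / K)^{1/3}`. -/
theorem cg_midb : ∃ C : ℝ, 0 ≤ C ∧ ∀ R K M : ℝ, 0 < R → 1 ≤ K → 1 ≤ M →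
    LSb (midb R K) M (C * R ^ (1 / 3 : ℝ) * (M * K ^ (-(1 / 3) : ℝ) + K ^ 2)) := by
  classical
  obtain ⟨C, hC, H⟩ := ls_pairs (ε := 1 / 3) (by norm_num)
  refine ⟨225 * 50 * 26 * C, by positivity, fun R K M hR hK hM a => ?_⟩
  have h0 := cl2_nonneg M a
  set J : ℝ := (2 * R / K) ^ (1 / 3 : ℝ) with hJ
  have hJ0 : 0 ≤ J := by positivity
  set S : Finset (O × O) := (sbox K ×ˢ sbox K).filter
    (fun p => Squarefree (p.1 * p.2) ∧ Nr (p.1 * p.2 ^ 2) ≤ K) with hS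
  have hmem : ∀ p ∈ S, Prim p.1 ∧ Prim p.2 ∧ Squarefree (p.1 * p.2) ∧ Nr (p.1 * p.2 ^ 2) ≤ K := by
    intro p hp
    obtain ⟨h1, h2⟩ := Finset.mem_filter.1 hp
    obtain ⟨h3, h4⟩ := Finset.mem_product.1 h1
    exact ⟨(q_mem_sbox.1 h3).1, (q_mem_sbox.1 h4).1, h2⟩
  have hcard : (S.card : ℝ) ≤ 25 * K := by
    refine le_trans ?_ (card_box_le (Y := K) (by linarith))
    have : S.card ≤ (box K).card := by
      refine Finset.card_le_card_of_injOn (fun p => p.1 * p.2 ^ 2) (fun p hp => ?_) ?_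
      · obtain ⟨h1, h2, -, h4⟩ := hmem p hp
        exact mem_box.2 ⟨(h1.mul (h2.pow 2)).ne_zero, h4⟩
      · intro p hp q hq hpq
        obtain ⟨h1, h2, h3, -⟩ := hmem p hp
        obtain ⟨h4, h5, h6, -⟩ := hmem q hq
        exact (exists_sqf_sq (h1.mul (h2.pow 2))).unique
          ⟨h1, h2, h3.squarefree_of_dvd (dvd_mul_right _ _), rfl⟩
          ⟨h4, h5, h6.squarefree_of_dvd (dvd_mul_right _ _), hpq⟩
    exact_mod_cast this
  have hls : ∀ t : O, ∑ p ∈ S, ‖cr M a (t * (p.1 * p.2 ^ 2))‖ ^ 2 ≤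
      C * (1 + 25) * (M + K ^ (2 + 1 / 3 : ℝ)) * cl2 M a := fun t => by
    simp only [cr_mul M a t]
    refine (H S K 25 M _ hK (by norm_num) hM hcard fun p hp => ?_).trans ?_
    · obtain ⟨h1, h2, h3, h4⟩ := hmem p hp
      exact ⟨h1, h2, h3, (Nr_le_of_dvd (h1.mul (h2.pow 2)).ne_zero ⟨p.2, by ring⟩).trans h4⟩
    · refine mul_le_mul_of_nonneg_left (cl2_le fun b _ => ?_) (by positivity)
      rw [norm_mul]
      exact mul_le_of_le_one_right (norm_nonneg _) (norm_kap_le _ _)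
  have h1 := cg_cover (midb R K) ((box 9 ×ˢ box J) ×ˢ S)
    (fun p => {p.1.1 * p.1.2 ^ 3 * (p.2.1 * p.2.2 ^ 2)}) (fun r => ‖cr M a r‖ ^ 2)
    (fun r => by positivity) (fun r hr => by
      obtain ⟨hr1, s, j, k₁, k₂, hs, hj, h₁, h₂, hsq, hlo, hhi, rfl⟩ := Finset.mem_filter.1 hr
      have hn : k₁ * k₂ ^ 2 ≠ 0 := (h₁.mul (h₂.pow 2)).ne_zero
      refine ⟨((s, j), (k₁, k₂)), Finset.mem_product.2 ⟨Finset.mem_product.2 ⟨hs, ?_⟩, ?_⟩,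
        Finset.mem_singleton_self _⟩
      · refine mem_box.2 ⟨hj, ?_⟩
        have h2 := (mem_box.1 hr1).2
        rw [Nr_mul, Nr_mul, Nr_pow] at h2
        have h3 := one_le_Nr (mem_box.1 hs).1
        have h4 := Nr_nonneg j
        have h5 : Nr j ^ 3 * (K / 2) ≤ R := by
          calc Nr j ^ 3 * (K / 2) = 1 * Nr j ^ 3 * (K / 2) := by ring
            _ ≤ Nr s * Nr j ^ 3 * Nr (k₁ * k₂ ^ 2) := by gcongr
            _ ≤ R := h2
        change Nr j ≤ J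
        rw [hJ, ← cg_rp1 h4]
        gcongr
        rw [le_div_iff₀ (by linarith)]
        linarith
      · refine Finset.mem_filter.2 ⟨Finset.mem_product.2 ⟨q_mem_sbox.2 ⟨h₁,
          hsq.squarefree_of_dvd (dvd_mul_right _ _), ?_⟩, q_mem_sbox.2 ⟨h₂,
          hsq.squarefree_of_dvd (dvd_mul_left _ _), ?_⟩⟩, hsq, hhi⟩
        · exact (Nr_le_of_dvd hn (dvd_mul_right _ _)).trans hhi
        · exact (Nr_le_of_dvd hn ⟨k₁ * k₂, by ring⟩).trans hhi)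
  simp only [Finset.sum_singleton] at h1
  rw [Finset.sum_product] at h1
  refine h1.trans ((Finset.sum_le_sum fun q _ => hls (q.1 * q.2 ^ 3)).trans ?_)
  rw [Finset.sum_const, nsmul_eq_mul, Finset.card_product, Nat.cast_mul]
  have c1 := card_box_le (Y := 9) (by norm_num)
  have c2 := card_box_le hJ0
  have c3 : J * (M + K ^ (2 + 1 / 3 : ℝ)) ≤
      2 * (R ^ (1 / 3 : ℝ) * (M * K ^ (-(1 / 3) : ℝ) + K ^ 2)) := by
    obtain ⟨r, hr, rfl⟩ := cg_cube hR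
    obtain ⟨k, hk, rfl⟩ := cg_cube (show 0 < K by linarith)
    have e1 : J ≤ 2 * r / k := by
      rw [hJ, ← cg_rp1 (u := 2 * r / k) (by positivity)]
      gcongr
      rw [div_pow]
      gcongr
      have : 0 ≤ r ^ 3 := by positivity
      nlinarith
    rw [cg_rp hk.le 7 (by norm_num), cg_rp1 hr.le, cg_rpn hk.le]
    calc J * (M + k ^ 7) ≤ 2 * r / k * (M + k ^ 7) := by gcongr
      _ = 2 * (r * (M * k⁻¹ + (k ^ 3) ^ 2)) := by field_simp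
  calc ((box 9).card : ℝ) * (box J).card * (C * (1 + 25) * (M + K ^ (2 + 1 / 3 : ℝ)) * cl2 M a)
      ≤ (25 * 9) * (25 * J) * (C * (1 + 25) * (M + K ^ (2 + 1 / 3 : ℝ)) * cl2 M a) := by gcongr
    _ = 225 * 25 * 26 * C * (J * (M + K ^ (2 + 1 / 3 : ℝ))) * cl2 M a := by ring
    _ ≤ 225 * 25 * 26 * C * (2 * (R ^ (1 / 3 : ℝ) * (M * K ^ (-(1 / 3) : ℝ) + K ^ 2))) *
        cl2 M a := by gcongr
    _ = _ := by ring

/-- If `r = s j³ k₁ k₂² = k y³` then `N (k₁ k₂²) ≤ N k`: in fact `k₁ k₂² ∣ k`-like comparison of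
multiplicities: for a prime `p ∤ 3 s` the exponent of `p` in `k` is congruent mod `3` to that in
`k₁ k₂²`, which lies in `{0, 1, 2}`. With `rad s ∣ λ` this gives `k₁ k₂² ∣ k`. -/
theorem cg_near {s j k₁ k₂ k y : O} (hs : s ≠ 0) (hsl : rad s ∣ lam) (hj : j ≠ 0) (h₁ : Prim k₁)
    (h₂ : Prim k₂) (hsq : Squarefree (k₁ * k₂)) (h : s * j ^ 3 * (k₁ * k₂ ^ 2) = k * y ^ 3) :
    k₁ * k₂ ^ 2 ∣ k := by
  have hn : Prim (k₁ * k₂ ^ 2) := h₁.mul (h₂.pow 2)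
  have hj3 : j ^ 3 ≠ 0 := pow_ne_zero _ hj
  have h0 : k * y ^ 3 ≠ 0 := h ▸ mul_ne_zero (mul_ne_zero hs hj3) hn.ne_zero
  have hk : k ≠ 0 := left_ne_zero_of_mul h0
  have hy3 : y ^ 3 ≠ 0 := right_ne_zero_of_mul h0
  have hy : y ≠ 0 := fun e => hy3 (by simp [e])
  refine a4_dvd hn.ne_zero hk fun p hp => ?_
  by_cases hps : p ∣ s
  · have h3 : p ∣ lam := ((prime_dvd_rad hs hp).2 hps).trans hsl
    have h4 : lam ∣ p := hp.irreducible.dvd_symm prime_lam.irreducible h3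
    rw [multiplicity_eq_zero.2 fun h5 => hn.not_lam_dvd (h4.trans h5)]
    exact Nat.zero_le _
  · have e := congrArg (multiplicity p) h
    rw [a4_mm hp (mul_ne_zero hs hj3) hn.ne_zero, a4_mm hp hs hj3, a4_mm hp hk hy3, a4_mp hp hj,
      a4_mp hp hy, multiplicity_eq_zero.2 hps] at e
    have e1 := a4_sqf hp hsq
    rw [a4_mm hp h₁.ne_zero h₂.ne_zero] at e1
    rw [a4_mm hp h₁.ne_zero (h₂.pow 2).ne_zero, a4_mp hp h₂.ne_zero] at e ⊢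
    omega

/-- Cover the rows by `midb R (2^i)` with `Z₀ / 9 < 2^i < 2 Z` (`exists_cubefree`, `cg_near`,
`i = Nat.clog 2 (nm (k₁ k₂²))`) and sum the two geometric series: `∑_{2^i > Z₀/9} 2^{-i/3} ≪ Z₀^{-1/3}`
and `∑_{2^i < 2 Z} 4^i ≪ Z²`. -/
theorem cls_mid' : ∃ C : ℝ, 0 ≤ C ∧ ∀ R M Z₀ Z : ℝ, 0 < R → 1 ≤ M → 0 < Z₀ → 1 ≤ Z →
    LSb ((box R).filter (fun r => Near Z r ∧ ¬ Near Z₀ r)) M
      (C * R ^ (1 / 3 : ℝ) * (M * Z₀ ^ (-(1 / 3) : ℝ) + Z ^ 2)) := by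
  classical
  obtain ⟨C, hC, H⟩ := cg_midb
  set q : ℝ := (2 : ℝ) ^ (-(1 / 3) : ℝ) with hq
  have hq0 : 0 ≤ q := by positivity
  have hq1 : q < 1 := Real.rpow_lt_one_of_one_lt_of_neg one_lt_two (by norm_num)
  have hq2 : 0 < 1 - q := by linarith
  refine ⟨C * (3 / (1 - q) + 8), by positivity, fun R M Z₀ Z hR hM hZ₀ hZ a => ?_⟩
  have h0 := cl2_nonneg M a
  set I : Finset ℕ := (Finset.range ⌈2 * Z⌉₊).filter
    (fun i => Z₀ / 9 < (2 : ℝ) ^ i ∧ (2 : ℝ) ^ i < 2 * Z) with hI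
  have h1 := cg_cover ((box R).filter (fun r => Near Z r ∧ ¬ Near Z₀ r)) I
    (fun i => midb R (2 ^ i)) (fun r => ‖cr M a r‖ ^ 2) (fun r => by positivity) (fun r hr => by
      obtain ⟨hr1, ⟨k, y, hky, hk⟩, hfar⟩ := Finset.mem_filter.1 hr
      have hr0 := (mem_box.1 hr1).1
      obtain ⟨s, j, k₁, k₂, hs, hsl, hj, h₁, h₂, hsq, e⟩ := exists_cubefree hr0
      have hn : Prim (k₁ * k₂ ^ 2) := h₁.mul (h₂.pow 2)
      have hk0 : k ≠ 0 := left_ne_zero_of_mul (hky ▸ hr0)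
      have a1 : Nr (k₁ * k₂ ^ 2) ≤ Z := (Nr_le_of_dvd hk0
        (cg_near (mem_box.1 hs).1 hsl hj h₁ h₂ hsq (e.symm.trans hky))).trans hk
      have a2 : Z₀ / 9 < Nr (k₁ * k₂ ^ 2) := by
        by_contra h3
        refine hfar ⟨s * (k₁ * k₂ ^ 2), j, by rw [e]; ring, ?_⟩
        rw [Nr_mul]
        have := mul_le_mul (mem_box.1 hs).2 (not_lt.1 h3) (Nr_nonneg _) (by norm_num)
        linarith
      have a3 : Nr (k₁ * k₂ ^ 2) ≤ 2 ^ Nat.clog 2 (nm (k₁ * k₂ ^ 2)) := by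
        unfold Nr
        exact_mod_cast Nat.le_pow_clog one_lt_two _
      have a4 : (2 : ℝ) ^ Nat.clog 2 (nm (k₁ * k₂ ^ 2)) / 2 < Nr (k₁ * k₂ ^ 2) := by
        have b1 : nm (k₁ * k₂ ^ 2) ≠ 0 := fun e => hn.ne_zero (nm_eq_zero.1 e)
        unfold Nr
        generalize nm (k₁ * k₂ ^ 2) = n at *
        rcases (Nat.one_le_iff_ne_zero.2 b1).eq_or_lt with rfl | b2
        · norm_num
        · have b3 := Nat.pow_pred_clog_lt_self one_lt_two b2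
          have b4 := Nat.clog_pos one_lt_two b2
          obtain ⟨t, ht⟩ := Nat.exists_eq_succ_of_ne_zero b4.ne'
          rw [ht] at b3 ⊢
          rw [pow_succ, mul_div_cancel_right₀ _ two_ne_zero]
          exact_mod_cast b3
      generalize Nat.clog 2 (nm (k₁ * k₂ ^ 2)) = i at a3 a4
      refine ⟨i, Finset.mem_filter.2 ⟨Finset.mem_range.2 ?_, by linarith, by linarith⟩,
        Finset.mem_filter.2 ⟨hr1, s, j, k₁, k₂, hs, hj, h₁, h₂, hsq, a4, a3, e⟩⟩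
      rw [Nat.lt_ceil]
      have : (i : ℝ) < 2 ^ i := by exact_mod_cast Nat.lt_two_pow_self
      linarith)
  have e1 : ∀ i : ℕ, ((2 : ℝ) ^ i) ^ (-(1 / 3) : ℝ) = q ^ i := fun i => by
    rw [hq, ← Real.rpow_natCast, ← Real.rpow_natCast, ← Real.rpow_mul (by norm_num),
      ← Real.rpow_mul (by norm_num), mul_comm]
  have e2 : ∀ i : ℕ, ((2 : ℝ) ^ i) ^ 2 = 4 ^ i := fun i => by
    rw [← pow_mul, mul_comm, pow_mul]; norm_num
  have hz : 0 ≤ Z₀ ^ (-(1 / 3) : ℝ) := by positivity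
  have g1 := cg_geom_lt hq0 hq1 (B := 3 * Z₀ ^ (-(1 / 3) : ℝ)) (by positivity) I fun i hi => by
    have b1 := (Finset.mem_filter.1 hi).2.1
    rw [← e1]
    refine (Real.rpow_le_rpow_of_nonpos (x := Z₀ / 27) (by positivity) (by linarith)
      (by norm_num)).trans_eq ?_
    rw [Real.div_rpow hZ₀.le (by norm_num), show (27 : ℝ) = 3 ^ 3 by norm_num, cg_rpn (by norm_num)]
    field_simp
  have g2 := cg_geom_four (B := 4 * Z ^ 2) (by positivity) I fun i hi => by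
    have b1 := (Finset.mem_filter.1 hi).2.2
    rw [← e2]
    have : (0 : ℝ) ≤ 2 ^ i := by positivity
    nlinarith
  refine h1.trans ((Finset.sum_le_sum fun i _ =>
    H R (2 ^ i) M hR (one_le_pow₀ one_le_two) hM a).trans ?_)
  simp only [e1, e2]
  rw [← Finset.sum_mul, ← Finset.mul_sum, Finset.sum_add_distrib, ← Finset.mul_sum]
  have hM0 : 0 ≤ M := by linarith
  have b1 : M * ∑ i ∈ I, q ^ i + ∑ i ∈ I, (4 : ℝ) ^ i ≤
      (3 / (1 - q) + 8) * (M * Z₀ ^ (-(1 / 3) : ℝ) + Z ^ 2) := by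
    have b2 := mul_le_mul_of_nonneg_left g1 hM0
    have b3 : M * (3 * Z₀ ^ (-(1 / 3) : ℝ) / (1 - q)) = 3 / (1 - q) * (M * Z₀ ^ (-(1 / 3) : ℝ)) := by
      ring
    have b4 : 0 ≤ 3 / (1 - q) * Z ^ 2 := by positivity
    have b5 : 0 ≤ M * Z₀ ^ (-(1 / 3) : ℝ) := by positivity
    nlinarith
  calc C * R ^ (1 / 3 : ℝ) * (M * ∑ i ∈ I, q ^ i + ∑ i ∈ I, (4 : ℝ) ^ i) * cl2 M a
      ≤ C * R ^ (1 / 3 : ℝ) * ((3 / (1 - q) + 8) * (M * Z₀ ^ (-(1 / 3) : ℝ) + Z ^ 2)) *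
        cl2 M a := by gcongr
    _ = _ := by ring

end Crest.Agent.R012

end
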