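import Crest.Agent.R012.Gt
import Crest.Agent.R017.LS2

/-! # Row 12: the kernel of the dual forms for the cubic symbol -/

set_option autoImplicit false

noncomputable section

open scoped BigOperators ComplexConjugate Topology
open Complex MeasureTheory Filter Set Crest.Agent.R017

namespace Crest.Agent.R012

/-- Normalised Fourier transform of `conj κ_N · κ_M` modulo `N M`. -/
def KC (N M r : O) : ℂ :=
  gs (fun h => conj (kap N h) * kap M h) (N * M) r / (Real.sqrt (Nr (N * M)) : ℂ)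

/-- The kernel with Gauss sums. -/
def KT3 (N M r : O) : ℂ := g3 N * conj (g3 M) * KC N M r

/-- `∑ γ(n) (r / n)₃`. -/
def rowC (γ : O → ℂ) (r : O) : ℂ := ∑' n : O, γ n * kap n r

/-- `∑ γ(n) conj (h / n)₃`. -/
def colC (γ : O → ℂ) (h : O) : ℂ := ∑' n : O, γ n * conj (kap n h)

theorem ck_norm_kap {N x : O} (hN : Prim N) (h : IsCoprime N x) : ‖kap N x‖ = 1 :=
  norm_kap fun h0 => ((kap_eq_zero hN.ne_zero).1 h0).elim hN.not_lam_dvd fun h' => h' h

theorem ck_homog {N M : O} (hN : Prim N) (hM : Prim M) :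
    Homog (N * M) (fun h => conj (kap N h) * kap M h) (fun h => conj (kap N h) * kap M h) where
  per x y h := by
    rw [kap_congr' hN.ne_zero ((dvd_mul_right N M).trans h),
      kap_congr' hM.ne_zero ((dvd_mul_left M N).trans h)]
  hom u x _ := by
    rw [kap_mul_right, kap_mul_right, map_mul]; ring
  abs u hu := by
    rw [norm_mul, Complex.norm_conj, ck_norm_kap hN hu.of_mul_right_left.symm,
      ck_norm_kap hM hu.of_mul_right_right.symm, one_mul]

/-- Poisson summation from the dual side. -/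
theorem poisson_KC {N M : O} (hN : Prim N) (hM : Prim M) {H : ℝ} (hH : 0 < H) :
    ∑' h : O, (Phi (Nr h / H) : ℂ) * (conj (kap N h) * kap M h) =
      ((H / Real.sqrt (Nr (N * M)) : ℝ) : ℂ) * ∑' r : O, KC N M r * (Phi (H * Nr r / Nr (N * M)) : ℂ) := by
  have h0 : N * M ≠ 0 := mul_ne_zero hN.ne_zero hM.ne_zero
  rw [poisson_per hH h0 _ (ck_homog hN hM).per, ← tsum_mul_left, ← tsum_mul_left]
  refine tsum_congr fun r => ?_
  have hs := k1_sqrt_ne h0
  have hsq : ((Nr (N * M) : ℝ) : ℂ) = (Real.sqrt (Nr (N * M)) : ℂ) ^ 2 := by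
    rw [← Complex.ofReal_pow, Real.sq_sqrt (Nr_nonneg _)]
  rw [KC, Complex.ofReal_div, Complex.ofReal_div, hsq]
  field_simp

theorem KT3_mul {N₁ N₂ M₁ M₂ : O} (h₁ : Prim N₁) (h₂ : Prim N₂) (h₃ : Prim M₁) (h₄ : Prim M₂)
    (hc : IsCoprime (N₁ * M₁) (N₂ * M₂)) (r : O) :
    KT3 (N₁ * N₂) (M₁ * M₂) r = KT3 N₁ M₁ r * KT3 N₂ M₂ r := by
  have c12 : IsCoprime N₁ N₂ := hc.of_mul_left_left.of_mul_right_left
  have c14 : IsCoprime N₁ M₂ := hc.of_mul_left_left.of_mul_right_right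
  have c32 : IsCoprime M₁ N₂ := hc.of_mul_left_right.of_mul_right_left
  have c34 : IsCoprime M₁ M₂ := hc.of_mul_left_right.of_mul_right_right
  have n₁ : N₁ * M₁ ≠ 0 := mul_ne_zero h₁.ne_zero h₃.ne_zero
  have n₂ : N₂ * M₂ ≠ 0 := mul_ne_zero h₂.ne_zero h₄.ne_zero
  have hf : (fun h => conj (kap (N₁ * N₂) h) * kap (M₁ * M₂) h) =
      fun h => (conj (kap N₁ h) * kap M₁ h) * (conj (kap N₂ h) * kap M₂ h) := by
    funext h
    rw [kap_mul_left h₁.ne_zero h₂.ne_zero, kap_mul_left h₃.ne_zero h₄.ne_zero, map_mul]; ring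
  have hprod : N₁ * N₂ * (M₁ * M₂) = N₁ * M₁ * (N₂ * M₂) := by ring
  have hsq : (Real.sqrt (Nr (N₁ * M₁ * (N₂ * M₂))) : ℂ) =
      (Real.sqrt (Nr (N₁ * M₁)) : ℂ) * (Real.sqrt (Nr (N₂ * M₂)) : ℂ) := by
    rw [Nr_mul (N₁ * M₁), Real.sqrt_mul (Nr_nonneg _), Complex.ofReal_mul]
  have u12 := g1_conj_mul (ck_norm_kap h₁ c12)
  have u21 := g1_conj_mul (ck_norm_kap h₂ c12.symm)
  have u34 := g1_conj_mul (ck_norm_kap h₃ c34)
  have u43 := g1_conj_mul (ck_norm_kap h₄ c34.symm)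
  have u41 := g1_conj_mul (ck_norm_kap h₄ c14.symm)
  have u23 := g1_conj_mul (ck_norm_kap h₂ c32.symm)
  have r14 := cubic_recip h₁ h₄
  have r32 := cubic_recip h₃ h₂
  have key : (kap N₁ N₂ * kap N₂ N₁) * conj (kap M₁ M₂ * kap M₂ M₁) *
      ((conj (kap N₁ (N₂ * M₂)) * kap M₁ (N₂ * M₂)) * (conj (kap N₂ (N₁ * M₁)) * kap M₂ (N₁ * M₁)))
      = 1 := by
    simp only [kap_mul_right, map_mul]
    rw [r14, r32]
    calc _ = (conj (kap N₁ N₂) * kap N₁ N₂) * (conj (kap N₂ N₁) * kap N₂ N₁) *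
          (conj (kap M₁ M₂) * kap M₁ M₂) * (conj (kap M₂ M₁) * kap M₂ M₁) *
          (conj (kap M₂ N₁) * kap M₂ N₁) * (conj (kap N₂ M₁) * kap N₂ M₁) := by ring
      _ = 1 := by rw [u12, u21, u34, u43, u41, u23]; norm_num
  rw [KT3, KT3, KT3, KC, KC, KC, hf, hprod, gs_mul_coprime n₁ n₂ hc (ck_homog h₁ h₃) (ck_homog h₂ h₄),
    hsq, g3_mul h₁.not_lam_dvd h₂.not_lam_dvd c12, g3_mul h₃.not_lam_dvd h₄.not_lam_dvd c34]
  simp only [map_mul] at key ⊢
  have t₁ := k1_sqrt_ne n₁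
  have t₂ := k1_sqrt_ne n₂
  linear_combination (g3 N₁ * conj (g3 M₁) * (
    gs (fun h => conj (kap N₁ h) * kap M₁ h) (N₁ * M₁) r / (Real.sqrt (Nr (N₁ * M₁)) : ℂ))) *
    (g3 N₂ * conj (g3 M₂) * (
    gs (fun h => conj (kap N₂ h) * kap M₂ h) (N₂ * M₂) r / (Real.sqrt (Nr (N₂ * M₂)) : ℂ))) * key

theorem ck_gs_kap {n : O} (hn : Prim n) (hs : Squarefree n) (h : O) :
    gs (kap n) n h = conj (kap n h) * gs (kap n) n 1 := by
  simpa using gs_kap_pow hn.not_lam_dvd hs (k := 1) (by norm_num) h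

theorem ck_KT_left {n : O} (hn : Prim n) (hs : Squarefree n) (r : O) : KT3 n 1 r = kap n r := by
  have hf : (fun h => conj (kap n h) * kap 1 h) = fun h => conj (kap n h) := by
    funext h; rw [kap_unit_left isUnit_one, mul_one]
  have hg : gs (fun h => conj (kap n h)) n r = kap n r * conj (gs (kap n) n 1) := by
    have := conj_gs (kap n) n (-r)
    rw [neg_neg] at this
    rw [← this, ck_gs_kap hn hs, map_mul, conj_conj, kap_neg_right]
  have hu := g1_conj_mul (norm_g3 hn.not_lam_dvd hs)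
  rw [KT3, KC, hf, mul_one, hg, g3_one, map_one]
  have hc : conj (gs (kap n) n 1) / (Real.sqrt (Nr n) : ℂ) = conj (g3 n) := by
    rw [g3, map_div₀, conj_ofReal]
  calc _ = kap n r * (conj (gs (kap n) n 1) / (Real.sqrt (Nr n) : ℂ) * g3 n) := by ring
    _ = _ := by rw [hc, hu]; ring

theorem ck_KT_right {m : O} (hm : Prim m) (hs : Squarefree m) (r : O) :
    KT3 1 m r = conj (kap m r) := by
  have hf : (fun h => conj (kap 1 h) * kap m h) = kap m := by
    funext h; rw [kap_unit_left isUnit_one, map_one, one_mul]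
  have hu := g1_conj_mul (norm_g3 hm.not_lam_dvd hs)
  rw [KT3, KC, hf, one_mul m, ck_gs_kap hm hs, g3_one]
  calc _ = conj (kap m r) * (conj (g3 m) * (gs (kap m) m 1 / (Real.sqrt (Nr m) : ℂ))) := by
        ring
    _ = _ := by rw [← g3, hu, mul_one]

open Classical in
theorem ck_KT_prime {p : O} (hp : Prime p) (hpp : Prim p) (r : O) :
    KT3 p p r = (((if p ^ 2 ∣ r then Nr p else 0) - (if p ∣ r then 1 else 0) : ℝ) : ℂ) := by
  have h0 := hp.ne_zero
  have hf : (fun h => conj (kap p h) * kap p h) = fun x => if p ∣ x then (0 : ℂ) else 1 := by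
    funext x
    split_ifs with hx
    · rw [(kap_eq_zero h0).2 (Or.inr fun hc => hp.not_isUnit (hc.isUnit_of_dvd' dvd_rfl hx)),
        mul_zero]
    · exact g1_conj_mul (ck_norm_kap hpp (hp.coprime_iff_not_dvd.2 hx))
  have hv : g3 p * conj (g3 p) = 1 := by
    rw [mul_comm]
    exact g1_conj_mul (norm_g3 hpp.not_lam_dvd hp.squarefree)
  have hper : ∀ x y : O, p ∣ x - y →
      (if p ∣ x then (0 : ℂ) else 1) = if p ∣ y then (0 : ℂ) else 1 := fun x y h => by
    rw [if_congr (dvd_iff_dvd_of_dvd_sub h) rfl rfl]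
  have hN : (Nr p : ℂ) ≠ 0 := by exact_mod_cast (Nr_pos h0).ne'
  rw [KT3, hv, one_mul, KC, hf, gs_tower h0 h0 hper,
    gs_coprime_prime hp, Nr_mul, Real.sqrt_mul_self (Nr_nonneg p)]
  by_cases h1 : p ∣ r
  · obtain ⟨c, rfl⟩ := h1
    rw [if_pos (dvd_mul_right p c), if_pos (dvd_mul_right p c), mul_div_cancel_left₀ _ h0,
      mul_div_cancel_left₀ _ hN, sq]
    by_cases h3 : p ∣ c
    · rw [if_pos h3, if_pos (mul_dvd_mul_left p h3)]; push_cast; ring
    · rw [if_neg h3, if_neg fun h => h3 ((mul_dvd_mul_iff_left h0).1 h)]; push_cast; ring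
  · rw [if_neg h1, if_neg h1, if_neg fun h => h1 ((dvd_pow_self p two_ne_zero).trans h)]
    simp

theorem ck_KT_diag {e : O} (he : Prim e) (hs : Squarefree e) (r : O) :
    KT3 e e r = (mstar e r : ℂ) := by
  refine Prim.sqf_induction (P := fun e => KT3 e e r = (mstar e r : ℂ))
    ?_ (fun p n hp hpp hn _ hpn ih => ?_) he hs
  · rw [ck_KT_left prim_one squarefree_one, kap_unit_left isUnit_one, k1_mstar_one]
    simp
  · have hc : IsCoprime p n := hp.coprime_iff_not_dvd.2 hpn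
    rw [KT3_mul hpp hn hpp hn ((hc.mul_left hc).mul_right (hc.mul_left hc)),
      ih, ck_KT_prime hp hpp, mstar, mstar, k1_pf_mul hp hpp hn.ne_zero,
      Finset.prod_insert fun h => hpn ((mem_pf hn.ne_zero).1 h).2, Complex.ofReal_mul]

/-- Squarefree arguments. -/
theorem KT3_sqf {e n m : O} (he : Prim e) (hn : Prim n) (hm : Prim m)
    (hs : Squarefree (e * n * m)) (r : O) :
    KT3 (e * n) (e * m) r = kap n r * conj (kap m r) * (mstar e r : ℂ) := by
  obtain ⟨c1, s1, sm⟩ := squarefree_mul_iff.1 hs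
  obtain ⟨c2, se, sn⟩ := squarefree_mul_iff.1 s1
  have cen : IsCoprime e n := c2.isCoprime
  have cem : IsCoprime e m := c1.isCoprime.of_mul_left_left
  have cnm : IsCoprime n m := c1.isCoprime.of_mul_left_right
  have h1 := KT3_mul hn prim_one prim_one hm (by simpa using cnm) r
  rw [mul_one, one_mul] at h1
  rw [KT3_mul he hn he hm ((cen.mul_right cem).mul_left (cen.mul_right cem)), h1,
    ck_KT_diag he se r, ck_KT_left hn sn, ck_KT_right hm sm]
  ring

theorem norm_KC_le {N M : O} (hN0 : N ≠ 0) (hM0 : M ≠ 0) (r : O) :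
    ‖KC N M r‖ ≤ Nr N ^ (1 / 2 : ℝ) * Nr M ^ (1 / 2 : ℝ) := by
  have h0 := Nr_pos (mul_ne_zero hN0 hM0)
  have h1 := norm_gs_le (mul_ne_zero hN0 hM0) (f := fun h => conj (kap N h) * kap M h)
    (fun x => by
      rw [norm_mul, Complex.norm_conj]
      exact mul_le_one₀ (norm_kap_le _ _) (norm_nonneg _) (norm_kap_le _ _)) r
  rw [KC, norm_div,
    norm_real, Real.norm_of_nonneg (Real.sqrt_nonneg _), ← Real.mul_rpow (Nr_nonneg _) (Nr_nonneg _),
    ← Nr_mul, ← Real.sqrt_eq_rpow, div_le_iff₀ (Real.sqrt_pos.2 h0), Real.mul_self_sqrt h0.le]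
  exact h1

end Crest.Agent.R012

end
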