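import Crest.Agent.R012.Gt
import Crest.Agent.R017.LS1
import Crest.Agent.R012.CG

/-! # Row 12: the cubic large sieve (interface) -/

set_option autoImplicit false

noncomputable section

open scoped BigOperators ComplexConjugate Topology
open Complex MeasureTheory Filter Set Crest.Agent.R017

namespace Crest.Agent.R012

/-- Heath-Brown's cubic large sieve: squarefree rows and columns. -/
theorem cls {ε : ℝ} (hε : 0 < ε) : ∃ C : ℝ, 0 ≤ C ∧ ∀ (K M : ℝ) (a : O → ℂ), 1 ≤ K → 1 ≤ M →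
    ∑ k ∈ sbox K, ‖∑ b ∈ sbox M, a b * kap b k‖ ^ 2 ≤
      C * (K * M) ^ ε * (K + M + (K * M) ^ (2 / 3 : ℝ)) * ∑ b ∈ sbox M, ‖a b‖ ^ 2 := by
  obtain ⟨C, hC, H⟩ := cls' hε
  exact ⟨C, hC, fun K M a h1 h2 => H K M h1 h2 a⟩

/-- All rows. -/
theorem cls_all {ε : ℝ} (hε : 0 < ε) : ∃ C : ℝ, 0 ≤ C ∧ ∀ (R M : ℝ) (a : O → ℂ), 1 ≤ R → 1 ≤ M →
    ∑ r ∈ box R, ‖∑ b ∈ sbox M, a b * kap b r‖ ^ 2 ≤
      C * (R * M) ^ ε * (R + R ^ (1 / 3 : ℝ) * M + (R * M) ^ (2 / 3 : ℝ)) *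
        ∑ b ∈ sbox M, ‖a b‖ ^ 2 := by
  obtain ⟨C, hC, H⟩ := cls_all' hε
  exact ⟨C, hC, fun K M a h1 h2 => H K M h1 h2 a⟩

/-- Rows far from cubes (`r = u λ^e k₁ k₂² j³`: `cls` in `k₁` if `N k₁ ≥ V N k₂`, otherwise the
simple large sieve for conductor `k₁ k₂`). -/
theorem cls_far {ε : ℝ} (hε : 0 < ε) : ∃ C : ℝ, 0 ≤ C ∧ ∀ (R M Z V : ℝ) (a : O → ℂ), 1 ≤ R → 1 ≤ M →
    1 ≤ Z → 1 ≤ V →
    ∑ r ∈ (box R).filter (fun r => ¬ Near Z r), ‖∑ b ∈ sbox M, a b * kap b r‖ ^ 2 ≤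
      C * (R * M) ^ ε * (R + (R * M) ^ (2 / 3 : ℝ) +
        R ^ (1 / 3 : ℝ) * M * (Z ^ (-(1 / 3) : ℝ) + V ^ (-(1 / 3) : ℝ)) +
        R ^ (4 / 3 : ℝ) * V ^ (2 / 3 : ℝ)) * ∑ b ∈ sbox M, ‖a b‖ ^ 2 := by
  obtain ⟨C, hC, H⟩ := cls_far' hε
  exact ⟨C, hC, fun R M Z V a h1 h2 h3 h4 => H R M Z V h1 h2 h3 h4 a⟩

/-- Rows of small conductor, without any `ε`-loss (Schur test for the cube-free rows of norm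
`≍ K`: `C (M + K^{2 + 1/3})`, times the number `(R / K)^{1/3}` of cubes). -/
theorem cls_mid : ∃ C : ℝ, 0 ≤ C ∧ ∀ (R M Z₀ Z : ℝ) (a : O → ℂ), 0 < R → 1 ≤ M → 0 < Z₀ → 1 ≤ Z →
    ∑ r ∈ (box R).filter (fun r => Near Z r ∧ ¬ Near Z₀ r), ‖∑ b ∈ sbox M, a b * kap b r‖ ^ 2 ≤
      C * R ^ (1 / 3 : ℝ) * (M * Z₀ ^ (-(1 / 3) : ℝ) + Z ^ 2) * ∑ b ∈ sbox M, ‖a b‖ ^ 2 := by
  obtain ⟨C, hC, H⟩ := cls_mid'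
  exact ⟨C, hC, fun R M Z₀ Z a h1 h2 h3 h4 => H R M Z₀ Z h1 h2 h3 h4 a⟩

end Crest.Agent.R012

end
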