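import Crest.Agent.R012.CKer

/-! # Row 12: the positivity inequality for the cubic symbol -/

set_option autoImplicit false

noncomputable section

open scoped BigOperators ComplexConjugate Topology
open Complex MeasureTheory Filter Crest.Agent.R017

namespace Crest.Agent.R012

theorem c3_adm {Q d n : O} (h : Adm Q (d * n)) (hd : Prim d) :
    Prim n ∧ Squarefree n ∧ ¬ lam ∣ n :=
  ⟨hd.of_mul h.1, h.2.1.of_mul_right, (hd.of_mul h.1).not_lam_dvd⟩

theorem c3_T_eq {e n m : O} (he : Prim e) (hn : Prim n) (hm : Prim m)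
    (hs : Squarefree (e * n * m)) (r : O) :
    g3 (e * n) * conj (g3 (e * m)) * KC (e * n) (e * m) r =
      kap n r * conj (kap m r) * (mstar e r : ℂ) := KT3_sqf he hn hm hs r

open Classical in
/-- the summand of the positive form -/
def c3_G (Q : O) (γ : O → ℂ) (r : O) (x : O × O × O) : ℂ :=
  if Adm Q x.1 then γ (x.1 * x.2.1) * conj (γ (x.1 * x.2.2)) *
    (g3 x.2.1 * conj (g3 x.2.2) * KC x.2.1 x.2.2 r) else 0

theorem c3_G_bound {Q : O} {γ : O → ℂ} (hs : Supp Q γ) (hr : Rap γ) :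
    ∃ M : O × O × O → ℝ, Summable M ∧ ∀ r x, ‖c3_G Q γ r x‖ ≤ M x := by
  obtain ⟨K, hK0, hK⟩ := l3_decay hs hr (1 / 2)
  have hnn : ∀ n : O, 0 ≤ Nr n ^ (-2 : ℝ) := fun n => Real.rpow_nonneg (Nr_nonneg _) _
  refine ⟨fun x => K ^ 2 * (Nr x.1 ^ (-2 : ℝ) * (Nr x.2.1 ^ (-2 : ℝ) * Nr x.2.2 ^ (-2 : ℝ))),
    (l3_summable_two.mul_of_nonneg (l3_summable_two.mul_of_nonneg l3_summable_two hnn hnn) hnn
      fun p => mul_nonneg (hnn _) (hnn _)).mul_left _, fun r ⟨d, n, m⟩ => ?_⟩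
  have hM : 0 ≤ K ^ 2 * (Nr d ^ (-2 : ℝ) * (Nr n ^ (-2 : ℝ) * Nr m ^ (-2 : ℝ))) :=
    mul_nonneg (sq_nonneg _) (mul_nonneg (hnn _) (mul_nonneg (hnn _) (hnn _)))
  simp only [c3_G]
  split_ifs with hd
  swap
  · rwa [norm_zero]
  by_cases h1 : γ (d * n) = 0
  · simpa [h1] using hM
  by_cases h2 : γ (d * m) = 0
  · simpa [h2] using hM
  obtain ⟨pn, sn, cn⟩ := c3_adm (hs _ h1) hd.1
  obtain ⟨pm, sm, cm⟩ := c3_adm (hs _ h2) hd.1
  have hd1 : Nr d ^ (-2 : ℝ) ≤ 1 :=
    Real.rpow_le_one_of_one_le_of_nonpos (one_le_Nr hd.1.ne_zero) (by norm_num)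
  rw [norm_mul, norm_mul, norm_mul, norm_mul, Complex.norm_conj, Complex.norm_conj, norm_g3 cn sn,
    norm_g3 cm sm, one_mul, one_mul]
  calc ‖γ (d * n)‖ * ‖γ (d * m)‖ * ‖KC n m r‖
      ≤ ‖γ (d * n)‖ * ‖γ (d * m)‖ * (Nr n ^ (1 / 2 : ℝ) * Nr m ^ (1 / 2 : ℝ)) :=
        mul_le_mul_of_nonneg_left (norm_KC_le pn.ne_zero pm.ne_zero r) (by positivity)
    _ = (‖γ (d * n)‖ * Nr n ^ (1 / 2 : ℝ)) * (‖γ (d * m)‖ * Nr m ^ (1 / 2 : ℝ)) := by ring
    _ ≤ (K * (Nr d ^ (-2 : ℝ) * Nr n ^ (-2 : ℝ))) * (K * (Nr d ^ (-2 : ℝ) * Nr m ^ (-2 : ℝ))) :=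
        mul_le_mul (hK d n) (hK d m)
          (mul_nonneg (norm_nonneg _) (Real.rpow_nonneg (Nr_nonneg _) _))
          (mul_nonneg hK0 (mul_nonneg (hnn _) (hnn _)))
    _ = K ^ 2 * (Nr d ^ (-2 : ℝ) * (Nr n ^ (-2 : ℝ) * Nr m ^ (-2 : ℝ))) * Nr d ^ (-2 : ℝ) := by ring
    _ ≤ _ := mul_le_of_le_one_right hM hd1

/-- the fibre sums -/
theorem c3_fiber {Q : O} (γ : O → ℂ) (r : O) {E a b : O} (hE : Prim E)
    (ha : Prim a) (hb : Prim b) (hab : IsCoprime a b) (hs : Squarefree (E * a * b))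
    (h1 : Adm Q (E * a)) (h2 : Adm Q (E * b)) :
    ∑' x : (fun x : O × O × O => (x.1 * x.2.1, x.1 * x.2.2)) ⁻¹' {(E * a, E * b)}, c3_G Q γ r x =
      γ (E * a) * conj (γ (E * b)) *
        (kap a r * conj (kap b r) * ((∏ p ∈ pf E, (1 + l3_m r p) : ℝ) : ℂ)) := by
  classical
  rw [tsum_subtype _ (c3_G Q γ r),
    tsum_eq_sum (s := (pdiv E).image fun e => (E / e, e * a, e * b)), Finset.sum_image,
    ← l3_sum_pdiv hE hs.of_mul_left.of_mul_left, ofReal_sum, Finset.mul_sum, Finset.mul_sum]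
  · refine Finset.sum_congr rfl fun e he => ?_
    obtain ⟨he1, d, rfl⟩ := (mem_pdiv hE.ne_zero).1 he
    rw [mul_div_cancel_left₀ _ he1.ne_zero, Set.indicator_of_mem (by simp; constructor <;> ring)]
    have hd : Adm Q d := ⟨he1.of_mul hE, hs.squarefree_of_dvd ⟨e * a * b, by ring⟩,
      h1.2.2.of_isCoprime_of_dvd_left ⟨e * a, by ring⟩⟩
    simp only [c3_G]
    rw [if_pos hd, c3_T_eq he1 ha hb (hs.squarefree_of_dvd ⟨d, by ring⟩),
      show d * (e * a) = e * d * a by ring, show d * (e * b) = e * d * b by ring]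
    rfl
  · intro e _ e' _ h
    exact mul_right_cancel₀ ha.ne_zero (congrArg (fun x : O × O × O => x.2.1) h)
  · rintro ⟨d, n, m⟩ hx
    by_contra hne
    apply hx
    obtain ⟨hmem, hG⟩ := Set.indicator_apply_ne_zero.1 hne
    have hd : Adm Q d := by
      by_contra hd
      exact hG (if_neg hd)
    simp only [Set.mem_preimage, Set.mem_singleton_iff, Prod.mk.injEq] at hmem
    obtain ⟨u, v, huv⟩ := hab
    have hE' : E = d * (u * n + v * m) := by
      linear_combination (-E) * huv - u * hmem.1 - v * hmem.2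
    set e := u * n + v * m with he
    have he1 : Prim e := hd.1.of_mul (hE' ▸ hE)
    refine Finset.mem_image.2 ⟨e, (mem_pdiv hE.ne_zero).2 ⟨he1, hE' ▸ dvd_mul_left _ _⟩, ?_⟩
    have hn : n = e * a := mul_left_cancel₀ hd.1.ne_zero (by rw [hmem.1, hE']; ring)
    have hm : m = e * b := mul_left_cancel₀ hd.1.ne_zero (by rw [hmem.2, hE']; ring)
    rw [← hn, ← hm, hE', mul_div_cancel_right₀ _ he1.ne_zero]

open Classical in
/-- the symbol without the primes dividing `r` -/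
def c3_phi (r N : O) : ℂ := ∏ p ∈ (pf N).filter (fun p => ¬ p ∣ r), kap p r

theorem c3_kap_prod (s : Finset O) (hs : ∀ p ∈ s, p ≠ 0) (r : O) :
    kap (∏ p ∈ s, p) r = ∏ p ∈ s, kap p r := by
  induction s using Finset.induction with
  | empty => simpa using kap_unit_left isUnit_one r
  | insert a s has ih =>
    rw [Finset.prod_insert has, Finset.prod_insert has,
      kap_mul_left (hs a (Finset.mem_insert_self _ _))
        (Finset.prod_ne_zero_iff.2 fun x hx => hs x (Finset.mem_insert_of_mem hx)),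
      ih fun x hx => hs x (Finset.mem_insert_of_mem hx)]

theorem c3_kap_eq {N : O} (hN : Prim N) (hs : Squarefree N) (r : O) :
    kap N r = if l3_c r N = ∅ then c3_phi r N else 0 := by
  classical
  have h : kap N r = ∏ p ∈ pf N, kap p r := by
    conv_lhs => rw [← rad_eq_self hN hs]
    exact c3_kap_prod _ (fun p hp => (a1_of_mem_pf hp).1.1.ne_zero) r
  rw [h]
  split_ifs with hc
  · rw [c3_phi, Finset.filter_true_of_mem]
    exact Finset.filter_eq_empty_iff.1 hc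
  · obtain ⟨p, hp⟩ := Finset.nonempty_iff_ne_empty.2 hc
    obtain ⟨hp1, hp2⟩ := Finset.mem_filter.1 hp
    have hpp := (a1_of_mem_pf hp1).1.1
    refine Finset.prod_eq_zero hp1 ((kap_eq_zero hpp.ne_zero).2 (Or.inr fun hcp => ?_))
    exact hpp.not_isUnit (hcp.isUnit_of_dvd' dvd_rfl hp2)

theorem c3_phi_mul {x y : O} (hx : x ≠ 0) (hy : y ≠ 0) (h : IsCoprime x y) (r : O) :
    c3_phi r (x * y) = c3_phi r x * c3_phi r y := by
  classical
  simp only [c3_phi, l3_pf_mul hx hy, Finset.filter_union]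
  exact Finset.prod_union (Finset.disjoint_filter_filter (l3_pf_disj h))

theorem c3_phi_conj {E : O} (hE : Prim E) (r : O) : c3_phi r E * conj (c3_phi r E) = 1 := by
  classical
  rw [Complex.mul_conj, Complex.normSq_eq_norm_sq, c3_phi, norm_prod, Finset.prod_eq_one]
  · simp
  intro p hp
  obtain ⟨hp1, hp2⟩ := Finset.mem_filter.1 hp
  have hpp := a1_of_mem_pf hp1
  exact ck_norm_kap (a1_prim_of_mem_pf hE hp1) (hpp.1.1.coprime_iff_not_dvd.2 hp2)

theorem c3_kernel {E a b : O} (hE : Prim E) (ha : Prim a) (hb : Prim b) (hab : IsCoprime a b)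
    (hs : Squarefree (E * a * b)) (r : O) :
    kap a r * conj (kap b r) * ((∏ p ∈ pf E, (1 + l3_m r p) : ℝ) : ℂ) =
      if l3_c r (E * a) = l3_c r (E * b) then
        ((∏ p ∈ l3_c r (E * a), (1 + l3_m r p) : ℝ) : ℂ) *
          (c3_phi r (E * a) * conj (c3_phi r (E * b))) else 0 := by
  classical
  have cEa : IsCoprime E a := (IsRelPrime.of_squarefree_mul hs.of_mul_left).isCoprime
  have cEb : IsCoprime E b := (IsRelPrime.of_squarefree_mul hs).isCoprime.of_mul_left_left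
  have sa : Squarefree a := hs.of_mul_left.of_mul_right
  have sb : Squarefree b := hs.of_mul_right
  have key : ∀ {a b : O}, IsCoprime E a → IsCoprime a b →
      l3_c r E ∪ l3_c r a = l3_c r E ∪ l3_c r b → l3_c r a = ∅ := by
    intro a b h1 h2 h
    refine Finset.eq_empty_of_forall_notMem fun p hp => ?_
    have hp' : p ∈ l3_c r E ∪ l3_c r b := h ▸ Finset.mem_union_right _ hp
    rcases Finset.mem_union.1 hp' with h3 | h3
    · exact Finset.disjoint_left.1 (l3_pf_disj h1) (Finset.mem_filter.1 h3).1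
        (Finset.mem_filter.1 hp).1
    · exact Finset.disjoint_left.1 (l3_pf_disj h2) (Finset.mem_filter.1 hp).1
        (Finset.mem_filter.1 h3).1
  rw [l3_c_mul hE.ne_zero ha.ne_zero, l3_c_mul hE.ne_zero hb.ne_zero, c3_kap_eq ha sa,
    c3_kap_eq hb sb]
  by_cases h1 : l3_c r a = ∅
  swap
  · rw [if_neg h1, if_neg fun h => h1 (key cEa hab h)]
    simp
  by_cases h2 : l3_c r b = ∅
  swap
  · have h3 : ¬ l3_c r E ∪ l3_c r a = l3_c r E ∪ l3_c r b :=
      fun h => h2 (key cEb hab.symm h.symm)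
    rw [if_neg h2, if_neg h3]
    simp
  rw [if_pos h1, if_pos h2, h1, h2, if_pos rfl, Finset.union_empty,
    c3_phi_mul hE.ne_zero ha.ne_zero cEa, c3_phi_mul hE.ne_zero hb.ne_zero cEb, map_mul]
  have e : ∏ p ∈ l3_c r E, (1 + l3_m r p) = ∏ p ∈ pf E, (1 + l3_m r p) :=
    Finset.prod_filter_of_ne fun p _ hp => by
      by_contra h
      exact hp (by rw [l3_m_eq_zero h, add_zero])
  rw [e]
  linear_combination (-(c3_phi r a * conj (c3_phi r b) *
    ((∏ p ∈ pf E, (1 + l3_m r p) : ℝ) : ℂ))) * c3_phi_conj hE r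

theorem c3_psd_row {Q : O} {γ : O → ℂ} (hs : Supp Q γ) (hr : Rap γ) (r : O) :
    ‖rowC γ r‖ ^ 2 ≤ (∑' x, c3_G Q γ r x).re := by
  classical
  obtain ⟨M, hM, hG⟩ := c3_G_bound hs hr
  have h1 := (Summable.of_norm_bounded hM (hG r)).hasSum.tsum_fiberwise
    fun x : O × O × O => (x.1 * x.2.1, x.1 * x.2.2)
  have s0 : Summable fun n => ‖γ n * kap n r‖ := by
    refine Summable.of_nonneg_of_le (fun _ => norm_nonneg _) (fun n => ?_) (hr 0)
    rw [norm_mul, Real.rpow_zero]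
    exact mul_le_mul_of_nonneg_left (norm_kap_le _ _) (norm_nonneg _)
  have s1 : Summable fun n => ‖conj (γ n * kap n r)‖ := by simpa only [Complex.norm_conj] using s0
  have h2 : HasSum (fun p : O × O => γ p.1 * kap p.1 r * conj (γ p.2 * kap p.2 r))
      ((‖rowC γ r‖ ^ 2 : ℝ) : ℂ) := by
    have := (summable_mul_of_summable_norm s0 s1).hasSum
    rwa [← tsum_mul_tsum_of_summable_norm s0 s1, ← Complex.conj_tsum, Complex.mul_conj,
      Complex.normSq_eq_norm_sq] at this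
  have h3 := l3_psd (l3_c r) (fun S => if S = ∅ then 0 else ∏ p ∈ S, (1 + l3_m r p))
    (fun S => by
      split_ifs
      · exact le_rfl
      · exact Finset.prod_nonneg fun p _ => l3_m_nonneg r p)
    (fun n => γ n * c3_phi r n) (S := ∑' x, c3_G Q γ r x - ((‖rowC γ r‖ ^ 2 : ℝ) : ℂ)) ?_
  · rw [sub_re, ofReal_re] at h3
    linarith
  refine (congrArg (HasSum · _) (funext fun ⟨N, N'⟩ => ?_)).mp (h1.sub h2)
  symm
  by_cases hz : γ N = 0 ∨ γ N' = 0
  · have e : ∑' x : (fun x : O × O × O => (x.1 * x.2.1, x.1 * x.2.2)) ⁻¹' {(N, N')},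
        c3_G Q γ r x = 0 := by
      refine (tsum_congr fun ⟨x, hx⟩ => ?_).trans tsum_zero
      simp only [Set.mem_preimage, Set.mem_singleton_iff, Prod.mk.injEq] at hx
      simp only [c3_G, hx.1, hx.2]
      rcases hz with h | h <;> simp [h]
    rw [e]
    rcases hz with h | h <;> simp [h]
  push Not at hz
  have a1 := hs _ hz.1
  have a2 := hs _ hz.2
  obtain ⟨E, a, b, hE, ha, hb, rfl, rfl, hab, hsq⟩ := l3_decomp a1.1 a2.1 a1.2.1 a2.2.1
  rw [c3_fiber γ r hE ha hb hab hsq a1 a2,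
    c3_kernel hE ha hb hab hsq,
    c3_kap_eq a1.1 a1.2.1, c3_kap_eq a2.1 a2.2.1]
  dsimp only
  by_cases hc : l3_c r (E * a) = l3_c r (E * b)
  · rw [if_pos hc, if_pos hc, ← hc]
    by_cases h0 : l3_c r (E * a) = ∅
    · simp only [h0, if_true, Finset.prod_empty, map_mul]
      push_cast
      ring
    · simp only [h0, if_false, map_mul]
      ring
  · rw [if_neg hc, if_neg hc]
    by_cases h0 : l3_c r (E * a) = ∅
    · have h3 : ¬ l3_c r (E * b) = ∅ := fun h => hc (h0.trans h.symm)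
      rw [if_neg h3]
      simp
    · rw [if_neg h0]
      simp

open Classical in
/-- The positivity inequality, row by row. -/
theorem cpsd_row {Q : O} {γ : O → ℂ} (hs : Supp Q γ) (hr : Rap γ) (r : O) :
    ‖rowC γ r‖ ^ 2 ≤ (∑' d : O, if Adm Q d then
      ∑' p : O × O, γ (d * p.1) * conj (γ (d * p.2)) * (g3 p.1 * conj (g3 p.2) * KC p.1 p.2 r) else 0).re := by
  obtain ⟨M, hM, hG⟩ := c3_G_bound hs hr
  have h := c3_psd_row hs hr r
  rw [(Summable.of_norm_bounded hM (hG r)).tsum_prod] at h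
  refine h.trans (le_of_eq (congrArg re (tsum_congr fun d => ?_)))
  by_cases hd : Adm Q d <;> simp [c3_G, hd]

end Crest.Agent.R012

end
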