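import Crest.Agent.R012.Gt
import Crest.Agent.R017.Chars

/-! # Row 12: cubic characters attached to rows, supplementary laws -/

set_option autoImplicit false

noncomputable section

open scoped BigOperators ComplexConjugate Topology
open Complex MeasureTheory Filter Set Crest.Agent.R017

namespace Crest.Agent.R012

theorem chr_exp : Complex.exp (2 * Real.pi * I / 3) = omC := by
  have h : (2 * Real.pi * I / 3 : ℂ) = ((Real.pi - Real.pi / 3 : ℝ) : ℂ) * I := by
    push_cast; ring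
  rw [h]
  apply Complex.ext
  · rw [Complex.exp_ofReal_mul_I_re, Real.cos_pi_sub, Real.cos_pi_div_three]
    simp only [omC]; norm_num
  · rw [Complex.exp_ofReal_mul_I_im, Real.sin_pi_sub, Real.sin_pi_div_three]
    simp only [omC]

theorem chr_eO (y : O) : eO y 3 = omC ^ y.im := by
  rw [← chr_exp, ← Complex.exp_int_mul, eO, ec, map_ofNat]
  congr 1
  have h3 : Real.sqrt 3 ≠ 0 := by positivity
  have h1 : (emb y / 3).im = y.im * (Real.sqrt 3 / 2) / 3 := by
    rw [← b3_emb_im]; simp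
  have h2 : 2 / Real.sqrt 3 * (emb y / 3).im = y.im / 3 := by
    rw [h1]
    field_simp
  rw [h2]
  push_cast
  ring

theorem chr_zpow_congr {a b : ℤ} (h : (3 : ℤ) ∣ a - b) : omC ^ a = omC ^ b := by
  obtain ⟨c, hc⟩ := h
  have h3 : omC ^ (3 : ℤ) = 1 := by exact_mod_cast r1_omC_cube
  rw [show a = b + 3 * c by omega, zpow_add₀ g3_omC_ne.1, zpow_mul, h3, one_zpow, mul_one]

theorem chr_prim (y : O) : Prim (1 + 3 * y) := ⟨y, by ring⟩

/-- `(u λ^k / n)` only depends on `n mod 9`. -/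
theorem kap_ul_per {n n' u : O} (hu : IsUnit u) (k : ℕ) (hn : ¬ lam ∣ n) (h : (9 : O) ∣ n - n') :
    kap n (u * lam ^ k) = kap n' (u * lam ^ k) := by
  have hl' := r1_not_lam hn h
  have e2 : kap n (lam ^ k) = kap n' (lam ^ k) := by
    rcases Nat.eq_zero_or_pos k with rfl | hk
    · rw [pow_zero, kap_one_right hn, kap_one_right hl']
    · rw [kap_pow_right _ _ hk.ne', kap_pow_right _ _ hk.ne', kap_lam_per hn h]
  rw [kap_mul_right, kap_mul_right, kap_unit_per hu hn h, e2]

theorem chr_three_per {n n' : O} (hn : ¬ lam ∣ n) (h : (9 : O) ∣ n - n') :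
    kap n 3 = kap n' 3 := by
  have h3 : (3 : O) = -om ^ 2 * lam ^ 2 := by decide
  rw [h3]
  exact kap_ul_per (isUnit_iff.2 (by simp)) 2 hn h

theorem chr_prime_neg_two : Prime (-2 : O) := prime_two.neg

theorem chr_prime_seven : Prime (⟨-2, -3⟩ : O) := by
  refine Irreducible.prime ⟨fun hu => by rw [b1_isUnit_iff_nz] at hu; revert hu; decide,
    fun a b hab => ?_⟩
  rw [b1_isUnit_iff_nz, b1_isUnit_iff_nz]
  have h1 := nz_mul a b
  rw [← hab] at h1
  have h7 : nz (⟨-2, -3⟩ : O) = 7 := by decide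
  rw [h7] at h1
  have ha := nz_nonneg a
  have hb := nz_nonneg b
  have h2 : nz a ∣ 7 := ⟨_, h1⟩
  have h3 : nz a ≤ 7 := Int.le_of_dvd (by norm_num) h2
  generalize nz a = x at *
  generalize nz b = y at *
  interval_cases x <;> omega

theorem chr_prim_two : Prim (-2 : O) := ⟨-1, by decide⟩
theorem chr_prim_seven : Prim (⟨-2, -3⟩ : O) := ⟨⟨-1, -1⟩, by decide⟩

theorem chr_two (x : O) {j : ℕ} (h : (-2 : O) ∣ x - om ^ j) : kap (-2) x = omC ^ j := by
  refine kap_prime_eq chr_prime_neg_two chr_prim_two.not_lam_dvd ?_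
  have : (nm (-2 : O) - 1) / 3 = 1 := by decide
  rwa [this, pow_one]

theorem chr_seven (x : O) {j : ℕ} (h : (⟨-2, -3⟩ : O) ∣ x ^ 2 - om ^ j) :
    kap (⟨-2, -3⟩ : O) x = omC ^ j := by
  refine kap_prime_eq chr_prime_seven chr_prim_seven.not_lam_dvd ?_
  have : (nm (⟨-2, -3⟩ : O) - 1) / 3 = 2 := by decide
  rwa [this]

theorem chr_add {y z : O} (hy : kap (1 + 3 * y) 3 = eO y 3) (hz : kap (1 + 3 * z) 3 = eO z 3) :
    kap (1 + 3 * (y + z)) 3 = eO (y + z) 3 := by
  rw [eO_add, ← hy, ← hz, ← kap_mul_left (chr_prim y).ne_zero (chr_prim z).ne_zero]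
  exact chr_three_per (chr_prim _).not_lam_dvd ⟨-(y * z), by ring⟩

theorem chr_nat {y : O} (hy : kap (1 + 3 * y) 3 = eO y 3) (m : ℕ) :
    kap (1 + 3 * (m * y)) 3 = eO (m * y) 3 := by
  induction m with
  | zero => simp [kap_unit_left isUnit_one, eO_of_dvd]
  | succ m ih =>
    have := chr_add ih hy
    push_cast
    rwa [add_mul, one_mul]

/-- Both sides are characters of `(1 + 3 O)/(1 + 9 O)` (`kap_unit_per`, `kap_lam_per`,
`3 = -ω² λ²`), which is generated by the primes `-2` and `-2 - 3 ω` (`kap_prime_eq`). -/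
theorem kap_three_supp (y : O) : kap (1 + 3 * y) 3 = eO y 3 := by
  have h1 : kap (1 + 3 * (-1 : O)) 3 = eO (-1) 3 := by
    rw [show (1 + 3 * (-1 : O)) = -2 by norm_num, chr_two 3 (j := 0) ⟨-1, by decide⟩, chr_eO]
    simp [QuadraticAlgebra.im_one]
  have h2 : kap (1 + 3 * (⟨-1, -1⟩ : O)) 3 = eO ⟨-1, -1⟩ 3 := by
    rw [show (1 + 3 * (⟨-1, -1⟩ : O)) = ⟨-2, -3⟩ by decide,
      chr_seven 3 (j := 2) ⟨⟨1, 4⟩, by decide⟩, chr_eO]
    exact_mod_cast chr_zpow_congr (a := 2) (b := -1) (by norm_num)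
  obtain ⟨m, hm⟩ : ∃ m : ℕ, (3 : ℤ) ∣ y.im - y.re - m :=
    ⟨((y.im - y.re) % 3).toNat, by omega⟩
  obtain ⟨n, hn⟩ : ∃ n : ℕ, (3 : ℤ) ∣ -y.im - n := ⟨((-y.im) % 3).toNat, by omega⟩
  have h3 := chr_add (chr_nat h1 m) (chr_nat h2 n)
  have h4 : (3 : O) ∣ y - (m * (-1) + n * ⟨-1, -1⟩) := by
    rw [b1_three_dvd]
    simp only [QuadraticAlgebra.re_sub, QuadraticAlgebra.im_sub, QuadraticAlgebra.re_add,
      QuadraticAlgebra.im_add, QuadraticAlgebra.re_mul, QuadraticAlgebra.im_mul,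
      QuadraticAlgebra.re_natCast, QuadraticAlgebra.im_natCast, QuadraticAlgebra.re_neg,
      QuadraticAlgebra.im_neg, QuadraticAlgebra.re_one, QuadraticAlgebra.im_one]
    omega
  rw [eO_congr h4, ← h3]
  obtain ⟨c, hc⟩ := h4
  exact chr_three_per (chr_prim _).not_lam_dvd ⟨c, by linear_combination 3 * hc⟩

theorem kap_om_supp (y : O) : kap (1 + 3 * y) om = eO (lam * y) 3 := by
  rw [kap_om (chr_prim y).not_lam_dvd, chr_eO, ← zpow_natCast]
  apply chr_zpow_congr
  have h1 := nm_cast (1 + 3 * y)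
  have h2 : nz (1 + 3 * y) = 1 + 3 * (2 * y.re - y.im) +
      9 * (y.re ^ 2 - y.re * y.im + y.im ^ 2) := by
    simp only [nz, QuadraticAlgebra.re_add, QuadraticAlgebra.im_add, QuadraticAlgebra.re_mul,
      QuadraticAlgebra.im_mul, QuadraticAlgebra.re_one, QuadraticAlgebra.im_one, b1_three_re,
      b1_three_im]
    ring
  have h3 : (lam * y).im = 2 * y.im - y.re := by
    simp only [lam, QuadraticAlgebra.im_mul]
    ring
  have h4 := (chr_prim y).nm_mod_three
  rw [h3]
  generalize y.re ^ 2 - y.re * y.im + y.im ^ 2 = w at h2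
  omega

theorem chr_unit_cube {v : O} (hv : IsUnit v) : v ^ 3 = 1 ∨ v ^ 3 = -1 := by
  rcases isUnit_iff.1 hv with rfl | rfl | rfl | rfl | rfl | rfl <;> decide

theorem isCube_ul {u : O} (hu : IsUnit u) (k : ℕ) :
    IsCube (u * lam ^ k) ↔ (u = 1 ∨ u = -1) ∧ 3 ∣ k := by
  have hl0 := prime_lam.ne_zero
  constructor
  · rintro ⟨y, hy⟩
    have hy0 : y ≠ 0 := by
      rintro rfl
      exact mul_ne_zero hu.ne_zero (pow_ne_zero k hl0) (by rw [hy]; norm_num)
    obtain ⟨v, j, n, hv, hn, rfl⟩ := exists_decomp hy0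
    have hy' : u * lam ^ k = v ^ 3 * n ^ 3 * lam ^ (3 * j) := by rw [hy]; ring
    have hk : k = 3 * j := by
      rcases lt_trichotomy k (3 * j) with h | h | h
      · obtain ⟨i, hi⟩ := Nat.exists_eq_add_of_lt h
        rw [hi, add_assoc, pow_add, mul_comm (lam ^ k), ← mul_assoc] at hy'
        have := mul_right_cancel₀ (pow_ne_zero k hl0) hy'
        exact absurd (isUnit_of_dvd_unit ⟨v ^ 3 * n ^ 3 * lam ^ i, by rw [this]; ring⟩ hu)
          prime_lam.not_isUnit
      · exact h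
      · obtain ⟨i, hi⟩ := Nat.exists_eq_add_of_lt h
        rw [hi, add_assoc, pow_add, mul_comm (lam ^ (3 * j)), ← mul_assoc] at hy'
        have := mul_right_cancel₀ (pow_ne_zero _ hl0) hy'
        have h1 : lam ∣ v ^ 3 * n ^ 3 := ⟨u * lam ^ i, by rw [← this]; ring⟩
        rcases prime_lam.dvd_or_dvd h1 with h2 | h2
        · exact absurd (isUnit_of_dvd_unit h2 (hv.pow 3)) prime_lam.not_isUnit
        · exact absurd h2 (hn.pow 3).not_lam_dvd
    subst hk
    have h1 := mul_right_cancel₀ (pow_ne_zero _ hl0) hy'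
    have h2 : n ^ 3 = 1 :=
      (hn.pow 3).eq_one_of_isUnit (isUnit_of_dvd_unit ⟨v ^ 3, by rw [h1]; ring⟩ hu)
    rw [h2, mul_one] at h1
    exact ⟨h1 ▸ chr_unit_cube hv, dvd_mul_right _ _⟩
  · rintro ⟨rfl | rfl, j, rfl⟩
    · exact ⟨lam ^ j, by ring⟩
    · exact ⟨-lam ^ j, by ring⟩

theorem chr_pow_eq_one {m : ℕ} (h : omC ^ m = 1) : 3 ∣ m := by
  by_contra h3
  exact (g2_omC_pow h3).2 h

theorem exists_kap_ul_ne {u : O} (hu : IsUnit u) {k : ℕ} (h : ¬ IsCube (u * lam ^ k)) :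
    ∃ n : O, Prim n ∧ kap n (u * lam ^ k) ≠ 1 := by
  by_contra hc
  push Not at hc
  apply h
  obtain ⟨i, hi3, hi⟩ : ∃ i : ℕ, i < 3 ∧ (u = om ^ i ∨ u = -om ^ i) := by
    rcases isUnit_iff.1 hu with rfl | rfl | rfl | rfl | rfl | rfl
    exacts [⟨0, by norm_num, by simp⟩, ⟨0, by norm_num, by simp⟩, ⟨1, by norm_num, by simp⟩,
      ⟨1, by norm_num, by simp⟩, ⟨2, by norm_num, by simp⟩, ⟨2, by norm_num, by simp⟩]
  have hpow : ∀ n x : O, Prim n → ∀ j : ℕ, kap n (x ^ j) = kap n x ^ j := fun n x hn j => by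
    rcases Nat.eq_zero_or_pos j with rfl | hj
    · rw [pow_zero, pow_zero, kap_one_right hn.not_lam_dvd]
    · exact kap_pow_right _ _ hj.ne'
  have key : ∀ n : O, Prim n → kap n om ^ i * kap n lam ^ k = 1 := fun n hn => by
    rw [← hc n hn, kap_mul_right, hpow n lam hn, ← hpow n om hn]
    rcases hi with rfl | rfl
    · rfl
    · rw [kap_neg_right]
  have h1 := key _ chr_prim_two
  have h2 := key _ chr_prim_seven
  rw [chr_two om (j := 1) (by simp), chr_two lam (j := 2) ⟨-1, by decide⟩, ← pow_mul, ← pow_mul,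
    ← pow_add] at h1
  rw [chr_seven om (j := 2) (by simp), chr_seven lam (j := 2) ⟨⟨1, 1⟩, by decide⟩, ← pow_mul,
    ← pow_mul, ← pow_add] at h2
  have h3 := chr_pow_eq_one h1
  have h4 := chr_pow_eq_one h2
  have h5 : i = 0 := by omega
  subst h5
  rw [isCube_ul hu]
  exact ⟨by simpa using hi, by omega⟩

open Classical in
/-- `n ↦ (h / n)₃` as a character modulo `9 rad h`. -/
def kc (h n : O) : ℂ := if lam ∣ n then 0 else kap n h

theorem kc_prim {h n : O} (hn : Prim n) : kc h n = kap n h := if_neg hn.not_lam_dvd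

theorem chr_ne {x : O} (hx : ¬ lam ∣ x) : x ≠ 0 := by
  rintro rfl
  exact hx (dvd_zero _)

theorem isCh_kc {h : O} (hh : h ≠ 0) : IsCh (9 * rad h) (kc h) where
  ne := mul_ne_zero (by decide) (rad_ne_zero h)
  three := Dvd.dvd.mul_right ⟨3, by norm_num⟩ _
  one := by rw [kc_prim prim_one, kap_unit_left isUnit_one]
  mul x y := by
    unfold kc
    by_cases hx : lam ∣ x
    · simp [hx, hx.mul_right y]
    by_cases hy : lam ∣ y
    · simp [hy, hy.mul_left x]
    have hxy : ¬ lam ∣ x * y := fun h => (prime_lam.dvd_or_dvd h).elim hx hy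
    rw [if_neg hx, if_neg hy, if_neg hxy]
    exact kap_mul_left (chr_ne hx) (chr_ne hy) _
  per x y hxy := by
    have h9 : (9 : O) ∣ x - y := (dvd_mul_right _ _).trans hxy
    unfold kc
    by_cases hx : lam ∣ x
    · have hy : lam ∣ y := by
        rw [show y = x - (x - y) by ring]
        exact dvd_sub hx (r1_lam_dvd_nine.trans h9)
      rw [if_pos hx, if_pos hy]
    · have hy := r1_not_lam hx h9
      rw [if_neg hx, if_neg hy]
      exact kap_per hh (chr_ne hx) (chr_ne hy) hxy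
  zero x := by
    have h9 : IsCoprime x 9 ↔ ¬ lam ∣ x := by
      rw [show (9 : O) = 3 ^ 2 by norm_num, IsCoprime.pow_right_iff (by norm_num),
        coprime_three_iff]
    rw [IsCoprime.mul_right_iff, h9, coprime_rad_iff hh]
    unfold kc
    by_cases hx : lam ∣ x
    · simp [hx]
    · rw [if_neg hx, kap_eq_zero (chr_ne hx)]
      simp [hx]

open Classical in
theorem kap_cube_right {n y : O} (hn : Prim n) :
    kap n (y ^ 3) = if IsCoprime n y then 1 else 0 := by
  classical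
  rw [kap_pow_right _ _ (by norm_num)]
  split_ifs with h
  · exact kap_cube (r3_kap_ne hn h)
  · rw [(kap_eq_zero hn.ne_zero).2 (Or.inr h)]; norm_num

theorem chr_cop_nine {p : O} (hp : Prim p) : IsCoprime p 9 := by
  rw [show (9 : O) = 3 ^ 2 by norm_num]
  exact (coprime_three_iff.2 hp.not_lam_dvd).pow_right

/-- If a primary prime `p` has multiplicity prime to `3` in `h`, choose `n ≡ 1` modulo `9` and the
other primes, and a cubic non-residue modulo `p` (`kap_nontrivial`, `cubic_recip`). -/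
theorem princ_kc {h : O} (hh : h ≠ 0) : Princ (kc h) ↔ IsCube h := by
  constructor
  · intro hP
    obtain ⟨u, k, s, hu, hs, rfl⟩ := exists_decomp hh
    have hmult : ∀ p : O, Prime p → 3 ∣ multiplicity p s := by
      intro p₀ hp₀
      by_contra hv₀
      obtain ⟨p, hp, hass⟩ := exists_PP hp₀
      have hv : ¬ 3 ∣ multiplicity p s := by
        rwa [multiplicity_eq_of_associated_left hass]
      obtain ⟨w, hw, hpw⟩ :=
        (FiniteMultiplicity.of_prime_left hp.1 hs.ne_zero).exists_eq_pow_mul_and_not_dvd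
      generalize multiplicity p s = v at hv hw
      have hv0 : v ≠ 0 := fun h0 => hv (by simp [h0])
      have hpp : Prim p := hp.2.resolve_right fun hl =>
        hs.not_lam_dvd (hw ▸ (hl ▸ dvd_pow_self p hv0 : lam ∣ p ^ v).mul_right w)
      have hwp : Prim w := (hpp.pow v).of_mul (hw ▸ hs)
      obtain ⟨x, hx⟩ := kap_nontrivial hp.1 hpp.not_lam_dvd
      obtain ⟨a, b, hab⟩ : IsCoprime p (9 * w) :=
        (chr_cop_nine hpp).mul_right ((Prime.coprime_iff_not_dvd hp.1).2 hpw)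
      set n := x * (b * (9 * w)) + a * p with hn
      have hn1 : 9 * w ∣ n - 1 := ⟨x * b - b, by rw [hn]; linear_combination hab⟩
      have hnx : p ∣ n - x := ⟨a - x * a, by rw [hn]; linear_combination x * hab⟩
      have hn9 : (9 : O) ∣ n - 1 := (dvd_mul_right _ _).trans hn1
      have hnp : Prim n := r1_prim_of_nine hn9
      have e : kc (u * lam ^ k * s) n = omC ^ v := by
        rw [kc_prim hnp, kap_mul_right, kap_ul_per hu k hnp.not_lam_dvd hn9,
          kap_unit_left isUnit_one, one_mul, hw, kap_mul_right, kap_pow_right _ _ hv0,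
          cubic_recip hnp hpp, cubic_recip hnp hwp, kap_congr' hp.1.ne_zero hnx, hx,
          kap_congr' hwp.ne_zero ((dvd_mul_left _ _).trans hn1), kap_one_right hwp.not_lam_dvd,
          mul_one]
      have := hP n hnp
      rw [e] at this
      exact (g2_omC_pow hv).2 (this (g2_omC_pow hv).1)
    obtain ⟨j, hj, rfl⟩ : ∃ j : O, Prim j ∧ s = j ^ 3 := by
      obtain ⟨m, hm0, hm, hm'⟩ := a3_build hs.ne_zero 1 (fun k _ => k / 3) (fun _ => rfl)
      refine ⟨m, hm hs, a3_ext hs ((hm hs).pow 3) fun q hq => ?_⟩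
      rw [a3_pow hq hm0, hm' q hq, Nat.mul_div_cancel' (hmult q hq)]
    have hc : IsCube (u * lam ^ k) := by
      by_contra hc
      obtain ⟨n₀, hn₀, hne⟩ := exists_kap_ul_ne hu hc
      obtain ⟨a, b, hab⟩ := chr_cop_nine hj
      set n := n₀ * (a * j) + b * 9 with hn
      have h9 : (9 : O) ∣ n₀ - n := ⟨n₀ * b - b, by rw [hn]; linear_combination (-n₀) * hab⟩
      have hnp : Prim n := r1_prim_congr hn₀ h9
      have hcop : IsCoprime n j := ⟨1, a - n₀ * a, by rw [hn]; linear_combination hab⟩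
      have e : kc (u * lam ^ k * j ^ 3) n = kap n₀ (u * lam ^ k) := by
        rw [kc_prim hnp, kap_mul_right, kap_cube_right hnp, if_pos hcop, mul_one,
          kap_ul_per hu k hn₀.not_lam_dvd h9]
      have := hP n hnp
      rw [e] at this
      refine hne (this (r3_kap_ne hn₀ ?_))
      refine IsCoprime.mul_right ?_ (IsCoprime.pow_right ?_)
      · obtain ⟨v, hv⟩ := hu.exists_left_inv
        exact ⟨0, v, by rw [zero_mul, zero_add, hv]⟩
      · exact ((prime_lam.irreducible.coprime_iff_not_dvd).2 hn₀.not_lam_dvd).symm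
    obtain ⟨y, hy⟩ := hc
    exact ⟨y * j, by rw [hy, mul_pow]⟩
  · rintro ⟨y, rfl⟩ n hn h0
    rw [kc_prim hn, kap_cube_right hn] at h0 ⊢
    split_ifs at h0 ⊢ with hc
    · rfl
    · exact absurd rfl h0

theorem Nr_mod_kc {h : O} (hh : h ≠ 0) : Nr (9 * rad h) ≤ 81 * Nr h := by
  have h9 : Nr (9 : O) = 81 := by
    have := Nr_natCast 9
    norm_num at this
    exact this
  rw [Nr_mul, h9]
  exact mul_le_mul_of_nonneg_left (Nr_le_of_dvd hh (rad_dvd hh)) (by norm_num)

end Crest.Agent.R012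

end
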