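import Crest.Agent.R012.TDefs

/-! # Row 12: a numerical inequality -/

set_option autoImplicit false

noncomputable section

open scoped BigOperators ComplexConjugate Topology
open Complex MeasureTheory Filter Set Crest.Agent.R017 Crest.Agent.R017.Theta

namespace Crest.Agent.R012

theorem csn_c0 : 3627 / 1000 ≤ c0 ∧ c0 ≤ 3628 / 1000 := by
  have h1 : Real.sqrt 3 ≤ 17321 / 10000 := Real.sqrt_le_iff.2 ⟨by norm_num, by norm_num⟩
  have h2 : 1732 / 1000 ≤ Real.sqrt 3 := Real.le_sqrt_of_sq_le (by norm_num)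
  unfold c0
  rw [le_div_iff₀ (by positivity), div_le_iff₀ (by positivity)]
  constructor <;> linarith [Real.pi_gt_d4, Real.pi_lt_d4]

theorem csn_exp {t t₀ c : ℝ} (h0 : 0 ≤ t₀) (h : t ≤ -t₀)
    (hc : 1 ≤ c * ∑ i ∈ Finset.range 12, t₀ ^ i / (i.factorial : ℝ)) : Real.exp t ≤ c := by
  have h1 := Real.sum_le_exp_of_nonneg h0 12
  have h2 : 0 ≤ ∑ i ∈ Finset.range 12, t₀ ^ i / (i.factorial : ℝ) := by positivity
  have h3 : 0 ≤ c := by
    by_contra h4
    nlinarith [not_le.1 h4]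
  refine (Real.exp_le_exp.2 h).trans ?_
  rw [Real.exp_neg, inv_le_iff_one_le_mul₀ (Real.exp_pos _)]
  exact hc.trans (mul_le_mul_of_nonneg_left h1 h3)

theorem csn_cosh (u : ℝ) : 2 + u ^ 2 ≤ Real.exp u + Real.exp (-u) := by
  have h1 : |u / 2| ≤ |Real.sinh (u / 2)| := by
    rw [Real.abs_sinh]
    exact Real.self_le_sinh_iff.2 (abs_nonneg _)
  have h2 := sq_le_sq.2 h1
  have h3 := Real.cosh_two_mul (u / 2)
  rw [Real.cosh_sq, mul_div_cancel₀ _ two_ne_zero, Real.cosh_eq] at h3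
  nlinarith

/-- The integrand after the substitution. -/
def csn_g (b u : ℝ) : ℝ := Real.exp (u / 3 - b * (Real.exp u + Real.exp (-u)))

theorem csn_K1 (x : ℝ) : K1 x = ∫ u, csn_g (c0 * x) u := by
  have h := integral_image_eq_integral_abs_deriv_smul (s := univ) (f := Real.exp)
    (f' := Real.exp) MeasurableSet.univ (fun u _ => (Real.hasDerivAt_exp u).hasDerivWithinAt)
    Real.exp_injective.injOn (fun y : ℝ => y ^ (-(2 / 3) : ℝ) * Phi (x * (y + y⁻¹)))
  rw [image_univ, Real.range_exp, Measure.restrict_univ] at h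
  rw [K1, h]
  refine integral_congr_ae (ae_of_all _ fun u => ?_)
  simp only [csn_g, Phi, smul_eq_mul, abs_of_pos (Real.exp_pos u), ← Real.exp_mul, ← Real.exp_neg,
    ← Real.exp_add]
  congr 1
  ring

theorem csn_g_le {b : ℝ} (hb : 0 < b) (u : ℝ) : csn_g b u ≤
    Real.exp (-b * (u - 1 / (6 * b)) ^ 2) * Real.exp (-(2 * b) + 1 / (36 * b)) := by
  rw [csn_g, ← Real.exp_add]
  refine Real.exp_le_exp.2 ?_
  have h1 := mul_le_mul_of_nonneg_left (csn_cosh u) hb.le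
  have h2 : -b * (u - 1 / (6 * b)) ^ 2 + (-(2 * b) + 1 / (36 * b)) = u / 3 - b * (2 + u ^ 2) := by
    field_simp
    ring
  linarith

theorem csn_gauss {b : ℝ} (hb : 0 < b) : Integrable fun u : ℝ =>
    Real.exp (-b * (u - 1 / (6 * b)) ^ 2) * Real.exp (-(2 * b) + 1 / (36 * b)) :=
  ((integrable_exp_neg_mul_sq hb).comp_sub_right (1 / (6 * b))).mul_const _

theorem csn_g_int {b : ℝ} (hb : 0 < b) : Integrable (csn_g b) :=
  (csn_gauss hb).mono' (Continuous.aestronglyMeasurable (by unfold csn_g; fun_prop))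
    (ae_of_all _ fun u => by
      rw [Real.norm_of_nonneg (show 0 ≤ csn_g b u from (Real.exp_pos _).le)]
      exact csn_g_le hb u)

/-- With `y = e^u`: `K1 x = ∫ e^{u/3 - X cosh u} du`, `X = 2 c₀ x`, and `cosh u ≥ 1 + u²/2`. -/
theorem K1_upper {x : ℝ} (hx : 0 < x) :
    K1 x ≤ Real.sqrt (Real.pi / (c0 * x)) * Real.exp (-(2 * c0 * x) + 1 / (36 * c0 * x)) := by
  have hb : 0 < c0 * x := mul_pos c0_pos hx
  rw [csn_K1, mul_assoc, mul_assoc]
  refine (integral_mono (csn_g_int hb) (csn_gauss hb) (csn_g_le hb)).trans_eq ?_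
  rw [integral_mul_const,
    integral_sub_right_eq_self (fun u : ℝ => Real.exp (-(c0 * x) * u ^ 2)), integral_gaussian]

/-- `y + 1/y ≥ 2`. -/
theorem K1_step {x x' : ℝ} (hx : 0 < x) (h : x ≤ x') :
    K1 x' ≤ Real.exp (-(2 * c0 * (x' - x))) * K1 x := by
  unfold K1
  rw [← integral_const_mul]
  refine setIntegral_mono_on (integrableOn_K1 (hx.trans_le h))
    ((integrableOn_K1 hx).const_mul _) measurableSet_Ioi fun y (hy : 0 < y) => ?_
  rw [mul_left_comm]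
  refine mul_le_mul_of_nonneg_left ?_ (Real.rpow_pos_of_pos hy _).le
  rw [Phi, Phi, ← Real.exp_add]
  refine Real.exp_le_exp.2 ?_
  have h1 : 0 ≤ y + y⁻¹ - 2 := by
    have h2 : y + y⁻¹ - 2 = (y - 1) ^ 2 / y := by field_simp; ring
    rw [h2]
    positivity
  nlinarith [mul_nonneg (mul_nonneg c0_pos.le (sub_nonneg.2 h)) h1]

/-- The true value is `0.2449…`; e.g. restrict to `|u| ≤ 0.9`, `e^{u/3} + e^{-u/3} ≥ 2`,
`cosh u ≤ 1 + 0.55 u²`, `e^{-s} ≥ 1 - s`. -/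
theorem K1_lower : (9 / 50 : ℝ) ≤ K1 (4 / 15) := by
  obtain ⟨b, hb⟩ : ∃ b, b = c0 * (4 / 15) := ⟨_, rfl⟩
  have hb0 : 0 < b := by rw [hb]; linarith [csn_c0.1]
  have hb1 : b ≤ 968 / 1000 := by rw [hb]; linarith [csn_c0.2]
  have hE : 143 / 1000 ≤ Real.exp (-(2 * b)) := by
    have h1 : Real.exp (-(2 * b)) = Real.exp (-1) ^ 2 * Real.exp (2 - 2 * b) := by
      rw [← Real.exp_nat_mul, ← Real.exp_add]
      congr 1
      push_cast
      ring
    have h2 := Real.add_one_le_exp (2 - 2 * b)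
    have h3 : (3678 / 10000 : ℝ) ^ 2 ≤ Real.exp (-1) ^ 2 :=
      pow_le_pow_left₀ (by norm_num) (by linarith [Real.exp_neg_one_gt_d9]) 2
    rw [h1]
    nlinarith
  have hp : ∀ u ∈ Icc (-(9 / 10) : ℝ) (9 / 10),
      143 / 1000 * ((1 + u / 3) * (1 - 106 / 100 * u ^ 2)) ≤ csn_g b u := by
    intro u hu
    have h1 : |u| ≤ 1 := abs_le.2 ⟨by linarith [hu.1], by linarith [hu.2]⟩
    have h2 : u ^ 2 ≤ 81 / 100 := by nlinarith [hu.1, hu.2]
    have h3 := (abs_le.1 (Real.exp_bound h1 (n := 4) (by norm_num))).2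
    have h4 := (abs_le.1 (Real.exp_bound (x := -u) (by rwa [abs_neg]) (n := 4) (by norm_num))).2
    rw [abs_neg] at h4
    rw [Even.pow_abs (by decide)] at h3 h4
    norm_num [Finset.sum_range_succ, Nat.factorial] at h3 h4
    have h5 : Real.exp u + Real.exp (-u) ≤ 2 + 109 / 100 * u ^ 2 := by
      nlinarith [mul_le_mul_of_nonneg_left h2 (sq_nonneg u)]
    have h6 : csn_g b u = Real.exp (-(2 * b)) * (Real.exp (u / 3) *
        Real.exp (-(b * (Real.exp u + Real.exp (-u) - 2)))) := by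
      rw [csn_g, ← Real.exp_add, ← Real.exp_add]
      congr 1
      ring
    have h7 := Real.add_one_le_exp (u / 3)
    have h8 := Real.add_one_le_exp (-(b * (Real.exp u + Real.exp (-u) - 2)))
    have h9 : b * (Real.exp u + Real.exp (-u) - 2) ≤ 968 / 1000 * (109 / 100 * u ^ 2) :=
      mul_le_mul hb1 (by linarith) (by nlinarith [csn_cosh u]) (by norm_num)
    rw [h6]
    refine mul_le_mul hE (mul_le_mul (by linarith) (by nlinarith) (by linarith)
      (Real.exp_pos _).le) (mul_nonneg (by linarith [hu.1]) (by linarith)) (Real.exp_pos _).le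
  have hI : ∫ u in (-(9 / 10) : ℝ)..(9 / 10),
      143 / 1000 * ((1 + u / 3) * (1 - 106 / 100 * u ^ 2)) =
        143 / 1000 * (2 * (9 / 10) - 2 * (106 / 100) * (9 / 10) ^ 3 / 3) := by
    rw [intervalIntegral.integral_eq_sub_of_hasDerivAt
      (f := fun u : ℝ => 143 / 1000 * (u + u ^ 2 / 6 - 106 / 300 * u ^ 3 - 106 / 1200 * u ^ 4))
      (fun u _ => ?_) (Continuous.intervalIntegrable (by fun_prop) _ _)]
    · norm_num
    · refine (((((hasDerivAt_id' u).fun_add ((hasDerivAt_pow 2 u).div_const 6)).fun_sub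
        ((hasDerivAt_pow 3 u).const_mul (106 / 300))).fun_sub
        ((hasDerivAt_pow 4 u).const_mul (106 / 1200))).const_mul (143 / 1000)).congr_deriv ?_
      push_cast
      ring
  have h1 := intervalIntegral.integral_mono_on (by norm_num)
    (Continuous.intervalIntegrable (μ := volume) (by fun_prop) _ _)
    (csn_g_int hb0).intervalIntegrable hp
  rw [hI, intervalIntegral.integral_of_le (by norm_num)] at h1
  rw [csn_K1, ← hb]
  refine le_trans (by norm_num) (h1.trans (setIntegral_le_integral (csn_g_int hb0)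
    (ae_of_all _ fun u => (Real.exp_pos _).le)))

/-- The difference of Bessel terms at `v = 5/4`. -/
def dK (h : O) : ℝ := 4 / 5 * K1 (4 / 5 * ‖emb h‖ / 9) - 5 / 4 * K1 (5 / 4 * ‖emb h‖ / 9)

theorem csn_dK {h : O} (hh : 9 ≤ Nr h) : 34 / 100 * K1 (4 / 5 * ‖emb h‖ / 9) ≤ dK h := by
  have h3 : 3 ≤ ‖emb h‖ := by
    rw [norm_emb]
    exact Real.le_sqrt_of_sq_le (by linarith)
  have h0 : 0 < 4 / 5 * ‖emb h‖ / 9 := by positivity
  have h1 := K1_step h0 (show _ ≤ 5 / 4 * ‖emb h‖ / 9 by linarith)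
  have h2 : Real.exp (-(2 * c0 * (5 / 4 * ‖emb h‖ / 9 - 4 / 5 * ‖emb h‖ / 9))) ≤ 368 / 1000 :=
    (Real.exp_le_exp.2 (by nlinarith [csn_c0.1])).trans
      (Real.exp_neg_one_lt_d9.le.trans (by norm_num))
  have h4 := mul_le_mul_of_nonneg_right h2 (K1_pos h0).le
  unfold dK
  linarith

theorem csn_Nr (k : ℕ) [k.AtLeastTwo] : Nr (OfNat.ofNat k : O) = (OfNat.ofNat k : ℝ) ^ 2 :=
  Nr_natCast k

theorem csn_norm_mul (k : ℕ) [k.AtLeastTwo] (x : O) :
    ‖emb (OfNat.ofNat k * x)‖ = OfNat.ofNat k * ‖emb x‖ := by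
  rw [map_mul, norm_mul, map_ofNat, Complex.norm_ofNat]

theorem dK_nonneg {h : O} (hh : 9 ≤ Nr h) : 0 ≤ dK h := by
  have h3 : 3 ≤ ‖emb h‖ := by
    rw [norm_emb]
    exact Real.le_sqrt_of_sq_le (by linarith)
  linarith [csn_dK hh, K1_pos (show 0 < 4 / 5 * ‖emb h‖ / 9 by positivity)]

theorem dK_le {h : O} (hh : h ≠ 0) : dK h ≤ 4 / 5 * K1 (4 / 5 * ‖emb h‖ / 9) := by
  have h1 := kb_one_le hh
  unfold dK
  linarith [K1_pos (show 0 < 5 / 4 * ‖emb h‖ / 9 by positivity)]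

theorem dK_three : (3 / 50 : ℝ) ≤ dK 3 := by
  have h1 := csn_dK (h := 3) (by rw [csn_Nr]; norm_num)
  rw [map_ofNat, Complex.norm_ofNat, show (4 / 5 * 3 / 9 : ℝ) = 4 / 15 by norm_num] at h1
  linarith [K1_lower]

theorem csn_geom : HasSum (fun a : ℤ => (1 / 2 : ℝ) ^ a.natAbs) 3 := by
  have h1 : HasSum (fun n : ℕ => (1 / 2 : ℝ) ^ (-((n : ℤ) + 1)).natAbs) (2 * (1 / 2)) := by
    have e : ∀ n : ℕ, (-((n : ℤ) + 1)).natAbs = n + 1 := fun n => by omega
    simp only [e, pow_succ]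
    exact hasSum_geometric_two.mul_right (1 / 2)
  have h2 := HasSum.of_nat_of_neg_add_one (f := fun a : ℤ => (1 / 2 : ℝ) ^ a.natAbs)
    hasSum_geometric_two h1
  norm_num at h2 ⊢
  exact h2

/-- The box of the finite part. -/
def csn_T : Finset (ℤ × ℤ) := Finset.Icc (-2) 2 ×ˢ Finset.Icc (-2) 2

theorem csn_lat {F : O → ℝ} {φ : ℤ × ℤ → O} (hφ : Function.Injective φ)
    (hs : ∀ x, x ∉ range φ → F x = 0) (h0 : ∀ x, 0 ≤ F x) (w : ℤ × ℤ → ℕ) {D C : ℝ}
    (h : ∀ z, F (φ z) ≤ D * ((if z ∈ csn_T then (w z : ℝ) else 0) +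
      C * ((1 / 2) ^ z.1.natAbs * (1 / 2) ^ z.2.natAbs))) :
    Summable F ∧ ∑' x, F x ≤ D * ((∑ z ∈ csn_T, w z : ℕ) + C * 9) := by
  have h1 : HasSum (fun z : ℤ × ℤ => if z ∈ csn_T then (w z : ℝ) else 0)
      (∑ z ∈ csn_T, w z : ℕ) := by
    have := hasSum_sum_of_ne_finset_zero (s := csn_T) (L := .unconditional _)
      (f := fun z : ℤ × ℤ => if z ∈ csn_T then (w z : ℝ) else 0) fun z hz => if_neg hz
    rwa [Finset.sum_congr rfl fun z hz => if_pos hz, ← Nat.cast_sum] at this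
  have h2 := csn_geom.mul csn_geom (csn_geom.summable.mul_of_nonneg csn_geom.summable
    (fun _ => by positivity) fun _ => by positivity)
  have h3 := (h1.add (h2.mul_left C)).mul_left D
  have h4 : Summable (F ∘ φ) := Summable.of_nonneg_of_le (fun z => h0 _) h h3.summable
  have h5 := (hφ.hasSum_iff hs).1 h4.hasSum
  refine ⟨h5.summable, ?_⟩
  rw [h5.tsum_eq, show (9 : ℝ) = 3 * 3 by norm_num]
  exact hasSum_le h h4.hasSum h3

theorem csn_half (z : ℤ × ℤ) : Real.exp (-(7 / 10 * (|(z.1 : ℝ)| + |(z.2 : ℝ)|))) ≤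
    (1 / 2) ^ z.1.natAbs * (1 / 2) ^ z.2.natAbs := by
  have h1 : Real.exp (-(7 / 10)) ≤ 1 / 2 := csn_exp (t₀ := 7 / 10) (by norm_num) le_rfl
    (by norm_num [Finset.sum_range_succ, Nat.factorial])
  rw [← pow_add]
  refine le_trans (le_of_eq ?_) (pow_le_pow_left₀ (Real.exp_pos _).le h1 _)
  rw [← Real.exp_nat_mul]
  congr 1
  push_cast [Nat.cast_natAbs]
  ring

theorem csn_l1 (x : O) : (|(x.re : ℝ)| + |(x.im : ℝ)|) / 2 ≤ ‖emb x‖ := by
  rw [norm_emb]
  refine Real.le_sqrt_of_sq_le ?_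
  rw [b1_Nr_eq, nz]
  push_cast
  have h1 := le_abs_self ((x.re : ℝ) * x.im)
  rw [abs_mul] at h1
  nlinarith [sq_abs (x.re : ℝ), sq_abs (x.im : ℝ), sq_nonneg (|(x.re : ℝ)| - |(x.im : ℝ)|)]

theorem csn_ge {x : O} {n : ℤ} (h : n ≤ nz x) {t : ℝ} (ht : t ^ 2 ≤ n) : t ≤ ‖emb x‖ := by
  rw [norm_emb]
  refine Real.le_sqrt_of_sq_le (ht.trans ?_)
  rw [b1_Nr_eq]
  exact_mod_cast h

theorem csn_root (x : O) {s : ℝ} (hs : 0 < s) :
    Nr x ^ (1 / 6 : ℝ) ≤ s ^ (1 / 3 : ℝ) * Real.exp ((‖emb x‖ / s - 1) * (1 / 3)) := by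
  rw [← norm_emb_sq, ← Real.rpow_natCast, ← Real.rpow_mul (norm_nonneg _), Real.exp_mul,
    ← Real.mul_rpow hs.le (Real.exp_pos _).le,
    show ((2 : ℕ) : ℝ) * (1 / 6) = 1 / 3 by norm_num]
  refine Real.rpow_le_rpow (norm_nonneg _) ?_ (by norm_num)
  rw [← div_le_iff₀' hs]
  linarith [Real.add_one_le_exp (‖emb x‖ / s - 1)]

theorem csn_K1_le {x r e : ℝ} (hx : 0 < x) (hr : 0 ≤ r) (h1 : 31416 / 10000 ≤ r ^ 2 * (3627 / 1000 * x))
    (h2 : Real.exp (-(2 * (3627 / 1000) * x) + 1 / (36 * (3627 / 1000) * x)) ≤ e) :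
    K1 x ≤ r * e := by
  have hc := csn_c0.1
  refine (K1_upper hx).trans (mul_le_mul (Real.sqrt_le_iff.2 ⟨hr, ?_⟩)
    (le_trans (Real.exp_le_exp.2 ?_) h2) (Real.exp_pos _).le hr)
  · rw [div_le_iff₀ (mul_pos c0_pos hx)]
    have : r ^ 2 * (3627 / 1000 * x) ≤ r ^ 2 * (c0 * x) := by gcongr
    linarith [Real.pi_lt_d4]
  · gcongr

theorem csn_prim_term {x : O} (hx : 2 ≤ ‖emb x‖) :
    Nr x ^ (1 / 6 : ℝ) * (4 / 5 * K1 (4 / 15 * ‖emb x‖)) ≤
      274 / 10000 * Real.exp (-(176 / 100 * (‖emb x‖ - 2))) := by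
  have h1 : K1 (8 / 15) ≤ 1275 / 1000 * (213 / 10000) :=
    csn_K1_le (by norm_num) (by norm_num) (by norm_num)
      (csn_exp (t₀ := 3854 / 1000) (by norm_num) (by norm_num)
        (by norm_num [Finset.sum_range_succ, Nat.factorial]))
  have h2 := K1_step (x := 8 / 15) (x' := 4 / 15 * ‖emb x‖) (by norm_num) (by linarith)
  have h3 := csn_root x two_pos
  have h4 : (2 : ℝ) ^ (1 / 3 : ℝ) ≤ 126 / 100 := by
    rw [show (1 / 3 : ℝ) = ((3 : ℕ) : ℝ)⁻¹ by norm_num, Real.rpow_inv_le_iff_of_pos (by norm_num)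
      (by norm_num) (by norm_num), Real.rpow_natCast]
    norm_num
  have h5 := K1_pos (show 0 < 4 / 15 * ‖emb x‖ by positivity)
  calc _ ≤ (126 / 100 * Real.exp ((‖emb x‖ / 2 - 1) * (1 / 3))) * (4 / 5 *
        (Real.exp (-(2 * c0 * (4 / 15 * ‖emb x‖ - 8 / 15))) * (1275 / 1000 * (213 / 10000)))) :=
        mul_le_mul (h3.trans (by gcongr)) (by gcongr; exact h2.trans (by gcongr)) (by positivity)
          (by positivity)
    _ = 126 / 100 * (4 / 5) * (1275 / 1000 * (213 / 10000)) * Real.exp ((‖emb x‖ / 2 - 1) * (1 / 3) +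
        -(2 * c0 * (4 / 15 * ‖emb x‖ - 8 / 15))) := by
        rw [Real.exp_add]
        ring
    _ ≤ _ := mul_le_mul (by norm_num) (Real.exp_le_exp.2 (by
        nlinarith [mul_le_mul_of_nonneg_right csn_c0.1 (sub_nonneg.2 hx)])) (Real.exp_pos _).le
        (by norm_num)

theorem csn_nine_term {x : O} (hx : 1 ≤ ‖emb x‖) :
    Nr x ^ (1 / 6 : ℝ) * (4 / 5 * K1 (4 / 5 * ‖emb x‖)) ≤
      255 / 100000 * Real.exp (-(546 / 100 * (‖emb x‖ - 1))) := by
  have h1 : K1 (4 / 5) ≤ 1041 / 1000 * (306 / 100000) := by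
    refine csn_K1_le (by norm_num) (by norm_num) (by norm_num) ?_
    have h1 : Real.exp (-(28965 / 10000)) ≤ 553 / 10000 :=
      csn_exp (t₀ := 28965 / 10000) (by norm_num) le_rfl
        (by norm_num [Finset.sum_range_succ, Nat.factorial])
    have h2 := pow_le_pow_left₀ (Real.exp_pos _).le h1 2
    rw [← Real.exp_nat_mul] at h2
    exact (Real.exp_le_exp.2 (by norm_num)).trans (h2.trans (by norm_num))
  have h2 := K1_step (x := 4 / 5) (x' := 4 / 5 * ‖emb x‖) (by norm_num) (by linarith)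
  have h3 := csn_root x one_pos
  rw [Real.one_rpow, one_mul, div_one] at h3
  have h5 := K1_pos (show 0 < 4 / 5 * ‖emb x‖ by positivity)
  calc _ ≤ Real.exp ((‖emb x‖ - 1) * (1 / 3)) * (4 / 5 *
        (Real.exp (-(2 * c0 * (4 / 5 * ‖emb x‖ - 4 / 5))) * (1041 / 1000 * (306 / 100000)))) :=
        mul_le_mul h3 (by gcongr; exact h2.trans (by gcongr)) (by positivity) (by positivity)
    _ = 4 / 5 * (1041 / 1000 * (306 / 100000)) * Real.exp ((‖emb x‖ - 1) * (1 / 3) +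
        -(2 * c0 * (4 / 5 * ‖emb x‖ - 4 / 5))) := by
        rw [Real.exp_add]
        ring
    _ ≤ _ := mul_le_mul (by norm_num) (Real.exp_le_exp.2 (by
        nlinarith [mul_le_mul_of_nonneg_right csn_c0.1 (sub_nonneg.2 hx)])) (Real.exp_pos _).le
        (by norm_num)

/-- Weights (in units of `1/1000`) for the primary elements. -/
def csn_w1 (n : ℤ) : ℕ :=
  if n < 4 then 0 else if n < 7 then 1000 else if n < 13 then 325 else if n < 16 then 60 else
    if n < 25 then 30 else 0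

/-- Weights (in units of `1/1000`) for all elements. -/
def csn_w2 (n : ℤ) : ℕ := if n < 1 then 0 else if n < 3 then 1000 else if n < 7 then 20 else 0

theorem csn_prim_exp (z : ℤ × ℤ) (h4 : 4 ≤ nz ⟨1 + 3 * z.1, 3 * z.2⟩) :
    1000 * Real.exp (-(176 / 100 * (‖emb ⟨1 + 3 * z.1, 3 * z.2⟩‖ - 2))) ≤
      (if z ∈ csn_T then (csn_w1 (nz ⟨1 + 3 * z.1, 3 * z.2⟩) : ℝ) else 0) +
        70 * ((1 / 2) ^ z.1.natAbs * (1 / 2) ^ z.2.natAbs) := by
  by_cases h25 : nz ⟨1 + 3 * z.1, 3 * z.2⟩ < 25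
  · have hz : z ∈ csn_T := by
      simp only [nz] at h25
      simp only [csn_T, Finset.mem_product, Finset.mem_Icc]
      refine ⟨⟨?_, ?_⟩, ?_, ?_⟩ <;> by_contra hc <;>
        nlinarith [sq_nonneg (2 * (1 + 3 * z.1) - 3 * z.2), sq_nonneg (1 + 3 * z.1 - 6 * z.2),
          not_le.1 hc]
    refine le_add_of_le_of_nonneg ?_ (by positivity)
    rw [if_pos hz, csn_w1, if_neg (not_lt.2 h4)]
    split_ifs with h7 h13 h16
    · have := csn_ge h4 (t := 2) (by norm_num)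
      have := Real.exp_le_one_iff.2
        (show -(176 / 100 * (‖emb ⟨1 + 3 * z.1, 3 * z.2⟩‖ - 2)) ≤ 0 by linarith)
      push_cast
      linarith
    · have := csn_ge (not_lt.1 h7) (t := 2645 / 1000) (by norm_num)
      have := csn_exp (t := -(176 / 100 * (‖emb ⟨1 + 3 * z.1, 3 * z.2⟩‖ - 2))) (t₀ := 1135 / 1000)
        (c := 325 / 1000) (by norm_num) (by linarith)
        (by norm_num [Finset.sum_range_succ, Nat.factorial])
      push_cast
      linarith
    · have := csn_ge (not_lt.1 h13) (t := 3605 / 1000) (by norm_num)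
      have := csn_exp (t := -(176 / 100 * (‖emb ⟨1 + 3 * z.1, 3 * z.2⟩‖ - 2))) (t₀ := 282 / 100)
        (c := 60 / 1000) (by norm_num) (by linarith)
        (by norm_num [Finset.sum_range_succ, Nat.factorial])
      push_cast
      linarith
    · have := csn_ge (not_lt.1 h16) (t := 4) (by norm_num)
      have := csn_exp (t := -(176 / 100 * (‖emb ⟨1 + 3 * z.1, 3 * z.2⟩‖ - 2))) (t₀ := 352 / 100)
        (c := 30 / 1000) (by norm_num) (by linarith)
        (by norm_num [Finset.sum_range_succ, Nat.factorial])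
      push_cast
      linarith
  · refine le_add_of_nonneg_of_le (by split_ifs <;> positivity) ?_
    have h1 := csn_ge (not_lt.1 h25) (t := 5) (by norm_num)
    have h2 := csn_l1 ⟨1 + 3 * z.1, 3 * z.2⟩
    have h3 : 3 * |(z.1 : ℝ)| ≤ |1 + 3 * (z.1 : ℝ)| + 1 := by
      rcases abs_cases (z.1 : ℝ) with h | h <;>
        linarith [le_abs_self (1 + 3 * (z.1 : ℝ)), neg_abs_le (1 + 3 * (z.1 : ℝ))]
    push_cast at h2
    rw [abs_mul, Nat.abs_ofNat] at h2
    have h5 : Real.exp (-(27 / 10)) ≤ 70 / 1000 := csn_exp (t₀ := 27 / 10) (by norm_num) le_rfl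
      (by norm_num [Finset.sum_range_succ, Nat.factorial])
    have h6 := mul_le_mul h5 (csn_half z) (Real.exp_pos _).le (by norm_num)
    rw [← Real.exp_add] at h6
    have h7 := Real.exp_le_exp.2 (show -(176 / 100 * (‖emb ⟨1 + 3 * z.1, 3 * z.2⟩‖ - 2)) ≤
      -(27 / 10) + -(7 / 10 * (|(z.1 : ℝ)| + |(z.2 : ℝ)|)) by linarith)
    linarith

theorem csn_nine_exp (z : ℤ × ℤ) (h1 : 1 ≤ nz ⟨z.1, z.2⟩) :
    1000 * Real.exp (-(546 / 100 * (‖emb ⟨z.1, z.2⟩‖ - 1))) ≤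
      (if z ∈ csn_T then (csn_w2 (nz ⟨z.1, z.2⟩) : ℝ) else 0) +
        10 * ((1 / 2) ^ z.1.natAbs * (1 / 2) ^ z.2.natAbs) := by
  by_cases h7 : nz ⟨z.1, z.2⟩ < 7
  · have hz : z ∈ csn_T := by
      simp only [nz] at h7
      simp only [csn_T, Finset.mem_product, Finset.mem_Icc]
      refine ⟨⟨?_, ?_⟩, ?_, ?_⟩ <;> by_contra hc <;>
        nlinarith [sq_nonneg (2 * z.1 - z.2), sq_nonneg (z.1 - 2 * z.2), not_le.1 hc]
    refine le_add_of_le_of_nonneg ?_ (by positivity)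
    rw [if_pos hz, csn_w2, if_neg (not_lt.2 h1)]
    split_ifs with h3
    · have := csn_ge h1 (t := 1) (by norm_num)
      have := Real.exp_le_one_iff.2 (show -(546 / 100 * (‖emb ⟨z.1, z.2⟩‖ - 1)) ≤ 0 by linarith)
      push_cast
      linarith
    · have := csn_ge (not_lt.1 h3) (t := 1732 / 1000) (by norm_num)
      have := csn_exp (t := -(546 / 100 * (‖emb ⟨z.1, z.2⟩‖ - 1))) (t₀ := 399 / 100)
        (c := 20 / 1000) (by norm_num) (by linarith)
        (by norm_num [Finset.sum_range_succ, Nat.factorial])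
      push_cast
      linarith
  · refine le_add_of_nonneg_of_le (by split_ifs <;> positivity) ?_
    have h2 := csn_ge (not_lt.1 h7) (t := 264 / 100) (by norm_num)
    have h3 := csn_l1 ⟨z.1, z.2⟩
    have h5 : Real.exp (-5) ≤ 10 / 1000 := csn_exp (t₀ := 5) (by norm_num) le_rfl
      (by norm_num [Finset.sum_range_succ, Nat.factorial])
    have h6 := mul_le_mul h5 (csn_half z) (Real.exp_pos _).le (by norm_num)
    rw [← Real.exp_add] at h6
    have h7 := Real.exp_le_exp.2 (show -(546 / 100 * (‖emb ⟨z.1, z.2⟩‖ - 1)) ≤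
      -5 + -(7 / 10 * (|(z.1 : ℝ)| + |(z.2 : ℝ)|)) by linarith)
    linarith

theorem csn_nonneg {δ : ℝ} (hδ : 0 < δ) {x : O} (hx : x ≠ 0) :
    0 ≤ Nr x ^ (1 / 6 : ℝ) * (4 / 5 * K1 (δ * ‖emb x‖)) :=
  mul_nonneg (Real.rpow_nonneg (Nr_nonneg x) _) (mul_nonneg (by norm_num)
    (K1_pos (mul_pos hδ (by linarith [kb_one_le hx]))).le)

theorem csn_prim_nonneg (N : O) : 0 ≤ if Prim N ∧ N ≠ 1 then
    Nr N ^ (1 / 6 : ℝ) * (4 / 5 * K1 (4 / 15 * ‖emb N‖)) else 0 := by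
  split_ifs with h
  · exact csn_nonneg (by norm_num) h.1.ne_zero
  · exact le_rfl

theorem csn_nine_nonneg (y : O) : 0 ≤ if y = 0 then 0 else
    Nr y ^ (1 / 6 : ℝ) * (4 / 5 * K1 (4 / 5 * ‖emb y‖)) := by
  split_ifs with h
  · exact le_rfl
  · exact csn_nonneg (by norm_num) h

open Classical in
/-- True value `0.0455…` (norms `4, 7, 7, 13, 13, 16, 19, 19, …`). -/
theorem tail_prim : Summable (fun N : O => if Prim N ∧ N ≠ 1 then
      Nr N ^ (1 / 6 : ℝ) * (4 / 5 * K1 (4 / 15 * ‖emb N‖)) else 0) ∧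
    (∑' N : O, if Prim N ∧ N ≠ 1 then Nr N ^ (1 / 6 : ℝ) * (4 / 5 * K1 (4 / 15 * ‖emb N‖)) else 0) ≤
      7 / 100 := by
  classical
  have h := csn_lat (φ := fun z => ⟨1 + 3 * z.1, 3 * z.2⟩) (fun z z' h => ?_) (fun x hx => ?_)
    csn_prim_nonneg (fun z => csn_w1 (nz ⟨1 + 3 * z.1, 3 * z.2⟩)) (D := 274 / 10000000) (C := 70)
    fun z => ?_
  · rw [show ∑ z ∈ csn_T, csn_w1 (nz ⟨1 + 3 * z.1, 3 * z.2⟩) = 1860 by decide +kernel] at h
    exact ⟨h.1, h.2.trans (by norm_num)⟩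
  · have h1 := congrArg QuadraticAlgebra.re h
    have h2 := congrArg QuadraticAlgebra.im h
    simp only at h1 h2
    exact Prod.ext (by omega) (by omega)
  · refine if_neg fun h => hx ?_
    obtain ⟨c, hc⟩ := h.1
    refine ⟨(c.re, c.im), ?_⟩
    rw [eq_add_of_sub_eq hc]
    ext <;> simp [QuadraticAlgebra.re_one, QuadraticAlgebra.im_one, QuadraticAlgebra.re_ofNat,
      QuadraticAlgebra.im_ofNat, add_comm]
  · split_ifs with h h'
    all_goals try positivity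
    all_goals
      have h4 : 4 ≤ nz ⟨1 + 3 * z.1, 3 * z.2⟩ := by
        by_contra hc
        refine h.2 ?_
        simp only [nz, not_le] at hc
        have a1 : z.2 = 0 := by
          by_contra a2
          nlinarith [sq_nonneg (2 * (1 + 3 * z.1) - 3 * z.2), Int.one_le_abs a2, sq_abs z.2]
        rw [a1] at hc ⊢
        have a2 : z.1 = 0 := by
          have a3 : z.1 < 1 := by nlinarith
          have a4 : -1 < z.1 := by nlinarith
          omega
        rw [a2]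
        rfl
      have h5 := csn_prim_term (csn_ge h4 (by norm_num))
      have h6 := csn_prim_exp z h4
      simp only [h', if_true, if_false] at h6
      linarith

/-- True value `0.0155…` (the six units give `0.0153`). -/
theorem tail_nine : Summable (fun y : O => if y = 0 then 0 else
      Nr y ^ (1 / 6 : ℝ) * (4 / 5 * K1 (4 / 5 * ‖emb y‖))) ∧
    (∑' y : O, if y = 0 then 0 else Nr y ^ (1 / 6 : ℝ) * (4 / 5 * K1 (4 / 5 * ‖emb y‖))) ≤
      1 / 50 := by
  have h := csn_lat (φ := fun z => ⟨z.1, z.2⟩) (fun z z' h => ?_)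
    (fun x hx => absurd ⟨(x.re, x.im), rfl⟩ hx)
    csn_nine_nonneg (fun z => csn_w2 (nz ⟨z.1, z.2⟩)) (D := 255 / 100000000) (C := 10)
    fun z => ?_
  · rw [show ∑ z ∈ csn_T, csn_w2 (nz ⟨z.1, z.2⟩) = 6240 by decide +kernel] at h
    exact ⟨h.1, h.2.trans (by norm_num)⟩
  · exact Prod.ext (congrArg QuadraticAlgebra.re h) (congrArg QuadraticAlgebra.im h)
  · split_ifs with h h' h'
    all_goals try positivity
    all_goals
      have h4 : 1 ≤ nz ⟨z.1, z.2⟩ :=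
        lt_of_le_of_ne (nz_nonneg _) fun h1 => h (nz_eq_zero.1 h1.symm)
      have h5 := csn_nine_term (kb_one_le h)
      have h6 := csn_nine_exp z h4
      simp only [h', if_true, if_false] at h6
      linarith

theorem csn_not_dvd {k : ℤ} (hk : ¬ (9 : ℤ) ∣ k) : ¬ (9 : O) ∣ (k : O) := by
  rintro ⟨c, hc⟩
  have h1 := congrArg QuadraticAlgebra.re hc
  simp [QuadraticAlgebra.re_ofNat, QuadraticAlgebra.im_ofNat] at h1
  exact hk ⟨_, h1⟩

theorem csn_extend_nonneg {g : O → O} {a : O → ℝ} (ha : ∀ x, 0 ≤ a x) (h : O) :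
    0 ≤ Function.extend g a 0 h := by
  classical
  rw [Function.extend_def]
  split_ifs
  · exact ha _
  · exact le_rfl

/-- `(8/9)((5/4)^{2/3} - (4/5)^{2/3}) ≥ 0.265`, while the real part of the sum is at most
`-(16/9)(3/50) + (16/9)(7/100) + (11/2) 81^{1/6} / 50 ≤ 0.247`. -/
theorem numeric {f : O → ℂ} (h3 : f 3 = -(8 / 9)) (hneg : ∀ h, f (-h) = f h)
    (hN : ∀ N, Prim N → ‖f (3 * N)‖ ≤ 8 / 9 * Nr N ^ (1 / 6 : ℝ))
    (h9 : ∀ h, h ≠ 0 → ‖f h‖ ≤ 11 / 2 * Nr h ^ (1 / 6 : ℝ))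
    (h0 : ∀ h, ¬ (9 : O) ∣ h - 3 → ¬ (9 : O) ∣ h + 3 → ¬ (9 : O) ∣ h → f h = 0) :
    ((8 / 9 * ((5 / 4 : ℝ) ^ (2 / 3 : ℝ) - (5 / 4 : ℝ)⁻¹ ^ (2 / 3 : ℝ)) : ℝ) : ℂ) ≠
      ∑' h : O, if h = 0 then 0 else f h * (dK h : ℂ) := by
  classical
  intro heq
  have hL : (264 / 1000 : ℝ) ≤ 8 / 9 * ((5 / 4 : ℝ) ^ (2 / 3 : ℝ) - (5 / 4 : ℝ)⁻¹ ^ (2 / 3 : ℝ)) := by
    have e : ∀ x : ℝ, 0 ≤ x → x ^ (2 / 3 : ℝ) = (x ^ 2) ^ ((3 : ℕ) : ℝ)⁻¹ := fun x hx => by
      rw [← Real.rpow_natCast, ← Real.rpow_mul hx]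
      norm_num
    have a1 : (116 / 100 : ℝ) ≤ (5 / 4 : ℝ) ^ (2 / 3 : ℝ) := by
      rw [e _ (by norm_num), Real.le_rpow_inv_iff_of_pos (by norm_num) (by norm_num) (by norm_num),
        Real.rpow_natCast]
      norm_num
    have a2 : (5 / 4 : ℝ)⁻¹ ^ (2 / 3 : ℝ) ≤ 862 / 1000 := by
      rw [e _ (by norm_num), Real.rpow_inv_le_iff_of_pos (by norm_num) (by norm_num) (by norm_num),
        Real.rpow_natCast]
      norm_num
    linarith
  have hs : Summable fun h : O => if h = 0 then 0 else f h * (dK h : ℂ) := by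
    by_contra hc
    rw [tsum_eq_zero_of_not_summable hc, Complex.ofReal_eq_zero] at heq
    linarith
  have hre := Complex.hasSum_re hs.hasSum
  rw [← heq, Complex.ofReal_re] at hre
  have i3 : Function.Injective fun x : O => 3 * x :=
    mul_right_injective₀ (Nr_eq_zero.not.1 (by rw [csn_Nr]; norm_num))
  have i9 : Function.Injective fun x : O => 9 * x :=
    mul_right_injective₀ (Nr_eq_zero.not.1 (by rw [csn_Nr]; norm_num))
  obtain ⟨V, hV⟩ : ∃ V : O → ℝ, V = fun h => (if h = 3 then -(8 / 9 * (3 / 50)) else 0) +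
      8 / 9 * Function.extend (fun x : O => 3 * x) (fun N : O => if Prim N ∧ N ≠ 1 then
        Nr N ^ (1 / 6 : ℝ) * (4 / 5 * K1 (4 / 15 * ‖emb N‖)) else 0) 0 h := ⟨_, rfl⟩
  obtain ⟨W, hW⟩ : ∃ W : O → ℝ, W = fun h => 11 / 2 * (209 / 100) *
      Function.extend (fun x : O => 9 * x) (fun y : O => if y = 0 then 0 else
        Nr y ^ (1 / 6 : ℝ) * (4 / 5 * K1 (4 / 5 * ‖emb y‖))) 0 h := ⟨_, rfl⟩
  have sV := (hasSum_ite_eq (3 : O) (-(8 / 9 * (3 / 50)) : ℝ)).add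
    (((hasSum_extend_zero i3).2 tail_prim.1.hasSum).mul_left (8 / 9))
  have sW := ((hasSum_extend_zero i9).2 tail_nine.1.hasSum).mul_left (11 / 2 * (209 / 100))
  rw [← hV] at sV
  rw [← hW] at sW
  have W0 : ∀ h, 0 ≤ W h := fun h => by
    rw [hW]
    exact mul_nonneg (by norm_num) (csn_extend_nonneg csn_nine_nonneg h)
  have V0 : ∀ h, ¬ (9 : O) ∣ h - 3 → 0 ≤ V h := fun h hh => by
    rw [hV]
    refine add_nonneg (if_neg ?_).ge (mul_nonneg (by norm_num) (csn_extend_nonneg csn_prim_nonneg h))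
    rintro rfl
    exact hh (by simp)
  have hre' : ∀ (z : ℂ) (d c e : ℝ), ‖z‖ ≤ c → 0 ≤ d → d ≤ e → (z * (d : ℂ)).re ≤ c * e :=
    fun z d c e h1 h2 h3 => by
      rw [Complex.re_mul_ofReal]
      exact (mul_le_mul_of_nonneg_right ((Complex.re_le_norm z).trans h1) h2).trans
        (mul_le_mul_of_nonneg_left h3 ((norm_nonneg z).trans h1))
  have V1 : ∀ h, (9 : O) ∣ h - 3 → (f h * (dK h : ℂ)).re ≤ V h := by
    rintro h ⟨c, hc⟩
    obtain ⟨N, hP, rfl⟩ : ∃ N, Prim N ∧ h = 3 * N :=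
      ⟨1 + 3 * c, ⟨c, by ring⟩, by linear_combination hc⟩
    rw [hV]
    simp only [i3.extend_apply]
    by_cases h1 : N = 1
    · subst h1
      rw [mul_one, if_pos rfl, if_neg (fun h => h.2 rfl), h3, Complex.re_mul_ofReal]
      norm_num
      linarith [dK_three]
    · have h2 : 3 * N ≠ 3 := fun h => h1 (i3 (by simpa using h))
      have h4 := one_le_Nr hP.ne_zero
      have h5 : 9 ≤ Nr (3 * N) := by
        rw [Nr_mul, csn_Nr]
        linarith
      have h6 := dK_le (h := 3 * N) (Nr_eq_zero.not.1 (by linarith))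
      rw [csn_norm_mul, show 4 / 5 * (3 * ‖emb N‖) / 9 = 4 / 15 * ‖emb N‖ by ring] at h6
      rw [if_neg h2, if_pos ⟨hP, h1⟩, zero_add, ← mul_assoc]
      exact hre' _ _ _ _ (hN N hP) (dK_nonneg h5) h6
  have key : ∀ h : O, (if h = 0 then 0 else f h * (dK h : ℂ)).re ≤ V h + V (-h) + W h := by
    intro h
    have n1 : (9 : O) ∣ h - 3 → ¬ (9 : O) ∣ -h - 3 := fun a b =>
      csn_not_dvd (k := -6) (by norm_num) (by convert dvd_add a b using 1; push_cast; ring)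
    have n2 : (9 : O) ∣ h → ¬ (9 : O) ∣ h - 3 := fun a b =>
      csn_not_dvd (k := 3) (by norm_num) (by convert dvd_sub a b using 1; push_cast; ring)
    have n3 : (9 : O) ∣ h → ¬ (9 : O) ∣ -h - 3 := fun a b =>
      csn_not_dvd (k := -3) (by norm_num) (by convert dvd_add a b using 1; push_cast; ring)
    split_ifs with hh
    · have a : (9 : O) ∣ h := hh ▸ dvd_zero _
      simpa using add_nonneg (add_nonneg (V0 _ (n2 a)) (V0 _ (n3 a))) (W0 h)
    by_cases c1 : (9 : O) ∣ h - 3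
    · linarith [V1 h c1, V0 _ (n1 c1), W0 h]
    by_cases c2 : (9 : O) ∣ -h - 3
    · have a := V1 _ c2
      have b : dK (-h) = dK h := by simp only [dK, map_neg, norm_neg]
      rw [hneg, b] at a
      linarith [V0 _ c1, W0 h]
    by_cases c3 : (9 : O) ∣ h
    · obtain ⟨y, rfl⟩ := c3
      have hy : y ≠ 0 := fun a => hh (by rw [a, mul_zero])
      have h4 := one_le_Nr hy
      have h5 : Nr (9 * y) = 81 * Nr y := by
        rw [Nr_mul, csn_Nr]
        norm_num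
      have h6 := dK_le hh
      rw [csn_norm_mul, show 4 / 5 * (9 * ‖emb y‖) / 9 = 4 / 5 * ‖emb y‖ by ring] at h6
      have h7 : (81 : ℝ) ^ (1 / 6 : ℝ) ≤ 209 / 100 := by
        rw [show (1 / 6 : ℝ) = ((6 : ℕ) : ℝ)⁻¹ by norm_num, Real.rpow_inv_le_iff_of_pos
          (by norm_num) (by norm_num) (by norm_num), Real.rpow_natCast]
        norm_num
      have h8 : ‖f (9 * y)‖ ≤ 11 / 2 * (209 / 100) * Nr y ^ (1 / 6 : ℝ) := by
        refine (h9 _ hh).trans ?_
        rw [h5, Real.mul_rpow (by norm_num) (Nr_nonneg y), mul_assoc]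
        gcongr
      have h10 : (f (9 * y) * (dK (9 * y) : ℂ)).re ≤ W (9 * y) := by
        rw [hW]
        simp only [i9.extend_apply]
        rw [if_neg hy, ← mul_assoc]
        exact hre' _ _ _ _ h8 (dK_nonneg (by linarith)) h6
      linarith [V0 _ c1, V0 _ c2]
    · rw [h0 h c1 (fun a => c2 (by convert dvd_neg.2 a using 1; ring)) c3, zero_mul,
        Complex.zero_re]
      linarith [V0 _ c1, V0 _ c2, W0 h]
  have fin := hasSum_le key hre ((sV.add ((Equiv.neg O).hasSum_iff.2 sV)).add sW)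
  linarith [tail_prim.2, tail_nine.2]

end Crest.Agent.R012

end
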