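import Crest.Agent.R012.CsE
import Crest.Agent.R012.CsN

/-! # Row 12: Patterson's constant -/

set_option autoImplicit false

noncomputable section

open scoped BigOperators ComplexConjugate Topology
open Complex MeasureTheory Filter Set Crest.Agent.R017 Crest.Agent.R017.Theta

namespace Crest.Agent.R012

theorem Cs_not_neg {N : ℝ} (hN : 0 < N) (hb : (((9 : ℝ) ^ (7 / 3 : ℝ) : ℝ) : ℂ) * b0 = (N : ℂ))
    (h : T0 = -(N : ℂ)) : False := by
  have hN' : (N : ℂ) ≠ 0 := by exact_mod_cast hN.ne'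
  have hT : ‖T0‖ = N := by rw [h, norm_neg, Complex.norm_real, Real.norm_of_nonneg hN.le]
  have hnN : ‖(N : ℂ)‖ = N := by rw [Complex.norm_real, Real.norm_of_nonneg hN.le]
  refine numeric (f := fun h => Tc Bz h / (N : ℂ)) ?_ ?_ ?_ ?_ ?_ ?_
  · simp only [Tc_Bz_three, h]
    field_simp
  · intro x
    simp only [Tc_Bz_neg]
  · intro M hM
    have h1 := norm_tg_le hM
    have h2 : ‖(8 / 9 : ℂ)‖ = 8 / 9 := by
      rw [norm_div]; simp
    simp only [Tc_three_mul per_Bz (fun n hn => op_Bz hn) hM, Tc_Bz_three, norm_div, norm_mul, hT,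
      hnN]
    rw [div_le_iff₀ hN]
    have h3 : ‖(8 : ℂ)‖ / ‖(9 : ℂ)‖ = 8 / 9 := by simp
    rw [h3]
    have := mul_le_mul_of_nonneg_right h1 (show 0 ≤ 8 / 9 * N by positivity)
    linarith
  · intro x hx
    have h1 := norm_Tc_Bz_le hx
    rw [hT] at h1
    simp only [norm_div, hnN]
    rw [div_le_iff₀ hN]
    exact h1
  · intro x h₁ h₂ h₃
    simp only [Tc_Bz_of_not h₁ h₂ h₃, zero_div]
  · have h1 := Bz_identity (v := 5 / 4) (by norm_num)
    rw [hb] at h1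
    have h2 : (∑' x : O, if x = 0 then 0 else Tc Bz x / (N : ℂ) * (dK x : ℂ)) =
        (∑' x : O, if x = 0 then 0 else Tc Bz x *
          (((5 / 4 : ℝ)⁻¹ * K1 ((5 / 4 : ℝ)⁻¹ * ‖emb x‖ / 9) -
            5 / 4 * K1 (5 / 4 * ‖emb x‖ / 9) : ℝ) : ℂ)) / (N : ℂ) := by
      rw [← tsum_div_const]
      refine tsum_congr fun x => ?_
      have e : (5 / 4 : ℝ)⁻¹ = 4 / 5 := by norm_num
      split_ifs
      · simp
      · rw [e, dK]
        ring
    rw [h2, ← h1]
    push_cast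
    field_simp

/-- `T0` is real of modulus `9^{7/3} b0`; the negative sign contradicts `numeric`
(`f = Tc Bz / ‖T0‖`, `Bz_identity` at `v = 5/4`). -/
theorem T0_val : T0 = (((9 : ℝ) ^ (7 / 3 : ℝ) : ℝ) : ℂ) * b0 := by
  obtain ⟨z, hz, hb⟩ := b0_pos
  have hN : 0 < (9 : ℝ) ^ (7 / 3 : ℝ) * z := by positivity
  have hb' : (((9 : ℝ) ^ (7 / 3 : ℝ) : ℝ) : ℂ) * b0 = (((9 : ℝ) ^ (7 / 3 : ℝ) * z : ℝ) : ℂ) := by
    rw [hb, Complex.ofReal_mul]
  have hre : T0 = (T0.re : ℂ) := (Complex.conj_eq_iff_re.1 conj_T0).symm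
  have hn := norm_T0
  rw [hb, Complex.norm_real, Real.norm_of_nonneg hz.le, hre, Complex.norm_real,
    Real.norm_eq_abs] at hn
  rcases (abs_eq hN.le).1 hn with h | h
  · rw [hb', hre, h]
  · exact (Cs_not_neg hN hb' (by rw [hre, h, Complex.ofReal_neg])).elim

theorem mT_val : mT = T0 * ((c0 / 9 * cst : ℝ) : ℂ) := mT_eq T0_val

end Crest.Agent.R012

end
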