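import Crest.Agent.R012.TDefs

/-! # Row 12: comparison of test functions -/

set_option autoImplicit false

noncomputable section

open scoped BigOperators ComplexConjugate Topology
open Complex MeasureTheory Filter Set Crest.Agent.R017 Crest.Agent.R017.Theta

namespace Crest.Agent.R012

theorem csa_mild {F : ℝ → ℂ} (hc : ContinuousOn F (Ioi 0)) {K₁ K₂ : ℝ}
    (h₁ : ∀ y, 0 < y → y ≤ 1 → ‖F y‖ ≤ K₁ * y⁻¹) (h₂ : ∀ y, 1 ≤ y → ‖F y‖ ≤ K₂ * (y ^ 4)⁻¹) :
    Mild F := by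
  refine ⟨hc, 8 * (|K₁| + |K₂|), fun y hy => ?_⟩
  have a1 := abs_nonneg K₁
  have a2 := abs_nonneg K₂
  rw [← div_eq_mul_inv _ ((1 + y) ^ 3), le_div_iff₀ (by positivity)]
  rcases le_total y 1 with h | h
  · calc ‖F y‖ * (1 + y) ^ 3 ≤ ((|K₁| + |K₂|) * y⁻¹) * (1 + 1) ^ 3 := by
          gcongr
          refine (h₁ y hy h).trans ?_
          gcongr
          linarith [le_abs_self K₁]
      _ = _ := by ring
  · calc ‖F y‖ * (1 + y) ^ 3 ≤ ((|K₁| + |K₂|) * (y ^ 4)⁻¹) * (y + y) ^ 3 := by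
          gcongr
          refine (h₂ y h).trans ?_
          gcongr
          linarith [le_abs_self K₂]
      _ = _ := by field_simp; ring

theorem csa_pow {F : ℝ → ℂ} (hF : Mild F) :
    ∃ K : ℝ, 0 ≤ K ∧ ∀ y, 0 < y → ‖F y‖ ≤ K * y ^ (-3 : ℝ) := by
  obtain ⟨C, h⟩ := hF.bd
  refine ⟨|C|, abs_nonneg _, fun y hy => (h y hy).trans ?_⟩
  rw [Real.rpow_neg hy.le, show (3 : ℝ) = (3 : ℕ) by norm_num, Real.rpow_natCast, mul_assoc,
    ← mul_inv]
  refine mul_le_mul (le_abs_self _) (inv_anti₀ (by positivity) ?_) (by positivity) (abs_nonneg _)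
  nlinarith [pow_pos hy 2, pow_pos hy 3, pow_pos hy 4]

theorem csa_int {F : ℝ → ℂ} (hF : Mild F) {s : ℝ} (h0 : 0 < s) (h3 : s < 3) :
    IntegrableOn (fun y : ℝ => F y * ((y ^ s : ℝ) : ℂ)) (Ioi 0) := by
  obtain ⟨C, h⟩ := hF.bd
  have hm : AEStronglyMeasurable (fun y : ℝ => F y * ((y ^ s : ℝ) : ℂ))
      (volume.restrict (Ioi 0)) := by
    refine ContinuousOn.aestronglyMeasurable (hF.cont.mul ?_) measurableSet_Ioi
    exact Complex.continuous_ofReal.comp_continuousOn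
      (continuousOn_id.rpow_const fun y hy => Or.inl (ne_of_gt hy))
  have hb : ∀ y : ℝ, 0 < y →
      ‖F y * ((y ^ s : ℝ) : ℂ)‖ ≤ |C| * y ^ (s - 1) * ((1 + y) ^ 3)⁻¹ := fun y hy => by
    rw [norm_mul, Complex.norm_real, Real.norm_of_nonneg (by positivity), Real.rpow_sub_one hy.ne']
    calc ‖F y‖ * y ^ s ≤ (|C| * y⁻¹ * ((1 + y) ^ 3)⁻¹) * y ^ s := by
          gcongr
          refine (h y hy).trans ?_
          gcongr
          exact le_abs_self _
      _ = _ := by ring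
  rw [← Ioc_union_Ioi_eq_Ioi zero_le_one]
  refine IntegrableOn.union ?_ ?_
  · have hi : IntegrableOn (fun y : ℝ => y ^ (s - 1)) (Ioc 0 1) :=
      (intervalIntegral.intervalIntegrable_rpow' (a := 0) (b := 1) (by linarith)).1
    refine Integrable.mono' (hi.const_mul |C|)
      (hm.mono_measure (Measure.restrict_mono Ioc_subset_Ioi_self le_rfl))
      ((ae_restrict_iff' measurableSet_Ioc).2 (Eventually.of_forall fun y hy => ?_))
    have hy0 := hy.1
    exact (hb y hy0).trans (mul_le_of_le_one_right (by positivity)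
      (inv_le_one_of_one_le₀ (one_le_pow₀ (by linarith))))
  · have hi := integrableOn_Ioi_rpow_of_lt (a := s - 1 - 3) (by linarith) one_pos
    refine Integrable.mono' (hi.const_mul |C|)
      (hm.mono_measure (Measure.restrict_mono (Ioi_subset_Ioi zero_le_one) le_rfl))
      ((ae_restrict_iff' measurableSet_Ioi).2 (Eventually.of_forall fun y hy => ?_))
    have hy0 : 0 < y := one_pos.trans hy
    refine (hb y hy0).trans ?_
    rw [Real.rpow_sub hy0 (s - 1), show (3 : ℝ) = (3 : ℕ) by norm_num, Real.rpow_natCast, mul_assoc,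
      div_eq_mul_inv]
    gcongr
    linarith

theorem csa_term {F : ℝ → ℂ} (hF : Mild F) {a : O → ℂ} (ha : PG a) : ∃ K : ℝ, 0 ≤ K ∧
    ∀ t : ℝ, 0 < t → ∀ c : O, ‖if c = 0 then 0 else a c * F (t * Nr c)‖ ≤
      K * t ^ (-3 : ℝ) * Nr c ^ (-2 : ℝ) := by
  obtain ⟨K, hK0, hK⟩ := csa_pow hF
  obtain ⟨C, hC⟩ := ha
  refine ⟨|C| * K, by positivity, fun t ht c => ?_⟩
  have hN := Nr_nonneg c
  split_ifs with h0
  · rw [norm_zero]; positivity
  · have hN' := Nr_pos h0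
    rw [norm_mul]
    have h1 := hK (t * Nr c) (by positivity)
    rw [Real.mul_rpow ht.le hN] at h1
    have h2 : ‖a c‖ ≤ |C| * Nr c := (hC c).trans (by gcongr; exact le_abs_self _)
    have h3 : Nr c ^ (-2 : ℝ) = Nr c * Nr c ^ (-3 : ℝ) := by
      rw [show (-2 : ℝ) = 1 + -3 by norm_num, Real.rpow_add hN', Real.rpow_one]
    calc ‖a c‖ * ‖F (t * Nr c)‖ ≤ (|C| * Nr c) * (K * (t ^ (-3 : ℝ) * Nr c ^ (-3 : ℝ))) :=
          mul_le_mul h2 h1 (norm_nonneg _) (by positivity)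
      _ = _ := by rw [h3]; ring

theorem Mild.of_nice {F : ℝ → ℂ} (hF : Nice F) : Mild F := by
  obtain ⟨K₁, -, h₁⟩ := r1t_pow hF (A := 1) (by norm_num)
  obtain ⟨K₂, -, h₂⟩ := r1t_pow hF (A := 4) (by norm_num)
  refine csa_mild hF.cont (K₁ := K₁) (K₂ := K₂) (fun y hy _ => ?_) fun y hy => ?_
  · simpa [Real.rpow_neg_one] using h₁ y hy
  · have hy0 : 0 < y := by linarith
    have := h₂ y hy0
    rwa [Real.rpow_neg hy0.le, show (4 : ℝ) = (4 : ℕ) by norm_num, Real.rpow_natCast] at this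

theorem Mild.summable {F : ℝ → ℂ} (hF : Mild F) {a : O → ℂ} (ha : PG a) {t : ℝ} (ht : 0 < t) :
    Summable (fun c : O => ‖if c = 0 then 0 else a c * F (t * Nr c)‖) := by
  obtain ⟨K, -, hK⟩ := csa_term hF ha
  exact Summable.of_nonneg_of_le (fun _ => norm_nonneg _) (fun c => hK t ht c)
    ((summable_Nr_rpow (σ := 2) (by norm_num)).mul_left _)

theorem Mild.continuousOn_Sm {F : ℝ → ℂ} (hF : Mild F) {a : O → ℂ} (ha : PG a) :
    ContinuousOn (Sm a F) (Ioi 0) := by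
  obtain ⟨K, hK0, hK⟩ := csa_term hF ha
  intro t ht
  have ht : 0 < t := ht
  refine ContinuousAt.continuousWithinAt ?_
  have h1 : ContinuousOn (fun t : ℝ => ∑' c : O, if c = 0 then 0 else a c * F (t * Nr c))
      (Ioi (t / 2)) := by
    refine continuousOn_tsum (u := fun c : O => K * (t / 2) ^ (-3 : ℝ) * Nr c ^ (-2 : ℝ))
      (fun c => ?_) ((summable_Nr_rpow (σ := 2) (by norm_num)).mul_left _) (fun c s hs => ?_)
    · by_cases h0 : c = 0
      · simp only [if_pos h0]; exact continuousOn_const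
      · simp only [if_neg h0]
        refine continuousOn_const.mul (hF.cont.comp (by fun_prop) fun s hs => ?_)
        have : t / 2 < s := hs
        have := Nr_pos h0
        exact mul_pos (by linarith) this
    · have hs : t / 2 < s := hs
      refine (hK s (by linarith) c).trans ?_
      have := Nr_nonneg c
      gcongr ?_ * _
      exact mul_le_mul_of_nonneg_left
        (Real.rpow_le_rpow_of_nonpos (by positivity) hs.le (by norm_num)) hK0
  have h2 : ContinuousAt pw t := by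
    unfold pw
    exact Complex.continuous_ofReal.continuousAt.comp
      (Real.continuousAt_rpow_const _ _ (Or.inl ht.ne'))
  exact h2.mul (h1.continuousAt (Ioi_mem_nhds (by linarith)))

theorem Mild.norm_Sm_le {F : ℝ → ℂ} (hF : Mild F) {a : O → ℂ} (ha : PG a) {t₀ : ℝ} (ht₀ : 0 < t₀) :
    ∃ C : ℝ, ∀ t, t₀ ≤ t → ‖Sm a F t‖ ≤ C := by
  obtain ⟨K, hK0, hK⟩ := csa_term hF ha
  have hs := summable_Nr_rpow (σ := 2) (by norm_num)
  have hS : 0 ≤ ∑' c : O, Nr c ^ (-2 : ℝ) := tsum_nonneg fun c => Real.rpow_nonneg (Nr_nonneg c) _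
  refine ⟨K * t₀ ^ (-(5 / 3) : ℝ) * ∑' c : O, Nr c ^ (-2 : ℝ), fun t ht => ?_⟩
  have ht' : 0 < t := ht₀.trans_le ht
  unfold Sm pw
  rw [norm_mul, Complex.norm_real, Real.norm_of_nonneg (by positivity)]
  have h1 := tsum_of_norm_bounded ((hs.mul_left (K * t ^ (-3 : ℝ))).hasSum) (hK t ht')
  rw [tsum_mul_left] at h1
  have h2 : t ^ (4 / 3 : ℝ) * t ^ (-3 : ℝ) ≤ t₀ ^ (-(5 / 3) : ℝ) := by
    rw [← Real.rpow_add ht', show (4 / 3 + -3 : ℝ) = -(5 / 3) by norm_num]
    exact Real.rpow_le_rpow_of_nonpos ht₀ ht (by norm_num)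
  calc _ ≤ t ^ (4 / 3 : ℝ) * (K * t ^ (-3 : ℝ) * ∑' c : O, Nr c ^ (-2 : ℝ)) := by gcongr
    _ = K * (t ^ (4 / 3 : ℝ) * t ^ (-3 : ℝ)) * ∑' c : O, Nr c ^ (-2 : ℝ) := by ring
    _ ≤ _ := by gcongr

/-- A convergent smoothed sum is bounded on `(0, ∞)`. -/
theorem Mild.bdd {F : ℝ → ℂ} (hF : Mild F) {a : O → ℂ} (ha : PG a) {L : ℂ}
    (h : Tendsto (Sm a F) (𝓝[>] 0) (𝓝 L)) : ∃ C : ℝ, ∀ t, 0 < t → ‖Sm a F t‖ ≤ C := by
  have h2 : ∀ᶠ t in 𝓝[>] (0 : ℝ), ‖Sm a F t‖ < ‖L‖ + 1 :=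
    h.norm.eventually (gt_mem_nhds (by linarith))
  obtain ⟨t₀, ht₀, h3⟩ := (mem_nhdsGT_iff_exists_Ioo_subset).1 h2
  obtain ⟨C, hC⟩ := hF.norm_Sm_le ha (t₀ := t₀) ht₀
  refine ⟨max C (‖L‖ + 1), fun t ht => ?_⟩
  by_cases h : t < t₀
  · exact (le_of_lt (h3 ⟨ht, h⟩)).trans (le_max_right _ _)
  · exact (hC t (not_lt.1 h)).trans (le_max_left _ _)

theorem csa_expand {a : O → ℂ} (ha : PG a) {F G : ℝ → ℂ} (hF : Mild F) (hG : Mild G) {t : ℝ}
    (ht : 0 < t) :
    ∫ y in Ioi (0 : ℝ), Sm a F (t / y) * (G y * ((y ^ (1 / 3 : ℝ) : ℝ) : ℂ)) =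
      pw t * ∑' c : O, if c = 0 then 0 else
        a c * ∫ y in Ioi (0 : ℝ), F (t * Nr c / y) * G y / (y : ℂ) := by
  obtain ⟨K, hK0, hK⟩ := csa_term hF ha
  set T : O → ℝ → ℂ := fun c y => (if c = 0 then 0 else a c * F (t / y * Nr c)) * (G y / (y : ℂ))
    with hT
  have hG2 := (csa_int hG (s := 2) (by norm_num) (by norm_num)).norm
  have hbd : ∀ c : O, ∀ y ∈ Ioi (0 : ℝ), ‖T c y‖ ≤
      (K * t ^ (-3 : ℝ) * Nr c ^ (-2 : ℝ)) * ‖G y * ((y ^ (2 : ℝ) : ℝ) : ℂ)‖ := by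
    intro c y hy
    have hy : 0 < y := hy
    have h1 := hK (t / y) (by positivity) c
    have hN := Nr_nonneg c
    simp only [hT]
    rw [norm_mul, norm_mul, norm_div, Complex.norm_real, Complex.norm_real,
      Real.norm_of_nonneg hy.le, Real.norm_of_nonneg (by positivity)]
    have h2 : (t / y) ^ (-3 : ℝ) = t ^ (-3 : ℝ) * (y ^ (2 : ℝ) * y) := by
      rw [Real.div_rpow ht.le hy.le, Real.rpow_neg hy.le, div_inv_eq_mul,
        show (3 : ℝ) = 2 + 1 by norm_num, Real.rpow_add hy, Real.rpow_one]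
    rw [h2] at h1
    calc _ ≤ (K * (t ^ (-3 : ℝ) * (y ^ (2 : ℝ) * y)) * Nr c ^ (-2 : ℝ)) * (‖G y‖ / y) := by gcongr
      _ = _ := by field_simp
  have hint : ∀ c : O, IntegrableOn (T c) (Ioi 0) := by
    intro c
    refine Integrable.mono' (hG2.const_mul (K * t ^ (-3 : ℝ) * Nr c ^ (-2 : ℝ))) ?_
      ((ae_restrict_iff' measurableSet_Ioi).2 (Eventually.of_forall (hbd c)))
    refine ContinuousOn.aestronglyMeasurable (ContinuousOn.mul ?_ (hG.cont.div
      Complex.continuous_ofReal.continuousOn fun y hy => by exact_mod_cast ne_of_gt hy))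
      measurableSet_Ioi
    by_cases h0 : c = 0
    · simp only [if_pos h0]; exact continuousOn_const
    · simp only [if_neg h0]
      refine continuousOn_const.mul (hF.cont.comp ((continuousOn_const.div continuousOn_id
        fun y hy => ne_of_gt hy).mul continuousOn_const) fun y hy => ?_)
      exact mul_pos (div_pos ht hy) (Nr_pos h0)
  have hsum : Summable fun c : O => ∫ y in Ioi (0 : ℝ), ‖T c y‖ := by
    refine Summable.of_nonneg_of_le (fun c => integral_nonneg fun _ => norm_nonneg _) (fun c => ?_)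
      (((summable_Nr_rpow (σ := 2) (by norm_num)).mul_left (K * t ^ (-3 : ℝ))).mul_right
        (∫ y in Ioi (0 : ℝ), ‖G y * ((y ^ (2 : ℝ) : ℝ) : ℂ)‖))
    rw [← integral_const_mul]
    exact setIntegral_mono_on (hint c).norm (hG2.const_mul _) measurableSet_Ioi (hbd c)
  have key := integral_tsum_of_summable_integral_norm hint hsum
  have e1 : (∑' c : O, if c = 0 then 0 else
      a c * ∫ y in Ioi (0 : ℝ), F (t * Nr c / y) * G y / (y : ℂ)) =
      ∑' c : O, ∫ y in Ioi (0 : ℝ), T c y := by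
    refine tsum_congr fun c => ?_
    simp only [hT]
    split_ifs
    · simp
    · rw [← integral_const_mul]
      refine setIntegral_congr_fun measurableSet_Ioi fun y _ => ?_
      rw [show t / y * Nr c = t * Nr c / y by ring]
      ring
  rw [e1, key, ← integral_const_mul]
  refine setIntegral_congr_fun measurableSet_Ioi fun y hy => ?_
  have hy : 0 < y := hy
  simp only [hT]
  rw [tsum_mul_right]
  unfold Sm pw
  have h3 : (t / y) ^ (4 / 3 : ℝ) * y ^ (1 / 3 : ℝ) = t ^ (4 / 3 : ℝ) / y := by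
    rw [Real.div_rpow ht.le hy.le, show (4 / 3 : ℝ) = 1 / 3 + 1 by norm_num, Real.rpow_add hy,
      Real.rpow_one]
    have : 0 < y ^ (1 / 3 : ℝ) := by positivity
    field_simp
  have h4 := congrArg (fun r : ℝ => (r : ℂ)) h3
  simp only [Complex.ofReal_mul, Complex.ofReal_div] at h4
  linear_combination (G y * ∑' c : O, if c = 0 then 0 else a c * F (t / y * Nr c)) * h4

theorem csa_lim {a : O → ℂ} (ha : PG a) {F G : ℝ → ℂ} (hF : Mild F) (hG : Mild G) {LF : ℂ}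
    (h₁ : Tendsto (Sm a F) (𝓝[>] 0) (𝓝 LF)) :
    Tendsto (fun t => ∫ y in Ioi (0 : ℝ), Sm a F (t / y) * (G y * ((y ^ (1 / 3 : ℝ) : ℝ) : ℂ)))
      (𝓝[>] 0) (𝓝 (LF * Me G)) := by
  obtain ⟨M, hM⟩ := hF.bdd ha h₁
  have hGi := csa_int hG (s := 1 / 3) (by norm_num) (by norm_num)
  unfold Me
  rw [← integral_const_mul]
  refine tendsto_integral_filter_of_dominated_convergence
    (fun y => M * ‖G y * ((y ^ (1 / 3 : ℝ) : ℝ) : ℂ)‖) ?_ ?_ (hGi.norm.const_mul M) ?_
  · filter_upwards [self_mem_nhdsWithin] with t ht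
    refine AEStronglyMeasurable.mul ?_ hGi.1
    refine ContinuousOn.aestronglyMeasurable ((hF.continuousOn_Sm ha).comp
      (continuousOn_const.div continuousOn_id fun y hy => ne_of_gt hy) fun y hy => ?_)
      measurableSet_Ioi
    exact div_pos (mem_Ioi.1 ht) (mem_Ioi.1 hy)
  · filter_upwards [self_mem_nhdsWithin] with t ht
    refine (ae_restrict_iff' measurableSet_Ioi).2 (Eventually.of_forall fun y hy => ?_)
    rw [norm_mul]
    exact mul_le_mul_of_nonneg_right (hM _ (div_pos ht hy)) (norm_nonneg _)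
  · refine (ae_restrict_iff' measurableSet_Ioi).2 (Eventually.of_forall fun y hy => ?_)
    refine Tendsto.mul_const _ (h₁.comp ?_)
    refine tendsto_nhdsWithin_of_tendsto_nhds_of_eventually_within _ ?_ ?_
    · have : Tendsto (fun t : ℝ => t / y) (𝓝 0) (𝓝 (0 / y)) := tendsto_id.div_const y
      rw [zero_div] at this
      exact tendsto_nhdsWithin_of_tendsto_nhds this
    · filter_upwards [self_mem_nhdsWithin] with t ht using div_pos (mem_Ioi.1 ht) (mem_Ioi.1 hy)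

/-- As `R017.Theta.conv`. -/
theorem conv' {a : O → ℂ} (ha : PG a) {F G : ℝ → ℂ} (hF : Mild F) (hG : Mild G) {LF LG : ℂ}
    (h₁ : Tendsto (Sm a F) (𝓝[>] 0) (𝓝 LF)) (h₂ : Tendsto (Sm a G) (𝓝[>] 0) (𝓝 LG)) :
    LF * Me G = LG * Me F := by
  have e1 := csa_lim ha hF hG h₁
  have e2 := csa_lim ha hG hF h₂
  refine tendsto_nhds_unique e1 (e2.congr' ?_)
  filter_upwards [self_mem_nhdsWithin] with t ht
  rw [csa_expand ha hF hG ht, csa_expand ha hG hF ht]
  congr 1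
  refine tsum_congr fun c => ?_
  split_ifs with h0
  · rfl
  · rw [r1t_symm F G (mul_pos ht (Nr_pos h0))]

theorem csa_K1 {x : ℝ} (hx : 0 < x) :
    K1 x ≤ (1 / (c0 * x)) ^ (1 / 3 : ℝ) * Real.Gamma (1 / 3) := by
  have hc0 := c0_pos
  rw [← Real.integral_rpow_mul_exp_neg_mul_Ioi (by norm_num) (by positivity), K1]
  refine setIntegral_mono_on (integrableOn_K1 hx) ?_ measurableSet_Ioi fun y hy => ?_
  · simpa using integrableOn_rpow_mul_exp_neg_mul_rpow (s := 1 / 3 - 1) (p := 1) (b := c0 * x)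
      (by norm_num) one_pos (by positivity)
  · have hy : 0 < y := hy
    rw [show (1 / 3 - 1 : ℝ) = -(2 / 3) by norm_num, Phi]
    refine mul_le_mul_of_nonneg_left (Real.exp_le_exp.2 ?_) (by positivity)
    have : 0 ≤ c0 * (x * y⁻¹) := by positivity
    nlinarith

/-- `K1 x ≤ C x^{-1/3}` and `K1_le`. -/
theorem mild_GK : Mild GK := by
  have hc0 := c0_pos
  obtain ⟨C, hC0, hC⟩ := K1_le (δ := 1) one_pos
  obtain ⟨K, hK⟩ := Phi_le_rpow (A := 7) (by norm_num)
  have hn : ∀ y : ℝ, 0 < y → ‖GK y‖ = K1 (Real.sqrt y) / Real.sqrt y := fun y hy => by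
    have h1 := Real.sqrt_pos.2 hy
    have h2 := K1_pos h1
    rw [GK, Complex.norm_real, Real.norm_of_nonneg (by positivity)]
  refine csa_mild ?_ (K₁ := (1 / c0) ^ (1 / 3 : ℝ) * Real.Gamma (1 / 3)) (K₂ := C * K)
    (fun y hy hy1 => ?_) fun y hy => ?_
  · refine Complex.continuous_ofReal.comp_continuousOn (ContinuousOn.div
      (continuousOn_K1.comp Real.continuous_sqrt.continuousOn fun y hy => Real.sqrt_pos.2 hy)
      Real.continuous_sqrt.continuousOn fun y hy => (Real.sqrt_pos.2 hy).ne')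
  · have h1 := Real.sqrt_pos.2 hy
    have h2 : Real.sqrt y ≤ 1 := Real.sqrt_le_one.2 hy1
    have h3 := csa_K1 h1
    have h4 : (1 / (c0 * Real.sqrt y)) ^ (1 / 3 : ℝ) ≤ (1 / c0) ^ (1 / 3 : ℝ) * (1 / Real.sqrt y) := by
      rw [← one_div_mul_one_div, Real.mul_rpow (by positivity) (by positivity)]
      gcongr
      simpa using Real.rpow_le_rpow_of_exponent_le (one_le_one_div h1 h2)
        (show (1 / 3 : ℝ) ≤ 1 by norm_num)
    have h5 := Real.Gamma_pos_of_pos (show (0 : ℝ) < 1 / 3 by norm_num)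
    rw [hn y hy]
    calc K1 (Real.sqrt y) / Real.sqrt y ≤
        (1 / c0) ^ (1 / 3 : ℝ) * (1 / Real.sqrt y) * Real.Gamma (1 / 3) / Real.sqrt y := by
          gcongr
          exact h3.trans (by gcongr)
      _ = (1 / c0) ^ (1 / 3 : ℝ) * Real.Gamma (1 / 3) * (Real.sqrt y * Real.sqrt y)⁻¹ := by
          field_simp
      _ = _ := by rw [Real.mul_self_sqrt hy.le]
  · have hy0 : 0 < y := by linarith
    have h1 := Real.sqrt_pos.2 hy0
    have h2 : 1 ≤ Real.sqrt y := Real.one_le_sqrt.2 hy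
    have h3 := hK _ h1
    rw [Real.rpow_neg h1.le, show (7 : ℝ) = (7 : ℕ) by norm_num, Real.rpow_natCast] at h3
    rw [hn y hy0]
    calc K1 (Real.sqrt y) / Real.sqrt y ≤ C * (K * (Real.sqrt y ^ 7)⁻¹) / Real.sqrt y := by
          gcongr
          exact (hC _ h2).trans (by gcongr)
      _ = C * K * ((Real.sqrt y * Real.sqrt y) ^ 4)⁻¹ := by field_simp
      _ = _ := by rw [Real.mul_self_sqrt hy0.le]

/-- `y = x²` and `mellin_K1` at `5/3`. -/
theorem Me_GK : Me GK = ((c0 ^ (-(5 / 3) : ℝ) * Real.Gamma (2 / 3) : ℝ) : ℂ) := by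
  have hc0 := c0_pos
  have h := mellin_K1 (w := 5 / 3) (by norm_num)
  have e : Me GK = 2 * mellin (fun x => (K1 x : ℂ)) (5 / 3) := by
    rw [Me, ← integral_comp_rpow_Ioi_of_pos (p := 2) two_pos, mellin, ← integral_const_mul]
    refine setIntegral_congr_fun measurableSet_Ioi fun x hx => ?_
    have hx : 0 < x := hx
    have hx' : (x : ℂ) ≠ 0 := by exact_mod_cast hx.ne'
    have e1 : Real.sqrt (x ^ (2 : ℝ)) = x := by
      rw [Real.rpow_two, Real.sqrt_sq hx.le]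
    have e2 : (((x ^ (2 : ℝ)) ^ (1 / 3 : ℝ) : ℝ) : ℂ) = (x : ℂ) ^ (5 / 3 - 1 : ℂ) := by
      rw [← Real.rpow_mul hx.le, ofReal_cpow hx.le]
      congr 1
      push_cast
      ring
    simp only [GK, e1, e2, Complex.real_smul, smul_eq_mul]
    rw [show (2 : ℝ) - 1 = 1 by norm_num, Real.rpow_one]
    push_cast
    field_simp
  rw [e, h, show (5 / 3 / 2 + 1 / 6 : ℂ) = 1 by norm_num, Complex.Gamma_one,
    show (5 / 3 / 2 - 1 / 6 : ℂ) = ((2 / 3 : ℝ) : ℂ) by push_cast; norm_num, Complex.Gamma_ofReal,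
    ofReal_mul, ofReal_cpow hc0.le]
  push_cast
  ring

theorem conj_F0 (y : ℝ) : conj (F0 y) = F0 y := by
  exact Complex.conj_ofReal _

theorem Me_F0_pos : ∃ z : ℝ, 0 < z ∧ Me F0 = (z : ℂ) := by
  have hpos : ∀ y : ℝ, 0 < y → 0 < ∫ v in (1 : ℝ)..2, f1 v y := by
    intro y hy
    refine intervalIntegral.intervalIntegral_pos_of_pos_on ?_ (fun v hv => ?_) (by norm_num)
    · refine Continuous.intervalIntegrable ?_ _ _
      unfold f1 Phi
      fun_prop
    · have : 0 < v := by linarith [hv.1]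
      unfold f1
      have := Phi_pos (v * (y + y⁻¹))
      positivity
  have hi := nice_F0.integrableOn (1 / 3)
  have e : (fun y : ℝ => F0 y * ((y ^ (1 / 3 : ℝ) : ℝ) : ℂ)) =
      fun y : ℝ => (((∫ v in (1 : ℝ)..2, f1 v y) * y ^ (1 / 3 : ℝ) : ℝ) : ℂ) := by
    funext y; unfold F0; push_cast; rfl
  unfold Me
  rw [e] at hi ⊢
  rw [integral_complex_ofReal]
  have hi' : IntegrableOn (fun y : ℝ => (∫ v in (1 : ℝ)..2, f1 v y) * y ^ (1 / 3 : ℝ)) (Ioi 0) := by
    unfold IntegrableOn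
    simpa using hi.re
  have h2 : 0 < ∫ y in Ioi (0 : ℝ), (∫ v in (1 : ℝ)..2, f1 v y) * y ^ (1 / 3 : ℝ) := by
    rw [setIntegral_pos_iff_support_of_nonneg_ae ?_ hi']
    · have : Ioi (0 : ℝ) ⊆ Function.support
          (fun y : ℝ => (∫ v in (1 : ℝ)..2, f1 v y) * y ^ (1 / 3 : ℝ)) ∩ Ioi 0 := fun y hy =>
        ⟨(mul_pos (hpos y hy) (Real.rpow_pos_of_pos hy _)).ne', hy⟩
      exact lt_of_lt_of_le (by simp) (measure_mono this)
    · refine (ae_restrict_iff' measurableSet_Ioi).2 (Eventually.of_forall fun y hy => ?_)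
      exact (mul_pos (hpos y hy) (Real.rpow_pos_of_pos hy _)).le
  exact ⟨_, h2, rfl⟩

end Crest.Agent.R012

end
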