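import Crest.Agent.R012.TA1

/-! # Row 12: constant terms -/

set_option autoImplicit false

noncomputable section

open scoped BigOperators ComplexConjugate Topology
open Complex MeasureTheory Filter Set Crest.Agent.R017 Crest.Agent.R017.Theta

namespace Crest.Agent.R012

theorem ta2_integral : ∫ p : ℝ × ℝ, c1t_G (3 * p.1) (3 * p.2) = b1 := by
  have hc := c0_pos
  have h3 : 0 < Real.sqrt 3 := Real.sqrt_pos.2 (by norm_num)
  have h33 : Real.sqrt 3 ^ 2 = 3 := Real.sq_sqrt (by norm_num)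
  let h : ℝ × ℝ → ℝ := fun p => Phi ((9 * (p.1 ^ 2 + p.2 ^ 2)) ^ 3)
  have hh : Continuous h := by
    unfold h Phi
    fun_prop
  have hI : Integrable h := by
    refine c1t_M_int.mono' hh.aestronglyMeasurable (.of_forall fun p => ?_)
    rw [Real.norm_eq_abs, abs_of_pos (Phi_pos _)]
    refine (c1t_cube (by positivity)).trans
      ((p1_anti (x := p.1 ^ 2 + p.2 ^ 2 - 10) ?_).trans (le_of_eq ?_))
    · nlinarith [sq_nonneg p.1, sq_nonneg p.2]
    · rw [c1t_Phi_sub, c1t_M, Phi, ← Real.exp_add (-c0 * p.1 ^ 2)]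
      congr 2
      ring
  have hG : Continuous fun p : ℝ × ℝ => c1t_G (3 * p.1) (3 * p.2) :=
    c1t_G_cont.comp (f := fun p : ℝ × ℝ => (3 * p.1, 3 * p.2)) (by fun_prop)
  have hGI : Integrable fun p : ℝ × ℝ => c1t_G (3 * p.1) (3 * p.2) :=
    c1t_M_int.mono' hG.aestronglyMeasurable (.of_forall fun p => c1t_G_le p (by simp) (by simp))
  have e1 : ∀ v : ℝ, ∫ u : ℝ, c1t_G (3 * u) (3 * v) = ∫ x : ℝ, h (x, Real.sqrt 3 / 2 * v) := by
    intro v
    rw [← integral_sub_right_eq_self (fun x : ℝ => h (x, Real.sqrt 3 / 2 * v)) (v / 2)]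
    refine integral_congr_ae (.of_forall fun u => ?_)
    simp only [c1t_G, h]
    congr 2
    linear_combination (-(9 / 4) * v ^ 2) * h33
  have e2 : ∫ p, h p = Real.pi * (729 * c0) ^ (-2 / 6 : ℝ) * Real.Gamma (2 / 6 + 1) := by
    rw [← Complex.integral_exp_neg_mul_rpow (by norm_num) (by positivity),
      ← Complex.volume_preserving_equiv_real_prod.integral_comp'  h]
    refine integral_congr_ae (.of_forall fun z => ?_)
    simp only [h, Phi, Complex.measurableEquivRealProd_apply]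
    congr 1
    rw [show (6 : ℝ) = ((2 * 3 : ℕ) : ℝ) by norm_num, Real.rpow_natCast, pow_mul, Complex.sq_norm,
      Complex.normSq_apply]
    ring
  rw [Measure.volume_eq_prod] at hI hGI e2 ⊢
  rw [integral_prod_symm _ hGI]
  simp only [e1]
  rw [Measure.integral_comp_mul_left (fun y : ℝ => ∫ x : ℝ, h (x, y)), ← integral_prod_symm _ hI, e2,
    abs_of_pos (by positivity), smul_eq_mul, b1]
  have e3 : (729 * c0) ^ (-2 / 6 : ℝ) = c0 ^ (-2 / 6 : ℝ) / 9 := by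
    rw [Real.mul_rpow (by norm_num) hc.le, show (729 : ℝ) = 9 ^ (3 : ℝ) by norm_num,
      ← Real.rpow_mul (by norm_num), show (3 : ℝ) * (-2 / 6) = -1 by norm_num, Real.rpow_neg_one]
    ring
  have e4 : c0 ^ (2 / 3 : ℝ) = c0 * c0 ^ (-2 / 6 : ℝ) := by
    rw [show (2 / 3 : ℝ) = 1 + -2 / 6 by norm_num, Real.rpow_add hc, Real.rpow_one]
  rw [e3, e4, show (2 / 6 + 1 : ℝ) = 4 / 3 by norm_num]
  generalize c0 ^ (-2 / 6 : ℝ) = x
  unfold c0
  field_simp

theorem ta2_cop {u n : O} (hu : IsUnit u) (k : ℕ) (hn : ¬ lam ∣ n) : IsCoprime n (u * lam ^ k) :=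
  (isCoprime_mul_unit_left_right hu _ _).2
    (prime_lam.coprime_iff_not_dvd.2 hn).symm.pow_right

open Classical in
theorem ta2_bd {B : O × O → ℂ} (hB : Per B) (c : O) (y : ℝ) :
    ‖if c = 0 then 0 else Ac B c 0 / (Nr c : ℂ) * (Phi (y * Nr c) : ℂ)‖ ≤ 81 * Phi (y * Nr c) := by
  have := Phi_pos (y * Nr c)
  split_ifs with hc
  · rw [norm_zero]
    positivity
  · rw [norm_mul, norm_div, Complex.norm_real, Complex.norm_real, Real.norm_of_nonneg (Nr_nonneg c),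
      Real.norm_of_nonneg (Phi_pos _).le]
    exact mul_le_mul_of_nonneg_right ((div_le_iff₀ (Nr_pos hc)).2 (norm_Ac_le hB.bd c 0)) this.le

open Classical in
theorem ta2_ah (B : O × O → ℂ) {t v : ℝ} (ht : 0 < t) (hv : 0 < v) :
    ah B 0 t v = ((v ^ (2 / 3 : ℝ) : ℝ) : ℂ) * ((((t * v) ^ (1 / 3 : ℝ) / 81 : ℝ) : ℂ) *
      ∑' c : O, if c = 0 then 0 else Ac B c 0 / (Nr c : ℂ) * (Phi (t * v * Nr c) : ℂ)) := by
  rw [ah, Sm, ← mul_assoc, ← tsum_mul_left, ← tsum_mul_left]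
  refine tsum_congr fun c => ?_
  split_ifs with hc
  · rw [mul_zero, mul_zero]
  · have hN := Nr_pos hc
    have h1 : t ^ (4 / 3 : ℝ) = t * t ^ (1 / 3 : ℝ) := by
      rw [show (4 / 3 : ℝ) = 1 + 1 / 3 by norm_num, Real.rpow_add ht, Real.rpow_one]
    have h2 : v ^ (2 / 3 : ℝ) * v ^ (1 / 3 : ℝ) = v := by
      rw [← Real.rpow_add hv]; norm_num
    have h3 : t ^ (4 / 3 : ℝ) * fk (Nr 0) v (t * Nr c) =
        v ^ (2 / 3 : ℝ) * ((t * v) ^ (1 / 3 : ℝ) / 81) * (Phi (t * v * Nr c) / Nr c) := by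
      rw [fk, Nr_zero, mul_zero, zero_div, Real.mul_rpow ht.le hv.le, h1,
        show v * (t * Nr c) = t * v * Nr c by ring, show Phi 0 = 1 by simp [Phi]]
      field_simp
      linear_combination (-(Phi (t * v * Nr c))) * h2
    have h4 := congrArg (fun x : ℝ => Ac B c 0 * (x : ℂ)) h3
    simp only [Complex.ofReal_mul, Complex.ofReal_div] at h4
    rw [pw, Complex.ofReal_div]
    linear_combination h4

theorem ta2_cont (s : ℂ) :
    ContinuousOn (fun w : ℂ × ℝ => s * ((w.2 ^ (2 / 3 : ℝ) : ℝ) : ℂ)) Hs :=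
  continuousOn_const.mul (continuous_ofReal.comp_continuousOn
    (continuousOn_snd.rpow_const fun _ _ => Or.inr (by norm_num)))

/-- The explicit value in `lat_lim`: `(2/√3)/9 · ∫_ℂ Φ(|z|⁶) = (c₀/9) ∫₀^∞ e^{-c₀ u³} du`. -/
theorem lat_lim' : Tendsto lat (𝓝[>] 0) (𝓝 b1) := by
  rw [← ta2_integral]
  have h1 : ∀ᶠ s : ℝ in 𝓝[>] 0, s ∈ Ioc (0 : ℝ) 1 := Ioc_mem_nhdsGT one_pos
  have h2 : Tendsto (fun s => ∫ p, c1t_F s p) (𝓝[>] 0)
      (𝓝 (∫ p : ℝ × ℝ, c1t_G (3 * p.1) (3 * p.2))) := by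
    refine tendsto_integral_filter_of_dominated_convergence c1t_M
      (.of_forall fun s => (c1t_F_meas s).aestronglyMeasurable)
      (h1.mono fun s hs => .of_forall (c1t_F_le hs.1 hs.2)) c1t_M_int (.of_forall fun p => ?_)
    have h0 : Tendsto (fun s : ℝ => s) (𝓝[>] 0) (𝓝 0) := tendsto_id.mono_left nhdsWithin_le_nhds
    have h3 := (c1t_G_cont.tendsto (0 + 3 * p.1, 3 * p.2)).comp
      ((h0.add ((c1t_floor_lim p.1).const_mul 3)).prodMk_nhds ((c1t_floor_lim p.2).const_mul 3))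
    rw [zero_add] at h3
    refine h3.congr fun s => ?_
    simp only [Function.comp, c1t_F]
    congr 1 <;> ring
  have h3 : Tendsto Real.sqrt (𝓝[>] 0) (𝓝[>] 0) := by
    refine tendsto_nhdsWithin_iff.2 ⟨?_, ?_⟩
    · have := Real.continuous_sqrt.tendsto 0
      rw [Real.sqrt_zero] at this
      exact this.mono_left nhdsWithin_le_nhds
    · filter_upwards [self_mem_nhdsWithin] with x hx using Real.sqrt_pos.2 hx
  refine (h2.comp h3).congr' ?_
  filter_upwards [h1] with x hx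
  simp only [Function.comp]
  rw [c1t_int (Real.sqrt_pos.2 hx.1) (Real.sqrt_le_one.2 hx.2), Real.sq_sqrt hx.1.le]

theorem b1_pos : 0 < b1 := by
  have := c0_pos
  have := Real.Gamma_pos_of_pos (show (0 : ℝ) < 4 / 3 by norm_num)
  unfold b1
  positivity

/-- `IsCh.Dser_mul_mu` for the trivial character modulo `3`. -/
theorem Z2_mul : Z2 * (∑' j : O, if Prim j then ((Nr j : ℂ) ^ 2)⁻¹ else 0) = 1 := by
  classical
  have h3 : (3 : O) ≠ 0 := by decide
  have h1 := (isCh_triv h3 dvd_rfl).Dser_mul_mu (s := 2) (by simp)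
  rw [← h1, mul_comm]
  unfold Dser Z2
  congr 1
  · refine tsum_congr fun e => ?_
    by_cases he : Prim e
    · beta_reduce
      rw [if_pos he, if_pos he, if_pos (coprime_three_iff.2 he.not_lam_dvd), one_mul,
        Complex.cpow_neg, Complex.cpow_two]
    · rw [if_neg he, if_neg he]
  · refine tsum_congr fun e => ?_
    by_cases he : Prim e
    · beta_reduce
      rw [if_pos he, if_pos he, if_pos (coprime_three_iff.2 he.not_lam_dvd), mul_one,
        Complex.cpow_neg, Complex.cpow_two, div_eq_mul_inv]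
    · rw [if_neg he, if_neg he]

theorem Z2_pos : ∃ z : ℝ, 0 < z ∧ Z2 = (z : ℂ) := by
  have h0 : ∀ j : O, 0 ≤ (if Prim j then (Nr j ^ 2)⁻¹ else 0 : ℝ) := fun j => by
    split_ifs
    · positivity
    · exact le_rfl
  have hs : Summable fun j : O => (if Prim j then (Nr j ^ 2)⁻¹ else 0 : ℝ) := by
    refine Summable.of_nonneg_of_le h0 (fun j => ?_) (summable_Nr_rpow (σ := 2) one_lt_two)
    rw [c2t_sq]
    split_ifs
    · exact le_rfl
    · positivity
  have hp : 0 < ∑' j : O, (if Prim j then (Nr j ^ 2)⁻¹ else 0 : ℝ) :=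
    hs.tsum_pos h0 1 (by rw [if_pos prim_one, Nr_one]; norm_num)
  have h1 := Z2_mul
  have h2 : (∑' j : O, if Prim j then ((Nr j : ℂ) ^ 2)⁻¹ else 0) =
      ((∑' j : O, (if Prim j then (Nr j ^ 2)⁻¹ else 0 : ℝ) : ℝ) : ℂ) := by
    rw [Complex.ofReal_tsum]
    refine tsum_congr fun j => ?_
    split_ifs <;> simp
  rw [h2] at h1
  exact ⟨_, inv_pos.2 hp, by rw [Complex.ofReal_inv]; exact eq_inv_of_mul_eq_one_left h1⟩

theorem b0_pos : ∃ z : ℝ, 0 < z ∧ b0 = (z : ℂ) := by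
  obtain ⟨z, hz, h⟩ := Z2_pos
  exact ⟨z * b1, mul_pos hz b1_pos, by rw [b0, h, Complex.ofReal_mul]⟩

/-- `beta_one_eq` and dominated convergence. -/
theorem beta_lim' : Tendsto (beta 1) (𝓝[>] 0) (𝓝 b0) := by
  classical
  obtain ⟨C, hC⟩ := lat_le
  have hC0 : 0 ≤ C := (lat_nonneg one_pos).trans (hC 1 one_pos)
  have e : b0 = ∑' e : O, if Prim e then mu e / (Nr e : ℂ) ^ 2 * (b1 : ℂ) else 0 := by
    rw [b0, Z2, ← tsum_mul_right]
    refine tsum_congr fun e => ?_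
    split_ifs <;> simp
  rw [e]
  refine Tendsto.congr' (f₁ := fun x => ∑' e : O,
    if Prim e then mu e / (Nr e : ℂ) ^ 2 * (lat (x * Nr e) : ℂ) else 0) ?_ ?_
  · filter_upwards [self_mem_nhdsWithin] with x hx
    exact (beta_one_eq hx).symm
  · refine tendsto_tsum_of_dominated_convergence
      ((summable_Nr_rpow (σ := 2) one_lt_two).mul_left C) (fun e => ?_) ?_
    · by_cases he : Prim e
      · simp only [if_pos he]
        exact ((Complex.continuous_ofReal.tendsto b1).comp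
          (lat_lim'.comp (c2t_scale (Nr_pos he.ne_zero)))).const_mul _
      · simp only [if_neg he]
        exact tendsto_const_nhds
    · filter_upwards [self_mem_nhdsWithin] with x hx e
      have h0 := Nr_nonneg e
      by_cases he : Prim e
      · have h1 := mul_pos hx (Nr_pos he.ne_zero)
        rw [if_pos he, norm_mul, norm_div, norm_pow, Complex.norm_real, Complex.norm_real,
          Real.norm_of_nonneg (lat_nonneg h1), Real.norm_of_nonneg h0, c2t_sq, mul_comm C,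
          div_eq_mul_inv]
        exact mul_le_mul (mul_le_of_le_one_left (by positivity) (norm_mu_le _)) (hC _ h1)
          (lat_nonneg h1) (by positivity)
      · rw [if_neg he, norm_zero]
        positivity

/-- `Ac_mul`, `Per.op_cube`, `gs_kap_zero_cube`, `gs_kap_zero_of_not_cube`. -/
theorem Ac_zero {B : O × O → ℂ} (hB : Per B) {u n : O} (hu : IsUnit u) (k : ℕ) (hn : Prim n) :
    Ac B (u * lam ^ k * n) 0 = Ac B (u * lam ^ k) 0 * gs (kap n) n 0 := by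
  have hc : u * lam ^ k ≠ 0 := mul_ne_zero hu.ne_zero (pow_ne_zero _ prime_lam.ne_zero)
  rw [mul_comm (u * lam ^ k) n, Ac_mul hB hn hc (ta2_cop hu k hn.not_lam_dvd), mul_zero]
  by_cases h : ∃ j : O, Prim j ∧ n = j ^ 3
  · obtain ⟨j, hj, rfl⟩ := h
    rw [hB.op_cube hj, ga_kap_cube hj, if_pos (ga_cop_nine hj)]
    ring
  · rw [gs_kap_zero_of_not_cube hn h]
    ring

/-- `tsum_decomp` as in `alpha_eq`. -/
theorem ah_zero {B : O × O → ℂ} (hB : Per B) {t v : ℝ} (ht : 0 < t) (hv : 0 < v) :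
    ah B 0 t v = ((v ^ (2 / 3 : ℝ) : ℝ) : ℂ) * ((1 / 81 : ℂ) *
      ∑' k : ℕ, (((3 : ℝ) ^ (-(4 * k : ℝ) / 3) : ℝ) : ℂ) * (∑ u ∈ box 1, Ac B (u * lam ^ k) 0) *
        beta 1 ((3 ^ k * (t * v)) ^ (1 / 3 : ℝ))) := by
  classical
  have hy : 0 < t * v := mul_pos ht hv
  rw [ta2_ah B ht hv]
  congr 1
  generalize t * v = y at hy ⊢
  rw [tsum_decomp (.of_norm_bounded ((p1_summable0' hy).mul_left 81)
    fun c => ta2_bd hB c y) (if_pos rfl), ← tsum_mul_left, ← tsum_mul_left]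
  refine tsum_congr fun k => ?_
  have e : ∀ n : O, (if Prim n then ∑ u ∈ box 1, (if u * lam ^ k * n = 0 then 0 else
      Ac B (u * lam ^ k * n) 0 / (Nr (u * lam ^ k * n) : ℂ) *
        (Phi (y * Nr (u * lam ^ k * n)) : ℂ)) else 0) =
      if Prim n then ((∑ u ∈ box 1, Ac B (u * lam ^ k) 0) / 3 ^ k *
        (gs (kap n) n 0 / (Nr n : ℂ) * (Phi (3 ^ k * y * Nr n) : ℂ))) else 0 := by
    intro n
    refine if_ctx_congr Iff.rfl (fun hn => ?_) fun _ => rfl
    rw [Finset.sum_div, Finset.sum_mul]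
    refine Finset.sum_congr rfl fun u hu => ?_
    rw [c3t_box] at hu
    have : (Nr n : ℂ) ≠ 0 := by exact_mod_cast (Nr_pos hn.ne_zero).ne'
    rw [if_neg (mul_ne_zero (mul_ne_zero hu.ne_zero (pow_ne_zero _ prime_lam.ne_zero))
      hn.ne_zero), Ac_zero hB hu k hn, Nr_mul, Nr_mul, isUnit_iff_Nr.1 hu, Nr_pow, Nr_lam, one_mul,
      show y * (3 ^ k * Nr n) = 3 ^ k * y * Nr n by ring]
    push_cast
    field_simp
  rw [tsum_congr e, c3t_cube _ fun n hn h => by rw [gs_kap_zero_of_not_cube hn h]; simp]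
  have h3 : (0 : ℝ) < 3 ^ k * y := by positivity
  have e1 : (3 : ℝ) ^ (-(4 * k : ℝ) / 3) * (3 ^ k * y) ^ (1 / 3 : ℝ) = y ^ (1 / 3 : ℝ) / 3 ^ k := by
    rw [Real.mul_rpow (by positivity) hy.le, ← Real.rpow_natCast, ← Real.rpow_mul (by norm_num),
      ← mul_assoc, ← Real.rpow_add (by norm_num),
      show -(4 * k : ℝ) / 3 + k * (1 / 3) = -k by ring, Real.rpow_neg (by norm_num)]
    ring
  have e2 : ∀ j : O, ((3 ^ k * y) ^ (1 / 3 : ℝ) * Nr j) ^ 3 = 3 ^ k * y * Nr (j ^ 3) := fun j => by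
    rw [mul_pow, Nr_pow, ← Real.rpow_natCast _ 3, ← Real.rpow_mul h3.le]
    norm_num
  have e3 : (∑' j : O, if Prim j then ((∑ u ∈ box 1, Ac B (u * lam ^ k) 0) / 3 ^ k *
        (gs (kap (j ^ 3)) (j ^ 3) 0 / (Nr (j ^ 3) : ℂ) * (Phi (3 ^ k * y * Nr (j ^ 3)) : ℂ))) else 0) =
      (∑ u ∈ box 1, Ac B (u * lam ^ k) 0) / 3 ^ k * ∑' j : O, if Prim j ∧ 1 ∣ j then
        ph j * (Phi (((3 ^ k * y) ^ (1 / 3 : ℝ) * Nr j) ^ 3) : ℂ) else 0 := by
    rw [← tsum_mul_left]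
    refine tsum_congr fun j => ?_
    by_cases hj : Prim j
    · have : (Nr j : ℂ) ≠ 0 := by exact_mod_cast (Nr_pos hj.ne_zero).ne'
      rw [if_pos hj, if_pos ⟨hj, one_dvd j⟩, gs_kap_zero_cube hj, e2, Nr_pow]
      push_cast
      field_simp
    · rw [if_neg hj, if_neg fun h => hj h.1, mul_zero]
  have e4 := congrArg (fun x : ℝ => (x : ℂ)) e1
  simp only [Complex.ofReal_mul, Complex.ofReal_div, Complex.ofReal_pow, Complex.ofReal_ofNat] at e4
  rw [e3, beta, Complex.ofReal_div, Complex.ofReal_ofNat]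
  generalize (∑' j : O, if Prim j ∧ 1 ∣ j then
        ph j * (Phi (((3 ^ k * y) ^ (1 / 3 : ℝ) * Nr j) ^ 3) : ℂ) else 0) = T
  linear_combination (-(1 / 81) * (∑ u ∈ box 1, Ac B (u * lam ^ k) 0) * T) * e4

theorem ta2_term {B : O × O → ℂ} (hB : Per B) {C : ℝ} {z : ℂ} (hz : ‖z‖ ≤ C) (k : ℕ) :
    ‖(((3 : ℝ) ^ (-(4 * k : ℝ) / 3) : ℝ) : ℂ) * (∑ u ∈ box 1, Ac B (u * lam ^ k) 0) * z‖ ≤
      (3 : ℝ) ^ (-(k : ℝ) / 3) * (486 * C) := by
  have h1 : ‖∑ u ∈ box 1, Ac B (u * lam ^ k) 0‖ ≤ 486 * 3 ^ k := by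
    refine (norm_sum_le_of_le _ (n := fun _ => (81 * 3 ^ k : ℝ)) fun u hu => ?_).trans ?_
    · have := norm_Ac_le hB.bd (u * lam ^ k) 0
      rwa [Nr_mul, isUnit_iff_Nr.1 (c3t_box.1 hu), Nr_pow, Nr_lam, one_mul] at this
    · rw [Finset.sum_const, c3t_card, nsmul_eq_mul]
      push_cast
      linarith
  have h2 : (3 : ℝ) ^ (-(4 * k : ℝ) / 3) * 3 ^ k = (3 : ℝ) ^ (-(k : ℝ) / 3) := by
    rw [← Real.rpow_natCast, ← Real.rpow_add (by norm_num)]
    congr 1
    ring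
  rw [norm_mul, norm_mul, Complex.norm_real, Real.norm_of_nonneg (by positivity), ← h2]
  calc _ ≤ (3 : ℝ) ^ (-(4 * k : ℝ) / 3) * (486 * 3 ^ k) * C := by gcongr
    _ = _ := by ring

theorem ta2_lim {B : O × O → ℂ} (hB : Per B) : Tendsto (fun y : ℝ => (1 / 81 : ℂ) *
      ∑' k : ℕ, (((3 : ℝ) ^ (-(4 * k : ℝ) / 3) : ℝ) : ℂ) * (∑ u ∈ box 1, Ac B (u * lam ^ k) 0) *
        beta 1 ((3 ^ k * y) ^ (1 / 3 : ℝ))) (𝓝[>] 0) (𝓝 (sig0 B)) := by
  obtain ⟨C, hC⟩ := norm_beta_le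
  have e : sig0 B = (1 / 81 : ℂ) * ∑' k : ℕ, (((3 : ℝ) ^ (-(4 * k : ℝ) / 3) : ℝ) : ℂ) *
      (∑ u ∈ box 1, Ac B (u * lam ^ k) 0) * b0 := by
    rw [sig0, tsum_mul_right]
    ring
  rw [e]
  refine Tendsto.const_mul _ (tendsto_tsum_of_dominated_convergence
    (c3t_geom.mul_right (486 * C)) (fun k => ?_)
    (eventually_mem_nhdsWithin.mono fun y (hy : 0 < y) k => ta2_term hB (hC 1 _ (by positivity)) k))
  refine (beta_lim'.comp (tendsto_nhdsWithin_iff.2 ⟨?_, eventually_mem_nhdsWithin.mono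
    fun y (hy : 0 < y) => (by positivity : (0 : ℝ) < (3 ^ k * y) ^ (1 / 3 : ℝ))⟩)).const_mul _
  have : Continuous fun y : ℝ => (3 ^ k * y) ^ (1 / 3 : ℝ) :=
    (Real.continuous_rpow_const (by norm_num)).comp (by fun_prop)
  simpa using (this.tendsto 0).mono_left nhdsWithin_le_nhds

/-- `L2z.of_unif`. -/
theorem l2z_const {B : O × O → ℂ} (hB : Per B) :
    L2z (fun t w => ahf B 0 t w.2 - sig0 B * ((w.2 ^ (2 / 3 : ℝ) : ℝ) : ℂ)) := by
  have hα := ta2_lim hB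
  set A : ℝ → ℂ := fun y => (1 / 81 : ℂ) *
      ∑' k : ℕ, (((3 : ℝ) ^ (-(4 * k : ℝ) / 3) : ℝ) : ℂ) * (∑ u ∈ box 1, Ac B (u * lam ^ k) 0) *
        beta 1 ((3 ^ k * y) ^ (1 / 3 : ℝ)) with hA
  refine L2z.of_unif (fun t ht => (m1t_cont_ahf hB ht).sub (ta2_cont _))
    fun v₁ v₂ ε h₁ h₂ hε => ?_
  have hv₂ : 0 < v₂ := h₁.trans h₂
  have hV : 0 < v₂ ^ (2 / 3 : ℝ) := by positivity
  obtain ⟨δ, hδ, hd⟩ := Metric.tendsto_nhdsWithin_nhds.1 hα (ε / 2 / v₂ ^ (2 / 3 : ℝ))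
    (by positivity)
  have hE : 0 < ‖e0 B‖ + 1 := by positivity
  refine ⟨min (δ / v₂) (min 1 (ε / 2 / (‖e0 B‖ + 1))), by positivity, fun t ht ht' w hw => ?_⟩
  have hw0 : 0 < w.2 := h₁.trans_le hw.1
  have t1 : t < δ / v₂ := ht'.trans_le (min_le_left _ _)
  have t2 : t < 1 := ht'.trans_le ((min_le_right _ _).trans (min_le_left _ _))
  have t3 : t < ε / 2 / (‖e0 B‖ + 1) := ht'.trans_le ((min_le_right _ _).trans (min_le_right _ _))
  rw [lt_div_iff₀ hE] at t3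
  have h3 := hd (x := t * w.2) (show 0 < t * w.2 by positivity) (by
    rw [Real.dist_eq, sub_zero, abs_of_pos (by positivity)]
    exact (mul_le_mul_of_nonneg_left hw.2 ht.le).trans_lt ((lt_div_iff₀ hv₂).1 t1))
  rw [dist_eq_norm, lt_div_iff₀ hV] at h3
  have h4 : w.2 ^ (2 / 3 : ℝ) ≤ v₂ ^ (2 / 3 : ℝ) := Real.rpow_le_rpow hw0.le hw.2 (by norm_num)
  have h5 : t ^ (4 / 3 : ℝ) ≤ t := by
    simpa using Real.rpow_le_rpow_of_exponent_ge ht t2.le (show (1 : ℝ) ≤ 4 / 3 by norm_num)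
  have h6 : Phi (t / w.2) ≤ 1 := Phi_le_one (by positivity)
  have h7 := Phi_pos (t / w.2)
  have e : ahf B 0 t w.2 - sig0 B * ((w.2 ^ (2 / 3 : ℝ) : ℝ) : ℂ) =
      ((w.2 ^ (2 / 3 : ℝ) : ℝ) : ℂ) * (A (t * w.2) - sig0 B) +
        pw t * e0 B * (Phi (t / w.2) : ℂ) := by
    rw [ahf, if_pos rfl, ah_zero hB ht hw0]
    ring
  rw [e]
  refine (norm_add_le _ _).trans ?_
  rw [norm_mul, norm_mul, norm_mul, pw, Complex.norm_real, Complex.norm_real, Complex.norm_real,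
    Real.norm_of_nonneg (by positivity), Real.norm_of_nonneg (by positivity),
    Real.norm_of_nonneg h7.le]
  have h8 := mul_le_mul_of_nonneg_right h4 (norm_nonneg (A (t * w.2) - sig0 B))
  have h9 : t ^ (4 / 3 : ℝ) * ‖e0 B‖ * Phi (t / w.2) ≤ t * (‖e0 B‖ + 1) * 1 :=
    mul_le_mul (mul_le_mul h5 (by linarith) (norm_nonneg _) ht.le) h6 h7.le (by positivity)
  linarith

theorem continuousOn_Tf {B : O × O → ℂ} (hB : Per B) : ContinuousOn (Tf B) Hs := by
  exact (ta2_cont _).add (continuousOn_Th hB)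

/-- Automorphy (`l2z_U`, `Uc_mob`, `L2z.comp_mob`, `L2z.eq_zero`). -/
theorem Tf_mob {B B' : O × O → ℂ} (hB : Per B) (hB' : Per B') {κ : ℂ} {g : SG}
    (h : ∀ x, cf B x = κ * cf B' (ra x g)) {w : ℂ × ℝ} (hw : w ∈ Hs) :
    Tf B (mob g w) = κ * Tf B' w := by
  have key : ∀ {B : O × O → ℂ}, Per B → L2z (fun t w => U B t w - Tf B w) := fun hB =>
    ((l2z_U hB).add (l2z_const hB)).congr fun t _ w _ => by
      rw [Tf]; ring
  have h1 := (((key hB').const_mul κ).sub ((key hB).comp_mob g)).congr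
    (g := fun _ w => Tf B (mob g w) - κ * Tf B' w) fun t _ w hw => by
      have e1 : U B t (mob g w) = κ * U B' t w := Uc_mob h t hw
      rw [e1]
      ring
  exact sub_eq_zero.1 (h1.eq_zero w hw)

theorem Th_decay {B : O × O → ℂ} (hB : Per B) : ∃ C : ℝ, ∀ (z : ℂ) (v : ℝ), 1 ≤ v →
    ‖Th B (z, v)‖ ≤ C * v * Real.exp (-(v / 9)) := by
  classical
  obtain ⟨K, hK0, hK⟩ := m2t_norm_th
  obtain ⟨C, hC⟩ := tsum_K1_le (δ := 1 / 9) (by norm_num) (1 / 2)
  refine ⟨K * C, fun z v hv => ?_⟩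
  have hv0 : 0 < v := by linarith
  have h1 := hC (v / 9) (by linarith)
  have hs := (summable_K1 (δ := v / 9) (by positivity) (1 / 2)).mul_left (K * v)
  refine (tsum_of_norm_bounded hs.hasSum fun h => ?_).trans ?_
  · split_ifs with h0
    · simp
    · rw [norm_mul, norm_eh, mul_one, ← Real.sqrt_eq_rpow, ← norm_emb]
      refine (hK B hB h h0 v hv0).trans (le_of_eq ?_)
      rw [show v * ‖emb h‖ / 9 = v / 9 * ‖emb h‖ by ring]
      ring
  · rw [tsum_mul_left]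
    refine (mul_le_mul_of_nonneg_left h1 (by positivity)).trans (le_of_eq (by ring))

/-- The behaviour at the cusp `a / q` (`mob_geod` with `ζ = 0`). -/
theorem cusp_lim {B B' : O × O → ℂ} (hB : Per B) (hB' : Per B') {κ : ℂ} {g : SG} (hq : g 1 0 ≠ 0)
    (h : ∀ x, cf B x = κ * cf B' (ra x g)) :
    Tendsto (fun u : ℝ => ((u ^ (2 / 3 : ℝ) : ℝ) : ℂ) * Th B (emb (g 0 0) / emb (g 1 0), u))
      (𝓝[>] 0) (𝓝 (κ * sig0 B' * ((Nr (g 1 0) ^ (-(2 / 3) : ℝ) : ℝ) : ℂ))) := by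
  have hN : 0 < Nr (g 1 0) := Nr_pos hq
  obtain ⟨C, hC⟩ := Th_decay hB'
  have hs0 : ∀ᶠ u in 𝓝[>] (0 : ℝ), 0 < u := self_mem_nhdsWithin
  have hv : Tendsto (fun u : ℝ => (Nr (g 1 0) * u)⁻¹) (𝓝[>] 0) atTop :=
    tendsto_inv_nhdsGT_zero.comp ((c2t_scale hN).congr fun u => mul_comm _ _)
  have h1 : Tendsto (fun v : ℝ => Th B' (-(emb (g 1 1) / emb (g 1 0)), v)) atTop (𝓝 0) := by
    have h2 : Tendsto (fun v : ℝ => C * v * Real.exp (-(v / 9))) atTop (𝓝 0) := by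
      have h3 := ((Real.tendsto_pow_mul_exp_neg_atTop_nhds_zero 1).comp
        (tendsto_id.atTop_div_const (show (0 : ℝ) < 9 by norm_num))).const_mul (9 * C)
      rw [mul_zero] at h3
      refine h3.congr fun v => ?_
      simp only [Function.comp, id]
      ring
    exact squeeze_zero_norm' ((eventually_ge_atTop 1).mono fun v hv => hC _ v hv) h2
  have h2 : Tendsto (fun u : ℝ => ((u ^ (2 / 3 : ℝ) : ℝ) : ℂ)) (𝓝[>] 0) (𝓝 0) := by
    have : Continuous fun u : ℝ => ((u ^ (2 / 3 : ℝ) : ℝ) : ℂ) :=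
      continuous_ofReal.comp (Real.continuous_rpow_const (by norm_num))
    simpa using (this.tendsto 0).mono_left nhdsWithin_le_nhds
  have h3 := ((tendsto_const_nhds (x := κ * sig0 B' * ((Nr (g 1 0) ^ (-(2 / 3) : ℝ) : ℝ) : ℂ))).add
    ((h2.mul (h1.comp hv)).const_mul κ)).sub ((h2.mul h2).const_mul (sig0 B))
  simp only [mul_zero, add_zero, sub_zero] at h3
  refine h3.congr' (hs0.mono fun u hu => ?_)
  have hv0 : 0 < (Nr (g 1 0) * u)⁻¹ := by positivity
  have h4 := Tf_mob hB hB' h (w := (-(emb (g 1 1) / emb (g 1 0)) + 0, (Nr (g 1 0) * u)⁻¹)) hv0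
  rw [mob_geod g hq 0 hv0] at h4
  have e1 : (Nr (g 1 0) * u)⁻¹ / (Nr (g 1 0) * (‖(0 : ℂ)‖ ^ 2 + (Nr (g 1 0) * u)⁻¹ ^ 2)) = u := by
    rw [norm_zero]
    field_simp
    ring
  rw [e1, map_zero, zero_div, sub_zero, add_zero, Tf, Tf] at h4
  have e2 : u ^ (2 / 3 : ℝ) * (Nr (g 1 0) * u)⁻¹ ^ (2 / 3 : ℝ) = Nr (g 1 0) ^ (-(2 / 3) : ℝ) := by
    rw [← Real.mul_rpow hu.le hv0.le, Real.rpow_neg hN.le, ← Real.inv_rpow hN.le]
    congr 1
    field_simp
  have e3 := congrArg (fun x : ℝ => (x : ℂ)) e2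
  simp only [Complex.ofReal_mul] at e3
  simp only [Function.comp] at h4 ⊢
  linear_combination (-((u ^ (2 / 3 : ℝ) : ℝ) : ℂ)) * h4 - κ * sig0 B' * e3

theorem sig0_eq_zero {B : O × O → ℂ} (h : ∀ c, c ≠ 0 → Ac B c 0 = 0) : sig0 B = 0 := by
  have : ∀ k : ℕ, ∑ u ∈ box 1, Ac B (u * lam ^ k) 0 = 0 := fun k =>
    Finset.sum_eq_zero fun u hu =>
      h _ (mul_ne_zero (mem_box.1 hu).1 (pow_ne_zero _ prime_lam.ne_zero))
  simp [sig0, this]

theorem sig0_Bs : sig0 Bs = 0 := by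
  refine sig0_eq_zero fun c _ => ?_
  rw [Ac_Bs, if_neg]
  rintro ⟨-, h⟩
  have h1 := Nr_le_of_dvd (show (0 : O) - 3 ≠ 0 by decide) h
  have h2 : Nr (3 : O) = 9 := by
    have := Nr_natCast 3
    norm_num at this
    exact this
  rw [zero_sub, Nr_neg, ga_Nr_nine, h2] at h1
  norm_num at h1

open Classical in
/-- For `d ≡ -1 mod 3` the symbol `(u λ^k / d)` is a character of `(1 + 3 O)/(1 + 9 O)`
(`exists_kap_ul_ne`, `isCube_ul`); `e(∓1/3) = 1`. -/
theorem Ac_Bd_ul {u : O} (hu : IsUnit u) (k : ℕ) :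
    Ac Bd (u * lam ^ k) 0 = if (u = 1 ∨ u = -1) ∧ 3 ∣ k then 9 * (3 : ℂ) ^ k else 0 := by
  classical
  have hc : u * lam ^ k ≠ 0 := mul_ne_zero hu.ne_zero (pow_ne_zero _ prime_lam.ne_zero)
  have hl : ∀ {d : O}, Prim (-d) → ¬ lam ∣ d := fun hd h => hd.not_lam_dvd (dvd_neg.2 h)
  rw [Ac, ga_gs_zero]
  simp only [cf_Bd]
  split_ifs with hk
  · obtain ⟨hu', m, rfl⟩ := hk
    obtain ⟨y, hy⟩ := (isCube_ul hu (3 * m)).2 ⟨hu', m, rfl⟩
    have he : eO (-(u * lam ^ (3 * m))) 3 = 1 := by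
      rcases Nat.eq_zero_or_pos m with rfl | hm
      · rcases hu' with rfl | rfl
        · rw [eO, b3_ec_eq_one, map_ofNat]
          exact ⟨0, by simp [Complex.div_ofNat_im]⟩
        · rw [eO, b3_ec_eq_one, map_ofNat]
          exact ⟨0, by simp [Complex.div_ofNat_im]⟩
      · refine eO_of_dvd (dvd_neg.2 (Dvd.dvd.mul_left ?_ u))
        exact associated_lam_sq.symm.dvd.trans (pow_dvd_pow _ (by omega))
    have h1 : ∀ d : O, (if Prim (-d) then eO (-(u * lam ^ (3 * m))) 3 * kap d (u * lam ^ (3 * m))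
        else 0) = if (3 : O) ∣ d - (-1) then 1 else 0 := by
      intro d
      have hiff : Prim (-d) ↔ (3 : O) ∣ d - (-1) := by
        rw [Prim, ← dvd_neg]
        congr! 1
        ring
      by_cases hd : Prim (-d)
      · have hcop := ta2_cop hu (3 * m) hd.not_lam_dvd
        rw [if_pos hd, if_pos (hiff.1 hd), he, one_mul,
          kap_associated (Associated.refl d).neg_right, hy, kap_cube_right hd, if_pos]
        rw [hy] at hcop
        exact (IsCoprime.pow_right_iff (by norm_num)).1 hcop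
      · rw [if_neg hd, if_neg fun h => hd (hiff.2 h)]
    have h3 : (3 : O) ≠ 0 := by decide
    have h2 := ga_tower_zero (n := 3) (k := 3 * (u * lam ^ (3 * m)))
      (f := fun d => if (3 : O) ∣ d - (-1) then (1 : ℂ) else 0) h3 (mul_ne_zero h3 hc)
      (fun x y h => by
        rw [dvd_iff_dvd_of_dvd_sub (a := 3) (b := x - (-1)) (c := y - (-1)) (by
          rwa [sub_sub_sub_cancel_right])])
    have h4 : Nr (3 : O) = 9 := by
      have := Nr_natCast 3
      norm_num at this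
      exact this
    rw [ga_gs_zero, ga_gs_zero, Nr_mul, Nr_mul, isUnit_iff_Nr.1 hu, Nr_pow, Nr_lam, h4,
      show (3 : O) * (3 * (u * lam ^ (3 * m))) = 9 * (u * lam ^ (3 * m)) by ring] at h2
    have h5 : ∑ x ∈ reps 3, (if (3 : O) ∣ x - (-1) then (1 : ℂ) else 0) = 1 := by
      convert ga_one h3 (-1)
    rw [Finset.sum_congr rfl fun d _ => h1 d, h2, h5]
    push_cast
    ring
  · obtain ⟨n, hn, hne⟩ := exists_kap_ul_ne hu (k := k) fun h => hk ((isCube_ul hu k).1 h)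
    set f : O → ℂ := fun d => if Prim (-d) then eO (-(u * lam ^ k)) 3 * kap d (u * lam ^ k) else 0
      with hf
    have hper : ∀ x y, 9 * (u * lam ^ k) ∣ x - y → f x = f y := by
      intro x y h
      have h9 : (9 : O) ∣ x - y := (dvd_mul_right _ _).trans h
      have hiff : Prim (-x) ↔ Prim (-y) :=
        dvd_iff_dvd_of_dvd_sub (a := 3) (b := -x - 1) (c := -y - 1) (by
          rw [show -x - 1 - (-y - 1) = -(x - y) by ring, dvd_neg]
          exact (show (3 : O) ∣ 9 from ⟨3, by norm_num⟩).trans h9)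
      simp only [hf]
      by_cases hx : Prim (-x)
      · rw [if_pos hx, if_pos (hiff.1 hx), kap_ul_per hu k (hl hx) h9]
      · rw [if_neg hx, if_neg fun h => hx (hiff.2 h)]
    have h1 := sum_reps_affine (mul_ne_zero ga_nine hc) f hper
      ((ga_cop_nine hn).mul_right (ta2_cop hu k hn.not_lam_dvd)) 0
    have h2 : ∀ d, f (n * d + 0) = kap n (u * lam ^ k) * f d := by
      intro d
      simp only [hf, add_zero]
      by_cases hd : Prim (-d)
      · rw [if_pos hd, if_pos (by rw [← mul_neg]; exact hn.mul hd),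
          kap_mul_left hn.ne_zero (neg_ne_zero.1 hd.ne_zero)]
        ring
      · rw [if_neg hd, if_neg fun h => hd (hn.of_mul (by rwa [mul_neg])), mul_zero]
    simp only [h2] at h1
    rw [← Finset.mul_sum] at h1
    have h3 : (kap n (u * lam ^ k) - 1) * ∑ d ∈ reps (9 * (u * lam ^ k)), f d = 0 := by
      rw [sub_mul, h1, one_mul, sub_self]
    exact (mul_eq_zero.1 h3).resolve_left (sub_ne_zero.2 hne)

theorem sig0_Bd : sig0 Bd = b0 / 3 := by
  classical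
  have h1 : ∀ k : ℕ, ∑ u ∈ box 1, Ac Bd (u * lam ^ k) 0 = if 3 ∣ k then 18 * (3 : ℂ) ^ k else 0 := by
    intro k
    rw [Finset.sum_congr rfl fun u hu => Ac_Bd_ul (c3t_box.1 hu) k]
    by_cases hk : 3 ∣ k
    · simp only [hk, and_true, if_true]
      rw [← Finset.sum_filter]
      have : (box 1).filter (fun u : O => u = 1 ∨ u = -1) = {1, -1} := by
        ext u
        simp only [Finset.mem_filter, c3t_box, Finset.mem_insert, Finset.mem_singleton]
        refine ⟨fun h => h.2, fun h => ⟨?_, h⟩⟩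
        rcases h with rfl | rfl
        exacts [isUnit_one, isUnit_one.neg]
      rw [this, Finset.sum_pair (by decide)]
      ring
    · simp [hk]
  have hi : Function.Injective fun m : ℕ => 3 * m := fun a b h => by
    simp only at h
    omega
  have h2 : ∑' k : ℕ, (((3 : ℝ) ^ (-(4 * k : ℝ) / 3) : ℝ) : ℂ) *
      ∑ u ∈ box 1, Ac Bd (u * lam ^ k) 0 = 27 := by
    simp only [h1]
    rw [← hi.tsum_eq (f := fun k : ℕ => (((3 : ℝ) ^ (-(4 * k : ℝ) / 3) : ℝ) : ℂ) *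
      if 3 ∣ k then 18 * (3 : ℂ) ^ k else 0) fun k hk => ?_]
    · have h3 : ∀ m : ℕ, (((3 : ℝ) ^ (-(4 * ((3 * m : ℕ) : ℝ)) / 3) : ℝ) : ℂ) *
          (if 3 ∣ 3 * m then 18 * (3 : ℂ) ^ (3 * m) else 0) = 18 * (1 / 3 : ℂ) ^ m := by
        intro m
        rw [if_pos (dvd_mul_right 3 m), show -(4 * ((3 * m : ℕ) : ℝ)) / 3 = -((4 * m : ℕ) : ℝ) by
          push_cast; ring, Real.rpow_neg (by norm_num), Real.rpow_natCast]
        push_cast
        rw [show 4 * m = 3 * m + m by ring, pow_add, one_div, inv_pow]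
        field_simp
      simp only [h3]
      rw [tsum_mul_left, tsum_geometric_of_norm_lt_one (by norm_num)]
      norm_num
    · by_contra h
      refine hk ?_
      have : ¬ 3 ∣ k := fun ⟨m, hm⟩ => h ⟨m, hm.symm⟩
      simp [this]
  rw [sig0, h2]
  ring

end Crest.Agent.R012

end
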