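import Crest.Agent.R012.CsA
import Crest.Agent.R012.TA2

/-! # Row 12: the modulus of the residue -/

set_option autoImplicit false

noncomputable section

open scoped BigOperators ComplexConjugate Topology
open Complex MeasureTheory Filter Set Crest.Agent.R017 Crest.Agent.R017.Theta

namespace Crest.Agent.R012

theorem csB_eO0 (x : O) : eO (0 * x) 9 = 1 := eO_of_dvd (by simp)

theorem csB_Ac_Bl (l c h : O) : Ac (Bl l) c h = Ac Bs c h * eO (l * (c - 1)) 9 := by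
  unfold Ac gs
  rw [Finset.sum_mul]
  refine Finset.sum_congr rfl fun d _ => ?_
  simp only [cf, Bl]
  split_ifs
  · ring
  · simp

theorem csB_Sm_conj (a : O → ℂ) (t : ℝ) : conj (Sm a F0 t) = Sm (fun c => conj (a c)) F0 t := by
  unfold Sm pw
  rw [map_mul, conj_ofReal, conj_tsum]
  congr 1
  refine tsum_congr fun c => ?_
  split_ifs
  · simp
  · rw [map_mul, conj_F0]

theorem csB_res_conj {a : O → ℂ} {L : ℂ} (h : Res a L) : Res (fun c => conj (a c)) (conj L) :=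
  ((continuous_conj.tendsto L).comp h).congr fun t => csB_Sm_conj a t

theorem csB_res_star {a : O → ℂ} {L : ℂ} (h : Res a L) : Res (fun c => a (star c)) L := by
  refine Tendsto.congr (fun t => ?_) h
  unfold Sm
  rw [← (star_involutive (R := O)).toPerm.tsum_eq]
  congr 1
  refine tsum_congr fun c => ?_
  simp only [Function.Involutive.coe_toPerm, star_eq_zero, Nr_star]

theorem csB_Sm_mul (κ : ℂ) (a : O → ℂ) (F : ℝ → ℂ) (t : ℝ) :
    Sm (fun c => κ * a c) F t = κ * Sm a F t := by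
  unfold Sm
  rw [mul_left_comm, ← tsum_mul_left (a := κ)]
  congr 1
  refine tsum_congr fun c => ?_
  split_ifs
  · simp
  · ring

open Classical in
theorem csB_Sm_cube {a b : O → ℂ} (ha : PG a)
    (hb : ∀ N, N ≠ 0 → b N = ∑ j ∈ pdiv N, if j ^ 3 ∣ N then (Nr j : ℂ) ^ 2 * a (N / j ^ 3) else 0)
    {t : ℝ} (ht : 0 < t) :
    Sm b F0 t = ∑' j : O, (if Prim j then ((Nr j : ℂ) ^ 2)⁻¹ else 0) * Sm a F0 (t * Nr j ^ 3) := by
  let G : O × O → ℂ := fun p => if Prim p.1 then (Nr p.1 : ℂ) ^ 2 *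
    (if p.2 = 0 then 0 else a p.2 * F0 (t * Nr p.1 ^ 3 * Nr p.2)) else 0
  let c : O → O := fun j => if Prim j then j ^ 3 else 1
  have hc : ∀ j, c j ≠ 0 := fun j => by
    simp only [c]
    split_ifs with h
    · exact pow_ne_zero _ h.ne_zero
    · exact one_ne_zero
  let G' : O × O → ℂ := fun p => if c p.1 ∣ p.2 then G (p.1, p.2 / c p.1) else 0
  let φ : O × O → O × O := fun p => (p.1, c p.1 * p.2)
  have hφ : Function.Injective φ := by
    rintro ⟨j, n⟩ ⟨j', n'⟩ h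
    obtain ⟨rfl, h2⟩ := Prod.ext_iff.1 h
    exact Prod.ext rfl (mul_left_cancel₀ (hc j) h2)
  have e1 : ∀ p, G' (φ p) = G p := fun p => by
    simp only [G', φ, dvd_mul_right, if_true, mul_div_cancel_left₀ _ (hc _)]
  have e2 : ∀ p ∉ Set.range φ, G' p = 0 := fun p hp => if_neg fun ⟨n, hn⟩ =>
    hp ⟨(p.1, n), Prod.ext rfl hn.symm⟩
  obtain ⟨K, hK0, hK⟩ := r1t_term nice_F0 ha
  have s2 := summable_Nr_rpow (σ := 2) (by norm_num)
  have sG : Summable G := by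
    refine Summable.of_norm_bounded ((s2.mul_of_nonneg s2 (fun j => ?_) fun j => ?_).mul_left
      (K * t ^ (-3 : ℝ))) fun p => ?_
    · exact Real.rpow_nonneg (Nr_nonneg j) _
    · exact Real.rpow_nonneg (Nr_nonneg j) _
    have h1 := Nr_nonneg p.1
    have h2 := Nr_nonneg p.2
    simp only [G]
    split_ifs with h h'
    · rw [mul_zero, norm_zero]; positivity
    swap
    · rw [norm_zero]; positivity
    have h3 := one_le_Nr h.ne_zero
    have h4 := hK (t * Nr p.1 ^ 3) (by positivity) p.2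
    rw [if_neg h', Real.mul_rpow ht.le (by positivity)] at h4
    have h5 : Nr p.1 ^ 2 * (Nr p.1 ^ 3) ^ (-3 : ℝ) ≤ Nr p.1 ^ (-2 : ℝ) := by
      rw [← Real.rpow_natCast, ← Real.rpow_natCast, ← Real.rpow_mul h1,
        ← Real.rpow_add (by positivity)]
      exact Real.rpow_le_rpow_of_exponent_le h3 (by norm_num)
    rw [norm_mul, norm_pow, Complex.norm_real, Real.norm_of_nonneg h1]
    calc _ ≤ Nr p.1 ^ 2 * (K * (t ^ (-3 : ℝ) * (Nr p.1 ^ 3) ^ (-3 : ℝ)) * Nr p.2 ^ (-2 : ℝ)) :=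
          mul_le_mul_of_nonneg_left h4 (by positivity)
      _ = K * t ^ (-3 : ℝ) * ((Nr p.1 ^ 2 * (Nr p.1 ^ 3) ^ (-3 : ℝ)) * Nr p.2 ^ (-2 : ℝ)) := by ring
      _ ≤ _ := by gcongr
  have sG' : Summable G' := (hφ.summable_iff e2).1 (sG.congr fun p => (e1 p).symm)
  have e3 : ∑' p, G' p = ∑' p, G p := by
    rw [← hφ.tsum_eq (f := G') fun p hp => by_contra fun h => hp (e2 p h)]
    exact tsum_congr e1
  have e4 : ∀ N : O, (if N = 0 then 0 else b N * F0 (t * Nr N)) = ∑' j, G' (j, N) := fun N => by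
    split_ifs with hN
    · simp [G', G, hN]
    rw [hb N hN, Finset.sum_mul, tsum_eq_sum (s := pdiv N) fun j hj => ?_]
    · refine Finset.sum_congr rfl fun j hj => ?_
      have hp := ((mem_pdiv hN).1 hj).1
      simp only [G', G, c, if_pos hp]
      split_ifs with h1 h2
      · obtain ⟨n, rfl⟩ := h1
        rw [mul_div_cancel_left₀ _ (pow_ne_zero _ hp.ne_zero)] at h2
        simp [h2] at hN
      · obtain ⟨n, rfl⟩ := h1
        rw [mul_div_cancel_left₀ _ (pow_ne_zero _ hp.ne_zero), Nr_mul, Nr_pow, mul_assoc, mul_assoc]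
      · exact zero_mul _
    · by_cases hp : Prim j
      · simp only [G', c, if_pos hp]
        exact if_neg fun h => hj ((mem_pdiv hN).2 ⟨hp, (dvd_pow_self j (by norm_num)).trans h⟩)
      · simp [G', G, hp]
  rw [Sm, tsum_congr e4, Summable.tsum_comm (f := fun j N => G' (j, N)) sG', ← sG'.tsum_prod, e3,
    sG.tsum_prod, ← tsum_mul_left]
  refine tsum_congr fun j => ?_
  simp only [G]
  split_ifs with hp
  · have h1 := Nr_pos hp.ne_zero
    have e5 : pw (t * Nr j ^ 3) = pw t * (Nr j : ℂ) ^ 4 := by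
      unfold pw
      rw [Real.mul_rpow ht.le (by positivity), ← Real.rpow_natCast, ← Real.rpow_mul h1.le,
        show ((3 : ℕ) : ℝ) * (4 / 3) = (4 : ℕ) by norm_num, Real.rpow_natCast]
      push_cast
      rfl
    have h2 : (Nr j : ℂ) ≠ 0 := ofReal_ne_zero.2 h1.ne'
    rw [tsum_mul_left, Sm, e5]
    field_simp
  · simp

open Classical in
theorem csB_res_cube {a b : O → ℂ} (ha : PG a)
    (hb : ∀ N, N ≠ 0 → b N = ∑ j ∈ pdiv N, if j ^ 3 ∣ N then (Nr j : ℂ) ^ 2 * a (N / j ^ 3) else 0)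
    {L : ℂ} (h : Res a L) : Res b (Z2⁻¹ * L) := by
  obtain ⟨C, hC⟩ := (Mild.of_nice nice_F0).bdd ha h
  have hC0 : 0 ≤ C := (norm_nonneg _).trans (hC 1 one_pos)
  rw [← eq_inv_of_mul_eq_one_right Z2_mul, ← tsum_mul_right]
  refine Tendsto.congr' ?_ (tendsto_tsum_of_dominated_convergence
    (f := fun t j => (if Prim j then ((Nr j : ℂ) ^ 2)⁻¹ else 0) * Sm a F0 (t * Nr j ^ 3))
    ((summable_Nr_rpow (σ := 2) (by norm_num)).mul_right C) (fun j => ?_) ?_)
  · filter_upwards [self_mem_nhdsWithin] with t ht using (csB_Sm_cube ha hb ht).symm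
  · split_ifs with hp
    · exact (Tendsto.comp h (r3t_scale (pow_pos (Nr_pos hp.ne_zero) 3))).const_mul _
    · simp
  · filter_upwards [self_mem_nhdsWithin] with t ht j
    have h1 := Nr_nonneg j
    split_ifs with hp
    · rw [norm_mul, norm_inv, norm_pow, Complex.norm_real, Real.norm_of_nonneg h1,
        Real.rpow_neg h1, Real.rpow_two]
      exact mul_le_mul_of_nonneg_left (hC _ (mul_pos ht (pow_pos (Nr_pos hp.ne_zero) 3)))
        (by positivity)
    · rw [zero_mul, norm_zero]; positivity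

theorem csB_pg {f e : O → ℂ} (hf : ∀ N, Prim N → ‖f N‖ ≤ Nr N ^ (1 / 6 : ℝ)) (he : ∀ N, ‖e N‖ = 1) :
    PG (fun N => if Prim N then f N * (Real.sqrt (Nr N) : ℂ) * e N else 0) := by
  refine ⟨1, fun N => ?_⟩
  have h0 := Nr_nonneg N
  simp only
  split_ifs with hp
  · have h1 := one_le_Nr hp.ne_zero
    rw [norm_mul, norm_mul, he, mul_one, Complex.norm_real, Real.norm_of_nonneg (Real.sqrt_nonneg _),
      one_mul]
    refine (mul_le_mul_of_nonneg_right ((hf N hp).trans (Real.rpow_le_rpow_of_exponent_le h1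
      (show (1 / 6 : ℝ) ≤ 1 / 2 by norm_num))) (Real.sqrt_nonneg _)).trans_eq ?_
    rw [← Real.sqrt_eq_rpow, Real.mul_self_sqrt h0]
  · simpa using h0

theorem csB_refl : Real.Gamma (4 / 3) = c0 / (3 * Real.Gamma (2 / 3)) := by
  have h1 := Real.Gamma_mul_Gamma_one_sub (1 / 3)
  have h2 := Real.Gamma_add_one (s := 1 / 3) (by norm_num)
  have h3 : 0 < Real.Gamma (2 / 3) := Real.Gamma_pos_of_pos (by norm_num)
  rw [show (1 - 1 / 3 : ℝ) = 2 / 3 by norm_num, show Real.pi * (1 / 3) = Real.pi / 3 by ring,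
    Real.sin_pi_div_three] at h1
  have h4 : Real.pi / (Real.sqrt 3 / 2) = c0 := by
    unfold c0
    field_simp
  rw [show (4 / 3 : ℝ) = 1 / 3 + 1 by norm_num, h2, ← h4, ← h1]
  field_simp

theorem per_Bl (l : O) : Per (Bl l) := by
  refine ⟨fun x => ?_, fun x y h => ?_⟩
  · rw [Bl, norm_mul, norm_eO, mul_one]
    exact per_Bs.bd x
  · rw [Bl, Bl, per_Bs.per x y h, eO_congr (y := l * (y.1 - 1))]
    rw [show l * (x.1 - 1) - l * (y.1 - 1) = l * (x.1 - y.1) by ring]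
    exact h.1.mul_left l

theorem Bl_zero : Bl 0 = Bs := by
  funext x
  rw [Bl, csB_eO0, mul_one]

theorem res_Rl (l : O) :
    Res (fun n => if Prim n then gt n * (Real.sqrt (Nr n) : ℂ) * eO (l * (n - 1)) 9 else 0) (Rl l) := by
  have h := (res_rs (per_Bl l) (h := 3) (by decide)).const_mul (1 / 81)
  rw [show 1 / 81 * rs (Bl l) 3 = Rl l by rw [Rl]; ring] at h
  refine h.congr fun c _ => ?_
  rw [csB_Ac_Bl, Ac_Bs_three]
  split_ifs
  · ring
  · simp

theorem T0_eq : T0 = 81 * Rl 0 / Me F0 * (((9 : ℝ) ^ (1 / 6 : ℝ) : ℝ) : ℂ) := by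
  have h : Nr 3 = 9 := by simpa using (Nr_natCast 3).trans (by norm_num)
  rw [T0, Tc, Rl, Bl_zero, h]
  ring

/-- Reindex by `star` (`gt_star`). -/
theorem conj_Rl_zero : conj (Rl 0) = Rl 0 := by
  refine (csB_res_conj (res_Rl 0)).unique ((csB_res_star (res_Rl 0)).congr fun c _ => ?_)
  by_cases h : Prim c
  · rw [if_pos h, if_pos h.star, gt_star h, Nr_star, csB_eO0, csB_eO0]
    simp
  · rw [if_neg h, if_neg fun h' => h (by simpa using h'.star), map_zero]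

theorem conj_T0 : conj T0 = T0 := by
  obtain ⟨z, -, hz⟩ := Me_F0_pos
  rw [T0_eq, hz, map_mul, map_div₀, map_mul, conj_Rl_zero, conj_ofReal, conj_ofReal, map_ofNat]

/-- `N = n j³` (`tg_eq_sum`, `prim_cube_nine`): the smoothed sum is
`∑_j N j⁻² conj (Sm a F0 (t N j³))`; dominated convergence (`Mild.bdd`), `Z2_mul`. -/
theorem res_tg (l : O) :
    Res (fun N => if Prim N then tg N * (Real.sqrt (Nr N) : ℂ) * conj (eO (l * (N - 1)) 9) else 0)
      (Z2⁻¹ * conj (Rl l)) := by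
  classical
  have h := (csB_res_conj (res_Rl l)).congr (b := fun n => if Prim n then
      conj (gt n) * (Real.sqrt (Nr n) : ℂ) * conj (eO (l * (n - 1)) 9) else 0) fun c _ => by
    split_ifs
    · rw [map_mul, map_mul, conj_ofReal]
    · exact map_zero _
  refine csB_res_cube (csB_pg (fun N hN => ?_) fun N => by rw [RCLike.norm_conj, norm_eO])
    (fun N hN => ?_) h
  · rw [RCLike.norm_conj]
    exact (norm_gt_le hN).trans (Real.one_le_rpow (one_le_Nr hN.ne_zero) (by norm_num))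
  split_ifs with hp
  · rw [tg_eq_sum hp, Finset.sum_mul, Finset.sum_mul]
    refine Finset.sum_congr rfl fun j hj => ?_
    replace hj := ((mem_pdiv hN).1 hj).1
    by_cases h3 : j ^ 3 ∣ N
    · obtain ⟨n, rfl⟩ := h3
      have e : Real.sqrt (Nr (j ^ 3 * n)) * ‖emb j‖ = Nr j ^ 2 * Real.sqrt (Nr n) := by
        rw [← norm_emb, ← norm_emb, ← norm_emb_sq, map_mul, map_pow, norm_mul, norm_pow]
        ring
      have e' := congrArg (fun x : ℝ => (x : ℂ)) e
      push_cast at e'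
      rw [if_pos (dvd_mul_right _ _), if_pos (dvd_mul_right _ _),
        mul_div_cancel_left₀ _ (pow_ne_zero _ hj.ne_zero), if_pos ((hj.pow 3).of_mul hp),
        eO_congr (x := l * (j ^ 3 * n - 1)) (y := l * (n - 1)) (by
          rw [show l * (j ^ 3 * n - 1) - l * (n - 1) = (j ^ 3 - 1) * (l * n) by ring]
          exact (prim_cube_nine hj).mul_right _)]
      linear_combination (conj (gt n) * conj (eO (l * (n - 1)) 9)) * e'
    · simp [h3]
  · refine (Finset.sum_eq_zero fun j hj => ?_).symm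
    replace hj := ((mem_pdiv hN).1 hj).1
    by_cases h3 : j ^ 3 ∣ N
    · obtain ⟨n, rfl⟩ := h3
      rw [if_pos (dvd_mul_right _ _), mul_div_cancel_left₀ _ (pow_ne_zero _ hj.ne_zero),
        if_neg fun h => hp ((hj.pow 3).mul h), mul_zero]
    · exact if_neg h3

theorem Sm_GK (l : O) {u : ℝ} (hu : 0 < u) :
    T0 * Sm (fun N => if Prim N then tg N * (Real.sqrt (Nr N) : ℂ) * conj (eO (l * (N - 1)) 9) else 0)
      GK (u ^ 2 / 9) = 27 * eO l 9 * (((u ^ (2 / 3 : ℝ) : ℝ) : ℂ) * Th Bs (-(emb l / 3), u)) := by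
  classical
  rw [Th, tsum_three fun h hh => by rw [th, Tc_Bs_of_not hh]; simp, Sm, ← tsum_mul_left,
    ← tsum_mul_left, ← tsum_mul_left, ← tsum_mul_left]
  refine tsum_congr fun N => ?_
  by_cases hp : Prim N
  swap
  · simp [hp]
  have h0 := hp.ne_zero
  have h1 : 0 < ‖emb N‖ := by rw [norm_emb]; exact Real.sqrt_pos.2 (Nr_pos h0)
  have e1 : Real.sqrt (u ^ 2 / 9 * Nr N) = u * ‖emb N‖ / 3 := by
    rw [← norm_emb_sq, Real.sqrt_eq_iff_mul_self_eq (by positivity) (by positivity)]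
    ring
  have e3 : emb 3 = 3 := map_ofNat emb 3
  have e9 : emb 9 = 9 := map_ofNat emb 9
  have e2 : u * ‖emb (3 * N)‖ / 9 = u * ‖emb N‖ / 3 := by
    rw [map_mul, norm_mul, e3, Complex.norm_ofNat]
    ring
  have e4 : eO l 9 * eh (3 * N) (-(emb l / 3)) = conj (eO (l * (N - 1)) 9) := by
    rw [← eO_neg, eO, eO, eh, ← ec_add, e9]
    congr 1
    simp only [map_mul, map_neg, map_sub, map_one, e3]
    ring
  have e5 : (u ^ 2 / 9) ^ (4 / 3 : ℝ) * 3 = 27 * (u ^ (2 / 3 : ℝ) * (9 : ℝ) ^ (-(7 / 3) : ℝ) * u ^ 2) := by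
    have a1 : (u ^ 2) ^ (4 / 3 : ℝ) = u ^ (2 / 3 : ℝ) * u ^ 2 := by
      rw [← Real.rpow_natCast, ← Real.rpow_mul hu.le, ← Real.rpow_add hu]
      norm_num
    have a2 : (9 : ℝ) ^ (-(7 / 3) : ℝ) = ((9 : ℝ) ^ (4 / 3 : ℝ))⁻¹ / 9 := by
      rw [← Real.rpow_neg (by norm_num), ← Real.rpow_sub_one (by norm_num)]
      norm_num
    rw [Real.div_rpow (by positivity) (by norm_num), a1, a2]
    ring
  have e6 := congrArg (fun x : ℝ => (x : ℂ)) e5
  simp only [ofReal_mul, ofReal_pow, ofReal_ofNat] at e6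
  rw [if_neg h0, if_pos hp, if_pos hp, if_neg (mul_ne_zero (by decide) h0), th,
    Tc_three_mul per_Bs (fun n => op_Bs) hp, GK, e1, e2, ← e4, ← norm_emb, pw]
  have h2 : (‖emb N‖ : ℂ) ≠ 0 := ofReal_ne_zero.2 h1.ne'
  have h3 : (u : ℂ) ≠ 0 := ofReal_ne_zero.2 hu.ne'
  simp only [ofReal_mul, ofReal_div, ofReal_ofNat]
  change Tc Bs 3 * _ = _
  field_simp
  linear_combination (Tc Bs 3 * tg N * eO l 9 * eh (3 * N) (-(emb l / 3)) *
    (K1 (u * ‖emb N‖ / 3) : ℂ)) * e6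

/-- `conv'` applied to `T0` times the sequence. -/
theorem Rl_rel {l : O} {L : ℂ}
    (h : Tendsto (fun u : ℝ => ((u ^ (2 / 3 : ℝ) : ℝ) : ℂ) * Th Bs (-(emb l / 3), u)) (𝓝[>] 0) (𝓝 L)) :
    T0 * (Z2⁻¹ * conj (Rl l)) * Me GK = 27 * eO l 9 * L * Me F0 := by
  have pg := csB_pg (f := tg) (e := fun N => conj (eO (l * (N - 1)) 9)) (fun N => norm_tg_le)
    fun N => by rw [RCLike.norm_conj, norm_eO]
  obtain ⟨C, hC⟩ := pg
  have hs : Tendsto (fun t : ℝ => 3 * Real.sqrt t) (𝓝[>] 0) (𝓝[>] 0) := by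
    refine tendsto_nhdsWithin_iff.2 ⟨?_, ?_⟩
    · have : Tendsto (fun t : ℝ => 3 * Real.sqrt t) (𝓝 0) (𝓝 (3 * Real.sqrt 0)) :=
        (Real.continuous_sqrt.tendsto 0).const_mul 3
      rw [Real.sqrt_zero, mul_zero] at this
      exact this.mono_left nhdsWithin_le_nhds
    · filter_upwards [self_mem_nhdsWithin] with t ht using mul_pos three_pos (Real.sqrt_pos.2 ht)
  refine conv' (a := fun N => T0 * if Prim N then
      tg N * (Real.sqrt (Nr N) : ℂ) * conj (eO (l * (N - 1)) 9) else 0) ⟨‖T0‖ * C, fun c => ?_⟩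
    (Mild.of_nice nice_F0) mild_GK ((res_tg l).const_mul T0)
    (((h.comp hs).const_mul (27 * eO l 9)).congr' ?_)
  · rw [norm_mul, mul_assoc ‖T0‖]
    exact mul_le_mul_of_nonneg_left (hC c) (norm_nonneg T0)
  · filter_upwards [self_mem_nhdsWithin] with t ht
    have ht : 0 < t := ht
    have := Sm_GK l (mul_pos three_pos (Real.sqrt_pos.2 ht))
    rw [show (3 * Real.sqrt t) ^ 2 / 9 = t by rw [mul_pow, Real.sq_sqrt ht.le]; ring] at this
    rw [csB_Sm_mul, this]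
    rfl

theorem lim_Bs_zero :
    Tendsto (fun u : ℝ => ((u ^ (2 / 3 : ℝ) : ℝ) : ℂ) * Th Bs (0, u)) (𝓝[>] 0) (𝓝 (b0 / 3)) := by
  have e1 : gS 1 0 = 1 := rfl
  have e0 : gS 0 0 = 0 := rfl
  have h := cusp_lim per_Bs per_Bd (g := gS) (by rw [e1]; exact one_ne_zero) cf_Bs_S
  simpa [e1, e0, Nr_one, sig0_Bd] using h

/-- `Γ(4/3) = c₀ / (3 Γ(2/3))` (reflection formula). -/
theorem b1_eq : b1 = c0 ^ (5 / 3 : ℝ) / (27 * Real.Gamma (2 / 3)) := by
  rw [b1, csB_refl, show (5 / 3 : ℝ) = 2 / 3 + 1 by norm_num, Real.rpow_add_one c0_pos.ne']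
  have h3 : 0 < Real.Gamma (2 / 3) := Real.Gamma_pos_of_pos (by norm_num)
  field_simp
  ring

theorem norm_T0 : ‖T0‖ = (9 : ℝ) ^ (7 / 3 : ℝ) * ‖b0‖ := by
  have h := Rl_rel (l := 0) (L := b0 / 3) (by simpa using lim_Bs_zero)
  obtain ⟨z, hz0, hz⟩ := Z2_pos
  have h3 : 0 < Real.Gamma (2 / 3) := Real.Gamma_pos_of_pos (by norm_num)
  have hc : 0 < c0 ^ (5 / 3 : ℝ) := Real.rpow_pos_of_pos c0_pos _
  have h9 : 0 < (9 : ℝ) ^ (1 / 6 : ℝ) := by positivity
  have e1 : Rl 0 = T0 * Me F0 / (81 * (((9 : ℝ) ^ (1 / 6 : ℝ) : ℝ) : ℂ)) := by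
    have := Me_F0_ne
    have := ofReal_ne_zero.2 h9.ne'
    rw [T0_eq]
    field_simp
  have e2 : ((9 : ℝ) ^ (7 / 3 : ℝ)) ^ 2 = 19683 * (9 : ℝ) ^ (1 / 6 : ℝ) := by
    rw [← Real.rpow_natCast, ← Real.rpow_mul (by norm_num),
      show (7 / 3 : ℝ) * (2 : ℕ) = (2⁻¹ : ℝ) * (9 : ℕ) + 1 / 6 by norm_num,
      Real.rpow_add (by norm_num), Real.rpow_mul (by norm_num), Real.rpow_natCast,
      show (9 : ℝ) = 3 ^ 2 by norm_num, show (2⁻¹ : ℝ) = ((2 : ℕ) : ℝ)⁻¹ by norm_num,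
      Real.pow_rpow_inv_natCast (by norm_num) (by norm_num)]
    norm_num
  have e3 : T0 ^ 2 = ((((9 : ℝ) ^ (7 / 3 : ℝ) : ℝ) : ℂ) * b0) ^ 2 := by
    rw [conj_Rl_zero, e1, Me_GK, eO_of_dvd (dvd_zero _), Real.rpow_neg c0_pos.le, b0, b1_eq, hz] at h
    rw [mul_pow, ← ofReal_pow, e2, b0, b1_eq, hz]
    have := Me_F0_ne
    have := ofReal_ne_zero.2 h9.ne'
    have := ofReal_ne_zero.2 h3.ne'
    have := ofReal_ne_zero.2 hc.ne'
    have := ofReal_ne_zero.2 hz0.ne'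
    simp only [ofReal_mul, ofReal_div, ofReal_ofNat, ofReal_inv] at h ⊢
    field_simp at h ⊢
    linear_combination 243 * h
  have e4 := congrArg norm e3
  rw [norm_pow, norm_pow, sq_eq_sq₀ (norm_nonneg _) (norm_nonneg _), norm_mul, Complex.norm_real,
    Real.norm_of_nonneg (by positivity)] at e4
  exact e4

theorem T0_ne : T0 ≠ 0 := by
  obtain ⟨z, hz0, hz⟩ := b0_pos
  rw [← norm_pos_iff, norm_T0, hz, Complex.norm_real, Real.norm_of_nonneg hz0.le]
  positivity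

/-- If `T0` is positive the constant is Patterson's. -/
theorem mT_eq (h : T0 = (((9 : ℝ) ^ (7 / 3 : ℝ) : ℝ) : ℂ) * b0) : mT = T0 * ((c0 / 9 * cst : ℝ) : ℂ) := by
  have h3 : 0 < Real.Gamma (2 / 3) := Real.Gamma_pos_of_pos (by norm_num)
  have e1 : (2 * Real.pi) ^ (2 / 3 : ℝ) = c0 ^ (2 / 3 : ℝ) * (3 : ℝ) ^ (1 / 3 : ℝ) := by
    have : 2 * Real.pi = c0 * Real.sqrt 3 := by
      unfold c0
      field_simp
    rw [this, Real.mul_rpow c0_pos.le (Real.sqrt_nonneg _), Real.sqrt_eq_rpow,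
      ← Real.rpow_mul (by norm_num)]
    norm_num
  have e2 : (9 : ℝ) ^ (7 / 3 : ℝ) * (3 : ℝ) ^ (1 / 3 : ℝ) = 243 := by
    rw [show (9 : ℝ) = 3 ^ ((2 : ℕ) : ℝ) by norm_num, ← Real.rpow_mul (by norm_num),
      ← Real.rpow_add (by norm_num), show ((2 : ℕ) : ℝ) * (7 / 3) + 1 / 3 = (5 : ℕ) by norm_num,
      Real.rpow_natCast]
    norm_num
  have e3 : 9 * (c0 ^ (5 / 3 : ℝ) / Real.Gamma (2 / 3)) = (9 : ℝ) ^ (7 / 3 : ℝ) * (c0 / 9 * cst) := by
    rw [cst, e1, show (5 / 3 : ℝ) = 2 / 3 + 1 by norm_num, Real.rpow_add_one c0_pos.ne']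
    field_simp
    linear_combination -(c0 ^ (2 / 3 : ℝ) * c0) * e2
  have e4 := congrArg (fun x : ℝ => (x : ℂ)) e3
  simp only [ofReal_mul, ofReal_ofNat] at e4
  rw [h, mT, ofReal_mul]
  linear_combination b0 * e4

end Crest.Agent.R012

end
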