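import Crest.Agent.R012.CsB

/-! # Row 12: bounds for the twisted residues -/

set_option autoImplicit false

noncomputable section

open scoped BigOperators ComplexConjugate Topology
open Complex MeasureTheory Filter Set Crest.Agent.R017 Crest.Agent.R017.Theta

namespace Crest.Agent.R012

private theorem CsC_ne {u : O} (hu : IsUnit u) (k : ℕ) : u * lam ^ k ≠ 0 :=
  mul_ne_zero hu.ne_zero (pow_ne_zero _ prime_lam.ne_zero)

private theorem CsC_Nr {u : O} (hu : IsUnit u) (k : ℕ) : Nr (u * lam ^ k) = 3 ^ k := by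
  rw [Nr_mul, isUnit_iff_Nr.1 hu, one_mul, Nr_pow, Nr_lam]

private theorem CsC_cf_per {B : O × O → ℂ} (hB : Per B) {u : O} (hu : IsUnit u) (k : ℕ) (d d' : O)
    (h : (9 : O) ∣ d - d') : cf B (u * lam ^ k, d) = cf B (u * lam ^ k, d') := by
  have hl := lm_iff h
  have hc : ∀ e : O, Cop (u * lam ^ k, e) ↔ (k = 0 ∨ ¬ lam ∣ e) := fun e => by
    show IsCoprime (u * lam ^ k) e ↔ _
    rw [isCoprime_mul_unit_left_left hu]
    rcases Nat.eq_zero_or_pos k with rfl | hk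
    · simp [isCoprime_one_left]
    · rw [IsCoprime.pow_left_iff hk, prime_lam.coprime_iff_not_dvd]
      simp [hk.ne']
  unfold cf
  by_cases h1 : Cop (u * lam ^ k, d)
  · have h2 : Cop (u * lam ^ k, d') := by
      rw [hc] at h1 ⊢
      rwa [← hl]
    rw [if_pos h1, if_pos h2, hB.wt.per _ _ _ h]
    congr 1
    unfold sy sym
    simp only
    by_cases h3 : lam ∣ d
    · obtain rfl : k = 0 := ((hc d).1 h1).resolve_right (not_not.2 h3)
      rw [if_pos h3, if_pos (hl.1 h3), pow_zero, mul_one, kap_unit_left hu, kap_unit_left hu]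
    · rw [if_neg h3, if_neg fun h4 => h3 (hl.2 h4)]
      rcases Nat.eq_zero_or_pos k with rfl | hk
      · rw [pow_zero, mul_one, kap_unit_per hu h3 h]
      · rw [kap_mul_right, kap_mul_right, kap_pow_right _ _ hk.ne', kap_pow_right _ _ hk.ne',
          kap_unit_per hu h3 h, kap_lam_per h3 h]
  · rw [if_neg h1, if_neg fun h2 => h1 (by
      rw [hc] at h2 ⊢
      rwa [hl])]

open Classical in
private theorem CsC_gs_le {f : O → ℂ} (hf : ∀ x, ‖f x‖ ≤ 1) (n h : O) :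
    ‖gs f n h‖ ≤ (((reps n).filter fun d => f d ≠ 0).card : ℝ) := by
  unfold gs
  rw [← Finset.sum_filter_of_ne (p := fun d => f d ≠ 0) fun x _ hx => left_ne_zero_of_mul hx]
  refine (norm_sum_le _ _).trans ?_
  rw [Finset.card_eq_sum_ones, Nat.cast_sum]
  refine Finset.sum_le_sum fun x _ => ?_
  rw [norm_mul, norm_eO, mul_one, Nat.cast_one]
  exact hf x

open Classical in
/-- For `c₀ = u λ^k` the function `cf B (c₀, ·)` has period `9` (`gs_tower`). -/
theorem Ac_ul {B : O × O → ℂ} (hB : Per B) {u : O} (hu : IsUnit u) (k : ℕ) (h : O) :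
    Ac B (u * lam ^ k) h = if u * lam ^ k ∣ h then
      (3 : ℂ) ^ k * gs (fun d => cf B (u * lam ^ k, d)) 9 (h / (u * lam ^ k)) else 0 := by
  unfold Ac
  rw [gs_tower ga_nine (CsC_ne hu k) (CsC_cf_per hB hu k), CsC_Nr hu]
  push_cast
  rfl

open Classical in
theorem norm_sig0_le {B : O × O → ℂ} (hB : Per B) (h : ∀ c d : O, lam ∣ c → cf B (c, d) = 0) :
    ‖sig0 B‖ ≤ ‖b0‖ / 81 * ∑ u ∈ box 1, (((reps 9).filter (fun d => cf B (u, d) ≠ 0)).card : ℝ) := by
  unfold sig0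
  rw [tsum_eq_single 0 fun k hk => by
    rw [Finset.sum_eq_zero fun u _ => by
      unfold Ac gs
      exact Finset.sum_eq_zero fun d _ => by
        simp only [h _ _ ((dvd_pow_self lam hk).mul_left u), zero_mul], mul_zero]]
  have h81 : ‖(81 : ℂ)‖ = 81 := by simp
  rw [norm_mul, norm_div, h81]
  refine mul_le_mul_of_nonneg_left ?_ (by positivity)
  simp only [Nat.cast_zero, mul_zero, neg_zero, zero_div, Real.rpow_zero, ofReal_one, one_mul]
  refine (norm_sum_le _ _).trans (Finset.sum_le_sum fun u hu => ?_)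
  rw [Ac_ul hB (c3t_box.1 hu), if_pos (dvd_zero _)]
  simp only [pow_zero, mul_one, one_mul]
  exact CsC_gs_le (fun d => norm_cf_le hB.bd _) _ _

theorem Rl_congr {l l' : O} (h : (3 : O) ∣ l - l') : Rl l = Rl l' := by
  have : Bl l = Bl l' := by
    funext x
    unfold Bl
    by_cases hx : Prim x.1
    · rw [eO_congr (x := l * (x.1 - 1)) (y := l' * (x.1 - 1))]
      rw [← sub_mul, show (9 : O) = 3 * 3 by norm_num]
      exact mul_dvd_mul h hx
    · rw [Bs, if_neg hx, zero_mul, zero_mul]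
  rw [Rl, Rl, this]

private theorem CsC_cmp {l : O} {L : ℂ} {c : ℝ}
    (h : Tendsto (fun u : ℝ => ((u ^ (2 / 3 : ℝ) : ℝ) : ℂ) * Th Bs (-(emb l / 3), u)) (𝓝[>] 0) (𝓝 L))
    (hL : ‖L‖ ≤ c * (‖b0‖ / 3)) : ‖Rl l‖ ≤ c * ‖Rl 0‖ := by
  have h1 := congrArg norm (Rl_rel h)
  have h0 := congrArg norm (Rl_rel (l := 0) (L := b0 / 3) (by simpa using lim_Bs_zero))
  simp only [norm_mul, RCLike.norm_conj, norm_eO, mul_one, norm_div] at h1 h0
  have hT : 0 < ‖T0‖ := norm_pos_iff.2 T0_ne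
  have hZ : 0 < ‖Z2⁻¹‖ := by
    obtain ⟨z, hz, e⟩ := Z2_pos
    rw [e]
    exact norm_pos_iff.2 (inv_ne_zero (ofReal_ne_zero.2 hz.ne'))
  have hG : 0 < ‖Me GK‖ := by
    have := c0_pos
    have := Real.Gamma_pos_of_pos (show (0 : ℝ) < 2 / 3 by norm_num)
    rw [Me_GK]
    exact norm_pos_iff.2 (ofReal_ne_zero.2 (by positivity))
  have h3 : ‖(3 : ℂ)‖ = 3 := by simp
  rw [h3] at h0
  refine le_of_mul_le_mul_left (a := ‖T0‖ * ‖Z2⁻¹‖ * ‖Me GK‖) ?_ (by positivity)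
  calc _ = ‖(27 : ℂ)‖ * ‖L‖ * ‖Me F0‖ := by rw [← h1]; ring
    _ ≤ ‖(27 : ℂ)‖ * (c * (‖b0‖ / 3)) * ‖Me F0‖ := by gcongr
    _ = c * (‖(27 : ℂ)‖ * (‖b0‖ / 3) * ‖Me F0‖) := by ring
    _ = _ := by rw [← h0]; ring

private theorem CsC_cusp {a q d : O} (had : a * d = 1) (hq : q ≠ 0) (hl : lam ∣ q) :
    ∃ L : ℂ, Tendsto (fun u : ℝ => ((u ^ (2 / 3 : ℝ) : ℝ) : ℂ) * Th Bs (emb a / emb q, u))
      (𝓝[>] 0) (𝓝 L) ∧ ‖L‖ ≤ ‖b0‖ * Nr q ^ (-(2 / 3) : ℝ) := by
  classical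
  obtain ⟨act, hper, -, hact⟩ := exists_act
  let g : SG := mkSG a 0 q d (by rw [had]; simp)
  have hd : IsUnit d := IsUnit.of_mul_eq_one_right a had
  have ha : IsUnit a := IsUnit.of_mul_eq_one d had
  have hB' := hper Bs (g 0 0) (g 0 1) (g 1 0) (g 1 1) per_Bs
  have hg := hact Bs g per_Bs
  set B' := act Bs (g 0 0) (g 0 1) (g 1 0) (g 1 1)
  have hκ : ‖conj (sy (bot g))‖ = 1 := by rw [RCLike.norm_conj, norm_sy (cop_bot g)]
  refine ⟨_, cusp_lim per_Bs hB' (g := g) hq hg, ?_⟩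
  have key : ∀ y : O × O, cf B' y ≠ 0 → ∃ x₁ x₂ : O, Prim x₁ ∧ y.1 = x₁ * a + x₂ * q ∧
      y.2 = x₂ * d := fun y hy => by
    have e : ra (ra y g⁻¹) g = y := by rw [← ra_mul, inv_mul_cancel, ra_one]
    have h1 := hg (ra y g⁻¹)
    rw [e] at h1
    have h2 : cf Bs ((ra y g⁻¹).1, (ra y g⁻¹).2) ≠ 0 := by
      rw [Prod.mk.eta, h1]
      exact mul_ne_zero (norm_ne_zero_iff.1 (by rw [hκ]; exact one_ne_zero)) hy
    rw [cf_Bs] at h2
    refine ⟨(ra y g⁻¹).1, (ra y g⁻¹).2, by_contra fun h3 => h2 (if_neg h3), ?_, ?_⟩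
    · conv_lhs => rw [← e]
      rfl
    · conv_lhs => rw [← e]
      show _ * 0 + _ = _
      rw [mul_zero, zero_add]
      rfl
  have h1 : ‖sig0 B'‖ ≤ ‖b0‖ := by
    refine (norm_sig0_le hB' fun c e hc => by_contra fun h0 => ?_).trans ?_
    · obtain ⟨x₁, x₂, h1, h2, -⟩ := key _ h0
      simp only at h2
      rw [h2, dvd_add_left (hl.mul_left _), ha.dvd_mul_right] at hc
      exact h1.not_lam_dvd hc
    · have h2 : ∑ u ∈ box 1, ((reps 9).filter fun d => cf B' (u, d) ≠ 0).card ≤ 81 := by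
        rw [← Finset.card_biUnion]
        · refine (Finset.card_le_card (t := reps 9) ?_).trans ?_
          · exact Finset.biUnion_subset.2 fun u _ => Finset.filter_subset _ _
          · rw [card_reps ga_nine]
            decide
        · intro u hu u' hu' hne
          refine Finset.disjoint_left.2 fun e he he' => hne ?_
          obtain ⟨x₁, x₂, h1, h2, h3⟩ := key _ (Finset.mem_filter.1 he).2
          obtain ⟨y₁, y₂, h1', h2', h3'⟩ := key _ (Finset.mem_filter.1 he').2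
          simp only at h2 h3 h2' h3'
          obtain rfl : x₂ = y₂ := mul_right_cancel₀ hd.ne_zero (h3.symm.trans h3')
          refine s1t_unit_eq (c3t_box.1 hu) (c3t_box.1 hu') ?_
          rw [h2, h2', show x₁ * a + x₂ * q - (y₁ * a + x₂ * q) = ((x₁ - 1) - (y₁ - 1)) * a by ring]
          exact (dvd_sub h1 h1').mul_right a
      have h3 : ∑ u ∈ box 1, (((reps 9).filter fun d => cf B' (u, d) ≠ 0).card : ℝ) ≤ 81 := by
        exact_mod_cast h2
      calc _ ≤ ‖b0‖ / 81 * 81 := by gcongr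
        _ = _ := by ring
  have h2 : 0 ≤ Nr q ^ (-(2 / 3) : ℝ) := Real.rpow_nonneg (Nr_nonneg q) _
  rw [norm_mul, norm_mul, hκ, one_mul, Complex.norm_real]
  show _ * ‖Nr q ^ (-(2 / 3) : ℝ)‖ ≤ _
  rw [Real.norm_of_nonneg h2]
  gcongr

/-- `g = (-l, 0; 3, -l⁻¹)`, `exists_act`, `cusp_lim`: only the rows with first entry `≡ -l mod 3`
occur, so `‖sig0 B'‖ ≤ ‖b0‖`, and compare `Rl_rel` for `l` and `0`. -/
theorem norm_Rl_unit {l : O} (hl : IsUnit l) : ‖Rl l‖ ≤ (3 : ℝ) ^ (-(1 / 3) : ℝ) * ‖Rl 0‖ := by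
  obtain ⟨l', hl'⟩ := hl.exists_right_inv
  obtain ⟨L, h1, h2⟩ := CsC_cusp (a := -l) (q := 3) (d := -l') (by rw [neg_mul_neg, hl'])
    (by decide) lam_dvd_three
  rw [map_neg, neg_div, map_ofNat] at h1
  refine CsC_cmp h1 (h2.trans (le_of_eq ?_))
  have e : Nr 3 = (3 : ℝ) ^ (2 : ℝ) := by
    rw [b1_Nr_eq]
    norm_num [nz, b1_three_re, b1_three_im]
  rw [e, ← Real.rpow_mul (by norm_num), show (2 : ℝ) * -(2 / 3) = -(1 / 3) + -1 by norm_num,
    Real.rpow_add (by norm_num), Real.rpow_neg_one]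
  ring

/-- `-λ/3 = ω/λ`; `g = (± ω, 0; λ, ± ω²)`: three units, each with at most `27` classes `d mod 9`. -/
theorem norm_Rl_lam {l : O} (hl : l = lam ∨ l = -lam) : ‖Rl l‖ ≤ (3 : ℝ) ^ (1 / 3 : ℝ) * ‖Rl 0‖ := by
  have hl0 : emb lam ≠ 0 := (map_ne_zero_iff emb emb_injective).2 prime_lam.ne_zero
  have e : emb om / emb lam = -(emb lam / 3) := by
    have h1 := congrArg emb lam_sq
    rw [map_pow, map_mul, map_neg, map_ofNat] at h1
    field_simp
    linear_combination h1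
  have h3 : ‖b0‖ * Nr lam ^ (-(2 / 3) : ℝ) = (3 : ℝ) ^ (1 / 3 : ℝ) * (‖b0‖ / 3) := by
    rw [Nr_lam, show (-(2 / 3) : ℝ) = 1 / 3 + -1 by norm_num, Real.rpow_add (by norm_num),
      Real.rpow_neg_one]
    ring
  rcases hl with rfl | rfl
  · obtain ⟨L, h1, h2⟩ := CsC_cusp (a := om) (q := lam) (d := om ^ 2) (by decide)
      prime_lam.ne_zero dvd_rfl
    rw [e] at h1
    exact CsC_cmp h1 (h2.trans h3.le)
  · obtain ⟨L, h1, h2⟩ := CsC_cusp (a := -om) (q := lam) (d := -om ^ 2) (by decide)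
      prime_lam.ne_zero dvd_rfl
    rw [map_neg, neg_div, e, ← neg_div, ← map_neg] at h1
    exact CsC_cmp h1 (h2.trans h3.le)

/-- The classes modulo `3` are `0`, the six units and `± λ`: `1 + 6 · 3^{-2/3} + 2 · 3^{2/3} ≤ 8.12`. -/
theorem sum_Rl_sq : ∑ l ∈ reps 3, ‖Rl l‖ ^ 2 ≤ (57 / 20) ^ 2 * ‖Rl 0‖ ^ 2 := by
  rw [b3_sum_map (n := 3) (by decide) (fun l => ‖Rl l‖ ^ 2) (fun x y h => by rw [Rl_congr h])
    (Finset.Icc (-1 : ℤ) 1 ×ˢ Finset.Icc (-1 : ℤ) 1) (fun p => (⟨p.1, p.2⟩ : O)) (fun y =>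
      ⟨((y.re + 1) % 3 - 1, (y.im + 1) % 3 - 1), by
        simp only [Finset.mem_product, Finset.mem_Icc]; omega, by
        rw [b1_three_dvd]
        simp only [QuadraticAlgebra.re_sub, QuadraticAlgebra.im_sub]; omega⟩)
    (fun s hs t ht h => by
      rw [b1_three_dvd] at h
      simp only [QuadraticAlgebra.re_sub, QuadraticAlgebra.im_sub, Finset.mem_product,
        Finset.mem_Icc] at h hs ht
      exact Prod.ext (by omega) (by omega))]
  set a : ℝ := (3 : ℝ) ^ (1 / 3 : ℝ) with ha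
  have ha0 : 0 < a := by positivity
  have ha3 : a ^ 3 = 3 := by
    rw [ha, ← Real.rpow_natCast, ← Real.rpow_mul (by norm_num)]
    norm_num
  have ha1 : a ≤ 1.445 := le_of_pow_le_pow_left₀ three_ne_zero (by norm_num)
    (by rw [ha3]; norm_num)
  have hinv : (3 : ℝ) ^ (-(1 / 3) : ℝ) = a ^ 2 / 3 := by
    rw [Real.rpow_neg (by norm_num), ← ha]
    field_simp
    linarith
  have hR := norm_nonneg (Rl 0)
  have hU : ∀ l : O, nz l = 1 → ‖Rl l‖ ^ 2 ≤ 1.445 / 3 * ‖Rl 0‖ ^ 2 := fun l hl => by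
    have h1 := norm_Rl_unit (b1_isUnit_iff_nz.2 hl)
    rw [hinv] at h1
    calc _ ≤ (a ^ 2 / 3 * ‖Rl 0‖) ^ 2 := pow_le_pow_left₀ (norm_nonneg _) h1 2
      _ = a ^ 3 * a / 9 * ‖Rl 0‖ ^ 2 := by ring
      _ ≤ 3 * 1.445 / 9 * ‖Rl 0‖ ^ 2 := by
        rw [ha3]
        exact mul_le_mul_of_nonneg_right (by linarith) (sq_nonneg _)
      _ = _ := by ring
  have hL : ∀ l : O, (l = lam ∨ l = -lam) → ‖Rl l‖ ^ 2 ≤ 1.445 ^ 2 * ‖Rl 0‖ ^ 2 := fun l hl => by
    have h1 := norm_Rl_lam hl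
    calc _ ≤ (a * ‖Rl 0‖) ^ 2 := pow_le_pow_left₀ (norm_nonneg _) h1 2
      _ ≤ (1.445 * ‖Rl 0‖) ^ 2 :=
        pow_le_pow_left₀ (by positivity) (mul_le_mul_of_nonneg_right ha1 hR) 2
      _ = _ := by ring
  have hI : Finset.Icc (-1 : ℤ) 1 = {-1, 0, 1} := by decide
  rw [Finset.sum_product, hI]
  simp only [Finset.mem_insert, Finset.mem_singleton, Finset.sum_insert, Finset.sum_singleton,
    not_false_eq_true, Int.reduceNeg, reduceCtorEq, or_self, zero_ne_one, neg_eq_zero,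
    one_ne_zero, Int.reduceEq]
  have h1 := hU ⟨-1, -1⟩ (by decide)
  have h2 := hU ⟨-1, 0⟩ (by decide)
  have h3 := hL ⟨-1, 1⟩ (Or.inr (by decide))
  have h4 := hU ⟨0, -1⟩ (by decide)
  have h5 : Rl ⟨0, 0⟩ = Rl 0 := rfl
  have h6 := hU ⟨0, 1⟩ (by decide)
  have h7 := hL ⟨1, -1⟩ (Or.inl rfl)
  have h8 := hU ⟨1, 0⟩ (by decide)
  have h9 := hU ⟨1, 1⟩ (by decide)
  rw [h5]
  nlinarith [sq_nonneg ‖Rl 0‖]

private theorem CsC_res_sum {ι : Type} {a : ι → O → ℂ} {L : ι → ℂ} (S : Finset ι)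
    (hpg : ∀ m, PG (a m)) (h : ∀ m ∈ S, Res (a m) (L m)) :
    Res (fun c => ∑ m ∈ S, a m c) (∑ m ∈ S, L m) := by
  classical
  have hpg' : ∀ S : Finset ι, PG (fun c => ∑ m ∈ S, a m c) := by
    intro S
    choose C hC using hpg
    refine ⟨∑ m ∈ S, C m, fun c => (norm_sum_le _ _).trans ?_⟩
    rw [Finset.sum_mul]
    exact Finset.sum_le_sum fun m _ => hC m c
  induction S using Finset.induction_on with
  | empty => simpa using res_zero
  | insert m S hm ih =>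
    simp only [Finset.sum_insert hm]
    exact Res.add (hpg m) (hpg' S) (h m (Finset.mem_insert_self _ _))
      (ih fun i hi => h i (Finset.mem_insert_of_mem hi))

/-- Expand `y ↦ Ψ (1 + 3 y)` modulo `3` (`gs_inversion`, `gs_plancherel`, Cauchy–Schwarz). -/
theorem res_per {Ψ : O → ℂ} {S : ℝ} (hS : 0 ≤ S) (hb : ∀ n, Prim n → ‖Ψ n‖ ≤ S)
    (hp : ∀ n n', Prim n → (9 : O) ∣ n - n' → Ψ n = Ψ n') :
    ∃ L : ℂ, Res (fun n => if Prim n then gt n * (Real.sqrt (Nr n) : ℂ) * Ψ n else 0) L ∧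
      ‖L‖ ≤ 57 / 20 * S * ‖Rl 0‖ := by
  have h3 : (3 : O) ≠ 0 := by decide
  have hN : Nr 3 = 9 := by
    rw [b1_Nr_eq]
    norm_num [nz, b1_three_re, b1_three_im]
  have hpr : ∀ y : O, Prim (1 + 3 * y) := fun y => ⟨y, by ring⟩
  let φ : O → ℂ := fun y => Ψ (1 + 3 * y)
  have hφ : ∀ x y, (3 : O) ∣ x - y → φ x = φ y := fun x y ⟨z, hz⟩ =>
    hp _ _ (hpr x) ⟨z, by linear_combination 3 * hz⟩
  let c : O → ℂ := fun h => (9 : ℂ)⁻¹ * gs φ 3 h
  refine ⟨∑ h ∈ reps 3, c h * Rl (-h), (CsC_res_sum (reps 3) (fun h => ⟨‖c h‖, fun n => ?_⟩)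
    fun h _ => (res_Rl (-h)).const_mul (c h)).congr fun n _ => ?_, ?_⟩
  · rw [norm_mul]
    refine mul_le_mul_of_nonneg_left ?_ (norm_nonneg _)
    split_ifs with hn
    · have h1 := one_le_Nr hn.ne_zero
      rw [norm_mul, norm_mul, norm_eO, mul_one, Complex.norm_real,
        Real.norm_of_nonneg (Real.sqrt_nonneg _)]
      refine (mul_le_of_le_one_left (Real.sqrt_nonneg _) (norm_gt_le hn)).trans ?_
      rw [Real.sqrt_le_left (by linarith)]
      nlinarith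
    · rw [norm_zero]
      exact Nr_nonneg n
  · split_ifs with hn
    · obtain ⟨y, hy⟩ := hn
      have e : n = 1 + 3 * y := by linear_combination hy
      have h1 : Ψ n = φ y := by rw [e]
      rw [h1, gs_inversion h3 φ hφ y, hN, Finset.mul_sum, Finset.mul_sum]
      refine Finset.sum_congr rfl fun h _ => ?_
      rw [hy, show -h * (3 * y) = 3 * -(h * y) by ring, show (9 : O) = 3 * 3 by norm_num,
        eO_mul_cancel h3]
      simp only [c]
      push_cast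
      ring
    · simp
  · have h1 : ∑ h ∈ reps 3, ‖c h‖ ^ 2 ≤ S ^ 2 := by
      have h9 : ‖(9 : ℂ)⁻¹‖ = 9⁻¹ := by simp
      simp only [c, norm_mul, mul_pow, h9]
      rw [← Finset.mul_sum, gs_plancherel h3, hN]
      have h2 : ∑ x ∈ reps 3, ‖φ x‖ ^ 2 ≤ 9 * S ^ 2 := by
        refine (Finset.sum_le_card_nsmul _ _ (S ^ 2) fun x _ => ?_).trans (le_of_eq ?_)
        · have := hb _ (hpr x)
          gcongr
        · rw [card_reps h3, show nm 3 = 9 by decide, nsmul_eq_mul]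
          norm_num
      linarith
    have h2 : ∑ h ∈ reps 3, ‖Rl (-h)‖ ^ 2 ≤ (57 / 20) ^ 2 * ‖Rl 0‖ ^ 2 := by
      have := sum_reps_affine h3 (fun l => ‖Rl l‖ ^ 2) (fun x y h => by rw [Rl_congr h])
        (u := -1) isCoprime_one_left.neg_left 0
      simp only [neg_mul, one_mul, add_zero] at this
      rw [this]
      exact sum_Rl_sq
    refine (norm_sum_le _ _).trans ?_
    simp only [norm_mul]
    refine le_of_pow_le_pow_left₀ two_ne_zero (by positivity) ?_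
    refine (Finset.sum_mul_sq_le_sq_mul_sq _ _ _).trans ?_
    calc _ ≤ S ^ 2 * ((57 / 20) ^ 2 * ‖Rl 0‖ ^ 2) := by gcongr
      _ = _ := by ring

open Classical in
/-- The moduli `c₀ n` with `c₀ = u' λ^j` fixed and `n` primary. -/
private theorem CsC_piece {B : O × O → ℂ} (hB : Per B) (hop : ∀ n, Prim n → Op n B = B) {u u' : O}
    (hu : IsUnit u) (hu' : IsUnit u') {k j : ℕ} (hj : j ≤ k) :
    ∃ L : ℂ, Res (fun c => if ∃ n, Prim n ∧ c = u' * lam ^ j * n then Ac B c (u * lam ^ k) else 0) L ∧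
      ‖L‖ ≤ 57 / 20 * ‖Rl 0‖ * ((3 : ℝ) ^ (-(j : ℝ) / 3) *
        (((reps 9).filter (fun d => cf B (u' * lam ^ j, d) ≠ 0)).card : ℝ)) := by
  have hc0 := CsC_ne hu' j
  obtain ⟨r', hr'⟩ : u' * lam ^ j ∣ u * lam ^ k := mul_dvd_mul hu'.dvd (pow_dvd_pow lam hj)
  set S : ℝ := (((reps 9).filter (fun d => cf B (u' * lam ^ j, d) ≠ 0)).card : ℝ) with hS
  let Ψ : O → ℂ := fun n => kap n 9 * conj (kap n (u * lam ^ k)) * kap n sq3 *
    gs (fun d => cf B (u' * lam ^ j, d)) 9 (n * r')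
  have hom : IsUnit om := isUnit_iff.2 (by simp)
  obtain ⟨L, hL, hLS⟩ := res_per (Ψ := Ψ) (S := S) (Nat.cast_nonneg _) (fun n _ => by
      simp only [Ψ, norm_mul, RCLike.norm_conj]
      refine le_trans (mul_le_of_le_one_left (norm_nonneg _) ?_)
        (CsC_gs_le (fun d => norm_cf_le hB.bd _) _ _)
      exact mul_le_one₀ (mul_le_one₀ (norm_kap_le _ _) (norm_nonneg _) (norm_kap_le _ _))
        (norm_nonneg _) (norm_kap_le _ _)) fun n n' hn h9 => by
      have hn' := r1_prim_congr hn h9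
      have e1 : (9 : O) = om * lam ^ 4 := by decide
      have e2 : sq3 = om * lam ^ 1 := by decide
      have h1 : kap n 9 = kap n' 9 := by rw [e1]; exact a2t_kap_per hn hn' h9 hom 4
      have h2 : kap n sq3 = kap n' sq3 := by rw [e2]; exact a2t_kap_per hn hn' h9 hom 1
      simp only [Ψ]
      rw [h1, h2, a2t_kap_per hn hn' h9 hu k,
        gs_congr (h := n * r') (h' := n' * r') (by rw [← sub_mul]; exact h9.mul_right _)]
  refine ⟨_, Res.scale (n := u' * lam ^ j) hc0 (hL.const_mul ((3 : ℂ) ^ j)) (fun c => ?_)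
    fun c hc => if_neg fun ⟨n, _, hn⟩ => hc ⟨n, hn⟩, ?_⟩
  · by_cases hc : Prim c
    · rw [if_pos ⟨c, hc, rfl⟩, if_pos hc, mul_comm (u' * lam ^ j),
        Ac_mul hB hc hc0 (a2t_cop hc hu' j), hop c hc, gs_kap_ul hc hu, Ac_ul hB hu',
        show c * (u * lam ^ k) = u' * lam ^ j * (c * r') by rw [hr']; ring,
        if_pos (dvd_mul_right _ _), mul_div_cancel_left₀ _ hc0]
      simp only [Ψ]
      ring
    · rw [if_neg hc, mul_zero, if_neg]
      rintro ⟨n, hn, e⟩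
      exact hc (mul_left_cancel₀ hc0 e ▸ hn)
  · have e2 : (Nr (u' * lam ^ j)) ^ (-(4 / 3) : ℝ) * (3 : ℝ) ^ j = (3 : ℝ) ^ (-(j : ℝ) / 3) := by
      rw [CsC_Nr hu', ← Real.rpow_natCast, ← Real.rpow_mul (by norm_num),
        ← Real.rpow_add (by norm_num)]
      congr 1
      ring
    have h3 : ‖(3 : ℂ)‖ = 3 := by simp
    rw [norm_mul, norm_mul, norm_pow, h3, Complex.norm_real,
      Real.norm_of_nonneg (Real.rpow_nonneg (Nr_nonneg _) _), ← mul_assoc, e2]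
    calc _ ≤ (3 : ℝ) ^ (-(j : ℝ) / 3) * (57 / 20 * S * ‖Rl 0‖) := by gcongr
      _ = _ := by ring

open Classical in
/-- Decompose `c = u' λ^{k'} n` (`Ac_mul`, `gs_kap_ul`, `Ac_ul`: only `k' ≤ k` occur; `Res.scale`). -/
theorem norm_rs_ul {B : O × O → ℂ} (hB : Per B) (hop : ∀ n, Prim n → Op n B = B) {u : O}
    (hu : IsUnit u) (k : ℕ) :
    ‖rs B (u * lam ^ k)‖ ≤ 57 / 20 * ‖Rl 0‖ * ∑ k' ∈ Finset.range (k + 1), (3 : ℝ) ^ (-(k' : ℝ) / 3) *
      ∑ u' ∈ box 1, (((reps 9).filter (fun d => cf B (u' * lam ^ k', d) ≠ 0)).card : ℝ) := by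
  have hP := fun (p : ℕ × O) (hp : p ∈ Finset.range (k + 1) ×ˢ box 1) =>
    CsC_piece hB hop hu (c3t_box.1 (Finset.mem_product.1 hp).2)
      (Nat.lt_succ_iff.1 (Finset.mem_range.1 (Finset.mem_product.1 hp).1))
  choose! L hL hLS using hP
  have h1 := CsC_res_sum (Finset.range (k + 1) ×ˢ box 1) (fun p => ⟨81, fun c => by
    split_ifs
    · exact norm_Ac_le hB.bd _ _
    · rw [norm_zero]; have := Nr_nonneg c; positivity⟩) hL
  rw [Res.unique (res_rs hB (CsC_ne hu k)) (h1.congr fun c hc => ?_)]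
  · refine (norm_sum_le _ _).trans ((Finset.sum_le_sum hLS).trans (le_of_eq ?_))
    rw [← Finset.mul_sum, Finset.sum_product]
    simp only [Finset.mul_sum]
  · obtain ⟨u₀, j, n, hu₀, hn, rfl⟩ := exists_decomp hc
    have hiff : ∀ p ∈ Finset.range (k + 1) ×ˢ box 1,
        (∃ n', Prim n' ∧ u₀ * lam ^ j * n = p.2 * lam ^ p.1 * n') ↔ p = (j, u₀) := by
      rintro ⟨j', u'⟩ hp
      have hu' := c3t_box.1 (Finset.mem_product.1 hp).2
      constructor
      · rintro ⟨n', hn', h⟩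
        simp only at h hu'
        obtain rfl : j = j' := le_antisymm (c3t_le hu' hn' h) (c3t_le hu₀ hn h.symm)
        have h1 : u₀ * n = u' * n' :=
          mul_left_cancel₀ (pow_ne_zero j prime_lam.ne_zero) (by linear_combination h)
        obtain rfl : n = n' := Prim.eq_of_associated hn hn'
          ((associated_unit_mul_right n u₀ hu₀).trans
            (h1 ▸ (associated_unit_mul_right n' u' hu').symm))
        rw [mul_right_cancel₀ (Prim.ne_zero hn) h1]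
      · intro h
        rw [h]
        exact ⟨n, hn, rfl⟩
    rw [Finset.sum_congr rfl fun p hp => if_congr (hiff p hp) rfl rfl, Finset.sum_ite_eq']
    split_ifs with hj
    · rfl
    · rw [mul_comm _ n, Ac_mul hB hn (CsC_ne hu₀ j) (a2t_cop hn hu₀ j), Ac_ul (hB.op n) hu₀, if_neg,
        mul_zero]
      rintro ⟨t, ht⟩
      refine hj (Finset.mem_product.2 ⟨Finset.mem_range.2 (Nat.lt_succ_iff.2 ?_), c3t_box.2 hu₀⟩)
      exact c3t_le (u := u₀) (n := t) hu hn (by linear_combination -ht)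

end Crest.Agent.R012

end
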