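import Crest.Agent.R012.CsC

/-! # Row 12: the invariant theta function -/

set_option autoImplicit false

noncomputable section

open scoped BigOperators ComplexConjugate Topology
open Complex MeasureTheory Filter Set Crest.Agent.R017 Crest.Agent.R017.Theta

namespace Crest.Agent.R012

theorem csd_tri {x : O} (hx : (3 : ℤ) ∣ x.im) : (3 : O) ∣ x ∨ Prim x ∨ Prim (-x) := by
  rw [b1_three_dvd, b1_prim_iff, b1_prim_iff]
  simp only [QuadraticAlgebra.re_neg, QuadraticAlgebra.im_neg]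
  omega

theorem csd_im_of_prim {x : O} (hx : Prim x ∨ Prim (-x)) : (3 : ℤ) ∣ x.im := by
  rw [b1_prim_iff, b1_prim_iff] at hx
  simp only [QuadraticAlgebra.re_neg, QuadraticAlgebra.im_neg] at hx
  omega

theorem csd_im_of_three {x : O} (hx : (3 : O) ∣ x) : (3 : ℤ) ∣ x.im := (b1_three_dvd.1 hx).2

theorem csd_im_congr {x y : O} (h : (3 : O) ∣ x - y) : (3 : ℤ) ∣ x.im ↔ (3 : ℤ) ∣ y.im := by
  have := (b1_three_dvd.1 h).2
  simp only [QuadraticAlgebra.im_sub] at this
  omega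

theorem csd_not_lam {x : O} (hx : Prim x ∨ Prim (-x)) : ¬ lam ∣ x := by
  rcases hx with h | h
  · exact h.not_lam_dvd
  · exact fun h' => h.not_lam_dvd ((dvd_neg).2 h')

theorem csd_un {x : O} (hx : (3 : ℤ) ∣ x.im) : un x = 1 ∨ un x = -1 := by
  rcases csd_tri hx with h | h | h
  · exact Or.inl (un_of_dvd (lam_dvd_three.trans h))
  · exact Or.inl (un_prim h)
  · refine Or.inr (s1t_un_eq isUnit_one.neg ?_)
    have : x - -1 = -(-x - 1) := by ring
    rw [this]; exact (dvd_neg).2 h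

theorem csd_kap_un {n x : O} (hn : ¬ lam ∣ n) (hx : (3 : ℤ) ∣ x.im) : kap n (un x) = 1 := by
  rcases csd_un hx with h | h
  · rw [h, kap_one_right hn]
  · rw [h, kap_neg_right, kap_one_right hn]

theorem csd_kap_neg_left (n x : O) : kap (-n) x = kap n x :=
  kap_associated (Associated.refl n).neg_left x

theorem csd_recip {x y : O} (hx : Prim x ∨ Prim (-x)) (hy : Prim y ∨ Prim (-y)) :
    kap x y = kap y x := by
  rw [s2t_recip (csd_not_lam hx) (csd_not_lam hy), s2t_r,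
    csd_kap_un (csd_not_lam hx) (csd_im_of_prim hy), csd_kap_un (csd_not_lam hy) (csd_im_of_prim hx)]
  simp

theorem per_Bz : Per Bz := by
  refine ⟨fun x => ?_, fun x y h => ?_⟩
  · unfold Bz; split_ifs <;> simp
  · have h3 : (3 : O) ∣ 9 := ⟨3, by norm_num⟩
    unfold Bz
    simp only [csd_im_congr (h3.trans h.1), csd_im_congr (h3.trans h.2)]

theorem csd_im_prim_mul {n : O} (hn : Prim n) (x : O) : (3 : ℤ) ∣ (n * x).im ↔ (3 : ℤ) ∣ x.im := by
  apply csd_im_congr
  have : n * x - x = (n - 1) * x := by ring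
  rw [this]; exact Dvd.dvd.mul_right hn x

theorem op_Bz {n : O} (hn : Prim n) : Op n Bz = Bz := by
  funext x
  have e : Bz (n * x.1, n ^ 2 * x.2) = Bz x := by
    unfold Bz
    simp only [csd_im_prim_mul hn, csd_im_prim_mul (hn.pow 2)]
  unfold Op
  rw [e]
  unfold Bz
  split_ifs with h
  · have h1 : rc n x.2 = 1 := by rw [rc, csd_kap_un hn.not_lam_dvd h.2, map_one]
    have h2 : rc' n x = 1 := by
      unfold rc'
      split_ifs
      · rw [rc, csd_kap_un hn.not_lam_dvd h.1, map_one]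
      · rfl
    rw [h1, h2]; simp
  · simp

open Classical in
theorem cf_Bz_prim {c : O} (hc : Prim c ∨ Prim (-c)) (d : O) :
    cf Bz (c, d) = if (3 : ℤ) ∣ d.im then kap c d else 0 := by
  have hl := csd_not_lam hc
  unfold cf Bz
  simp only [csd_im_of_prim hc, true_and]
  by_cases hd : (3 : ℤ) ∣ d.im
  · simp only [hd, if_true, one_mul]
    split_ifs with h
    · show sym c d = kap c d
      unfold sym
      split_ifs with h'
      · rfl
      · rcases csd_tri hd with h3 | h3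
        · exact absurd (lam_dvd_three.trans h3) h'
        · exact csd_recip h3 hc
    · exact ((kap_eq_zero (s2t_ne hl)).2 (Or.inr h)).symm
  · simp [hd]

open Classical in
theorem cf_Bz_three {c : O} (hc : (3 : O) ∣ c) (d : O) :
    cf Bz (c, d) = if Prim d ∨ Prim (-d) then kap d c else 0 := by
  classical
  unfold cf Bz
  simp only [csd_im_of_three hc, true_and]
  by_cases hd : Prim d ∨ Prim (-d)
  · have hl := csd_not_lam hd
    simp only [hd, csd_im_of_prim hd, if_true, one_mul]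
    split_ifs with h
    · show sym c d = kap d c
      unfold sym
      rw [if_neg hl]
    · exact ((kap_eq_zero (s2t_ne hl)).2 (Or.inr fun h' => h h'.symm)).symm
  · rw [if_neg hd]
    split_ifs with h h'
    · rcases csd_tri h' with h3 | h3
      · exact absurd (lam_dvd_three.trans h3) (s2t_not_lam h (lam_dvd_three.trans hc))
      · exact absurd h3 hd
    · simp
    · rfl

theorem cf_Bz_other {c : O} (h₁ : ¬ Prim c) (h₂ : ¬ Prim (-c)) (h₃ : ¬ (3 : O) ∣ c) (d : O) :
    cf Bz (c, d) = 0 := by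
  have : ¬ (3 : ℤ) ∣ c.im := fun h => by
    rcases csd_tri h with h | h | h <;> contradiction
  unfold cf Bz
  simp [this]

theorem cf_Bz_S (x : O × O) : cf Bz x = 1 * cf Bz (ra x gS) := by
  rw [one_mul]
  have e : Bz (ra x gS) = Bz x := by
    rw [ra_gS]; unfold Bz
    simp only [QuadraticAlgebra.im_neg, dvd_neg, and_comm]
  unfold cf
  simp only [cop_ra]
  split_ifs with h
  · rw [e, s2t_S h]
    unfold Bz
    split_ifs with h'
    · have : s2t_psi2 x = 1 := by
        unfold s2t_psi2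
        split_ifs with hl
        · rfl
        · rw [not_or] at hl
          rw [s2t_r, csd_kap_un hl.1 h'.2, csd_kap_un hl.2 h'.1]; simp
      rw [this, mul_one]
    · simp
  · rfl

theorem csd_prim_one_add (w : O) : Prim (1 + 3 * w) := ⟨w, by ring⟩

theorem csd_eO_pow (x n : O) (j : ℕ) : eO x n ^ j = eO (j * x) n := by
  induction j with
  | zero => simp [eO_of_dvd]
  | succ j ih => rw [pow_succ, ih, ← eO_add]; congr 1; push_cast; ring

theorem csd_key {s : O} (hs : s = 1 ∨ s = -1) {j : ℕ} (hj : (3 : O) ∣ (1 + j * lam) * om ^ j - 1) (z : O) :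
    kap (1 + 3 * (s * om ^ j * z)) (3 * (s * om ^ j)) = eO (s * z) 3 := by
  have hn := (csd_prim_one_add (s * om ^ j * z)).not_lam_dvd
  have h1 : kap (1 + 3 * (s * om ^ j * z)) s = 1 := by
    rcases hs with rfl | rfl
    · exact kap_one_right hn
    · rw [kap_neg_right]; exact kap_one_right hn
  have h2 : kap (1 + 3 * (s * om ^ j * z)) (om ^ j) = eO (j * (lam * (s * om ^ j * z))) 3 := by
    rcases Nat.eq_zero_or_pos j with rfl | h
    · simp only [pow_zero] at hn ⊢
      rw [kap_one_right hn, eO_of_dvd]; simp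
    · rw [kap_pow_right _ _ h.ne', kap_om_supp, csd_eO_pow]
  rw [kap_mul_right, kap_mul_right, h1, h2, kap_three_supp, one_mul, ← eO_add]
  apply eO_congr
  have : s * om ^ j * z + j * (lam * (s * om ^ j * z)) - s * z = ((1 + j * lam) * om ^ j - 1) * (s * z) := by
    ring
  rw [this]; exact hj.mul_right _

theorem csd_key_lam {s : O} (hs : s = 1 ∨ s = -1) (z : O) :
    kap (1 + 3 * (s * lam * z)) (3 * (s * lam)) = 1 := by
  have hp := csd_prim_one_add (s * lam * z)
  have hn := hp.not_lam_dvd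
  have h1 : kap (1 + 3 * (s * lam * z)) s = 1 := by
    rcases hs with rfl | rfl
    · exact kap_one_right hn
    · rw [kap_neg_right]; exact kap_one_right hn
  have e : 3 * (s * lam) = -(s * (om ^ 2 * lam ^ 3)) := by
    have : (3 : O) * lam = -(om ^ 2 * lam ^ 3) := by decide
    linear_combination s * this
  have h2 : kap (1 + 3 * (s * lam * z)) om = 1 := by
    rw [kap_om_supp]
    apply eO_of_dvd
    exact ⟨-om * s * z, by linear_combination s * z * lam_sq⟩
  have h3 : IsCoprime (1 + 3 * (s * lam * z)) lam :=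
    ((prime_lam.coprime_iff_not_dvd).2 hn).symm
  rw [e, kap_neg_right, kap_mul_right, kap_mul_right, h1, kap_pow_right _ _ two_ne_zero, h2,
    kap_cube_right hp, if_pos h3]
  simp


theorem csd_lam_cases {x : O} (hx : lam ∣ x) :
    (3 : O) ∣ x ∨ (3 : O) ∣ x - 1 * lam ∨ (3 : O) ∣ x - (-1) * lam := by
  rw [b1_lam_dvd] at hx
  simp only [b1_three_dvd, QuadraticAlgebra.re_sub, QuadraticAlgebra.im_sub]
  have a1 : (1 * lam : O).re = 1 := by decide
  have a2 : (1 * lam : O).im = -1 := by decide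
  have a3 : ((-1) * lam : O).re = -1 := by decide
  have a4 : ((-1) * lam : O).im = 1 := by decide
  rw [a1, a2, a3, a4]
  omega

theorem csd_unit_cases {u : O} (hu : IsUnit u) : ∃ (s : O) (j : ℕ), (s = 1 ∨ s = -1) ∧
    (3 : O) ∣ (1 + j * lam) * om ^ j - 1 ∧ lam ∣ om ^ j - 1 ∧ u = s * om ^ j := by
  have h0 : (3 : O) ∣ (1 + (0 : ℕ) * lam) * om ^ 0 - 1 := ⟨0, by decide⟩
  have h1 : (3 : O) ∣ (1 + (1 : ℕ) * lam) * om ^ 1 - 1 := ⟨om, by decide⟩
  have h2 : (3 : O) ∣ (1 + (2 : ℕ) * lam) * om ^ 2 - 1 := ⟨om ^ 2 - 1, by decide⟩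
  have g0 : lam ∣ om ^ 0 - 1 := ⟨0, by decide⟩
  have g1 : lam ∣ om ^ 1 - 1 := ⟨-1, by decide⟩
  have g2 : lam ∣ om ^ 2 - 1 := ⟨om ^ 2, by decide⟩
  rcases isUnit_iff.1 hu with h | h | h | h | h | h
  · exact ⟨1, 0, Or.inl rfl, h0, g0, by rw [h]; ring⟩
  · exact ⟨-1, 0, Or.inr rfl, h0, g0, by rw [h]; ring⟩
  · exact ⟨1, 1, Or.inl rfl, h1, g1, by rw [h]; ring⟩
  · exact ⟨-1, 1, Or.inr rfl, h1, g1, by rw [h]; ring⟩
  · exact ⟨1, 2, Or.inl rfl, h2, g2, by rw [h]; ring⟩
  · exact ⟨-1, 2, Or.inr rfl, h2, g2, by rw [h]; ring⟩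

theorem csd_not_lam_two : ¬ lam ∣ (2 : O) := by rw [b1_lam_dvd]; decide

theorem csd_not_lam_one : ¬ lam ∣ (1 : O) := prim_one.not_lam_dvd

open Classical in
theorem csd_psi (c₁ z : O) : kap (1 + z * (3 * c₁)) (3 * c₁) =
    (if lam ∣ c₁ - 1 then eO z 3 else if lam ∣ c₁ + 1 then eO (-z) 3 else 1) := by
  have hl : lam ∣ 3 * c₁ := lam_dvd_three.mul_right _
  have key : ∀ r : O, (3 : O) ∣ c₁ - r →
      kap (1 + z * (3 * c₁)) (3 * c₁) = kap (1 + 3 * (r * z)) (3 * r) := by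
    intro r hr
    obtain ⟨t, ht⟩ := hr
    rw [s2t_phi (c' := 3 * r) (y' := z) hl ⟨t, by linear_combination 3 * ht⟩ (by simp)]
    congr 1; ring
  by_cases hc : lam ∣ c₁
  · have n1 : ¬ lam ∣ c₁ - 1 := fun h => csd_not_lam_one (by simpa using dvd_sub hc h)
    have n2 : ¬ lam ∣ c₁ + 1 := fun h => csd_not_lam_one (by simpa using dvd_sub h hc)
    rw [if_neg n1, if_neg n2]
    rcases csd_lam_cases hc with h | h | h
    · rw [key 0 (by simpa using h)]
      exact kap_unit_left (by simp) _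
    · rw [key _ h]; exact csd_key_lam (Or.inl rfl) z
    · rw [key _ h]; exact csd_key_lam (Or.inr rfl) z
  · obtain ⟨s, j, hs, hj, hj', hu⟩ := csd_unit_cases (isUnit_un c₁)
    have h3 := un_spec hc
    rw [hu] at h3
    rw [key _ h3, csd_key hs hj]
    have h4 : lam ∣ c₁ - s := by
      have : c₁ - s = (c₁ - s * om ^ j) + s * (om ^ j - 1) := by ring
      rw [this]; exact dvd_add (lam_dvd_three.trans h3) (hj'.mul_left _)
    rcases hs with rfl | rfl
    · rw [if_pos h4, one_mul]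
    · have n1 : ¬ lam ∣ c₁ - 1 := fun h => csd_not_lam_two (by
        have := dvd_sub h4 h
        have e : c₁ - -1 - (c₁ - 1) = 2 := by ring
        rwa [e] at this)
      rw [if_neg n1, if_pos (by simpa using h4), neg_one_mul]

set_option linter.unusedVariables false in
open Classical in
/-- The translation law in the class `(0, 1)`: with `c = 3 c₁` and `d` primary,
`(c / d + c y) = (c / d) ψ`, where `ψ = e(± y/3)` if `c₁ ≡ ± 1 mod λ` and `ψ = 1` if `λ ∣ c₁`. -/
theorem kap_transl {c₁ d : O} (hc : c₁ ≠ 0) (hd : Prim d) (y : O) :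
    kap (d + 3 * c₁ * y) (3 * c₁) = kap d (3 * c₁) *
      (if lam ∣ c₁ - 1 then eO y 3 else if lam ∣ c₁ + 1 then eO (-y) 3 else 1) := by
  classical
  have hd' : Prim (d + 3 * c₁ * y) := by
    have : d + 3 * c₁ * y - 1 = (d - 1) + 3 * (c₁ * y) := by ring
    unfold Prim; rw [this]; exact dvd_add hd (dvd_mul_right _ _)
  by_cases h : IsCoprime (3 * c₁) d
  · obtain ⟨e, he, hs⟩ := s2t_T (c := 3 * c₁) (d := d) h (lam_dvd_three.mul_right _) y
    unfold sym at hs
    rw [if_neg hd.not_lam_dvd, if_neg hd'.not_lam_dvd, csd_psi] at hs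
    have h3 : (3 : O) ∣ 9 := ⟨3, by norm_num⟩
    have hpe : Prim e := hd.of_mul (h3.trans he)
    have a1 : eO (y * e) 3 = eO y 3 := eO_congr (by
      have : y * e - y = y * (e - 1) := by ring
      rw [this]; exact Dvd.dvd.mul_left hpe _)
    have a2 : eO (-(y * e)) 3 = eO (-y) 3 := by rw [eO_neg, eO_neg, a1]
    rw [hs, a1, a2]
  · have h' : ¬ IsCoprime (d + 3 * c₁ * y) (3 * c₁) := fun h' =>
      h (IsCoprime.of_add_mul_left_left h').symm
    rw [(kap_eq_zero hd'.ne_zero).2 (Or.inr h'), (kap_eq_zero hd.ne_zero).2 (Or.inr fun h' => h h'.symm),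
      zero_mul]

theorem Ac_transl {B : O × O → ℂ} (hB : Per B) {c y : O} (hc : c ≠ 0) {ψ : ℂ}
    (h : ∀ d, cf B (c, d + c * y) = ψ * cf B (c, d)) (r : O) :
    Ac B c r = ψ * eO (r * y) 9 * Ac B c r := by
  have h9 : (9 : O) * c ≠ 0 := mul_ne_zero ga_nine hc
  have hper := g1_per (f := fun d => cf B (c, d)) (n := 9 * c) (m := 9 * c)
    (fun x y hxy => hB.wt.cf_per hxy hc) dvd_rfl r
  have e := sum_reps_affine h9 _ hper (u := 1) isCoprime_one_left (c * y)
  unfold Ac gs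
  conv_lhs => rw [← e]
  rw [Finset.mul_sum]
  refine Finset.sum_congr rfl fun x _ => ?_
  have e2 : eO (r * (x + c * y)) (9 * c) = eO (r * x) (9 * c) * eO (r * y) 9 := by
    rw [mul_add, eO_add, ← eO_mul_cancel hc (r * y) 9]
    congr 2 <;> ring
  rw [one_mul, h, e2]; ring

theorem csd_eO_nat {x : O} {n : ℕ} (hn : n ≠ 0) : eO x n = 1 ↔ (n : ℤ) ∣ x.im := by
  have hs : (0 : ℝ) < Real.sqrt 3 / 2 := by positivity
  have hn' : (n : ℝ) ≠ 0 := by exact_mod_cast hn
  unfold eO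
  rw [b3_ec_eq_one, map_natCast, Complex.div_natCast_im, b3_emb_im]
  constructor
  · rintro ⟨k, hk⟩
    refine ⟨k, ?_⟩
    have : (x.im : ℝ) = n * k := by
      field_simp at hk
      linarith
    exact_mod_cast this
  · rintro ⟨k, hk⟩
    refine ⟨k, ?_⟩
    rw [hk]; push_cast; field_simp

theorem csd_cf_neg (c d : O) : cf Bz (c, -d) = cf Bz (c, d) := by
  have h1 : Cop (c, -d) ↔ Cop (c, d) := IsCoprime.neg_right_iff c d
  have h2 : sy (c, -d) = sy (c, d) := by
    show sym c (-d) = sym c d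
    unfold sym
    by_cases h : lam ∣ d
    · rw [if_pos h, if_pos (dvd_neg.2 h), kap_neg_right]
    · rw [if_neg h, if_neg (fun h' => h (dvd_neg.1 h')), csd_kap_neg_left]
  unfold cf Bz
  simp only [h1, h2, QuadraticAlgebra.im_neg, dvd_neg]

theorem csd_cf_transl {c y : O} (hc : c ≠ 0) (hy : (3 : ℤ) ∣ y.im) (d : O) :
    cf Bz (c, d + c * y) = 1 * cf Bz (c, d) := by
  classical
  rw [one_mul]
  by_cases h1 : Prim c ∨ Prim (-c)
  · have : (3 : ℤ) ∣ (c * y).im := by
      rcases h1 with h | h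
      · exact (csd_im_prim_mul h y).2 hy
      · have := (csd_im_prim_mul h y).2 hy
        rwa [neg_mul, QuadraticAlgebra.im_neg, dvd_neg] at this
    rw [cf_Bz_prim h1, cf_Bz_prim h1, kap_congr' hc (x := d + c * y) (y := d) (by simp),
      QuadraticAlgebra.im_add]
    simp only [dvd_add_left this]
  by_cases h2 : (3 : O) ∣ c
  · obtain ⟨c₁, rfl⟩ := h2
    have hc₁ : c₁ ≠ 0 := fun h => hc (by simp [h])
    have e1 : eO y 3 = 1 := (csd_eO_nat (n := 3) (by norm_num)).2 hy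
    have e2 : eO (-y) 3 = 1 := by rw [eO_neg, e1, map_one]
    have p1 : Prim (d + 3 * c₁ * y) ↔ Prim d := by
      have : d + 3 * c₁ * y - 1 = (d - 1) + 3 * (c₁ * y) := by ring
      unfold Prim; rw [this, dvd_add_left (dvd_mul_right _ _)]
    have p2 : Prim (-(d + 3 * c₁ * y)) ↔ Prim (-d) := by
      have : -(d + 3 * c₁ * y) - 1 = (-d - 1) + 3 * (-c₁ * y) := by ring
      unfold Prim; rw [this, dvd_add_left (dvd_mul_right _ _)]
    rw [cf_Bz_three (dvd_mul_right _ _), cf_Bz_three (dvd_mul_right _ _)]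
    simp only [p1, p2]
    split_ifs with h
    · rcases h with h | h
      · rw [kap_transl hc₁ h, e1, e2]; simp
      · have : d + 3 * c₁ * y = -(-d + 3 * c₁ * (-y)) := by ring
        rw [this, csd_kap_neg_left, kap_transl hc₁ h, neg_neg, e1, e2, csd_kap_neg_left]; simp
    · rfl
  · rw [not_or] at h1
    rw [cf_Bz_other h1.1 h1.2 h2, cf_Bz_other h1.1 h1.2 h2]

theorem csd_nine_dvd {x : O} : (9 : O) ∣ x ↔ (9 : ℤ) ∣ x.re ∧ (9 : ℤ) ∣ x.im := by
  constructor
  · rintro ⟨y, rfl⟩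
    have a : (9 : O).re = 9 := rfl
    have b : (9 : O).im = 0 := rfl
    simp only [QuadraticAlgebra.re_mul, QuadraticAlgebra.im_mul, a, b]
    omega
  · rintro ⟨⟨a, ha⟩, ⟨b, hb⟩⟩
    refine ⟨⟨a, b⟩, ?_⟩
    have a : (9 : O).re = 9 := rfl
    have b : (9 : O).im = 0 := rfl
    ext <;> simp only [QuadraticAlgebra.re_mul, QuadraticAlgebra.im_mul, a, b] <;> omega

theorem Tc_Bz_of_not {h : O} (h₁ : ¬ (9 : O) ∣ h - 3) (h₂ : ¬ (9 : O) ∣ h + 3) (h₃ : ¬ (9 : O) ∣ h) :
    Tc Bz h = 0 := by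
  refine Tc_eq_zero fun c hc => ?_
  by_contra hne
  have key : ∀ y : O, (3 : ℤ) ∣ y.im → (9 : ℤ) ∣ (h * y).im := by
    intro y hy
    have := Ac_transl per_Bz hc (csd_cf_transl hc hy) h
    rw [one_mul] at this
    have h1 : eO (h * y) 9 = 1 := by
      have h2 : (eO (h * y) 9 - 1) * Ac Bz c h = 0 := by linear_combination -this
      exact sub_eq_zero.1 ((mul_eq_zero.1 h2).resolve_right hne)
    exact (csd_eO_nat (n := 9) (by norm_num)).1 h1
  have k1 := key 1 (by decide)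
  have k2 := key ⟨0, 3⟩ (by decide)
  rw [mul_one] at k1
  rw [csd_nine_dvd] at h₁ h₂ h₃
  simp only [QuadraticAlgebra.im_mul, QuadraticAlgebra.re_sub, QuadraticAlgebra.im_sub,
    QuadraticAlgebra.re_add, QuadraticAlgebra.im_add, b1_three_re, b1_three_im] at h₁ h₂ k2
  omega

theorem csd_Ac_neg {c : O} (hc : c ≠ 0) (h : O) : Ac Bz c (-h) = Ac Bz c h := by
  have h9 : (9 : O) * c ≠ 0 := mul_ne_zero ga_nine hc
  have hper := g1_per (f := fun d => cf Bz (c, d)) (n := 9 * c) (m := 9 * c)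
    (fun x y hxy => per_Bz.wt.cf_per hxy hc) dvd_rfl h
  have e := sum_reps_affine h9 _ hper (u := -1) isCoprime_one_left.neg_left 0
  unfold Ac gs
  rw [← e]
  refine Finset.sum_congr rfl fun x _ => ?_
  rw [add_zero, neg_one_mul, csd_cf_neg, neg_mul, mul_neg]


theorem Tc_Bz_neg (h : O) : Tc Bz (-h) = Tc Bz h := by
  have e : Sm (fun c => Ac Bz c (-h)) F0 = Sm (fun c => Ac Bz c h) F0 := by
    funext t
    unfold Sm
    congr 1
    refine tsum_congr fun c => ?_
    split_ifs with hc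
    · rfl
    · simp only [csd_Ac_neg hc]
  unfold Tc rs
  rw [e, Nr_neg]

open Classical in
theorem csd_cnt (a : O) : ∑ d ∈ reps 9, (if (3 : O) ∣ d - a then (1 : ℂ) else 0) = 9 := by
  have h3 : (3 : O) ≠ 0 := by norm_num
  have := ga_tower_zero (f := fun d => if (3 : O) ∣ d - a then (1 : ℂ) else 0) h3 h3 (fun x y hxy => by
    have : (3 : O) ∣ x - a ↔ (3 : O) ∣ y - a := by
      have e : x - a = (x - y) + (y - a) := by ring
      rw [e, dvd_add_right hxy]
    simp only [this])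
  rw [ga_gs_zero, ga_gs_zero, ga_one h3, show (3 : O) * 3 = 9 by norm_num] at this
  rw [this]
  have : Nr (3 : O) = 9 := by have := Nr_natCast 3; norm_num at this; exact this
  rw [this]; norm_num

theorem csd_prim_neg {d : O} : Prim (-d) ↔ (3 : O) ∣ d - -1 := by
  have : -d - 1 = -(d - -1) := by ring
  unfold Prim; rw [this, dvd_neg]

open Classical in
theorem csd_cnt_pm : ∑ d ∈ reps 9, (if Prim d ∨ Prim (-d) then (1 : ℂ) else 0) = 18 := by
  have : ∀ d : O, (if Prim d ∨ Prim (-d) then (1 : ℂ) else 0) =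
      (if (3 : O) ∣ d - 1 then (1 : ℂ) else 0) + (if (3 : O) ∣ d - -1 then (1 : ℂ) else 0) := by
    intro d
    by_cases h1 : Prim d
    · have h2 : ¬ Prim (-d) := fun h2 => by
        rw [b1_prim_iff] at h1 h2
        simp only [QuadraticAlgebra.re_neg] at h2
        omega
      rw [if_pos (Or.inl h1), if_pos (show (3 : O) ∣ d - 1 from h1), if_neg (mt csd_prim_neg.2 h2), add_zero]
    · rw [if_neg (show ¬ (3 : O) ∣ d - 1 from h1), zero_add]
      simp only [h1, false_or, csd_prim_neg]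
  simp only [this]
  rw [Finset.sum_add_distrib, csd_cnt, csd_cnt]; norm_num

open Classical in
theorem csd_cnt_im : ∑ d ∈ reps 9, (if (3 : ℤ) ∣ d.im then (1 : ℂ) else 0) = 27 := by
  have : ∀ d : O, (if (3 : ℤ) ∣ d.im then (1 : ℂ) else 0) =
      (if (3 : O) ∣ d - 0 then (1 : ℂ) else 0) + (if Prim d ∨ Prim (-d) then (1 : ℂ) else 0) := by
    intro d
    rw [sub_zero]
    by_cases h1 : (3 : O) ∣ d
    · rw [if_pos (csd_im_of_three h1), if_pos h1,
        if_neg (fun h => csd_not_lam h (lam_dvd_three.trans h1)), add_zero]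
    · rw [if_neg h1, zero_add]
      by_cases h2 : Prim d ∨ Prim (-d)
      · rw [if_pos h2, if_pos (csd_im_of_prim h2)]
      · rw [if_neg h2, if_neg fun h => (csd_tri h).elim h1 h2]
  simp only [this]
  rw [Finset.sum_add_distrib, csd_cnt, csd_cnt_pm]; norm_num

theorem csd_box_unit {u : O} : u ∈ box 1 ↔ IsUnit u := by
  rw [mem_box, isUnit_iff_Nr]
  constructor
  · rintro ⟨h1, h2⟩; exact le_antisymm h2 (one_le_Nr h1)
  · intro h
    exact ⟨fun h0 => by rw [h0, Nr_zero] at h; norm_num at h, h.le⟩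

theorem csd_box_eq : box 1 = {1, -1, om, -om, om ^ 2, -om ^ 2} := by
  ext u
  simp only [csd_box_unit, isUnit_iff, Finset.mem_insert, Finset.mem_singleton]

theorem csd_card_box : (box 1).card = 6 := by rw [csd_box_eq]; decide

open Classical in
theorem csd_sum_box {M : Type*} [Semiring M] (A : M) :
    ∑ u ∈ box 1, (if u = 1 ∨ u = -1 then A else 0) = 2 * A := by
  rw [← Finset.sum_filter, Finset.sum_const, nsmul_eq_mul]
  have : (box 1).filter (fun u : O => u = 1 ∨ u = -1) = {1, -1} := by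
    ext u
    simp only [Finset.mem_filter, csd_box_unit, Finset.mem_insert, Finset.mem_singleton]
    refine ⟨fun h => h.2, fun h => ⟨?_, h⟩⟩
    rcases h with rfl | rfl
    · exact isUnit_one
    · exact isUnit_one.neg
  rw [this, Finset.card_pair (by decide)]; norm_num

theorem csd_unit_prim {u : O} (hu : IsUnit u) : (Prim u ∨ Prim (-u)) ↔ (u = 1 ∨ u = -1) := by
  constructor
  · rintro (h | h)
    · exact Or.inl (h.eq_one_of_isUnit hu)
    · exact Or.inr (neg_eq_iff_eq_neg.1 (h.eq_one_of_isUnit hu.neg))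
  · rintro (rfl | rfl)
    · exact Or.inl prim_one
    · exact Or.inr (by rw [neg_neg]; exact prim_one)

open Classical in
theorem csd_cf_unit {u : O} (hu : IsUnit u) (d : O) :
    cf Bz (u, d) = if u = 1 ∨ u = -1 then (if (3 : ℤ) ∣ d.im then 1 else 0) else 0 := by
  by_cases h : u = 1 ∨ u = -1
  · rw [if_pos h, cf_Bz_prim ((csd_unit_prim hu).2 h), kap_unit_left hu]
  · rw [if_neg h]
    have h' := mt (csd_unit_prim hu).1 h
    rw [not_or] at h'
    exact cf_Bz_other h'.1 h'.2 (fun h3 => s1t_not_lam_unit hu (lam_dvd_three.trans h3)) d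

theorem csd_cf_lam {u : O} (hu : IsUnit u) (d : O) : cf Bz (u * lam ^ 1, d) = 0 := by
  have hl : lam ∣ u * lam ^ 1 := by rw [pow_one]; exact dvd_mul_left _ _
  refine cf_Bz_other (fun h => h.not_lam_dvd hl) (fun h => h.not_lam_dvd (dvd_neg.2 hl)) (fun h => ?_) d
  have h2 : lam * lam ∣ u * lam := by
    rw [pow_one] at h; rw [← sq]; exact associated_lam_sq.dvd.trans h
  exact s1t_not_lam_unit hu ((mul_dvd_mul_iff_right prime_lam.ne_zero).1 h2)

theorem csd_three_dvd (u : O) {k : ℕ} (hk : 2 ≤ k) : (3 : O) ∣ u * lam ^ k :=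
  (associated_lam_sq.symm.dvd.trans (pow_dvd_pow lam hk)).mul_left u

theorem csd_Ac_ul {B : O × O → ℂ} (hB : Per B) {u : O} (hu : IsUnit u) (k : ℕ) :
    Ac B (u * lam ^ k) 0 = (3 : ℂ) ^ k * ∑ d ∈ reps 9, cf B (u * lam ^ k, d) := by
  rw [Ac_ul hB hu, if_pos (dvd_zero _), EuclideanDomain.zero_div, ga_gs_zero]

theorem csd_Ac_three {c : O} (hc0 : c ≠ 0) (hc : (3 : O) ∣ c) : Ac Bz c 0 = 2 * Ac Bd c 0 := by
  classical
  have h9 : (9 : O) * c ≠ 0 := mul_ne_zero ga_nine hc0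
  have e := sum_reps_affine h9 (fun d => cf Bd (c, d)) (fun x y hxy => per_Bd.wt.cf_per hxy hc0)
    (u := -1) isCoprime_one_left.neg_left 0
  unfold Ac
  rw [ga_gs_zero, ga_gs_zero, two_mul]
  nth_rewrite 1 [← e]
  rw [← Finset.sum_add_distrib]
  refine Finset.sum_congr rfl fun d _ => ?_
  rw [cf_Bz_three hc, cf_Bd, cf_Bd, eO_of_dvd (dvd_neg.2 hc), add_zero, neg_one_mul, neg_neg,
    csd_kap_neg_left, one_mul]
  by_cases h1 : Prim d
  · have h2 : ¬ Prim (-d) := fun h2 => by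
      rw [b1_prim_iff] at h1 h2
      simp only [QuadraticAlgebra.re_neg] at h2
      omega
    rw [if_pos (Or.inl h1), if_pos h1, if_neg h2, add_zero]
  · rw [if_neg h1, zero_add]
    simp only [h1, false_or]

open Classical in
theorem csd_sum_Ac (k : ℕ) : ∑ u ∈ box 1, Ac Bz (u * lam ^ k) 0 =
    if 3 ∣ k then (36 + if k = 0 then 18 else 0) * (3 : ℂ) ^ k else 0 := by
  have key : ∀ u ∈ box 1, Ac Bz (u * lam ^ k) 0 = if u = 1 ∨ u = -1 then
      (if 3 ∣ k then (18 + if k = 0 then 9 else 0) * (3 : ℂ) ^ k else 0) else 0 := by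
    intro u hu
    have hu := csd_box_unit.1 hu
    rcases Nat.lt_or_ge k 2 with hk | hk
    · rw [csd_Ac_ul per_Bz hu]
      interval_cases k
      · simp only [pow_zero, mul_one, one_mul, csd_cf_unit hu]
        split_ifs with h h'
        · rw [csd_cnt_im]; norm_num
        · simp at h'
        · simp
      · simp only [csd_cf_lam hu]; simp
    · rw [csd_Ac_three (mul_ne_zero hu.ne_zero (pow_ne_zero _ prime_lam.ne_zero)) (csd_three_dvd u hk),
        Ac_Bd_ul hu, if_neg (show k ≠ 0 by omega)]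
      by_cases h : u = 1 ∨ u = -1 <;> by_cases h' : 3 ∣ k <;> simp [h, h']
      ring
  rw [Finset.sum_congr rfl key, csd_sum_box]
  split_ifs <;> ring

theorem csd_hasSum {f : ℕ → ℂ} (h0 : ∀ k, ¬ 3 ∣ k → f k = 0)
    (h1 : ∀ m, f (3 * m) = 36 * (1 / 3 : ℂ) ^ m + if m = 0 then (18 : ℂ) else 0) : HasSum f 72 := by
  have hinj : Function.Injective (fun m : ℕ => 3 * m) := fun a b h => by simpa using h
  refine (hinj.hasSum_iff ?_).1 ?_
  · intro k hk
    exact h0 k fun ⟨m, hm⟩ => hk ⟨m, hm.symm⟩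
  · have g1 : HasSum (fun m : ℕ => 36 * (1 / 3 : ℂ) ^ m) (36 * (1 - 1 / 3)⁻¹) :=
      HasSum.mul_left 36 (hasSum_geometric_of_norm_lt_one (ξ := (1 / 3 : ℂ)) (by norm_num))
    have g2 : HasSum (fun m : ℕ => if m = 0 then (18 : ℂ) else 0) 18 := hasSum_ite_eq 0 (18 : ℂ)
    have g3 := g1.add g2
    have e : (36 * (1 - 1 / 3)⁻¹ + 18 : ℂ) = 72 := by norm_num
    rw [e] at g3
    have : (f ∘ fun m : ℕ => 3 * m) = fun m => 36 * (1 / 3 : ℂ) ^ m + if m = 0 then (18 : ℂ) else 0 :=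
      funext h1
    rw [this]; exact g3

theorem sig0_Bz : sig0 Bz = 8 / 9 * b0 := by
  classical
  have hs : HasSum (fun k : ℕ => (((3 : ℝ) ^ (-(4 * k : ℝ) / 3) : ℝ) : ℂ) *
      ∑ u ∈ box 1, Ac Bz (u * lam ^ k) 0) 72 := by
    apply csd_hasSum
    · intro k hk
      rw [csd_sum_Ac, if_neg hk, mul_zero]
    · intro m
      rw [csd_sum_Ac, if_pos (dvd_mul_right 3 m)]
      have e2 : (3 : ℝ) ^ (-(4 * ((3 * m : ℕ) : ℝ)) / 3) = ((3 : ℝ) ^ (4 * m))⁻¹ := by
        rw [← Real.rpow_natCast, ← Real.rpow_neg (by norm_num)]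
        congr 1; push_cast; ring
      rw [e2]
      rcases Nat.eq_zero_or_pos m with rfl | hm
      · simp
      · rw [if_neg (by omega), if_neg hm.ne']
        push_cast
        rw [show 4 * m = 3 * m + m by ring, pow_add, one_div, inv_pow]
        field_simp
        ring
  unfold sig0
  rw [hs.tsum_eq]; ring

theorem csd_card_le {p q : O → Prop} [DecidablePred p] [DecidablePred q] {N : ℝ} (h : ∀ d, p d → q d)
    (hq : ∑ d ∈ reps 9, (if q d then (1 : ℂ) else 0) = N) :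
    (((reps 9).filter p).card : ℝ) ≤ N := by
  rw [Finset.sum_boole] at hq
  have h1 : (((reps 9).filter q).card : ℝ) = N := by exact_mod_cast hq
  have h2 : ((reps 9).filter p).card ≤ ((reps 9).filter q).card :=
    Finset.card_le_card (Finset.monotone_filter_right _ fun d _ => h d)
  rw [← h1]
  exact_mod_cast h2

open Classical in
theorem csd_count (k : ℕ) :
    ∑ u ∈ box 1, (((reps 9).filter (fun d => cf Bz (u * lam ^ k, d) ≠ 0)).card : ℝ) ≤
      if k = 0 then 54 else if k = 1 then 0 else 108 := by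
  rcases Nat.lt_or_ge k 2 with hk | hk
  · interval_cases k
    · rw [if_pos rfl, show (54 : ℝ) = 2 * 27 by norm_num, ← csd_sum_box]
      refine Finset.sum_le_sum fun u hu => ?_
      have hu := csd_box_unit.1 hu
      simp only [pow_zero, mul_one, csd_cf_unit hu]
      split_ifs with h
      · exact csd_card_le (q := fun d => (3 : ℤ) ∣ d.im) (fun d hd => by
          by_contra h'; exact hd (if_neg h')) (csd_cnt_im.trans (by norm_num))
      · simp
    · rw [if_neg one_ne_zero, if_pos rfl]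
      refine le_of_eq (Finset.sum_eq_zero fun u hu => ?_)
      simp only [csd_cf_lam (csd_box_unit.1 hu)]; simp
  · rw [if_neg (by omega), if_neg (by omega)]
    have : ∀ u ∈ box 1, (((reps 9).filter (fun d => cf Bz (u * lam ^ k, d) ≠ 0)).card : ℝ) ≤ 18 := by
      intro u _
      exact csd_card_le (q := fun d => Prim d ∨ Prim (-d)) (fun d hd => by
        by_contra h'; exact hd (by rw [cf_Bz_three (csd_three_dvd u hk), if_neg h']))
        (csd_cnt_pm.trans (by norm_num))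
    refine (Finset.sum_le_card_nsmul _ _ _ this).trans ?_
    rw [csd_card_box]; norm_num

theorem csd_q_le : (3 : ℝ) ^ (-(1 : ℝ) / 3) ≤ 0.694 := by
  apply le_of_pow_le_pow_left₀ (n := 3) (by norm_num) (by norm_num)
  rw [← Real.rpow_natCast, ← Real.rpow_mul (by norm_num)]
  norm_num

theorem csd_geom (n : ℕ) : ∑ k ∈ Finset.range (n + 2), (0.694 : ℝ) ^ k *
    (if k = 0 then 54 else if k = 1 then 0 else 108) ≤ 225 - 353 * 0.694 ^ (n + 2) := by
  induction n with
  | zero => simp [Finset.sum_range_succ]; norm_num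
  | succ n ih =>
    rw [show n + 1 + 2 = (n + 2) + 1 by ring, Finset.sum_range_succ, if_neg (by omega), if_neg (by omega),
      pow_succ _ (n + 2)]
    have : (0 : ℝ) < 0.694 ^ (n + 2) := by positivity
    linarith

open Classical in
theorem csd_S_le (k : ℕ) : ∑ k' ∈ Finset.range (k + 1), (3 : ℝ) ^ (-(k' : ℝ) / 3) *
    ∑ u' ∈ box 1, (((reps 9).filter (fun d => cf Bz (u' * lam ^ k', d) ≠ 0)).card : ℝ) ≤ 225 := by
  have h1 : ∀ k' : ℕ, (3 : ℝ) ^ (-(k' : ℝ) / 3) ≤ 0.694 ^ k' := fun k' => by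
    rw [show -(k' : ℝ) / 3 = (-(1 : ℝ) / 3) * k' by ring, Real.rpow_mul (by norm_num), Real.rpow_natCast]
    exact pow_le_pow_left₀ (by positivity) csd_q_le _
  have hb : ∀ k' : ℕ, (0 : ℝ) ≤ (if k' = 0 then 54 else if k' = 1 then 0 else 108) := fun k' => by
    split_ifs <;> norm_num
  calc _ ≤ ∑ k' ∈ Finset.range (k + 1), (0.694 : ℝ) ^ k' *
        (if k' = 0 then 54 else if k' = 1 then 0 else 108) :=
        Finset.sum_le_sum fun k' _ => mul_le_mul (h1 k') (csd_count k')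
          (Finset.sum_nonneg fun _ _ => Nat.cast_nonneg _) (by positivity)
    _ ≤ ∑ k' ∈ Finset.range (k + 2), (0.694 : ℝ) ^ k' *
        (if k' = 0 then 54 else if k' = 1 then 0 else 108) :=
        Finset.sum_le_sum_of_subset_of_nonneg (Finset.range_mono (by omega))
          fun k' _ _ => mul_nonneg (by positivity) (hb k')
    _ ≤ 225 := by
        have := csd_geom k
        have : (0 : ℝ) < 0.694 ^ (k + 2) := by positivity
        linarith

theorem csd_Nr_ul {u : O} (hu : IsUnit u) (k : ℕ) :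
    Nr (u * lam ^ k) ^ (1 / 6 : ℝ) = (3 : ℝ) ^ ((k : ℝ) / 6) := by
  rw [Nr_mul, isUnit_iff_Nr.1 hu, Nr_pow, Nr_lam, one_mul, ← Real.rpow_natCast,
    ← Real.rpow_mul (by norm_num)]
  congr 1; ring

theorem norm_Tc_Bz_ul {u : O} (hu : IsUnit u) (k : ℕ) :
    ‖Tc Bz (u * lam ^ k)‖ ≤ 11 / 2 * (3 : ℝ) ^ ((k : ℝ) / 6) * ‖T0‖ := by
  classical
  have h1 := (norm_rs_ul per_Bz (fun n hn => op_Bz hn) hu k).trans
    (mul_le_mul_of_nonneg_left (csd_S_le k) (by positivity))
  have h9 : (3 : ℝ) ^ (-(1 : ℝ) / 3) * (9 : ℝ) ^ (1 / 6 : ℝ) = 1 := by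
    rw [show (9 : ℝ) = 3 ^ (2 : ℝ) by norm_num, ← Real.rpow_mul (by norm_num),
      ← Real.rpow_add (by norm_num)]
    norm_num
  have h9p : (0 : ℝ) < (9 : ℝ) ^ (1 / 6 : ℝ) := by positivity
  have h2 : 1 ≤ 0.694 * (9 : ℝ) ^ (1 / 6 : ℝ) := by
    exact h9.symm.le.trans (mul_le_mul_of_nonneg_right csd_q_le h9p.le)
  have h3p : (0 : ℝ) < (3 : ℝ) ^ ((k : ℝ) / 6) := by positivity
  rw [T0_eq]
  unfold Tc
  rw [csd_Nr_ul hu]
  simp only [norm_mul, norm_div, Complex.norm_real, Real.norm_of_nonneg h3p.le,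
    Real.norm_of_nonneg h9p.le, Complex.norm_ofNat]
  have h4 : ‖rs Bz (u * lam ^ k)‖ ≤ 11 / 2 * (81 * ‖Rl 0‖ * (9 : ℝ) ^ (1 / 6 : ℝ)) := by
    have := norm_nonneg (Rl 0)
    nlinarith
  calc ‖rs Bz (u * lam ^ k)‖ / ‖Me F0‖ * (3 : ℝ) ^ ((k : ℝ) / 6)
      ≤ 11 / 2 * (81 * ‖Rl 0‖ * (9 : ℝ) ^ (1 / 6 : ℝ)) / ‖Me F0‖ * (3 : ℝ) ^ ((k : ℝ) / 6) := by gcongr
    _ = _ := by ring

theorem norm_Tc_Bz_le {h : O} (hh : h ≠ 0) : ‖Tc Bz h‖ ≤ 11 / 2 * Nr h ^ (1 / 6 : ℝ) * ‖T0‖ := by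
  obtain ⟨u, k, n, hu, hn, rfl⟩ := exists_decomp hh
  have h1 := norm_Tc_ul_mul per_Bz (fun n hn => op_Bz hn) hu k hn
  have h2 := norm_Tc_Bz_ul hu k
  rw [Nr_mul, Real.mul_rpow (Nr_nonneg _) (Nr_nonneg _), csd_Nr_ul hu]
  have h3 : 0 ≤ Nr n ^ (1 / 6 : ℝ) := Real.rpow_nonneg (Nr_nonneg _) _
  calc _ ≤ Nr n ^ (1 / 6 : ℝ) * (11 / 2 * (3 : ℝ) ^ ((k : ℝ) / 6) * ‖T0‖) :=
        h1.trans (mul_le_mul_of_nonneg_left h2 h3)
    _ = _ := by ring

end Crest.Agent.R012

end
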