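import Crest.Agent.R012.CsD

/-! # Row 12: the first coefficient of the invariant theta function -/

set_option autoImplicit false

noncomputable section

open scoped BigOperators ComplexConjugate Topology
open Complex MeasureTheory Filter Set Crest.Agent.R017 Crest.Agent.R017.Theta

namespace Crest.Agent.R012

theorem cse_lam3 {x : O} (h : 3 * lam ∣ x + 3) : (3 : O) ∣ x := by
  have := (dvd_mul_right 3 lam).trans h
  exact (dvd_add_left (dvd_refl _)).1 this

theorem cse_nine : 3 * lam ∣ (9 : O) := by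
  rw [show (9 : O) = 3 * 3 by norm_num]
  exact mul_dvd_mul_left _ lam_dvd_three

theorem cse_iff {q x y : O} (h : q ∣ x - y) : q ∣ x ↔ q ∣ y := dvd_iff_dvd_of_dvd_sub h

theorem cse_prim {x y : O} (h : (3 : O) ∣ x - y) : Prim x ↔ Prim y :=
  cse_iff (by rwa [sub_sub_sub_cancel_right])

theorem cse_not_prim_neg {x : O} (h : Prim x) : ¬ Prim (-x) := by
  rw [b1_prim_iff] at h ⊢
  simp only [QuadraticAlgebra.re_neg, QuadraticAlgebra.im_neg]
  omega

theorem cse_not_three {x : O} (h : Prim x) : ¬ (3 : O) ∣ x := fun h3 =>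
  h.not_lam_dvd (lam_dvd_three.trans h3)

theorem cse_nine_dvd {x : O} (h : (9 : O) ∣ 3 * x) : (3 : O) ∣ x := by
  rw [show (9 : O) = 3 * 3 by norm_num] at h
  exact (mul_dvd_mul_iff_left (by norm_num)).1 h

theorem cse_ite (p : Prop) {_ : Decidable p} : ‖(if p then (1 : ℂ) else 0)‖ ≤ 1 := by
  split_ifs <;> simp

theorem cse_zero {A : ℂ} {r : O} (hr : ¬ (9 : O) ∣ r) (h : ∀ y, A = eO (r * y) 9 * A) : A = 0 := by
  by_contra hA
  have e : ∀ y, eO (r * y) 9 = 1 := fun y => mul_right_cancel₀ hA (by rw [← h, one_mul])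
  exact hr (b3_dvd_of_eO ga_nine (by simpa using e 1) (e om))

theorem cse_eO3 (y : O) : eO y 3 = eO (3 * y) 9 := by
  rw [show (9 : O) = 3 * 3 by norm_num, eO_mul_cancel (by norm_num)]

open Classical in
theorem cse_cf {P : O → Prop} {c d : O} {B : O × O → ℂ}
    (hB : ∀ d, B (c, d) = if P c ∧ Prim d then 1 else 0) :
    cf B (c, d) = if P c ∧ Prim d then kap d c else 0 := by
  unfold cf
  rw [hB]
  by_cases h : P c ∧ Prim d
  · rw [if_pos h, if_pos h, one_mul]
    have hs : sy (c, d) = kap d c := if_neg h.2.not_lam_dvd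
    split_ifs with hc
    · exact hs
    · exact ((kap_eq_zero h.2.ne_zero).2 (Or.inr fun h' => hc h'.symm)).symm
  · simp [h]

open Classical in
theorem cse_cf_B0 (c d : O) : cf B0 (c, d) = if (3 : O) ∣ c ∧ Prim d then kap d c else 0 := by
  convert cse_cf (P := fun c => (3 : O) ∣ c) (B := B0) (fun d => by unfold B0; congr)

open Classical in
theorem cse_cf_B0s (c d : O) : cf B0s (c, d) = if 3 * lam ∣ c + 3 ∧ Prim d then kap d c else 0 := by
  convert cse_cf (P := fun c => 3 * lam ∣ c + 3) (B := B0s) (fun d => by unfold B0s; congr)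

theorem cse_Ac_zero {B : O × O → ℂ} {c : O} (h : ∀ d, cf B (c, d) = 0) (r : O) : Ac B c r = 0 := by
  simp [Ac, gs, h]

theorem cse_lam_iff (c : O) : 3 * lam ∣ 3 * c + 3 ↔ lam ∣ c + 1 := by
  rw [show 3 * c + 3 = 3 * (c + 1) by ring]
  exact mul_dvd_mul_iff_left (by norm_num)

open Classical in
theorem cse_transl {c : O} (hc : c ≠ 0) (y d : O) :
    cf B0 (3 * c, d + 3 * c * y) =
      (if lam ∣ c - 1 then eO y 3 else if lam ∣ c + 1 then eO (-y) 3 else 1) * cf B0 (3 * c, d) := by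
  rw [cse_cf_B0, cse_cf_B0]
  have hp : Prim (d + 3 * c * y) ↔ Prim d := cse_prim ⟨c * y, by ring⟩
  by_cases hd : Prim d
  · rw [if_pos (And.intro (dvd_mul_right _ _) (hp.2 hd)), if_pos (And.intro (dvd_mul_right _ _) hd),
      kap_transl hc hd, mul_comm]
  · simp [hp, hd]

theorem cse_Ac_eq {c : O} (h : 3 * lam ∣ c + 3) (r : O) : Ac B0 c r = Ac B0s c r := by
  unfold Ac
  congr 1
  funext d
  rw [cse_cf_B0, cse_cf_B0s]
  simp [h, cse_lam3 h]

theorem cse_not_both {c : O} (h : lam ∣ c + 1) : ¬ lam ∣ c - 1 := by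
  rw [b1_lam_dvd] at h ⊢
  simp only [QuadraticAlgebra.re_add, QuadraticAlgebra.im_add, QuadraticAlgebra.re_sub,
    QuadraticAlgebra.im_sub, QuadraticAlgebra.re_one, QuadraticAlgebra.im_one] at h ⊢
  omega

theorem cse_not_one : ¬ (3 : O) ∣ 1 := cse_not_three prim_one

theorem cse_not_two : ¬ (3 : O) ∣ 2 := by
  rw [b1_three_dvd, b1_two_re]
  omega

theorem cse_Ac_neg {B : O × O → ℂ} (hB : Per B) {c : O} (hc : c ≠ 0) (r : O) :
    Ac B (-c) r = gs (fun d => cf B (-c, -d)) (9 * c) r := by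
  have h9 : 9 * c ≠ 0 := mul_ne_zero ga_nine hc
  have hc' : -c ≠ 0 := neg_ne_zero.2 hc
  have hper : ∀ x y, 9 * c ∣ x - y →
      cf B (-c, x) * eO (r * x) (9 * -c) = cf B (-c, y) * eO (r * y) (9 * -c) := by
    intro x y h
    have h' : 9 * -c ∣ x - y := by rwa [mul_neg, neg_dvd]
    rw [hB.wt.cf_per h' hc', eO_congr (x := r * x) (y := r * y) (by rw [← mul_sub]; exact h'.mul_left _)]
  unfold Ac gs
  rw [← sum_reps_associated h9 (n' := 9 * -c) (by rw [mul_neg]; exact (Associated.refl _).neg_right) _ hper,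
    ← sum_reps_affine h9 _ hper (u := -1) (isCoprime_one_left.neg_left) 0]
  refine Finset.sum_congr rfl fun x _ => ?_
  rw [add_zero, neg_one_mul, ← eO_mul_cancel (c := -1) (by norm_num) (r * x) (9 * c)]
  congr 2 <;> ring

theorem cse_Ac_Bz_neg {c : O} (hc : c ≠ 0) (r : O) : Ac Bz (-c) r = Ac Bz c r := by
  rw [cse_Ac_neg per_Bz hc]
  unfold Ac
  congr 1
  funext d
  rw [cf_Bz_S (c, d), one_mul, ra_gS, cf_Bz_S (d, -c), one_mul, ra_gS]

theorem cse_ind (d : O) :
    (if (3 : ℤ) ∣ d.im then (1 : ℂ) else 0) = (1 + eO d 3 + eO (-d) 3) / 3 := by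
  have h1 : eO d 3 = 1 ↔ (3 : ℤ) ∣ d.im := by
    have h3 : Real.sqrt 3 ≠ 0 := by positivity
    have e : (emb d / emb 3).im = d.im / 3 * (Real.sqrt 3 / 2) := by
      rw [map_ofNat, show (3 : ℂ) = ((3 : ℝ) : ℂ) by norm_num, Complex.div_ofReal_im, b3_emb_im]
      ring
    rw [eO, b3_ec_eq_one, e]
    refine exists_congr fun k => ?_
    rw [mul_left_inj' (by positivity), div_eq_iff (by norm_num), mul_comm]
    exact_mod_cast Iff.rfl
  have h2 : eO d 3 * eO (-d) 3 = 1 := by rw [← eO_add, add_neg_cancel, eO_of_dvd (dvd_zero _)]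
  have h3 : eO d 3 * eO d 3 = eO (-d) 3 := by
    rw [← eO_add]; exact eO_congr ⟨d, by ring⟩
  split_ifs with h
  · rw [← h3, h1.2 h]; norm_num
  · have h4 : eO d 3 - 1 ≠ 0 := sub_ne_zero.2 fun h' => h (h1.1 h')
    have : (eO d 3 - 1) * (1 + eO d 3 + eO (-d) 3) = 0 := by linear_combination h2 + h3
    rw [(mul_eq_zero.1 this).resolve_left h4, zero_div]

theorem cse_gs {c : O} (hc : Prim c) {r : O} (hr : ¬ (9 : O) ∣ r) :
    ∑ d ∈ reps (9 * c), kap c d * eO (r * d) (9 * c) = 0 := by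
  have := gs_tower (f := kap c) hc.ne_zero ga_nine (fun x y h => kap_congr' hc.ne_zero h) r
  rwa [if_neg hr, mul_comm c] at this

theorem cse_prim_case {c : O} (hc : Prim c) : Ac Bz c 3 = Ac Bs c 3 / 3 := by
  have h0 := cse_gs hc (r := 3) fun h => cse_not_one (cse_nine_dvd (by rwa [mul_one]))
  have h1 := cse_gs hc (r := 3 + 3 * c) fun h => cse_not_two (by
    have h2 : (3 : O) ∣ 1 + c := cse_nine_dvd (by rwa [mul_add, mul_one])
    have := dvd_sub h2 hc
    rwa [show 1 + c - (c - 1) = 2 by ring] at this)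
  have e : ∀ d, eO d 3 = eO (3 * c * d) (9 * c) := fun d => by
    rw [← eO_mul_cancel (mul_ne_zero (by norm_num) hc.ne_zero : 3 * c ≠ 0) d 3]
    congr 1; ring
  unfold Ac gs
  rw [← add_zero (_ / 3), ← zero_div 3, ← add_zero (0 : ℂ), ← add_div]
  nth_rw 1 [← h0]
  rw [← h1, ← Finset.sum_add_distrib, ← Finset.sum_add_distrib, Finset.sum_div]
  refine Finset.sum_congr rfl fun d _ => ?_
  beta_reduce
  rw [cf_Bz_prim (Or.inl hc), cf_Bs, if_pos hc, add_mul, eO_add, ← e]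
  have := cse_ind d
  split_ifs at this ⊢ with h
  · linear_combination kap c d * eO (3 * d) (9 * c) * this
  · linear_combination kap c d * eO (3 * d) (9 * c) * this

theorem cse_B0_zero {c : O} (h : ¬ (3 : O) ∣ c) (r : O) : Ac B0 c r = 0 :=
  cse_Ac_zero (fun d => by rw [cse_cf_B0, if_neg fun h' => h h'.1]) r

theorem cse_Bs_zero {c : O} (h : ¬ Prim c) : Ac Bs c 3 = 0 := by rw [Ac_Bs_three, if_neg h]

theorem cse_pg_neg {a : O → ℂ} (h : PG a) : PG fun c => a (-c) := by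
  obtain ⟨C, hC⟩ := h
  exact ⟨C, fun c => by simpa only [Nr_neg] using hC (-c)⟩

theorem cse_pg_mul {a : O → ℂ} (h : PG a) (κ : ℂ) : PG fun c => κ * a c := by
  obtain ⟨C, hC⟩ := h
  exact ⟨‖κ‖ * C, fun c => by rw [norm_mul, mul_assoc]; gcongr; exact hC c⟩

theorem cse_pg_add {a b : O → ℂ} (h : PG a) (h' : PG b) : PG fun c => a c + b c := by
  obtain ⟨C, hC⟩ := h
  obtain ⟨D, hD⟩ := h'
  exact ⟨C + D, fun c => (norm_add_le _ _).trans (by rw [add_mul]; exact add_le_add (hC c) (hD c))⟩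

theorem per_B0 : Per B0 := ⟨fun _ => cse_ite _, fun x y h => by
  classical
  unfold B0
  exact if_congr (and_congr (cse_iff (s1t_three_nine.trans h.1)) (cse_prim (s1t_three_nine.trans h.2)))
    rfl rfl⟩

theorem per_B0s : Per B0s := ⟨fun _ => cse_ite _, fun x y h => by
  classical
  unfold B0s
  exact if_congr (and_congr (cse_iff (by rw [add_sub_add_right_eq_sub]; exact cse_nine.trans h.1))
    (cse_prim (s1t_three_nine.trans h.2))) rfl rfl⟩

theorem per_B1s : Per B1s := ⟨fun _ => cse_ite _, fun x y h => by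
  classical
  unfold B1s
  exact if_congr (and_congr (cse_prim (s1t_three_nine.trans h.1))
    (cse_iff (by rw [sub_sub_sub_cancel_right]; exact cse_nine.trans h.2))) rfl rfl⟩

theorem op_B0s {n : O} (hn : Prim n) : Op n B0s = B0s := by
  funext ⟨c, d⟩
  have h1 : Prim (n ^ 2 * d) ↔ Prim d := ⟨(hn.pow 2).of_mul, (hn.pow 2).mul⟩
  have h2 : 3 * lam ∣ n * c + 3 ↔ 3 * lam ∣ c + 3 := by
    obtain ⟨y, hy⟩ := id hn
    have key : lam ∣ c → (3 * lam ∣ n * c + 3 ↔ 3 * lam ∣ c + 3) := fun hl => cse_iff (by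
      rw [show n * c + 3 - (c + 3) = (n - 1) * c by ring, hy, mul_assoc]
      exact mul_dvd_mul_left _ (hl.mul_left _))
    exact ⟨fun h => (key ((s1t_lam_mul hn c).1 (lam_dvd_three.trans (cse_lam3 h)))).1 h,
      fun h => (key (lam_dvd_three.trans (cse_lam3 h))).2 h⟩
  unfold Op B0s
  dsimp only
  by_cases h : 3 * lam ∣ c + 3 ∧ Prim d
  · rw [if_pos h, if_pos (And.intro (h2.2 h.1) (h1.2 h.2)), rc, un_prim h.2,
      kap_one_right hn.not_lam_dvd, rc', if_neg h.2.not_lam_dvd]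
    simp
  · rw [if_neg h, if_neg fun h' => h (And.intro (h2.1 h'.1) (h1.1 h'.2)), zero_mul, zero_mul]

theorem cf_B0s_S (x : O × O) : cf B0s x = 1 * cf B1s (ra x gS) := by
  obtain ⟨c, d⟩ := x
  have hc : Cop (d, -c) ↔ Cop (c, d) := by rw [← ra_gS (c, d)]; exact cop_ra _
  have h2 : 3 * lam ∣ -c - 3 ↔ 3 * lam ∣ c + 3 := by rw [← neg_add', dvd_neg]
  rw [one_mul, ra_gS]
  unfold cf B0s B1s
  dsimp only
  by_cases h : Cop (c, d)
  swap
  · rw [if_neg h, if_neg fun h' => h (hc.1 h')]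
  rw [if_pos h, if_pos (hc.2 h)]
  by_cases h' : 3 * lam ∣ c + 3 ∧ Prim d
  · have h3 : lam ∣ -c := (lam_dvd_three.trans (cse_lam3 h'.1)).neg_right
    rw [if_pos h', if_pos (And.intro h'.2 (h2.2 h'.1))]
    simp only [sy, sym, if_neg h'.2.not_lam_dvd, if_pos h3, kap_neg_right]
  · rw [if_neg h', if_neg fun h3 => h' (And.intro (h2.1 h3.2) h3.1), zero_mul, zero_mul]

/-- `kap_transl`, `Ac_transl`. -/
theorem Ac_B0s_of_not {c h : O} (hc : c ≠ 0) (hh : ¬ (9 : O) ∣ h - 3) : Ac B0s c h = 0 := by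
  by_cases h3 : 3 * lam ∣ c + 3
  · rw [← cse_Ac_eq h3]
    obtain ⟨c, rfl⟩ := cse_lam3 h3
    rw [cse_lam_iff] at h3
    refine cse_zero hh fun y => ?_
    have := Ac_transl per_B0 hc (cse_transl (right_ne_zero_of_mul hc) y) h
    rw [if_neg (cse_not_both h3), if_pos h3, cse_eO3, ← eO_add] at this
    convert this using 3
    ring
  · exact cse_Ac_zero (fun d => by rw [cse_cf_B0s, if_neg fun h' => h3 h'.1]) h

theorem Ac_B0_three {c : O} (hc : c ≠ 0) : Ac B0 c 3 = Ac B0s c 3 := by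
  by_cases h3 : 3 * lam ∣ c + 3
  · exact cse_Ac_eq h3 3
  rw [cse_Ac_zero (B := B0s) (fun d => by rw [cse_cf_B0s, if_neg fun h' => h3 h'.1])]
  by_cases h : (3 : O) ∣ c
  swap
  · exact cse_B0_zero h 3
  obtain ⟨c, rfl⟩ := h
  rw [cse_lam_iff] at h3
  have key := fun y => Ac_transl per_B0 hc (cse_transl (right_ne_zero_of_mul hc) y) 3
  by_cases h1 : lam ∣ c - 1
  · refine cse_zero (r := 3 * 2) (fun h => cse_not_two (cse_nine_dvd h)) fun y => ?_
    have := key y
    rw [if_pos h1, cse_eO3, ← eO_add] at this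
    convert this using 3
    ring
  · refine cse_zero (r := 3) (fun h => cse_not_one (cse_nine_dvd (by rwa [mul_one]))) fun y => ?_
    have := key y
    rwa [if_neg h1, if_neg h3, one_mul] at this

/-- Only `Ac B1s 1 0 = 3` is non-zero. -/
theorem sig0_B1s : sig0 B1s = b0 / 27 := by
  classical
  have hz : ∀ c, ¬ Prim c → Ac B1s c 0 = 0 := fun c hc =>
    cse_Ac_zero (fun d => by simp [cf, B1s, hc]) 0
  have h1 : Ac B1s 1 0 = 3 := by
    have e : (fun d => cf B1s (1, d)) = fun d => if 3 * lam ∣ d - 3 then (1 : ℂ) else 0 := by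
      funext d
      have hc : Cop (1, d) := isCoprime_one_left
      unfold cf B1s
      rw [if_pos hc]
      by_cases h : 3 * lam ∣ d - 3
      · have h3 : lam ∣ d := by
          have := (dvd_mul_left lam 3).trans h
          exact (dvd_sub_left lam_dvd_three).1 this
        simp [h, prim_one, sy, sym, h3, kap_unit_left]
      · simp [h]
    have h9 : (9 : O) * 1 = 3 * lam * star lam := by
      rw [mul_assoc, mul_star_self]; norm_num [nz, lam]
    have hl : lam ≠ 0 := prime_lam.ne_zero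
    unfold Ac
    rw [e, h9, ga_tower_zero (mul_ne_zero (by norm_num) hl) (star_ne_zero.2 hl)
      (fun x y h => by rw [cse_iff (x := x - 3) (y := y - 3) (by rwa [sub_sub_sub_cancel_right])]),
      ga_gs_zero, Nr_star, Nr_lam]
    have := ga_one (n := 3 * lam) (mul_ne_zero (by norm_num) hl) 3
    rw [this]; norm_num
  unfold sig0
  rw [tsum_eq_single 0, Finset.sum_eq_single 1]
  · rw [pow_zero, mul_one, h1]; norm_num; ring
  · intro u hu hne
    rw [mem_box] at hu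
    rw [pow_zero, mul_one]
    exact hz u fun hp => hne (hp.eq_one_of_isUnit (isUnit_iff_Nr.2 (le_antisymm hu.2 (one_le_Nr hu.1))))
  · intro h
    exact absurd (mem_box.2 ⟨one_ne_zero, Nr_one.le⟩) h
  · intro k hk
    rw [Finset.sum_eq_zero fun u _ => hz _ fun hp =>
      hp.not_lam_dvd ((dvd_pow_self lam hk).mul_left u), mul_zero]

/-- `T0 * Th B0s = Tc B0s 3 * Th Bs` (`tsum_three`, `Tc_three_mul`), then `cusp_lim` for `S` and
`lim_Bs_zero`. -/
theorem Tc_B0s_three : Tc B0s 3 = T0 / 9 := by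
  have h1 : ∀ h, T0 * Tc B0s h = Tc B0s 3 * Tc Bs h := by
    intro h
    by_cases hh : (9 : O) ∣ h - 3
    · obtain ⟨y, hy⟩ := hh
      have hN : Prim (1 + 3 * y) := ⟨y, by ring⟩
      rw [show h = 3 * (1 + 3 * y) by linear_combination hy,
        Tc_three_mul per_B0s (fun n hn => op_B0s hn) hN, Tc_three_mul per_Bs (fun n hn => op_Bs hn) hN,
        T0]
      ring
    · rw [Tc_Bs_of_not hh, Tc_eq_zero fun c hc => Ac_B0s_of_not hc hh, mul_zero, mul_zero]
  have h2 : ∀ w, T0 * Th B0s w = Tc B0s 3 * Th Bs w := by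
    intro w
    unfold Th th
    rw [← tsum_mul_left, ← tsum_mul_left]
    refine tsum_congr fun h => ?_
    split_ifs
    · simp
    · rw [← mul_assoc, ← mul_assoc, h1]; ring
  have e0 : gS 0 0 = 0 := rfl
  have e1 : gS 1 0 = 1 := rfl
  have h3 := cusp_lim per_B0s per_B1s (g := gS) (by rw [e1]; exact one_ne_zero) cf_B0s_S
  rw [e0, e1, map_zero, zero_div, Nr_one, Real.one_rpow, sig0_B1s] at h3
  have h4 := tendsto_nhds_unique (h3.const_mul T0)
    ((lim_Bs_zero.const_mul (Tc B0s 3)).congr fun u => by rw [mul_left_comm, ← h2, mul_left_comm])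
  obtain ⟨z, hz, hb⟩ := b0_pos
  have hb0 : b0 ≠ 0 := by rw [hb]; exact_mod_cast hz.ne'
  refine mul_right_cancel₀ hb0 ?_
  push_cast at h4
  linear_combination -3 * h4

/-- For `c = ± n`, `n` primary, the sum is `Ac Bs n 3 / 3`; for `3 ∣ c` split `d ≡ ± 1`. -/
theorem Ac_Bz_three {c : O} (hc : c ≠ 0) :
    Ac Bz c 3 = Ac Bs c 3 / 3 + Ac Bs (-c) 3 / 3 + Ac B0 c 3 + Ac B0 (-c) 3 := by
  by_cases h1 : Prim c
  · rw [cse_prim_case h1, cse_Bs_zero (cse_not_prim_neg h1), cse_B0_zero (cse_not_three h1),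
      cse_B0_zero fun h => cse_not_three h1 (dvd_neg.1 h)]
    simp
  by_cases h2 : Prim (-c)
  · rw [← cse_Ac_Bz_neg hc, cse_prim_case h2, cse_Bs_zero h1, cse_B0_zero (cse_not_three h2),
      cse_B0_zero fun h => cse_not_three h2 (dvd_neg.2 h)]
    simp
  rw [cse_Bs_zero h1, cse_Bs_zero h2, zero_div, zero_add, zero_add]
  by_cases h3 : (3 : O) ∣ c
  · rw [cse_Ac_neg per_B0 hc]
    unfold Ac gs
    rw [← Finset.sum_add_distrib]
    refine Finset.sum_congr rfl fun d _ => ?_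
    beta_reduce
    rw [← add_mul, cf_Bz_three h3, cse_cf_B0, cse_cf_B0, kap_neg_right,
      kap_associated (Associated.refl d).neg_left]
    congr 1
    by_cases hd : Prim d
    · simp [hd, h3, cse_not_prim_neg hd]
    · simp [hd, h3]
  · rw [cse_B0_zero h3, cse_B0_zero fun h => h3 (dvd_neg.1 h), add_zero]
    exact cse_Ac_zero (cf_Bz_other h1 h2 h3) 3

theorem Res.neg {a : O → ℂ} {L : ℂ} (h : Res a L) : Res (fun c => a (-c)) L := by
  have := Theta.Res.scale (a := fun c => a (-c)) (n := -1) (by norm_num) h (fun c => by simp)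
    (fun c hc => absurd (neg_dvd.2 (one_dvd c)) hc)
  rwa [Nr_neg, Nr_one, Real.one_rpow, Complex.ofReal_one, one_mul] at this

theorem Tc_Bz_three : Tc Bz 3 = 8 / 9 * T0 := by
  have h3 : (3 : O) ≠ 0 := by norm_num
  have a1 := (res_rs per_Bs h3).const_mul (1 / 3)
  have p1 := cse_pg_mul (pg_Ac per_Bs.bd 3) (1 / 3)
  have a2 : Res (fun c => Ac B0 c 3) (rs B0s 3) :=
    (res_rs per_B0s h3).congr fun c hc => (Ac_B0_three hc).symm
  have p2 := pg_Ac per_B0.bd 3
  have q1 := cse_pg_neg p1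
  have q2 := cse_pg_neg p2
  have b1 := Res.neg a1
  have b2 := Res.neg a2
  have c1 := Theta.Res.add p1 q1 a1 b1
  have c2 := Theta.Res.add (cse_pg_add p1 q1) p2 c1 a2
  have a3 := Theta.Res.add (cse_pg_add (cse_pg_add p1 q1) p2) q2 c2 b2
  have a3' : Res (fun c => Ac Bz c 3) _ := a3.congr fun c hc => by rw [Ac_Bz_three hc]; ring
  have a4 := (res_rs per_Bz h3).unique a3'
  have a5 := Tc_B0s_three
  unfold T0 Tc at *
  rw [a4]
  linear_combination 2 * a5

/-- `Tf_mob` for `S` on the geodesic `z = 0`. -/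
theorem Bz_identity {v : ℝ} (hv : 0 < v) :
    8 / 9 * ((((9 : ℝ) ^ (7 / 3 : ℝ) : ℝ) : ℂ) * b0) *
        ((v ^ (2 / 3 : ℝ) - v⁻¹ ^ (2 / 3 : ℝ) : ℝ) : ℂ) =
      ∑' h : O, if h = 0 then 0 else Tc Bz h *
        ((v⁻¹ * K1 (v⁻¹ * ‖emb h‖ / 9) - v * K1 (v * ‖emb h‖ / 9) : ℝ) : ℂ) := by
  have hw : ((0 : ℂ), v) ∈ Hs := hv
  have h1 := Tf_mob per_Bz per_Bz cf_Bz_S hw
  have e : mob gS (0, v) = (0, v⁻¹) := by
    rw [mob_gS]
    simp only [map_zero, neg_zero, zero_div, norm_zero, Prod.mk.injEq, true_and]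
    field_simp
    ring
  rw [e, one_mul] at h1
  unfold Tf at h1
  rw [sig0_Bz] at h1
  have h2 : Th Bz (0, v⁻¹) - Th Bz (0, v) = ∑' h : O, ((if h = 0 then 0 else th Bz h v⁻¹ * eh h 0) -
      if h = 0 then 0 else th Bz h v * eh h 0) :=
    ((m2t_summable per_Bz (inv_pos.2 hv) 0).tsum_sub (m2t_summable per_Bz hv 0)).symm
  have h9 : (9 : ℝ) ^ (7 / 3 : ℝ) * (9 : ℝ) ^ (-(7 / 3) : ℝ) = 1 := by
    rw [← Real.rpow_add (by norm_num)]; simp
  have h9' : (((9 : ℝ) ^ (7 / 3 : ℝ) : ℝ) : ℂ) * (((9 : ℝ) ^ (-(7 / 3) : ℝ) : ℝ) : ℂ) = 1 := by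
    exact_mod_cast h9
  calc _ = (((9 : ℝ) ^ (7 / 3 : ℝ) : ℝ) : ℂ) * (Th Bz (0, v⁻¹) - Th Bz (0, v)) := by
        rw [Complex.ofReal_sub]
        linear_combination -(((9 : ℝ) ^ (7 / 3 : ℝ) : ℝ) : ℂ) * h1
    _ = _ := by
        rw [h2, ← tsum_mul_left]
        refine tsum_congr fun h => ?_
        have he : eh h 0 = 1 := by rw [eh, mul_zero, zero_div, ← map_zero emb, ec_emb]
        split_ifs
        · simp
        · rw [he, th, th]
          simp only [Complex.ofReal_mul, Complex.ofReal_sub]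
          linear_combination Tc Bz h * (((v⁻¹ : ℝ) : ℂ) * (K1 (v⁻¹ * ‖emb h‖ / 9) : ℂ) -
            (v : ℂ) * (K1 (v * ‖emb h‖ / 9) : ℂ)) * h9'

end Crest.Agent.R012

end
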