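import Crest.Agent.R012.CPsd
import Crest.Agent.R012.CB
import Crest.Agent.R012.Chr
import Crest.Agent.R017.Shift

/-! # Row 12, dispersion: definitions -/

set_option autoImplicit false

noncomputable section

open scoped BigOperators ComplexConjugate Topology
open Complex MeasureTheory Filter Set Crest.Agent.R017

namespace Crest.Agent.R012.D

/-- Mellin transform of the kernel dual to `W a`. -/
def mK (a : ℝ) (s : ℂ) : ℂ :=
  Wh a (1 - s) * (c0 : ℂ) ^ (1 - 2 * s) * (Complex.Gamma s * (Complex.Gamma (1 - s))⁻¹)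

/-- The kernel dual to `W a` (the Fourier transform of `z ↦ W a |z|²` at a point of norm `y`). -/
def KK (a y : ℝ) : ℂ := (1 / (2 * Real.pi) : ℂ) *
  ∫ t : ℝ, mK a (((1 / 2 : ℝ) : ℂ) + t * I) * (y : ℂ) ^ (-(((1 / 2 : ℝ) : ℂ) + t * I))

/-- `∑ f(n) N(n)^{s - 1/2}`. -/
def XX (f : O → ℂ) (s : ℂ) : ℂ := ∑' n : O, f n * (Nr n : ℂ) ^ (s - 1 / 2)

/-- A term `(h, n, m)` of the dual sum. -/
def dt (a A : ℝ) (U V : O → O → ℂ) (x : O × O × O) : ℂ :=
  if x.1 = 0 then 0 else (A : ℂ) * (U x.1 x.2.1 * conj (V x.1 x.2.2)) *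
    (((Nr x.2.1 * Nr x.2.2) ^ (-(1 / 2) : ℝ) : ℝ) : ℂ) * KK a (A * Nr x.1 / (Nr x.2.1 * Nr x.2.2))

/-- The dual sum, a sesquilinear form in the row families `U`, `V`. -/
def DS (a A : ℝ) (U V : O → O → ℂ) : ℂ := ∑' x, dt a A U V x

/-- A family of rows dominated by one rapidly decreasing sequence. -/
def Dom (U : O → O → ℂ) : Prop := ∃ u : O → ℂ, Rap u ∧ u 0 = 0 ∧ ∀ h n, ‖U h n‖ ≤ ‖u n‖

/-- The mean square over all non-zero rows. -/
def SS (a A : ℝ) (γ : O → ℂ) : ℝ :=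
  ∑' x : O, if x = 0 then 0 else W a (Nr x / A) * ‖colC γ x‖ ^ 2

open Classical in
/-- The dispersion of the coefficients `u` against `G`. -/
def QQ (G : O → ℂ) (a A : ℝ) (u : O → ℂ) : ℝ :=
  ∑' x : O, if Prim x then W a (Nr x / A) * ‖∑' b : O, u b * G (x * b)‖ ^ 2 else 0

open Classical in
/-- The family of rows `-3 h` with the property `S`. -/
def RW (S : O → Prop) (u : O → ℂ) (h n : O) : ℂ :=
  if S (-3 * h) then u n * kap n (-3 * h) else 0

open Classical in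
/-- The cube rows without the coprimality condition. -/
def RC (u : O → ℂ) (h n : O) : ℂ := if IsCube (-3 * h) then u n else 0

/-- No condition on the rows. -/
def All (_ : O) : Prop := True

/-- Rows far from cubes. -/
def Far (Z : ℝ) (r : O) : Prop := ¬ Near Z r

open Classical in
/-- The non-zero rows of norm `≤ R` with the property `S`. -/
def rows (S : O → Prop) (R : ℝ) : Finset O := (box R).filter S

/-- A dyadic shell. -/
def shell (R : ℝ) : Finset O := (box R).filter (fun h => R / 2 < Nr h)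

/-- Growth allowed on the two sides of the critical length. -/
def phi (α x : ℝ) : ℝ := if x ≤ 1 then x ^ α else x ^ 2

/-- The row hypothesis: mean squares of the Dirichlet series of the rows over dyadic shells. -/
def RH (σ₁ α a : ℝ) (U : O → O → ℂ) (M Rs E : ℝ) : Prop :=
  ∀ σ t R : ℝ, (σ = σ₁ ∨ σ = 5 / 2) → 1 ≤ R →
    ∑ h ∈ shell R, ‖XX (U h) (σ + t * I)‖ ^ 2 ≤
      M ^ (2 * σ - 1) * E * phi α (R / Rs) * Real.exp (a * t ^ 2 / 2)

/-- The row hypothesis for bounded sequences (size `M`, scale `B`) with the gain `e`. -/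
def RG (U : O → O → ℂ) (M B Rs e : ℝ) : Prop :=
  RH (1 / 4) (1 / 3) 4 U B Rs ((M * B) ^ 2 * Rs ^ (1 / 3 : ℝ) * e)

/-- The polynomial weight in the norms. -/
def psi (x : ℝ) : ℝ := x⁻¹ + x ^ 8

/-- Weighted `ℓ²` mass at scale `M`. -/
def nrm (M : ℝ) (u : O → ℂ) : ℝ := ∑' n : O, ‖u n‖ ^ 2 * psi (Nr n / M)

/-- The same with the divisor function. -/
def nrmd (M : ℝ) (u : O → ℂ) : ℝ := ∑' n : O, ‖u n‖ ^ 2 * (dv n * psi (Nr n / M))

/-- The term of the thin norm. -/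
def tt (k : ℕ) (a M : ℝ) (u : O → ℂ) (n : O) : ℝ :=
  ‖u n‖ ^ 2 * (dv n * psi (Nr n / M)) ^ k / W a (Nr n / M)

/-- The thin norm. -/
def tn (k : ℕ) (a M : ℝ) (u : O → ℂ) : ℝ := ∑' n : O, tt k a M u n

/-- All thin norms converge. -/
def TS (a M : ℝ) (u : O → ℂ) : Prop := ∀ k : ℕ, Summable (tt k a M u)

/-- Pointwise envelope. -/
def EV (M B : ℝ) (u : O → ℂ) : Prop := ∀ n, ‖u n‖ ≤ M * W 4 (Nr n / B)

/-- The coefficients of the `d`-th dual form. -/
def ud (γ : O → ℂ) (d n : O) : ℂ := γ (d * n) * conj (g3 n) * conj (kap n (-3))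

open Classical in
/-- The weighted coefficients of `DD`. -/
def co (θ B τ : ℝ) (β : O → ℂ) (b : O) : ℂ :=
  if Prim b ∧ Squarefree b then β b * (Nr b : ℂ) ^ (-(τ * I)) * (W (2 * θ) (Nr b / B) : ℂ) else 0

/-- Good sequences: rough, bounded, with the Siegel–Walfisz property. -/
structure Good (M B w : ℝ) (u : O → ℂ) : Prop where
  supp : Supp 1 u
  rough : ∀ n, u n ≠ 0 → Rough w n
  ev : EV M B u
  sw : ∀ k : O, k ≠ 0 → Nr k ≤ w → ¬ IsCube k → ∀ σ t : ℝ, (σ = 1 / 4 ∨ σ = 5 / 2) → |t| ≤ w →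
    ‖XX (fun n => u n * kap n k) (σ + t * I)‖ ≤ M * B ^ (σ + 1 / 2) / w

open Classical in
/-- The term of the mass on the multiples of `d ≠ 1`, at the scale `m d`. -/
def de (m : O → ℝ) (u : O → ℂ) (d : O) : ℝ :=
  if Prim d ∧ d ≠ 1 then m d ^ (2 / 3 : ℝ) * nrm (m d) (fun n => u (d * n)) else 0

/-- The mass on the multiples of `d ≠ 1`, at scales `≤ T`. -/
def DE (T : ℝ) (u : O → ℂ) (E : ℝ) : Prop :=
  ∃ m : O → ℝ, (∀ d, 0 < m d ∧ m d ≤ T) ∧ Summable (de m u) ∧ ∑' d, de m u d ≤ E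

open Classical in
/-- The comparison sequence. -/
def bp (w B : ℝ) (n : O) : ℂ := if Prim n then rg w n * (W 4 (Nr n / B) : ℂ) else 0

open Classical in
/-- The part of the comparison sequence with small smooth divisors. -/
def hd (w D B : ℝ) (n : O) : ℂ :=
  if Prim n ∧ Squarefree n then
    (∑ d ∈ pdiv n, if Smth w d ∧ Nr d ≤ D then mu d else 0) * (W 4 (Nr n / B) : ℂ) else 0

/-- The pairing with the model. -/
def mm (u : O → ℂ) : ℂ := ∑' n : O, u n * md n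

/-- Large sieve constant after one thin Poisson summation (rows `A`, columns `K`). -/
def D1 (a A K : ℝ) : ℝ := A * Real.sqrt a + K / Real.sqrt a +
  (A * K) ^ (2 / 3 : ℝ) * a ^ (1 / 6 : ℝ) + A ^ (1 / 3 : ℝ) * K * a ^ (-(1 / 6) : ℝ)

/-- Thin columns `M`, all rows `≤ R`, by duality. -/
def D2 (a M R : ℝ) : ℝ := R ^ (1 / 3 : ℝ) * M * Real.sqrt a + R / Real.sqrt a +
  (M * R) ^ (2 / 3 : ℝ) * a ^ (1 / 6 : ℝ) + M ^ (1 / 3 : ℝ) * R * a ^ (-(1 / 6) : ℝ)

/-- Thin columns `M`, all rows `≍ R`, after the second Poisson summation. -/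
def D3 (a M R : ℝ) : ℝ := M / Real.sqrt a + (R * M) ^ (2 / 3 : ℝ) * Real.sqrt a +
  R ^ (1 / 3 : ℝ) * M * a ^ (1 / 6 : ℝ) + M ^ (4 / 3 : ℝ) * a ^ (-(1 / 6) : ℝ)

end Crest.Agent.R012.D

end
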