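import Crest.Agent.R012.DS1

/-! # Row 12, dispersion: the dual sum from the row hypothesis -/

set_option autoImplicit false

noncomputable section

open scoped BigOperators ComplexConjugate Topology
open Complex MeasureTheory Filter Set Crest.Agent.R017

namespace Crest.Agent.R012.D

/-- One shell: `norm_row_le`, Cauchy–Schwarz over the rows inside the integral
(`Real.sum_mul_le_sqrt_mul_sqrt`), `mK_int`, `N h > R / 2`. -/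
theorem t2_shell {σ : ℝ} (hσ : (0 < σ ∧ σ ≤ 1 / 2) ∨ σ = 5 / 2) : ∃ C : ℝ, 0 ≤ C ∧
    ∀ (a A R P₁ P₂ : ℝ) (U V : O → O → ℂ), 0 < a → a ≤ 4 → 0 < A → 0 < R → 0 ≤ P₁ → 0 ≤ P₂ →
    Dom U → Dom V →
    (∀ t : ℝ, ∑ h ∈ shell R, ‖XX (U h) (σ + t * I)‖ ^ 2 ≤ P₁ * Real.exp (a * t ^ 2 / 2)) →
    (∀ t : ℝ, ∑ h ∈ shell R, ‖XX (V h) (σ + t * I)‖ ^ 2 ≤ P₂ * Real.exp (a * t ^ 2 / 2)) →
    ∑ h ∈ shell R, ‖∑' p : O × O, dt a A U V (h, p)‖ ≤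
      C * A ^ (1 - σ) * R ^ (-σ) * a ^ (1 / 2 - σ) * Real.sqrt (P₁ * P₂) := by
  obtain ⟨C, hC, hK⟩ := mK_int hσ
  have hσ0 : 0 < σ := by
    rcases hσ with h | h
    · exact h.1
    · rw [h]; norm_num
  refine ⟨2 ^ σ * C, by positivity, fun a A R P₁ P₂ U V ha ha4 hA hR hP₁ hP₂ hU hV h1 h2 => ?_⟩
  obtain ⟨hi, hint⟩ := hK a ha ha4
  obtain ⟨F, hF⟩ : ∃ F : O → ℝ → ℝ, ∀ h t, F h t = ‖mK a (σ + t * I)‖ *
      (‖XX (U h) (σ + t * I)‖ * ‖XX (V h) (σ + (-t : ℝ) * I)‖) := ⟨_, fun _ _ => rfl⟩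
  have hFi : ∀ h, Integrable (F h) := fun h => by
    rw [funext (hF h)]
    exact integrable_row ha hσ0 (hU.row h).1 (hU.row h).2 (hV.row h).1 (hV.row h).2
  have hF0 : ∀ h t, 0 ≤ F h t := fun h t => by rw [hF]; positivity
  have a1 : ∀ h ∈ shell R, ‖∑' p : O × O, dt a A U V (h, p)‖ ≤
      A ^ (1 - σ) * (2 ^ σ * R ^ (-σ)) * ∫ t, F h t := by
    intro h hh
    obtain ⟨hb, hN⟩ := Finset.mem_filter.1 hh
    have b1 := norm_row_le ha hA hσ0 hU hV (mem_box.1 hb).1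
    rw [← funext (hF h)] at b1
    refine b1.trans (mul_le_mul_of_nonneg_right (mul_le_mul_of_nonneg_left ?_ (by positivity))
      (integral_nonneg (hF0 h)))
    calc Nr h ^ (-σ) ≤ (R / 2) ^ (-σ) :=
          Real.rpow_le_rpow_of_nonpos (by positivity) hN.le (by linarith)
      _ = _ := by
          rw [Real.div_rpow hR.le (by norm_num), Real.rpow_neg (show (0 : ℝ) ≤ 2 by norm_num),
            div_inv_eq_mul, mul_comm]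
  have a2 : ∀ t, ∑ h ∈ shell R, F h t ≤
      Real.sqrt (P₁ * P₂) * (‖mK a (σ + t * I)‖ * Real.exp (a * t ^ 2 / 2)) := by
    intro t
    simp only [hF]
    rw [← Finset.mul_sum]
    have b1 := Real.sum_mul_le_sqrt_mul_sqrt (shell R) (fun h => ‖XX (U h) (σ + t * I)‖)
      (fun h => ‖XX (V h) (σ + (-t : ℝ) * I)‖)
    have b2 := Real.sqrt_le_sqrt (h1 t)
    have b3 := Real.sqrt_le_sqrt (h2 (-t))
    rw [neg_sq] at b3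
    have b4 : Real.sqrt (P₁ * Real.exp (a * t ^ 2 / 2)) * Real.sqrt (P₂ * Real.exp (a * t ^ 2 / 2)) =
        Real.sqrt (P₁ * P₂) * Real.exp (a * t ^ 2 / 2) := by
      rw [Real.sqrt_mul hP₁, Real.sqrt_mul hP₂, Real.sqrt_mul hP₁, mul_mul_mul_comm,
        Real.mul_self_sqrt (Real.exp_pos _).le]
    have b5 := b1.trans ((mul_le_mul b2 b3 (Real.sqrt_nonneg _) (Real.sqrt_nonneg _)).trans b4.le)
    calc _ ≤ ‖mK a (σ + t * I)‖ * (Real.sqrt (P₁ * P₂) * Real.exp (a * t ^ 2 / 2)) :=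
          mul_le_mul_of_nonneg_left b5 (norm_nonneg _)
      _ = _ := by ring
  have a3 : ∑ h ∈ shell R, ∫ t, F h t ≤ Real.sqrt (P₁ * P₂) * (C * a ^ (1 / 2 - σ)) := by
    rw [← integral_finsetSum _ fun h _ => hFi h]
    refine (integral_mono (integrable_finsetSum _ fun h _ => hFi h) (hi.const_mul _) a2).trans ?_
    rw [integral_const_mul]
    exact mul_le_mul_of_nonneg_left hint (Real.sqrt_nonneg _)
  refine (Finset.sum_le_sum a1).trans ?_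
  rw [← Finset.mul_sum]
  refine (mul_le_mul_of_nonneg_left a3 (by positivity)).trans (le_of_eq ?_)
  ring

theorem dt2_step {σ₁ α : ℝ} (h : σ₁ < α) {x : ℝ} (hx : 0 < x) :
    x ^ (-(if x ≤ 1 then σ₁ else 5 / 2)) * phi α x ≤
      ((2 ^ (α - σ₁) - 1)⁻¹ * min (2 * x) 2 ^ (α - σ₁) -
        (1 - 2 ^ (-(1 / 2) : ℝ))⁻¹ * max (2 * x) 1 ^ (-(1 / 2) : ℝ)) -
      ((2 ^ (α - σ₁) - 1)⁻¹ * min x 2 ^ (α - σ₁) -
        (1 - 2 ^ (-(1 / 2) : ℝ))⁻¹ * max x 1 ^ (-(1 / 2) : ℝ)) := by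
  have hδ : 0 < α - σ₁ := by linarith
  have p1 : 0 < (2 : ℝ) ^ (α - σ₁) - 1 := sub_pos.2 (Real.one_lt_rpow (by norm_num) hδ)
  have p2 : 0 < 1 - (2 : ℝ) ^ (-(1 / 2) : ℝ) :=
    sub_pos.2 (Real.rpow_lt_one_of_one_lt_of_neg (by norm_num) (by norm_num))
  unfold phi
  split_ifs with h1
  · have e1 : x ^ (-σ₁) * x ^ α = x ^ (α - σ₁) := by
      rw [← Real.rpow_add hx]
      congr 1
      ring
    have e2 : max (2 * x) 1 ^ (-(1 / 2) : ℝ) ≤ max x 1 ^ (-(1 / 2) : ℝ) :=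
      Real.rpow_le_rpow_of_nonpos (by positivity) (max_le_max (by linarith) le_rfl) (by norm_num)
    have e3 := mul_le_mul_of_nonneg_left e2 (inv_pos.2 p2).le
    rw [e1, min_eq_left (by linarith : 2 * x ≤ 2), min_eq_left (by linarith : x ≤ 2),
      Real.mul_rpow (by norm_num) hx.le]
    have e4 : (2 ^ (α - σ₁) - 1)⁻¹ * (2 ^ (α - σ₁) * x ^ (α - σ₁)) -
        (2 ^ (α - σ₁) - 1)⁻¹ * x ^ (α - σ₁) = x ^ (α - σ₁) := by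
      field_simp
    linarith
  · have h2 : 1 < x := not_le.1 h1
    have e1 : x ^ (-(5 / 2) : ℝ) * x ^ 2 = x ^ (-(1 / 2) : ℝ) := by
      rw [← Real.rpow_natCast, ← Real.rpow_add hx]
      congr 1
      norm_num
    have e2 : min x 2 ^ (α - σ₁) ≤ min (2 * x) 2 ^ (α - σ₁) :=
      Real.rpow_le_rpow (by positivity) (min_le_min (by linarith) le_rfl) hδ.le
    have e3 := mul_le_mul_of_nonneg_left e2 (inv_pos.2 p1).le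
    rw [e1, max_eq_left (by linarith : 1 ≤ 2 * x), max_eq_left h2.le,
      Real.mul_rpow (by norm_num) hx.le]
    have e4 : (1 - 2 ^ (-(1 / 2) : ℝ))⁻¹ * x ^ (-(1 / 2) : ℝ) -
        (1 - 2 ^ (-(1 / 2) : ℝ))⁻¹ * (2 ^ (-(1 / 2) : ℝ) * x ^ (-(1 / 2) : ℝ)) =
          x ^ (-(1 / 2) : ℝ) := by
      field_simp
    linarith

/-- Two geometric series. -/
theorem t2_geo {σ₁ α : ℝ} (h : σ₁ < α) : ∃ C : ℝ, 0 ≤ C ∧ ∀ (Rs : ℝ) (N : ℕ), 0 < Rs →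
    ∑ j ∈ Finset.range N, ((2 : ℝ) ^ j / Rs) ^ (-(if (2 : ℝ) ^ j ≤ Rs then σ₁ else 5 / 2)) *
      phi α (2 ^ j / Rs) ≤ C := by
  have hδ : 0 < α - σ₁ := by linarith
  have p1 : 0 < (2 : ℝ) ^ (α - σ₁) - 1 := sub_pos.2 (Real.one_lt_rpow (by norm_num) hδ)
  have p2 : 0 < 1 - (2 : ℝ) ^ (-(1 / 2) : ℝ) :=
    sub_pos.2 (Real.rpow_lt_one_of_one_lt_of_neg (by norm_num) (by norm_num))
  refine ⟨(2 ^ (α - σ₁) - 1)⁻¹ * 2 ^ (α - σ₁) + (1 - 2 ^ (-(1 / 2) : ℝ))⁻¹, by positivity,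
    fun Rs N hRs => ?_⟩
  obtain ⟨Φ, hΦ⟩ : ∃ Φ : ℕ → ℝ, ∀ j, Φ j = (2 ^ (α - σ₁) - 1)⁻¹ * min (2 ^ j / Rs) 2 ^ (α - σ₁) -
      (1 - 2 ^ (-(1 / 2) : ℝ))⁻¹ * max (2 ^ j / Rs) 1 ^ (-(1 / 2) : ℝ) := ⟨_, fun _ => rfl⟩
  have a1 : ∀ j ∈ Finset.range N,
      ((2 : ℝ) ^ j / Rs) ^ (-(if (2 : ℝ) ^ j ≤ Rs then σ₁ else 5 / 2)) * phi α (2 ^ j / Rs) ≤
        Φ (j + 1) - Φ j := by
    intro j _
    have b1 := dt2_step h (show (0 : ℝ) < 2 ^ j / Rs by positivity)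
    simp only [div_le_one hRs] at b1
    rw [hΦ, hΦ, pow_succ', mul_div_assoc]
    exact b1
  refine (Finset.sum_le_sum a1).trans ?_
  rw [Finset.sum_range_sub, hΦ, hΦ]
  have b1 : min ((2 : ℝ) ^ N / Rs) 2 ^ (α - σ₁) ≤ 2 ^ (α - σ₁) :=
    Real.rpow_le_rpow (by positivity) (min_le_right _ _) hδ.le
  have b2 : max ((2 : ℝ) ^ 0 / Rs) 1 ^ (-(1 / 2) : ℝ) ≤ 1 :=
    Real.rpow_le_one_of_one_le_of_nonpos (le_max_right _ _) (by norm_num)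
  have b3 := mul_le_mul_of_nonneg_left b1 (inv_pos.2 p1).le
  have b4 := mul_le_mul_of_nonneg_left b2 (inv_pos.2 p2).le
  have b5 : 0 ≤ (1 - 2 ^ (-(1 / 2) : ℝ))⁻¹ * max ((2 : ℝ) ^ N / Rs) 1 ^ (-(1 / 2) : ℝ) := by
    positivity
  have b6 : 0 ≤ (2 ^ (α - σ₁) - 1)⁻¹ * min ((2 : ℝ) ^ 0 / Rs) 2 ^ (α - σ₁) := by positivity
  linarith

theorem dt2_phi_nonneg (α : ℝ) {x : ℝ} (hx : 0 ≤ x) : 0 ≤ phi α x := by
  unfold phi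
  split_ifs <;> positivity

theorem dt2_alg {σ a A R M₁ M₂ E₁ E₂ φ : ℝ} (ha : 0 < a) (hA : 0 < A) (hR : 0 < R) (h₁ : 0 < M₁)
    (h₂ : 0 < M₂) (hφ : 0 ≤ φ) :
    A ^ (1 - σ) * R ^ (-σ) * a ^ (1 / 2 - σ) *
        Real.sqrt ((M₁ ^ (2 * σ - 1) * E₁ * φ) * (M₂ ^ (2 * σ - 1) * E₂ * φ)) =
      (A * Real.sqrt a) * (M₁ * M₂) ^ (-(1 / 2) : ℝ) * Real.sqrt (E₁ * E₂) *
        ((R / (M₁ * M₂ / (A * a))) ^ (-σ) * φ) := by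
  have hM := mul_pos h₁ h₂
  have e1 : (M₁ ^ (2 * σ - 1) * E₁ * φ) * (M₂ ^ (2 * σ - 1) * E₂ * φ) =
      ((M₁ * M₂) ^ (σ - 1 / 2) * φ) ^ 2 * (E₁ * E₂) := by
    rw [mul_pow, ← Real.rpow_natCast ((M₁ * M₂) ^ (σ - 1 / 2)), ← Real.rpow_mul hM.le,
      Real.mul_rpow h₁.le h₂.le, show (σ - 1 / 2) * ((2 : ℕ) : ℝ) = 2 * σ - 1 by push_cast; ring]
    ring
  rw [e1, Real.sqrt_mul (sq_nonneg _), Real.sqrt_sq (by positivity)]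
  have e2 : (R / (M₁ * M₂ / (A * a))) ^ (-σ) = R ^ (-σ) * A ^ (-σ) * a ^ (-σ) * (M₁ * M₂) ^ σ := by
    rw [show R / (M₁ * M₂ / (A * a)) = R * A * a / (M₁ * M₂) by field_simp,
      Real.div_rpow (by positivity) hM.le, Real.mul_rpow (by positivity) ha.le,
      Real.mul_rpow hR.le hA.le, Real.rpow_neg hM.le, div_inv_eq_mul]
  rw [e2, sub_eq_add_neg 1 σ, Real.rpow_add hA, Real.rpow_one, sub_eq_add_neg (1 / 2) σ,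
    Real.rpow_add ha, ← Real.sqrt_eq_rpow, sub_eq_add_neg σ, Real.rpow_add hM]
  ring

/-- `hasSum_DS_rows`, `sum_le_shells`, `t2_shell` with `σ = σ₁` on the shells `2^j ≤ Rs` and
`σ = 5/2` on the others, `t2_geo`, `tsum_of_norm_bounded` / `Real.tsum_le_of_sum_le`. -/
theorem T2 {σ₁ α : ℝ} (h0 : 0 < σ₁) (h1 : σ₁ ≤ 1 / 2) (h2 : σ₁ < α) : ∃ C : ℝ, 0 ≤ C ∧
    ∀ (a A M₁ M₂ E₁ E₂ : ℝ) (U V : O → O → ℂ), 0 < a → a ≤ 4 → 0 < A → 0 < M₁ → 0 < M₂ →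
    0 ≤ E₁ → 0 ≤ E₂ → Dom U → Dom V →
    RH σ₁ α a U M₁ (M₁ * M₂ / (A * a)) E₁ → RH σ₁ α a V M₂ (M₁ * M₂ / (A * a)) E₂ →
    ‖DS a A U V‖ ≤ C * (A * Real.sqrt a) * (M₁ * M₂) ^ (-(1 / 2) : ℝ) * Real.sqrt (E₁ * E₂) := by
  obtain ⟨C₁, hC₁, hs₁⟩ := t2_shell (σ := σ₁) (Or.inl ⟨h0, h1⟩)
  obtain ⟨C₂, hC₂, hs₂⟩ := t2_shell (σ := 5 / 2) (Or.inr rfl)
  obtain ⟨C₃, hC₃, hg⟩ := t2_geo h2
  refine ⟨(C₁ + C₂) * C₃, by positivity,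
    fun a A M₁ M₂ E₁ E₂ U V ha ha4 hA hM₁ hM₂ hE₁ hE₂ hU hV hR₁ hR₂ => ?_⟩
  obtain ⟨Rs, hRs⟩ : ∃ Rs, Rs = M₁ * M₂ / (A * a) := ⟨_, rfl⟩
  have hRs0 : 0 < Rs := by rw [hRs]; positivity
  obtain ⟨K, hK⟩ : ∃ K, K = (A * Real.sqrt a) * (M₁ * M₂) ^ (-(1 / 2) : ℝ) * Real.sqrt (E₁ * E₂) :=
    ⟨_, rfl⟩
  have hK0 : 0 ≤ K := by rw [hK]; positivity
  have a1 : ∀ j : ℕ, ∑ h ∈ shell (2 ^ j), ‖∑' p : O × O, dt a A U V (h, p)‖ ≤ (C₁ + C₂) * K *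
      (((2 : ℝ) ^ j / Rs) ^ (-(if (2 : ℝ) ^ j ≤ Rs then σ₁ else 5 / 2)) * phi α (2 ^ j / Rs)) := by
    intro j
    have hR1 : (1 : ℝ) ≤ 2 ^ j := one_le_pow₀ (by norm_num)
    have hR0 : (0 : ℝ) < 2 ^ j := by positivity
    have hφ : 0 ≤ phi α (2 ^ j / Rs) := dt2_phi_nonneg α (by positivity)
    rw [← hRs] at hR₁ hR₂
    split_ifs
    · have b1 := hs₁ a A (2 ^ j) _ _ U V ha ha4 hA hR0 (by positivity) (by positivity) hU hV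
        (fun t => hR₁ σ₁ t _ (Or.inl rfl) hR1) (fun t => hR₂ σ₁ t _ (Or.inl rfl) hR1)
      have b2 := dt2_alg (σ := σ₁) (E₁ := E₁) (E₂ := E₂) ha hA hR0 hM₁ hM₂ hφ
      rw [← hRs, ← hK] at b2
      have b3 : 0 ≤ K * (((2 : ℝ) ^ j / Rs) ^ (-σ₁) * phi α (2 ^ j / Rs)) := by positivity
      refine b1.trans ?_
      rw [mul_assoc (C₁ + C₂), add_mul, ← b2] at *
      nlinarith [mul_nonneg hC₂ b3]
    · have b1 := hs₂ a A (2 ^ j) _ _ U V ha ha4 hA hR0 (by positivity) (by positivity) hU hV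
        (fun t => hR₁ (5 / 2) t _ (Or.inr rfl) hR1) (fun t => hR₂ (5 / 2) t _ (Or.inr rfl) hR1)
      have b2 := dt2_alg (σ := 5 / 2) (E₁ := E₁) (E₂ := E₂) ha hA hR0 hM₁ hM₂ hφ
      rw [← hRs, ← hK] at b2
      have b3 : 0 ≤ K * (((2 : ℝ) ^ j / Rs) ^ (-(5 / 2) : ℝ) * phi α (2 ^ j / Rs)) := by positivity
      refine b1.trans ?_
      rw [mul_assoc (C₁ + C₂), add_mul, ← b2] at *
      nlinarith [mul_nonneg hC₁ b3]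
  have a2 : ∀ S : Finset O, ‖∑ h ∈ S, ∑' p : O × O, dt a A U V (h, p)‖ ≤ (C₁ + C₂) * K * C₃ := by
    intro S
    classical
    rw [← Finset.sum_filter_of_ne (p := fun h => h ≠ 0) (fun h _ hne e => hne (by simp [e, dt]))]
    obtain ⟨N, hN⟩ := sum_le_shells (fun h => ‖∑' p : O × O, dt a A U V (h, p)‖)
      (fun h => norm_nonneg _) (S.filter fun h => h ≠ 0) fun h hh => (Finset.mem_filter.1 hh).2
    refine (norm_sum_le _ _).trans (hN.trans ((Finset.sum_le_sum fun j _ => a1 j).trans ?_))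
    rw [← Finset.mul_sum]
    exact mul_le_mul_of_nonneg_left (hg Rs N hRs0) (by positivity)
  have a3 := le_of_tendsto' (hasSum_DS_rows ha hA hU hV).norm a2
  refine a3.trans (le_of_eq ?_)
  rw [hK]
  ring

/-- `T2` for equal arguments. -/
theorem T2d {σ₁ α : ℝ} (h0 : 0 < σ₁) (h1 : σ₁ ≤ 1 / 2) (h2 : σ₁ < α) : ∃ C : ℝ, 0 ≤ C ∧
    ∀ (a A M E : ℝ) (U : O → O → ℂ), 0 < a → a ≤ 4 → 0 < A → 0 < M → 0 ≤ E → Dom U →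
    RH σ₁ α a U M (M ^ 2 / (A * a)) E → ‖DS a A U U‖ ≤ C * (A * Real.sqrt a) * M⁻¹ * E := by
  obtain ⟨C, hC, h⟩ := T2 h0 h1 h2
  refine ⟨C, hC, fun a A M E U ha ha4 hA hM hE hU hR => ?_⟩
  rw [sq] at hR
  have a1 := h a A M M E E U U ha ha4 hA hM hM hE hE hU hU hR hR
  have e : (M * M) ^ (-(1 / 2) : ℝ) = M⁻¹ := by
    rw [Real.rpow_neg (by positivity), ← Real.sqrt_eq_rpow, Real.sqrt_mul_self hM.le]
  rwa [e, Real.sqrt_mul_self hE] at a1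

/-- `T2` for bounded sequences. -/
theorem T2g : ∃ C : ℝ, 0 ≤ C ∧ ∀ (A M₁ M₂ B₁ B₂ e₁ e₂ : ℝ) (U V : O → O → ℂ), 0 < A → 0 ≤ M₁ →
    0 ≤ M₂ → 0 < B₁ → 0 < B₂ → 0 ≤ e₁ → 0 ≤ e₂ → Dom U → Dom V →
    RG U M₁ B₁ (B₁ * B₂ / (A * 4)) e₁ → RG V M₂ B₂ (B₁ * B₂ / (A * 4)) e₂ →
    ‖DS 4 A U V‖ ≤ C * A ^ (2 / 3 : ℝ) * (M₁ * B₁ ^ (5 / 6 : ℝ)) * (M₂ * B₂ ^ (5 / 6 : ℝ)) *
      Real.sqrt (e₁ * e₂) := by
  obtain ⟨C, hC, h⟩ := T2 (σ₁ := 1 / 4) (α := 1 / 3) (by norm_num) (by norm_num) (by norm_num)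
  refine ⟨C * Real.sqrt 4 * (4 : ℝ) ^ (-(1 / 3) : ℝ), by positivity,
    fun A M₁ M₂ B₁ B₂ e₁ e₂ U V hA hM₁ hM₂ hB₁ hB₂ he₁ he₂ hU hV hR₁ hR₂ => ?_⟩
  have a1 := h 4 A B₁ B₂ _ _ U V (by norm_num) le_rfl hA hB₁ hB₂ (by positivity) (by positivity)
    hU hV hR₁ hR₂
  refine a1.trans (le_of_eq ?_)
  have hB := mul_pos hB₁ hB₂
  have e1 : (M₁ * B₁) ^ 2 * (B₁ * B₂ / (A * 4)) ^ (1 / 3 : ℝ) * e₁ *
      ((M₂ * B₂) ^ 2 * (B₁ * B₂ / (A * 4)) ^ (1 / 3 : ℝ) * e₂) =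
      (M₁ * M₂ * (B₁ * B₂) * (B₁ * B₂ / (A * 4)) ^ (1 / 3 : ℝ)) ^ 2 * (e₁ * e₂) := by ring
  have e2 : (B₁ * B₂ / (A * 4)) ^ (1 / 3 : ℝ) =
      (B₁ * B₂) ^ (1 / 3 : ℝ) * (A ^ (-(1 / 3) : ℝ) * (4 : ℝ) ^ (-(1 / 3) : ℝ)) := by
    rw [Real.div_rpow hB.le (by positivity), Real.mul_rpow hA.le (by norm_num), div_eq_mul_inv,
      mul_inv, Real.rpow_neg hA.le, Real.rpow_neg (by norm_num)]
  have e3 : A ^ (2 / 3 : ℝ) = A * A ^ (-(1 / 3) : ℝ) := by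
    rw [show (2 / 3 : ℝ) = 1 + -(1 / 3) by norm_num, Real.rpow_add hA, Real.rpow_one]
  have e4 : B₁ ^ (5 / 6 : ℝ) * B₂ ^ (5 / 6 : ℝ) =
      (B₁ * B₂) * (B₁ * B₂) ^ (-(1 / 2) : ℝ) * (B₁ * B₂) ^ (1 / 3 : ℝ) := by
    rw [← Real.mul_rpow hB₁.le hB₂.le, show (5 / 6 : ℝ) = 1 + -(1 / 2) + 1 / 3 by norm_num,
      Real.rpow_add hB, Real.rpow_add hB, Real.rpow_one]
  rw [e1, Real.sqrt_mul (sq_nonneg _), Real.sqrt_sq (by positivity), e2, e3]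
  linear_combination (-(C * Real.sqrt 4 * (4 : ℝ) ^ (-(1 / 3) : ℝ) * (A * A ^ (-(1 / 3) : ℝ)) *
    M₁ * M₂ * Real.sqrt (e₁ * e₂))) * e4

end Crest.Agent.R012.D

end
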