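import Crest.Agent.R012.DL
import Crest.Agent.R012.DT2

/-! # Row 12, dispersion: rows near cubes -/

set_option autoImplicit false

noncomputable section

open scoped BigOperators ComplexConjugate Topology
open Complex MeasureTheory Filter Set Crest.Agent.R017

namespace Crest.Agent.R012.D

open Classical in
/-- If `u n ≠ 0` and `n` is not prime to `y` then some `p ∈ pf y` with `N p > w` divides `n`;
`tsum_W_dvd`, `card_pf_le`. -/
theorem ncop_le {x : ℝ} (hx : -1 < x) : ∃ C : ℝ, 0 ≤ C ∧ ∀ (M B w : ℝ) (u : O → ℂ) (y : O), 0 < B →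
    0 < w → y ≠ 0 → u 0 = 0 → (∀ n, u n ≠ 0 → Rough w n) → EV M B u →
    ∑' n : O, (if IsCoprime n y then 0 else ‖u n‖ * Nr n ^ x) ≤
      C * M * B ^ (1 + x) * Real.log (Nr y) / w := by
  obtain ⟨C, hC, h⟩ := tsum_W_dvd (a := 4) (by norm_num) hx
  refine ⟨C, hC, fun M B w u y hB hw hy h0 hr hev => ?_⟩
  have hM := hev.nonneg
  set P := (pf y).filter (fun p => w < Nr p) with hP
  have hPne : ∀ p ∈ P, p ≠ 0 := fun p hp => (a1_of_mem_pf (Finset.mem_filter.1 hp).1).1.1.ne_zero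
  have hnn : ∀ p n : O, 0 ≤ M * (if n ≠ 0 ∧ p ∣ n then Nr n ^ x * W 4 (Nr n / B) else 0) := by
    intro p n
    refine mul_nonneg hM ?_
    split_ifs
    · exact mul_nonneg (Real.rpow_nonneg (Nr_nonneg n) _) (W_pos _ _).le
    · exact le_rfl
  have hpt : ∀ n : O, (if IsCoprime n y then 0 else ‖u n‖ * Nr n ^ x) ≤
      ∑ p ∈ P, M * (if n ≠ 0 ∧ p ∣ n then Nr n ^ x * W 4 (Nr n / B) else 0) := by
    intro n
    have h1 : 0 ≤ ∑ p ∈ P, M * (if n ≠ 0 ∧ p ∣ n then Nr n ^ x * W 4 (Nr n / B) else 0) :=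
      Finset.sum_nonneg fun p _ => hnn p n
    by_cases hc : IsCoprime n y
    · rw [if_pos hc]; exact h1
    rw [if_neg hc]
    by_cases hu : u n = 0
    · rw [hu, norm_zero, zero_mul]; exact h1
    have hn : n ≠ 0 := fun e => hu (e ▸ h0)
    have hex : ∃ p ∈ P, p ∣ n := by
      by_contra hne
      refine hc (isCoprime_of_prime_dvd (fun h' => hy h'.2) fun z hz hz1 hz2 => ?_)
      obtain ⟨p, hp, ha⟩ := exists_PP hz
      have hp1 := ha.symm.dvd.trans hz1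
      have hp2 : p ∈ pf y := (mem_pf hy).2 ⟨hp, ha.symm.dvd.trans hz2⟩
      exact hne ⟨p, Finset.mem_filter.2 ⟨hp2, hr n hu p hp.1 hp1⟩, hp1⟩
    obtain ⟨p, hp, hpn⟩ := hex
    refine le_trans ?_ (Finset.single_le_sum (f := fun p : O =>
      M * (if n ≠ 0 ∧ p ∣ n then Nr n ^ x * W 4 (Nr n / B) else 0)) (fun q _ => hnn q n) hp)
    beta_reduce
    rw [if_pos ⟨hn, hpn⟩]
    calc ‖u n‖ * Nr n ^ x ≤ (M * W 4 (Nr n / B)) * Nr n ^ x :=
          mul_le_mul_of_nonneg_right (hev n) (Real.rpow_nonneg (Nr_nonneg n) _)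
      _ = _ := by ring
  have hsp : ∀ p ∈ P, Summable (fun n : O =>
      M * (if n ≠ 0 ∧ p ∣ n then Nr n ^ x * W 4 (Nr n / B) else 0)) :=
    fun p hp => (h B p hB (hPne p hp)).1.mul_left M
  have hs2 := summable_sum hsp
  have hs1 : Summable (fun n : O => if IsCoprime n y then 0 else ‖u n‖ * Nr n ^ x) := by
    refine Summable.of_nonneg_of_le (fun n => ?_) hpt hs2
    split_ifs
    · exact le_rfl
    · exact mul_nonneg (norm_nonneg _) (Real.rpow_nonneg (Nr_nonneg n) _)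
  refine (hs1.tsum_le_tsum hpt hs2).trans ?_
  rw [Summable.tsum_finsetSum hsp]
  have hK : 0 ≤ C * B ^ (1 + x) := mul_nonneg hC (Real.rpow_nonneg hB.le _)
  have hterm : ∀ p ∈ P, ∑' n : O, M * (if n ≠ 0 ∧ p ∣ n then Nr n ^ x * W 4 (Nr n / B) else 0) ≤
      M * (C * B ^ (1 + x) / w) := by
    intro p hp
    rw [tsum_mul_left]
    refine mul_le_mul_of_nonneg_left ((h B p hB (hPne p hp)).2.trans ?_) hM
    exact div_le_div_of_nonneg_left hK hw (Finset.mem_filter.1 hp).2.le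
  refine (Finset.sum_le_card_nsmul _ _ _ hterm).trans ?_
  rw [nsmul_eq_mul]
  have hc : (P.card : ℝ) ≤ Real.log (Nr y) := by
    refine le_trans ?_ (card_pf_le hy)
    exact_mod_cast Finset.card_filter_le _ _
  calc (P.card : ℝ) * (M * (C * B ^ (1 + x) / w)) ≤ Real.log (Nr y) * (M * (C * B ^ (1 + x) / w)) :=
        mul_le_mul_of_nonneg_right hc (mul_nonneg hM (div_nonneg hK hw.le))
    _ = _ := by ring

/-- Trivial bound: `norm_XX_le`, `EV_sum_le` at `x = -1/4` and `x = 2`. -/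
theorem XX_triv : ∃ C : ℝ, 0 ≤ C ∧ ∀ (M B σ t : ℝ) (u c : O → ℂ), 0 < B → u 0 = 0 → EV M B u →
    (∀ n, ‖c n‖ ≤ 1) → (σ = 1 / 4 ∨ σ = 5 / 2) →
    ‖XX (fun n => u n * c n) (σ + t * I)‖ ≤ C * M * B ^ (σ + 1 / 2) := by
  obtain ⟨C₁, hC₁, h₁⟩ := EV_sum_le (x := 1 / 4 - 1 / 2) (by norm_num)
  obtain ⟨C₂, hC₂, h₂⟩ := EV_sum_le (x := 5 / 2 - 1 / 2) (by norm_num)
  refine ⟨C₁ + C₂, add_nonneg hC₁ hC₂, fun M B σ t u c hB h0 hev hc hσ => ?_⟩
  have hM := hev.nonneg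
  have hev' : EV M B (fun n => u n * c n) := fun n => by
    refine le_trans ?_ (hev n)
    rw [norm_mul]
    exact mul_le_of_le_one_right (norm_nonneg _) (hc n)
  have h0' : (fun n => u n * c n) 0 = 0 := by simp [h0]
  refine (norm_XX_le (hev'.rap hB h0') h0' σ t).trans ?_
  have hK : 0 ≤ M * B ^ (σ + 1 / 2) := mul_nonneg hM (Real.rpow_nonneg hB.le _)
  rcases hσ with rfl | rfl
  · refine (h₁ M B _ hB h0' hev').trans ?_
    rw [show (1 : ℝ) + (1 / 4 - 1 / 2) = 1 / 4 + 1 / 2 by norm_num]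
    nlinarith [mul_nonneg hC₂ hK]
  · refine (h₂ M B _ hB h0' hev').trans ?_
    rw [show (1 : ℝ) + (5 / 2 - 1 / 2) = 5 / 2 + 1 / 2 by norm_num]
    nlinarith [mul_nonneg hC₁ hK]

/-- Dropping the coprimality condition: `kap_cube_right`, `ncop_le`. -/
theorem XX_drop : ∃ C : ℝ, 0 ≤ C ∧ ∀ (M B w σ t : ℝ) (u : O → ℂ) (k y : O), 0 < B → 0 < w → y ≠ 0 →
    Supp 1 u → (∀ n, u n ≠ 0 → Rough w n) → EV M B u → (σ = 1 / 4 ∨ σ = 5 / 2) →
    ‖XX (fun n => u n * kap n (k * y ^ 3) - u n * kap n k) (σ + t * I)‖ ≤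
      C * M * B ^ (σ + 1 / 2) * Real.log (Nr y) / w := by
  classical
  obtain ⟨C₁, hC₁, h₁⟩ := ncop_le (x := 1 / 4 - 1 / 2) (by norm_num)
  obtain ⟨C₂, hC₂, h₂⟩ := ncop_le (x := 5 / 2 - 1 / 2) (by norm_num)
  refine ⟨C₁ + C₂, add_nonneg hC₁ hC₂, fun M B w σ t u k y hB hw hy hs hr hev hσ => ?_⟩
  have hM := hev.nonneg
  have h0 := supp_zero hs
  have hrap := hev.rap hB h0
  have hpt : ∀ n : O, ‖u n * kap n (k * y ^ 3) - u n * kap n k‖ ≤
      if IsCoprime n y then 0 else ‖u n‖ := by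
    intro n
    by_cases hu : u n = 0
    · simp [hu]
    have hn : Prim n := (supp_iff.1 hs n hu).1
    rw [kap_mul_right, kap_cube_right hn]
    by_cases hc : IsCoprime n y
    · simp [hc]
    · simp only [if_neg hc, mul_zero, zero_sub, norm_neg, norm_mul]
      exact mul_le_of_le_one_right (norm_nonneg _) (norm_kap_le _ _)
  have hle : ∀ n : O, ‖u n * kap n (k * y ^ 3) - u n * kap n k‖ ≤ 1 * ‖u n‖ := by
    intro n
    refine (hpt n).trans ?_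
    split_ifs
    · positivity
    · rw [one_mul]
  have hrap' : Rap (fun n => u n * kap n (k * y ^ 3) - u n * kap n k) := rap_of_le hrap hle
  have h0' : (fun n => u n * kap n (k * y ^ 3) - u n * kap n k) 0 = 0 := by simp [h0]
  refine (norm_XX_le hrap' h0' σ t).trans ?_
  have hpt2 : ∀ n : O, ‖u n * kap n (k * y ^ 3) - u n * kap n k‖ * Nr n ^ (σ - 1 / 2) ≤
      if IsCoprime n y then 0 else ‖u n‖ * Nr n ^ (σ - 1 / 2) := by
    intro n
    refine (mul_le_mul_of_nonneg_right (hpt n) (Real.rpow_nonneg (Nr_nonneg n) _)).trans ?_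
    split_ifs
    · rw [zero_mul]
    · exact le_rfl
  have hs2 : Summable (fun n : O => if IsCoprime n y then 0 else ‖u n‖ * Nr n ^ (σ - 1 / 2)) := by
    refine Summable.of_nonneg_of_le (fun n => ?_) (fun n => ?_) (hrap (σ - 1 / 2))
    · split_ifs
      · exact le_rfl
      · exact mul_nonneg (norm_nonneg _) (Real.rpow_nonneg (Nr_nonneg n) _)
    · split_ifs
      · exact mul_nonneg (norm_nonneg _) (Real.rpow_nonneg (Nr_nonneg n) _)
      · exact le_rfl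
  refine ((hrap' (σ - 1 / 2)).tsum_le_tsum hpt2 hs2).trans ?_
  have hK : 0 ≤ M * B ^ (σ + 1 / 2) * Real.log (Nr y) / w :=
    div_nonneg (mul_nonneg (mul_nonneg hM (Real.rpow_nonneg hB.le _))
      (Real.log_nonneg (one_le_Nr hy))) hw.le
  rcases hσ with rfl | rfl
  · refine le_trans (le_of_eq ?_) ((h₁ M B w u y hB hw hy h0 hr hev).trans ?_)
    · congr
    rw [show (1 : ℝ) + (1 / 4 - 1 / 2) = 1 / 4 + 1 / 2 by norm_num]
    have := mul_nonneg hC₂ hK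
    calc _ = C₁ * (M * B ^ ((1 : ℝ) / 4 + 1 / 2) * Real.log (Nr y) / w) := by ring
      _ ≤ (C₁ + C₂) * (M * B ^ ((1 : ℝ) / 4 + 1 / 2) * Real.log (Nr y) / w) := by nlinarith
      _ = _ := by ring
  · refine le_trans (le_of_eq ?_) ((h₂ M B w u y hB hw hy h0 hr hev).trans ?_)
    · congr
    rw [show (1 : ℝ) + (5 / 2 - 1 / 2) = 5 / 2 + 1 / 2 by norm_num]
    have := mul_nonneg hC₁ hK
    calc _ = C₂ * (M * B ^ ((5 : ℝ) / 2 + 1 / 2) * Real.log (Nr y) / w) := by ring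
      _ ≤ (C₁ + C₂) * (M * B ^ ((5 : ℝ) / 2 + 1 / 2) * Real.log (Nr y) / w) := by nlinarith
      _ = _ := by ring

/-- Pointwise bounds on few rows: `card_near_le` (the rows `-3 h` lie in `rows (Near Z) (9 R)`),
`log_sq_le_phi`. -/
theorem RG_pt : ∃ C : ℝ, 0 ≤ C ∧ ∀ (U : O → O → ℂ) (M B Rs g Z Λ : ℝ), 0 ≤ M → 0 < B → 0 < Rs →
    0 ≤ g → 1 ≤ Z → 1 ≤ Λ → Rs ≤ Real.exp Λ →
    (∀ h, h ≠ 0 → ¬ Near Z (-3 * h) → ∀ n, U h n = 0) →
    (∀ (h : O) (σ t : ℝ), h ≠ 0 → (σ = 1 / 4 ∨ σ = 5 / 2) → ‖XX (U h) (σ + t * I)‖ ≤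
      M * B ^ (σ + 1 / 2) * g * (1 + Real.log (Nr (-3 * h))) * Real.exp (t ^ 2)) →
    RG U M B Rs (C * g ^ 2 * Z ^ (2 / 3 : ℝ) * Λ ^ 2) := by
  classical
  obtain ⟨C₁, hC₁, h₁⟩ := card_near_le
  obtain ⟨C₂, hC₂, h₂⟩ := log_sq_le_phi
  have h9 : (0 : ℝ) ≤ 9 ^ (1 / 3 : ℝ) := Real.rpow_nonneg (by norm_num) _
  refine ⟨C₁ * 9 ^ (1 / 3 : ℝ) * C₂, mul_nonneg (mul_nonneg hC₁ h9) hC₂,
    fun U M B Rs g Z Λ hM hB hRs hg hZ hΛ hRΛ hfar hpt => ?_⟩
  intro σ t R hσ hR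
  have hR0 : 0 < R := by linarith
  set S := (shell R).filter (fun h => Near Z (-3 * h)) with hS
  have hBσ : 0 ≤ B ^ (σ + 1 / 2) := Real.rpow_nonneg hB.le _
  set K : ℝ := M * B ^ (σ + 1 / 2) * g * (1 + Real.log (9 * R)) * Real.exp (t ^ 2) with hK
  have e1 : ∑ h ∈ shell R, ‖XX (U h) (σ + t * I)‖ ^ 2 = ∑ h ∈ S, ‖XX (U h) (σ + t * I)‖ ^ 2 := by
    rw [hS, Finset.sum_filter]
    refine Finset.sum_congr rfl fun h hh => ?_
    split_ifs with hn
    · rfl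
    · have : U h = fun _ => 0 := funext (hfar h (mem_shell.1 hh).1.1 hn)
      rw [this, XX_zero]; simp
  have e2 : ∀ h ∈ S, ‖XX (U h) (σ + t * I)‖ ^ 2 ≤ K ^ 2 := by
    intro h hh
    have hm := mem_shell.1 (Finset.mem_filter.1 hh).1
    refine pow_le_pow_left₀ (norm_nonneg _) ((hpt h σ t hm.1.1 hσ).trans ?_) 2
    have hl : Real.log (Nr (-3 * h)) ≤ Real.log (9 * R) := by
      rw [Nr_neg_three_mul]
      have := Nr_pos hm.1.1
      exact Real.log_le_log (by positivity) (by linarith [hm.1.2])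
    rw [hK]
    have h3 : 0 ≤ M * B ^ (σ + 1 / 2) * g := mul_nonneg (mul_nonneg hM hBσ) hg
    refine mul_le_mul_of_nonneg_right (mul_le_mul_of_nonneg_left (by linarith) h3)
      (Real.exp_pos _).le
  have e3 : (S.card : ℝ) ≤ C₁ * (9 * R) ^ (1 / 3 : ℝ) * Z ^ (2 / 3 : ℝ) := by
    refine le_trans ?_ (h₁ (9 * R) Z (by positivity) hZ)
    have : S.card ≤ (rows (Near Z) (9 * R)).card := by
      refine Finset.card_le_card_of_injOn (fun h => -3 * h) (fun h hh => ?_) (fun a _ b _ hab => ?_)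
      · have hh' := Finset.mem_filter.1 (Finset.mem_coe.1 hh)
        have hm := mem_shell.1 hh'.1
        refine Finset.mem_coe.2 (mem_rows.2 ⟨⟨?_, ?_⟩, hh'.2⟩)
        · intro e
          have e' : -3 * h = 0 := e
          have := Nr_neg_three_mul h
          rw [e', Nr_zero] at this
          have := Nr_pos hm.1.1
          linarith
        · rw [Nr_neg_three_mul]; linarith [hm.1.2]
      · have h3 : Nr (-3 * (a - b)) = 0 := by
          have : -3 * (a - b) = 0 := by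
            have hab' : -3 * a = -3 * b := hab
            rw [mul_sub, hab', sub_self]
          rw [this, Nr_zero]
        rw [Nr_neg_three_mul] at h3
        have : Nr (a - b) = 0 := by linarith
        exact sub_eq_zero.1 (Nr_eq_zero.1 this)
    exact_mod_cast this
  rw [e1]
  refine (Finset.sum_le_card_nsmul _ _ _ e2).trans ?_
  rw [nsmul_eq_mul]
  refine (mul_le_mul_of_nonneg_right e3 (sq_nonneg K)).trans ?_
  have e4 := h₂ R Rs Λ hR hRs hΛ hRΛ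
  have e5 : (B ^ (σ + 1 / 2)) ^ 2 = B ^ (2 * σ - 1) * B ^ 2 := by
    rw [← Real.rpow_natCast, ← Real.rpow_mul hB.le, ← Real.rpow_natCast B 2, ← Real.rpow_add hB]
    congr 1
    push_cast
    ring
  have e6 : Real.exp (t ^ 2) ^ 2 = Real.exp (4 * t ^ 2 / 2) := by
    rw [← Real.exp_nat_mul]
    congr 1
    push_cast
    ring
  have e7 : (9 * R) ^ (1 / 3 : ℝ) = 9 ^ (1 / 3 : ℝ) * R ^ (1 / 3 : ℝ) :=
    Real.mul_rpow (by norm_num) hR0.le
  have hZ' : 0 ≤ Z ^ (2 / 3 : ℝ) := Real.rpow_nonneg (by linarith) _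
  have hB' : 0 ≤ B ^ (2 * σ - 1) := Real.rpow_nonneg hB.le _
  have hL : 0 ≤ C₁ * 9 ^ (1 / 3 : ℝ) * Z ^ (2 / 3 : ℝ) * (M ^ 2 * (B ^ (2 * σ - 1) * B ^ 2) * g ^ 2 *
      Real.exp (4 * t ^ 2 / 2)) := by positivity
  calc C₁ * (9 * R) ^ (1 / 3 : ℝ) * Z ^ (2 / 3 : ℝ) * K ^ 2
      = C₁ * 9 ^ (1 / 3 : ℝ) * Z ^ (2 / 3 : ℝ) * (M ^ 2 * (B ^ (2 * σ - 1) * B ^ 2) * g ^ 2 *
        Real.exp (4 * t ^ 2 / 2)) * ((1 + Real.log (9 * R)) ^ 2 * R ^ (1 / 3 : ℝ)) := by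
        rw [hK, e7, ← e5, ← e6]; ring
    _ ≤ C₁ * 9 ^ (1 / 3 : ℝ) * Z ^ (2 / 3 : ℝ) * (M ^ 2 * (B ^ (2 * σ - 1) * B ^ 2) * g ^ 2 *
        Real.exp (4 * t ^ 2 / 2)) * (C₂ * Λ ^ 2 * Rs ^ (1 / 3 : ℝ) * phi (1 / 3) (R / Rs)) :=
        mul_le_mul_of_nonneg_left e4 hL
    _ = _ := by ring

theorem near_of_cube {Z : ℝ} (hZ : 1 ≤ Z) {r : O} (h : IsCube r) : Near Z r := by
  obtain ⟨y, rfl⟩ := h
  exact ⟨1, y, (one_mul _).symm, by rw [Nr_one]; exact hZ⟩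

theorem da1_ne {h : O} (hh : h ≠ 0) : -3 * h ≠ 0 := by
  intro e
  have h1 := Nr_neg_three_mul h
  rw [e, Nr_zero] at h1
  have := Nr_pos hh
  linarith

theorem da1_le {K L E : ℝ} (hK : 0 ≤ K) (hL : 0 ≤ L) (hE : 1 ≤ E) : K ≤ K * (1 + L) * E := by
  have h1 : K ≤ K * (1 + L) := by nlinarith [mul_nonneg hK hL]
  have h2 : K * (1 + L) ≤ K * (1 + L) * E := le_mul_of_one_le_right (hK.trans h1) hE
  exact h1.trans h2

theorem da1_log {k y : O} (hk : k ≠ 0) (hy : y ≠ 0) :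
    Real.log (Nr y) ≤ Real.log (Nr (k * y ^ 3)) := by
  refine Real.log_le_log (Nr_pos hy) ?_
  rw [Nr_mul, Nr_pow]
  have h1 := one_le_Nr hk
  have h2 := one_le_Nr hy
  have h3 : Nr y ≤ Nr y ^ 3 := le_self_pow₀ h2 (by norm_num)
  have h4 : Nr y ^ 3 ≤ Nr k * Nr y ^ 3 := le_mul_of_one_le_left (by positivity) h1
  exact h3.trans h4

/-- `RG_pt` with `Z = 1`, `XX_triv`. -/
theorem RG_cube : ∃ C : ℝ, 0 ≤ C ∧ ∀ (u : O → ℂ) (M B Rs Λ : ℝ), 0 < B → 0 < Rs → 1 ≤ Λ →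
    Rs ≤ Real.exp Λ → u 0 = 0 → EV M B u →
    RG (RC u) M B Rs (C * Λ ^ 2) ∧ RG (RW IsCube u) M B Rs (C * Λ ^ 2) := by
  obtain ⟨C₁, hC₁, h₁⟩ := RG_pt
  obtain ⟨C₂, hC₂, h₂⟩ := XX_triv
  refine ⟨C₁ * C₂ ^ 2, by positivity, fun u M B Rs Λ hB hRs hΛ hRΛ h0 hev => ?_⟩
  have hM := hev.nonneg
  have e : C₁ * C₂ ^ 2 * Λ ^ 2 = C₁ * C₂ ^ 2 * (1 : ℝ) ^ (2 / 3 : ℝ) * Λ ^ 2 := by
    rw [Real.one_rpow, mul_one]
  have key : ∀ (U : O → O → ℂ), (∀ h, ¬ IsCube (-3 * h) → ∀ n, U h n = 0) →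
      (∀ h, ∃ c : O → ℂ, (∀ n, ‖c n‖ ≤ 1) ∧ U h = fun n => u n * c n) →
      RG U M B Rs (C₁ * C₂ ^ 2 * Λ ^ 2) := by
    intro U hU1 hU2
    rw [e]
    refine h₁ U M B Rs C₂ 1 Λ hM hB hRs hC₂ le_rfl hΛ hRΛ
      (fun h _ hn => hU1 h fun hc => hn (near_of_cube le_rfl hc)) fun h σ t hh hσ => ?_
    obtain ⟨c, hc, hU⟩ := hU2 h
    rw [hU]
    refine (h₂ M B σ t u c hB h0 hev hc hσ).trans ?_
    have hBσ : 0 ≤ B ^ (σ + 1 / 2) := Real.rpow_nonneg hB.le _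
    refine le_trans (le_of_eq (by ring)) (da1_le (K := M * B ^ (σ + 1 / 2) * C₂) (by positivity)
      (Real.log_nonneg (one_le_Nr (da1_ne hh))) (Real.one_le_exp (sq_nonneg t)))
  constructor
  · refine key _ (fun h hn n => by simp only [RC, if_neg hn]) fun h => ?_
    by_cases hc : IsCube (-3 * h)
    · exact ⟨fun _ => 1, fun _ => by simp, funext fun n => by simp only [RC, if_pos hc, mul_one]⟩
    · exact ⟨fun _ => 0, fun _ => by simp, funext fun n => by simp only [RC, if_neg hc, mul_zero]⟩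
  · refine key _ (fun h hn n => by simp only [RW, if_neg hn]) fun h => ?_
    by_cases hc : IsCube (-3 * h)
    · exact ⟨fun n => kap n (-3 * h), fun _ => norm_kap_le _ _,
        funext fun n => by simp only [RW, if_pos hc]⟩
    · exact ⟨fun _ => 0, fun _ => by simp, funext fun n => by simp only [RW, if_neg hc, mul_zero]⟩

/-- `RG_pt` with `Z = 1`, `XX_drop` with `k = 1` (`kap_one_right`). -/
theorem RG_diff : ∃ C : ℝ, 0 ≤ C ∧ ∀ (u : O → ℂ) (M B w Rs Λ : ℝ), 0 < B → 0 < w → 0 < Rs → 1 ≤ Λ →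
    Rs ≤ Real.exp Λ → Supp 1 u → (∀ n, u n ≠ 0 → Rough w n) → EV M B u →
    RG (fun h n => RW IsCube u h n - RC u h n) M B Rs (C * Λ ^ 2 / w ^ 2) := by
  obtain ⟨C₁, hC₁, h₁⟩ := RG_pt
  obtain ⟨C₂, hC₂, h₂⟩ := XX_drop
  refine ⟨C₁ * C₂ ^ 2, by positivity, fun u M B w Rs Λ hB hw hRs hΛ hRΛ hs hr hev => ?_⟩
  have hM := hev.nonneg
  have e : C₁ * C₂ ^ 2 * Λ ^ 2 / w ^ 2 = C₁ * (C₂ / w) ^ 2 * (1 : ℝ) ^ (2 / 3 : ℝ) * Λ ^ 2 := by
    rw [Real.one_rpow, mul_one]; ring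
  rw [e]
  have hg : 0 ≤ C₂ / w := div_nonneg hC₂ hw.le
  refine h₁ _ M B Rs (C₂ / w) 1 Λ hM hB hRs hg le_rfl hΛ hRΛ (fun h _ hn n => ?_)
    fun h σ t hh hσ => ?_
  · have hc : ¬ IsCube (-3 * h) := fun hc => hn (near_of_cube le_rfl hc)
    simp only [RW, RC, if_neg hc, sub_zero]
  have hBσ : 0 ≤ B ^ (σ + 1 / 2) := Real.rpow_nonneg hB.le _
  have hL : 0 ≤ Real.log (Nr (-3 * h)) := Real.log_nonneg (one_le_Nr (da1_ne hh))
  have hE : 1 ≤ Real.exp (t ^ 2) := Real.one_le_exp (sq_nonneg t)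
  have hK : 0 ≤ M * B ^ (σ + 1 / 2) * (C₂ / w) := by positivity
  by_cases hc : IsCube (-3 * h)
  · obtain ⟨y, hy⟩ := id hc
    have hy0 : y ≠ 0 := by
      rintro rfl
      exact da1_ne hh (by rw [hy]; simp)
    have hy' : -3 * h = 1 * y ^ 3 := by rw [hy, one_mul]
    have eU : (fun n => RW IsCube u h n - RC u h n) =
        fun n => u n * kap n (1 * y ^ 3) - u n * kap n 1 := by
      funext n
      simp only [RW, RC, if_pos hc]
      rw [hy']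
      by_cases hu : u n = 0
      · simp [hu]
      · rw [kap_one_right (supp_iff.1 hs n hu).1.not_lam_dvd, mul_one]
    rw [eU]
    refine (h₂ M B w σ t u 1 y hB hw hy0 hs hr hev hσ).trans ?_
    have hl : Real.log (Nr y) ≤ Real.log (Nr (-3 * h)) := by
      rw [hy']; exact da1_log one_ne_zero hy0
    calc C₂ * M * B ^ (σ + 1 / 2) * Real.log (Nr y) / w
        = M * B ^ (σ + 1 / 2) * (C₂ / w) * Real.log (Nr y) := by ring
      _ ≤ M * B ^ (σ + 1 / 2) * (C₂ / w) * (1 + Real.log (Nr (-3 * h))) :=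
          mul_le_mul_of_nonneg_left (by linarith) hK
      _ ≤ _ := le_mul_of_one_le_right (by positivity) hE
  · have eU : (fun n => RW IsCube u h n - RC u h n) = fun _ => 0 := by
      funext n
      simp only [RW, RC, if_neg hc, sub_zero]
    rw [eU, XX_zero, norm_zero]
    positivity

/-- `RG_pt`: `-3 h = k y³` with `k` not a cube, `XX_drop` and `Good.sw` if `|t| ≤ w`, otherwise
`XX_triv` and `w ≤ exp (t²)`. -/
theorem RG_near : ∃ C : ℝ, 0 ≤ C ∧ ∀ (u : O → ℂ) (M B w Rs Z Λ : ℝ), 0 < B → 0 < Rs → 1 ≤ Z →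
    Z ≤ w → 1 ≤ Λ → Rs ≤ Real.exp Λ → Good M B w u →
    RG (RW (fun r => Near Z r ∧ ¬ IsCube r) u) M B Rs
      (C * Z ^ (2 / 3 : ℝ) * Λ ^ 2 / w ^ 2) := by
  obtain ⟨C₁, hC₁, h₁⟩ := RG_pt
  obtain ⟨C₂, hC₂, h₂⟩ := XX_drop
  obtain ⟨C₃, hC₃, h₃⟩ := XX_triv
  refine ⟨C₁ * (C₂ + 1 + C₃) ^ 2, by positivity, fun u M B w Rs Z Λ hB hRs hZ hZw hΛ hRΛ hG => ?_⟩
  have hev := hG.ev
  have hs := hG.supp
  have hM := hev.nonneg
  have h0 := supp_zero hs
  have hw1 : 1 ≤ w := hZ.trans hZw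
  have hw : 0 < w := by linarith
  have e : C₁ * (C₂ + 1 + C₃) ^ 2 * Z ^ (2 / 3 : ℝ) * Λ ^ 2 / w ^ 2 =
      C₁ * ((C₂ + 1 + C₃) / w) ^ 2 * Z ^ (2 / 3 : ℝ) * Λ ^ 2 := by ring
  rw [e]
  have hg : 0 ≤ (C₂ + 1 + C₃) / w := by positivity
  refine h₁ _ M B Rs _ Z Λ hM hB hRs hg hZ hΛ hRΛ (fun h _ hn n => ?_) fun h σ t hh hσ => ?_
  · have hc : ¬ (Near Z (-3 * h) ∧ ¬ IsCube (-3 * h)) := fun hc => hn hc.1
    unfold RW
    exact if_neg hc
  have hBσ : 0 ≤ B ^ (σ + 1 / 2) := Real.rpow_nonneg hB.le _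
  have hL : 0 ≤ Real.log (Nr (-3 * h)) := Real.log_nonneg (one_le_Nr (da1_ne hh))
  have hE : 1 ≤ Real.exp (t ^ 2) := Real.one_le_exp (sq_nonneg t)
  have hK : 0 ≤ M * B ^ (σ + 1 / 2) := by positivity
  by_cases hc : Near Z (-3 * h) ∧ ¬ IsCube (-3 * h)
  · have eU : RW (fun r => Near Z r ∧ ¬ IsCube r) u h = fun n => u n * kap n (-3 * h) := by
      funext n
      unfold RW
      exact if_pos hc
    rw [eU]
    by_cases ht : |t| ≤ w
    · obtain ⟨⟨k, y, hy, hk⟩, hnc⟩ := hc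
      have hk0 : k ≠ 0 := by
        rintro rfl
        exact da1_ne hh (by rw [hy]; simp)
      have hy0 : y ≠ 0 := by
        rintro rfl
        exact da1_ne hh (by rw [hy]; simp)
      have hkc : ¬ IsCube k := by
        rintro ⟨z, rfl⟩
        exact hnc ⟨z * y, by rw [hy]; ring⟩
      have hrap := hev.rap hB h0
      have hr1 : ∀ r : O, Rap (fun n => u n * kap n r) := fun r =>
        rap_of_le (K := 1) hrap fun n => by
          rw [norm_mul, one_mul]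
          exact mul_le_of_le_one_right (norm_nonneg _) (norm_kap_le _ _)
      have hz : ∀ r : O, (fun n => u n * kap n r) 0 = 0 := fun r => by simp [h0]
      have a1 := h₂ M B w σ t u k y hB hw hy0 hs hG.rough hev hσ
      have a2 := hG.sw k hk0 (hk.trans hZw) hkc σ t hσ ht
      rw [XX_sub (hr1 _) (hz _) (hr1 _) (hz _)] at a1
      have hl : Real.log (Nr y) ≤ Real.log (Nr (-3 * h)) := by
        rw [hy]; exact da1_log hk0 hy0
      have a3 : ‖XX (fun n => u n * kap n (-3 * h)) (σ + t * I)‖ ≤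
          C₂ * M * B ^ (σ + 1 / 2) * Real.log (Nr y) / w + M * B ^ (σ + 1 / 2) / w := by
        rw [hy]
        refine le_trans ?_ (add_le_add a1 a2)
        exact norm_le_norm_sub_add _ _
      refine a3.trans ?_
      have hKw : 0 ≤ M * B ^ (σ + 1 / 2) / w := div_nonneg hK hw.le
      have a4 : C₂ * Real.log (Nr y) + 1 ≤ (C₂ + 1 + C₃) * (1 + Real.log (Nr (-3 * h))) := by
        nlinarith [mul_le_mul_of_nonneg_left hl hC₂, mul_nonneg hC₃ hL]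
      calc C₂ * M * B ^ (σ + 1 / 2) * Real.log (Nr y) / w + M * B ^ (σ + 1 / 2) / w
          = M * B ^ (σ + 1 / 2) / w * (C₂ * Real.log (Nr y) + 1) := by ring
        _ ≤ M * B ^ (σ + 1 / 2) / w * ((C₂ + 1 + C₃) * (1 + Real.log (Nr (-3 * h)))) :=
            mul_le_mul_of_nonneg_left a4 hKw
        _ = M * B ^ (σ + 1 / 2) * ((C₂ + 1 + C₃) / w) * (1 + Real.log (Nr (-3 * h))) := by ring
        _ ≤ _ := le_mul_of_one_le_right (by positivity) hE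
    · have ht' : w < |t| := not_le.1 ht
      have hwE : w ≤ Real.exp (t ^ 2) := by
        have b1 : |t| ≤ t ^ 2 := by
          rw [← sq_abs]
          nlinarith [abs_nonneg t]
        have b2 := Real.add_one_le_exp (t ^ 2)
        linarith
      refine (h₃ M B σ t u (fun n => kap n (-3 * h)) hB h0 hev (fun n => norm_kap_le _ _) hσ).trans ?_
      have b3 : 1 ≤ Real.exp (t ^ 2) / w := (one_le_div hw).2 hwE
      have b4 : C₃ ≤ (C₂ + 1 + C₃) * (1 + Real.log (Nr (-3 * h))) * (Real.exp (t ^ 2) / w) :=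
        le_trans (by linarith) (da1_le (K := C₂ + 1 + C₃) (by positivity) hL b3)
      calc C₃ * M * B ^ (σ + 1 / 2) = M * B ^ (σ + 1 / 2) * C₃ := by ring
        _ ≤ M * B ^ (σ + 1 / 2) *
            ((C₂ + 1 + C₃) * (1 + Real.log (Nr (-3 * h))) * (Real.exp (t ^ 2) / w)) :=
            mul_le_mul_of_nonneg_left b4 hK
        _ = _ := by ring
  · have eU : RW (fun r => Near Z r ∧ ¬ IsCube r) u h = fun _ => 0 := by
      funext n
      unfold RW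
      exact if_neg hc
    rw [eU, XX_zero, norm_zero]
    positivity

end Crest.Agent.R012.D

end
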