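import Crest.Agent.R012.DA1

/-! # Row 12, dispersion: rows of middle and large conductor -/

set_option autoImplicit false

noncomputable section

open scoped BigOperators ComplexConjugate Topology
open Complex MeasureTheory Filter Set Crest.Agent.R017

namespace Crest.Agent.R012.D

theorem da1b_core {U : O → O → ℂ} {u : O → ℂ} {M B Rs C C' X e : ℝ} (hB : 0 < B) (hRs : 0 < Rs)
    (hC : 0 ≤ C) (he : 0 ≤ e) (hX : X ≤ B * e) (hn : nrm B u ≤ C' * M ^ 2 * B)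
    (h : RH (1 / 4) (1 / 3) 4 U B Rs (C * Rs ^ (1 / 3 : ℝ) * X * nrm B u)) :
    RG U M B Rs (C * C' * e) := by
  refine RH.mono h hB hRs ?_
  have h0 : 0 ≤ nrm B u := nrm_nonneg hB u
  have h1 : 0 ≤ C * Rs ^ (1 / 3 : ℝ) := mul_nonneg hC (Real.rpow_nonneg hRs.le _)
  calc C * Rs ^ (1 / 3 : ℝ) * X * nrm B u ≤ C * Rs ^ (1 / 3 : ℝ) * (B * e) * nrm B u :=
        mul_le_mul_of_nonneg_right (mul_le_mul_of_nonneg_left hX h1) h0
    _ ≤ C * Rs ^ (1 / 3 : ℝ) * (B * e) * (C' * M ^ 2 * B) :=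
        mul_le_mul_of_nonneg_left hn (mul_nonneg h1 (mul_nonneg hB.le he))
    _ = (M * B) ^ 2 * Rs ^ (1 / 3 : ℝ) * (C * C' * e) := by ring

theorem da1b_pow {A B Rs κ y z : ℝ} (hA : 1 ≤ A) (hB : 0 < B) (hBA : B ≤ A ^ 2) (hRs : 0 < Rs)
    (hκ : 1 ≤ κ) (hR : Rs ≤ B * A ^ y) (hz : 2 * (κ - 1) + y * κ ≤ z) : Rs ^ κ ≤ B * A ^ z := by
  have hA0 : 0 < A := by linarith
  have h1 : Rs ^ κ ≤ (B * A ^ y) ^ κ := Real.rpow_le_rpow hRs.le hR (by linarith)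
  have h2 : (B * A ^ y) ^ κ = B * (B ^ (κ - 1) * A ^ (y * κ)) := by
    rw [Real.mul_rpow hB.le (Real.rpow_nonneg hA0.le _), ← Real.rpow_mul hA0.le,
      Real.rpow_sub_one hB.ne']
    field_simp
  have h3 : B ^ (κ - 1) ≤ A ^ (2 * (κ - 1)) := by
    rw [Real.rpow_mul hA0.le]
    refine Real.rpow_le_rpow hB.le ?_ (by linarith)
    rw [Real.rpow_two]; exact hBA
  have h4 : B ^ (κ - 1) * A ^ (y * κ) ≤ A ^ z := by
    calc B ^ (κ - 1) * A ^ (y * κ) ≤ A ^ (2 * (κ - 1)) * A ^ (y * κ) :=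
          mul_le_mul_of_nonneg_right h3 (Real.rpow_nonneg hA0.le _)
      _ = A ^ (2 * (κ - 1) + y * κ) := (Real.rpow_add hA0 _ _).symm
      _ ≤ A ^ z := Real.rpow_le_rpow_of_exponent_le hA hz
  rw [h2] at h1
  exact h1.trans (mul_le_mul_of_nonneg_left h4 hB.le)

/-- `RH_mid`, `EV_nrm_le`. -/
theorem RG_mid : ∃ C : ℝ, 0 ≤ C ∧ ∀ (u : O → ℂ) (M B Rs Z₀ Z : ℝ), 0 < B → 0 < Rs → 0 < Z₀ → 1 ≤ Z →
    Z ^ 2 ≤ B * Z₀ ^ (-(1 / 3) : ℝ) → Supp 1 u → EV M B u →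
    RG (RW (fun r => Near Z r ∧ ¬ Near Z₀ r) u) M B Rs (C * Z₀ ^ (-(1 / 3) : ℝ)) := by
  obtain ⟨C, hC, h⟩ := RH_mid
  obtain ⟨C', hC', hn⟩ := EV_nrm_le
  refine ⟨C * C' * 2, by positivity, fun u M B Rs Z₀ Z hB hRs hZ₀ hZ hZB hs hE => ?_⟩
  have h0 := supp_zero hs
  have hp : 0 ≤ Z₀ ^ (-(1 / 3) : ℝ) := Real.rpow_nonneg hZ₀.le _
  have := da1b_core (e := 2 * Z₀ ^ (-(1 / 3) : ℝ)) hB hRs hC (by positivity) (by linarith)
    (hn M B u hB h0 hE) (h 4 B Rs Z₀ Z u (by norm_num) hB hRs hZ₀ hZ hs (hE.rap hB h0))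
  rwa [← mul_assoc] at this

/-- `RH_far` with `κ = 1 + min (η / 4) (2 / 3)`, `ε = 1/240`; `EV_nrm_le`. -/
theorem RG_far {η : ℝ} (hη : 0 < η) : ∃ c : ℝ, 0 < c ∧ ∃ C : ℝ, 0 ≤ C ∧
    ∀ (u : O → ℂ) (A M B Rs : ℝ), 1 ≤ A → A ^ (2 / 5 : ℝ) ≤ B → B ≤ A ^ 2 → 0 < Rs →
    Rs ≤ B * A ^ (-η) → Supp 1 u → EV M B u →
    RG (RW (Far (A ^ (1 / 20 : ℝ))) u) M B Rs (C * A ^ (-c)) := by
  have hk0 : 0 < min (η / 4) (2 / 3) := lt_min (by linarith) (by norm_num)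
  have hk1 : min (η / 4) (2 / 3) ≤ η / 4 := min_le_left _ _
  have hk2 : min (η / 4) (2 / 3) ≤ 2 / 3 := min_le_right _ _
  obtain ⟨c₀, hc₀, hc₁, h⟩ := RH_far (κ := 1 + min (η / 4) (2 / 3)) (by linarith) (by linarith)
  obtain ⟨C, hC, h⟩ := h (1 / 240) (by norm_num) (by norm_num)
  obtain ⟨C', hC', hn⟩ := EV_nrm_le
  set c : ℝ := min (2 * c₀ / 5) (min (1 / 120) (η / 2)) with hc
  have hc0 : 0 < c := lt_min (by linarith) (lt_min (by norm_num) (by linarith))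
  have hc1 : c ≤ 2 * c₀ / 5 := min_le_left _ _
  have hc2 : c ≤ 1 / 120 := (min_le_right _ _).trans (min_le_left _ _)
  have hc3 : c ≤ η / 2 := (min_le_right _ _).trans (min_le_right _ _)
  refine ⟨c, hc0, C * C' * 3, by positivity, fun u A M B Rs hA hAB hBA hRs hR hs hE => ?_⟩
  have hA0 : 0 < A := by linarith
  have hB : 0 < B := lt_of_lt_of_le (Real.rpow_pos_of_pos hA0 _) hAB
  have h0 := supp_zero hs
  have hZ : 1 ≤ A ^ (1 / 20 : ℝ) := Real.one_le_rpow hA (by norm_num)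
  have hp : 0 ≤ A ^ (-c) := Real.rpow_nonneg hA0.le _
  have t1 : B ^ (1 - c₀) ≤ B * A ^ (-c) := by
    rw [sub_eq_add_neg, Real.rpow_add hB, Real.rpow_one]
    refine mul_le_mul_of_nonneg_left ?_ hB.le
    calc B ^ (-c₀) ≤ (A ^ (2 / 5 : ℝ)) ^ (-c₀) :=
          Real.rpow_le_rpow_of_nonpos (Real.rpow_pos_of_pos hA0 _) hAB (by linarith)
      _ = A ^ (2 / 5 * (-c₀)) := (Real.rpow_mul hA0.le _ _).symm
      _ ≤ A ^ (-c) := Real.rpow_le_rpow_of_exponent_le hA (by linarith)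
  have t2 : B ^ (1 + 1 / 240 : ℝ) * (A ^ (1 / 20 : ℝ)) ^ (-(1 / 3) : ℝ) ≤ B * A ^ (-c) := by
    rw [Real.rpow_add hB, Real.rpow_one, mul_assoc]
    refine mul_le_mul_of_nonneg_left ?_ hB.le
    have h3 : B ^ (1 / 240 : ℝ) ≤ A ^ (2 * (1 / 240) : ℝ) := by
      rw [Real.rpow_mul hA0.le]
      refine Real.rpow_le_rpow hB.le ?_ (by norm_num)
      rw [Real.rpow_two]; exact hBA
    rw [← Real.rpow_mul hA0.le]
    calc B ^ (1 / 240 : ℝ) * A ^ (1 / 20 * (-(1 / 3)) : ℝ)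
        ≤ A ^ (2 * (1 / 240) : ℝ) * A ^ (1 / 20 * (-(1 / 3)) : ℝ) :=
          mul_le_mul_of_nonneg_right h3 (Real.rpow_nonneg hA0.le _)
      _ = A ^ (2 * (1 / 240) + 1 / 20 * (-(1 / 3)) : ℝ) := (Real.rpow_add hA0 _ _).symm
      _ ≤ A ^ (-c) := Real.rpow_le_rpow_of_exponent_le hA (by linarith)
  have t3 : Rs ^ (1 + min (η / 4) (2 / 3)) ≤ B * A ^ (-c) :=
    da1b_pow hA hB hBA hRs (by linarith) hR (by nlinarith)
  have := da1b_core (e := 3 * A ^ (-c)) hB hRs hC (by positivity) (by linarith)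
    (hn M B u hB h0 hE) (h 4 B Rs _ u (by norm_num) hB hRs hZ hs (hE.rap hB h0))
  rwa [← mul_assoc] at this

/-- `RH_free` with `κ = 1 + min (c / 4) (2 / 3)`, `η = c / 4`. -/
theorem RG_loss {c : ℝ} (hc : 0 < c) : ∃ η : ℝ, 0 < η ∧ ∃ C : ℝ, 0 ≤ C ∧
    ∀ (S : O → Prop) (u : O → ℂ) (A M B Rs : ℝ), 1 ≤ A → 0 < B → B ≤ A ^ 2 → 0 < Rs →
    Rs ≤ B * A ^ η → Supp 1 u → EV M B u → RG (RW S u) M B Rs (C * A ^ c) := by
  have hk0 : 0 < min (c / 4) (2 / 3) := lt_min (by linarith) (by norm_num)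
  have hk1 : min (c / 4) (2 / 3) ≤ c / 4 := min_le_left _ _
  have hk2 : min (c / 4) (2 / 3) ≤ 2 / 3 := min_le_right _ _
  obtain ⟨C, hC, h⟩ := RH_free (κ := 1 + min (c / 4) (2 / 3)) (by linarith) (by linarith)
  obtain ⟨C', hC', hn⟩ := EV_nrm_le
  refine ⟨c / 4, by linarith, C * C' * 2, by positivity,
    fun S u A M B Rs hA hB hBA hRs hR hs hE => ?_⟩
  have hA0 : 0 < A := by linarith
  have h0 := supp_zero hs
  have h1 : 1 ≤ A ^ c := Real.one_le_rpow hA hc.le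
  have t1 : B ≤ B * A ^ c := le_mul_of_one_le_right hB.le h1
  have t3 : Rs ^ (1 + min (c / 4) (2 / 3)) ≤ B * A ^ c :=
    da1b_pow hA hB hBA hRs (by linarith) hR (by nlinarith)
  have := da1b_core (e := 2 * A ^ c) hB hRs hC (by positivity) (by linarith)
    (hn M B u hB h0 hE) (h S 4 B Rs u (by norm_num) hB hRs hs (hE.rap hB h0))
  rwa [← mul_assoc] at this

end Crest.Agent.R012.D

end
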