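import Crest.Agent.R012.DK

/-! # Row 12, dispersion: the kernel summed over the cube rows -/

set_option autoImplicit false

noncomputable section

open scoped BigOperators ComplexConjugate Topology
open Complex MeasureTheory Filter Set Crest.Agent.R017

namespace Crest.Agent.R012.D

theorem dkc_sq3_ne : sq3 ≠ 0 := by decide

theorem dkc_prime_sq3 : Prime sq3 := by
  rw [sq3_eq]
  exact (prime_isUnit_mul (isUnit_iff.2 (Or.inr (Or.inr (Or.inl rfl))))).2 prime_lam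

theorem dkc_cube_iff {h : O} : (h ≠ 0 ∧ IsCube (-3 * h)) ↔ ∃ y : O, y ≠ 0 ∧ sq3 * y ^ 3 = h := by
  constructor
  · rintro ⟨h0, x, hx⟩
    have h1 : sq3 ∣ x ^ 3 := ⟨sq3 * h, by rw [← hx, ← sq3_sq]; ring⟩
    obtain ⟨y, rfl⟩ := dkc_prime_sq3.dvd_of_dvd_pow h1
    have h2 : sq3 ^ 2 * (sq3 * y ^ 3) = sq3 ^ 2 * h := by
      rw [sq3_sq, hx, ← sq3_sq]; ring
    have h3 := mul_left_cancel₀ (pow_ne_zero 2 dkc_sq3_ne) h2
    refine ⟨y, ?_, h3⟩
    rintro rfl
    exact h0 (by rw [← h3]; ring)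
  · rintro ⟨y, hy, rfl⟩
    exact ⟨mul_ne_zero dkc_sq3_ne (pow_ne_zero 3 hy), sq3 * y, by rw [← sq3_sq]; ring⟩

theorem dkc_fiber (y₀ : O) :
    (fun y : O => sq3 * y ^ 3) ⁻¹' {sq3 * y₀ ^ 3} =
      (({y₀, om * y₀, om ^ 2 * y₀} : Finset O) : Set O) := by
  ext y
  simp only [Set.mem_preimage, Set.mem_singleton_iff, Finset.coe_insert, Finset.coe_singleton,
    Set.mem_insert_iff]
  rw [mul_right_inj' dkc_sq3_ne]
  have key : y ^ 3 - y₀ ^ 3 = (y - y₀) * ((y - om * y₀) * (y - om ^ 2 * y₀)) := by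
    linear_combination (y ^ 2 * y₀ - y * y₀ ^ 2 * om) * om_sq + (y₀ ^ 3) * om_cube
  rw [← sub_eq_zero, key, mul_eq_zero, mul_eq_zero, sub_eq_zero, sub_eq_zero, sub_eq_zero]

theorem dkc_Nr_om : Nr om = 1 := isUnit_iff_Nr.1 (isUnit_iff.2 (Or.inr (Or.inr (Or.inl rfl))))

open Classical in
/-- `-3 h` is a cube iff `h = sq3 y³` (`sq3_sq`, `prime_lam`), and `y ↦ sq3 y³` is three-to-one on
non-zero elements (average over the fibres: `y³ = y'³ ↔ y' = ω^i y`). -/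
theorem tsum_cube {F : ℝ → ℂ} (hF : Summable (fun y : O => if y = 0 then 0 else F (3 * Nr y ^ 3))) :
    ∑' h : O, (if h ≠ 0 ∧ IsCube (-3 * h) then F (Nr h) else 0) =
      (1 / 3 : ℂ) * ∑' y : O, if y = 0 then 0 else F (3 * Nr y ^ 3) := by
  have hs := hF.hasSum.tsum_fiberwise (fun y : O => sq3 * y ^ 3)
  have e : ∀ h : O, (∑' b : (fun y : O => sq3 * y ^ 3) ⁻¹' {h},
      (fun y : O => if y = 0 then 0 else F (3 * Nr y ^ 3)) b) =
      3 * (if h ≠ 0 ∧ IsCube (-3 * h) then F (Nr h) else 0) := by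
    intro h
    by_cases hh : h ≠ 0 ∧ IsCube (-3 * h)
    · rw [if_pos hh]
      obtain ⟨y₀, hy, rfl⟩ := dkc_cube_iff.1 hh
      have hom : om ≠ 0 := by decide
      have n1 : y₀ ≠ om * y₀ := fun h => by
        have : (1 - om) * y₀ = 0 := by linear_combination h
        exact hy ((mul_eq_zero.1 this).resolve_left (by decide))
      have n2 : y₀ ≠ om ^ 2 * y₀ := fun h => by
        have : (1 - om ^ 2) * y₀ = 0 := by linear_combination h
        exact hy ((mul_eq_zero.1 this).resolve_left (by decide))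
      have n3 : om * y₀ ≠ om ^ 2 * y₀ := fun h => by
        have : (om - om ^ 2) * y₀ = 0 := by linear_combination h
        exact hy ((mul_eq_zero.1 this).resolve_left (by decide))
      rw [dkc_fiber, Finset.tsum_subtype' _ (fun y : O => if y = 0 then 0 else F (3 * Nr y ^ 3)),
        Finset.sum_insert (by simp [n1, n2]), Finset.sum_insert (by simp [n3]),
        Finset.sum_singleton, if_neg hy, if_neg (mul_ne_zero hom hy),
        if_neg (mul_ne_zero (pow_ne_zero 2 hom) hy)]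
      simp only [Nr_mul, Nr_pow, dkc_Nr_om, Nr_sq3, one_pow, one_mul]
      ring
    · rw [if_neg hh, mul_zero]
      refine (tsum_congr fun b => ?_).trans tsum_zero
      by_cases hb : (b : O) = 0
      · exact if_pos hb
      · exact absurd (dkc_cube_iff.2 ⟨b, hb, b.2⟩) hh
  simp only [e] at hs
  rw [← hs.tsum_eq, tsum_mul_left]
  ring

/-- Continuation of `∑_{y ≠ 0} N(y)^{-s}`: `f1_analytic` with `a = 1`, `N = 1`, `w = 1`
(`poisson_gauss` with `z = w = 0`). -/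
theorem exists_zeta : ∃ G : ℂ → ℂ, Differentiable ℂ G ∧
    (∀ s : ℂ, 1 < s.re → G s = (s - 1) * f1_D (fun _ => 1) s) ∧
    ∀ A : ℝ, ∃ C : ℝ, ∀ s : ℂ, |s.re| ≤ A → ‖G s‖ ≤ C * Real.exp (C * |s.im|) := by
  obtain ⟨G, hG, h1, -, h2⟩ := f1_analytic (a := fun _ => 1) (fun _ => by simp) (N := 1) one_pos
    (w := 1) one_ne_zero (fun R hR => by
      have h := poisson_gauss hR 0 0
      simp only [add_zero, mul_zero, p1_ec_zero, mul_one, sub_zero, norm_emb_sq] at h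
      simpa using h)
  refine ⟨fun s => 6 * G s, hG.const_mul 6, fun s hs => by
    show 6 * G s = _
    rw [h1 s hs]; ring, fun A => ?_⟩
  obtain ⟨C, hC⟩ := h2 A
  refine ⟨6 * max C 0, fun s hs => ?_⟩
  have h3 : ‖G s‖ ≤ max C 0 * Real.exp (max C 0 * |s.im|) :=
    (hC s hs).trans (rd_exp_mono (le_max_left _ _) (le_max_right _ _) (abs_nonneg _))
  have h4 : Real.exp (max C 0 * |s.im|) ≤ Real.exp (6 * max C 0 * |s.im|) :=
    Real.exp_le_exp.2 (by
      have := mul_nonneg (le_max_right C 0) (abs_nonneg s.im)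
      linarith)
  have h5 := mul_le_mul_of_nonneg_left h4 (le_max_right C 0)
  rw [norm_mul]
  have : ‖(6 : ℂ)‖ = 6 := by simp
  rw [this]
  linarith

theorem dkc_cpow {x : ℝ} (hx : 0 < x) (s : ℂ) :
    (x : ℂ) ^ s = Complex.exp ((Real.log x : ℂ) * s) := by
  rw [cpow_def_of_ne_zero (by exact_mod_cast hx.ne'), ofReal_log hx.le]

theorem dkc_split {z x : ℝ} (hz : 0 < z) (hx : 0 < x) (s : ℂ) :
    ((z * (3 * x ^ 3) : ℝ) : ℂ) ^ (-s) =
      (z : ℂ) ^ (-s) * ((3 : ℝ) : ℂ) ^ (-s) * (x : ℂ) ^ (-(3 * s)) := by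
  rw [dkc_cpow (by positivity), dkc_cpow hz, dkc_cpow hx, dkc_cpow (by norm_num : (0 : ℝ) < 3),
    ← Complex.exp_add, ← Complex.exp_add, Real.log_mul hz.ne' (by positivity),
    Real.log_mul (by norm_num) (by positivity), Real.log_pow]
  congr 1
  push_cast
  ring

theorem dkc_summable {z : ℝ} (hz : 0 < z) :
    Summable (fun y : O => ‖(if y = 0 then 0 else 1 : ℂ)‖ *
      (z * (3 * Nr y ^ 3)) ^ (-(1 / 2 : ℝ))) := by
  have h := (f1_D_summable (a := fun _ => 1) (fun _ => by simp)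
    (s := ((3 / 2 : ℝ) : ℂ)) (by simp; norm_num)).norm.mul_left ((z * 3) ^ (-(1 / 2 : ℝ)))
  refine h.congr fun y => ?_
  by_cases hy : y = 0
  · simp [hy]
  · have hp := Nr_pos hy
    rw [if_neg hy, if_neg hy, one_mul, norm_one, one_mul, norm_cpow_eq_rpow_re_of_pos hp,
      ← mul_assoc, Real.mul_rpow (x := z * 3) (by positivity) (by positivity), ← Real.rpow_natCast,
      ← Real.rpow_mul hp.le]
    congr 2
    simp
    norm_num

open Classical in
/-- The sum of the kernel over the cube rows: `tsum_cube`, `tsum_KK` on `σ = 1/2`,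
`shift_Wh_pole` to `σ = 1/4` with the pole `s₀ = 1/3` and
`H s = fK 4 s (3 z)^{-s} G (3 s) / 3`, `norm_integral_Wh_le`. -/
theorem Kcube : ∃ κ₀ : ℂ, ∃ C : ℝ, 0 ≤ C ∧ ∀ z : ℝ, 0 < z →
    ‖(∑' h : O, if h ≠ 0 ∧ IsCube (-3 * h) then KK 4 (z * Nr h) else 0) -
      κ₀ * ((z ^ (-(1 / 3) : ℝ) : ℝ) : ℂ)‖ ≤ C * z ^ (-(1 / 4) : ℝ) := by
  obtain ⟨G, hG, hG1, hG2⟩ := exists_zeta
  set H0 : ℂ → ℂ := fun s => fK 4 s * ((3 : ℝ) : ℂ) ^ (-s) * (G (3 * s) / 3) with hH0
  have h3 : (0 : ℝ) < 3 := by norm_num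
  have cd : ∀ {x : ℝ}, 0 < x → Differentiable ℂ (fun s : ℂ => (x : ℂ) ^ (-s)) := fun hx =>
    differentiable_id.neg.const_cpow (Or.inl (by exact_mod_cast hx.ne'))
  have d0 : DifferentiableOn ℂ H0 (strip (1 / 4) (1 / 2)) :=
    ((fK_diff 4 (by norm_num) _).mul (cd h3).differentiableOn).mul
      ((hG.comp (differentiable_id.const_mul 3)).div_const 3).differentiableOn
  have g0 : ExpGr H0 (1 / 4) (1 / 2) := by
    refine ((fK_expGr 4 (by norm_num) _).mul (expGr_cpow_neg h3 _ _)).mul ?_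
    obtain ⟨C, hC⟩ := hG2 2
    refine ExpGr.of_two (C / 3) (C * 3) 0 fun s hs _ => ?_
    have h1 := hC (3 * s) (by
      have := hs.1
      have := hs.2
      simp only [mul_re, re_ofNat, im_ofNat, zero_mul, sub_zero]
      rw [abs_le]
      constructor <;> linarith)
    have h2 : |(3 * s).im| = 3 * |s.im| := by
      simp [abs_mul]
    rw [h2, ← mul_assoc] at h1
    rw [norm_div]
    have : ‖(3 : ℂ)‖ = 3 := by simp
    rw [this]
    linarith
  obtain ⟨C0, hC0, hb⟩ := g0.global d0.continuousOn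
  obtain ⟨K, hK, hI⟩ := norm_integral_Wh_le (a := 4) (by norm_num) C0 (1 / 4)
  obtain ⟨C1, hC1, hKK⟩ := norm_KK_le (a := 4) (σ := 1 / 2) (by norm_num) (by norm_num)
  refine ⟨1 / 3 * (H0 (1 / 3) * Wh 4 (1 / 3)), 1 / 3 * (1 / (2 * Real.pi)) * (K * (12 * C0)),
    by have := Real.pi_pos; positivity, fun z hz => ?_⟩
  have hsum := dkc_summable hz
  have hF : Summable (fun y : O => if y = 0 then 0 else KK 4 (z * (3 * Nr y ^ 3))) := by
    refine Summable.of_norm_bounded (hsum.mul_left C1) fun y => ?_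
    by_cases hy : y = 0
    · simp [hy]
    · have hp := Nr_pos hy
      rw [if_neg hy, if_neg hy, norm_one, one_mul]
      exact hKK _ (by positivity)
  have e1 := tsum_cube (F := fun x => KK 4 (z * x)) hF
  have e2 := tsum_KK (a := 4) (σ := 1 / 2) (by norm_num) (by norm_num)
    (fun y : O => (if y = 0 then 0 else 1 : ℂ)) (fun y => z * (3 * Nr y ^ 3))
    (fun y hy => by
      have hp := Nr_pos (x := y) (fun h => hy (if_pos h))
      positivity) hsum
  have e3 : (∑' y : O, if y = 0 then 0 else KK 4 (z * (3 * Nr y ^ 3))) =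
      ∑' y : O, (if y = 0 then 0 else 1 : ℂ) * KK 4 (z * (3 * Nr y ^ 3)) :=
    tsum_congr fun y => by split_ifs <;> simp
  set H : ℂ → ℂ := fun s => H0 s * (z : ℂ) ^ (-s) with hH
  have e4 : ∀ s : ℂ, s.re = 1 / 2 → mK 4 s * ∑' y : O, (if y = 0 then 0 else 1 : ℂ) *
      ((z * (3 * Nr y ^ 3) : ℝ) : ℂ) ^ (-s) = H s / (s - 1 / 3) * Wh 4 s := by
    intro s hs
    have h1 : ∑' y : O, (if y = 0 then 0 else 1 : ℂ) * ((z * (3 * Nr y ^ 3) : ℝ) : ℂ) ^ (-s) =
        (z : ℂ) ^ (-s) * ((3 : ℝ) : ℂ) ^ (-s) * f1_D (fun _ => 1) (3 * s) := by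
      rw [f1_D, ← tsum_mul_left]
      refine tsum_congr fun y => ?_
      by_cases hy : y = 0
      · simp [hy]
      · rw [if_neg hy, if_neg hy, one_mul, one_mul, dkc_split hz (Nr_pos hy)]
    have h2 := hG1 (3 * s) (by simp [hs]; norm_num)
    have h4 : s - 1 / 3 ≠ 0 := fun h => by
      have := congrArg Complex.re h
      simp [hs] at this
      norm_num at this
    rw [h1, mK_eq]
    simp only [hH, hH0]
    rw [h2, show 3 * s - 1 = 3 * (s - 1 / 3) by ring]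
    generalize s - 1 / 3 = u at h4
    field_simp
  have dH : DifferentiableOn ℂ H (strip (1 / 4) (1 / 2)) := d0.mul (cd hz).differentiableOn
  have gH : ExpGr H (1 / 4) (1 / 2) := g0.mul (expGr_cpow_neg hz _ _)
  have e5 := shift_Wh_pole (a := 4) (by norm_num) (s₀ := 1 / 3) (σ₁ := 1 / 4) (σ₂ := 1 / 2)
    (by simp; norm_num) (by simp; norm_num) dH gH
  have e6 : H (1 / 3) = H0 (1 / 3) * ((z ^ (-(1 / 3) : ℝ) : ℝ) : ℂ) := by
    simp only [hH]
    rw [ofReal_cpow hz.le]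
    push_cast
    rfl
  have hpi : (Real.pi : ℂ) ≠ 0 := by exact_mod_cast Real.pi_pos.ne'
  have e7 : (∑' h : O, if h ≠ 0 ∧ IsCube (-3 * h) then KK 4 (z * Nr h) else 0) -
      1 / 3 * (H0 (1 / 3) * Wh 4 (1 / 3)) * ((z ^ (-(1 / 3) : ℝ) : ℝ) : ℂ) =
      1 / 3 * (1 / (2 * Real.pi)) * ∫ t : ℝ, H (((1 / 4 : ℝ) : ℂ) + t * I) /
        (((1 / 4 : ℝ) : ℂ) + t * I - 1 / 3) * Wh 4 (((1 / 4 : ℝ) : ℂ) + t * I) := by
    rw [e1, e3, e2, integral_congr_ae (Eventually.of_forall fun t : ℝ =>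
      e4 (((1 / 2 : ℝ) : ℂ) + t * I) (by simp)), e5, e6]
    generalize (∫ t : ℝ, H (((1 / 4 : ℝ) : ℂ) + t * I) /
        (((1 / 4 : ℝ) : ℂ) + t * I - 1 / 3) * Wh 4 (((1 / 4 : ℝ) : ℂ) + t * I)) = J
    field_simp
    ring
  have hbd := hI (fun t : ℝ => H (((1 / 4 : ℝ) : ℂ) + t * I) /
    (((1 / 4 : ℝ) : ℂ) + t * I - 1 / 3)) (12 * C0 * z ^ (-(1 / 4) : ℝ)) (fun t => by
      have h1 := hb _ (line_mem_strip (σ₁ := 1 / 4) (σ₂ := 1 / 2) le_rfl (by norm_num) t)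
      have h2 : (((1 / 4 : ℝ) : ℂ) + t * I).im = t := by simp
      rw [h2] at h1
      have h4 : (1 / 12 : ℝ) ≤ ‖((1 / 4 : ℝ) : ℂ) + t * I - 1 / 3‖ := by
        refine le_trans ?_ (abs_re_le_norm _)
        have : (((1 / 4 : ℝ) : ℂ) + t * I - 1 / 3).re = -(1 / 12) := by
          simp
          norm_num
        rw [this, abs_neg, abs_of_pos (by norm_num)]
      have h5 : ‖(z : ℂ) ^ (-(((1 / 4 : ℝ) : ℂ) + t * I))‖ = z ^ (-(1 / 4) : ℝ) := by
        rw [norm_cpow_eq_rpow_re_of_pos hz]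
        simp
      have hzp : 0 ≤ z ^ (-(1 / 4) : ℝ) := Real.rpow_nonneg hz.le _
      simp only [hH]
      rw [norm_div, norm_mul, h5, div_le_iff₀ (by linarith)]
      have h6 := mul_le_mul_of_nonneg_right h1 hzp
      have h7 : 0 ≤ C0 * Real.exp (C0 * |t|) * z ^ (-(1 / 4) : ℝ) := by positivity
      nlinarith [mul_le_mul_of_nonneg_left h4 h7])
  rw [e7, norm_mul]
  have hn : ‖(1 / 3 * (1 / (2 * Real.pi)) : ℂ)‖ = 1 / 3 * (1 / (2 * Real.pi)) := by
    simp [abs_of_pos Real.pi_pos]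
  rw [hn]
  calc _ ≤ 1 / 3 * (1 / (2 * Real.pi)) * (K * (12 * C0 * z ^ (-(1 / 4) : ℝ))) :=
        mul_le_mul_of_nonneg_left hbd (by have := Real.pi_pos; positivity)
    _ = _ := by ring

end Crest.Agent.R012.D

end
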