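import Crest.Agent.R012.DB2b
import Crest.Agent.R017.Sieve

/-! # Row 12, dispersion: the coefficients of `DD`, the forms `QQ`, thin norms -/

set_option autoImplicit false

noncomputable section

open scoped BigOperators ComplexConjugate Topology
open Complex MeasureTheory Filter Set Crest.Agent.R017

namespace Crest.Agent.R012.D

theorem supp_co (θ B τ : ℝ) (β : O → ℂ) : Supp 1 (co θ B τ β) := by
  refine supp_iff.2 fun n hn => ?_
  by_contra h
  exact hn (by rw [co, if_neg h])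

theorem norm_co {θ B τ : ℝ} {β : O → ℂ} {b : O} (hb : Prim b) (hs : Squarefree b) :
    ‖co θ B τ β b‖ = ‖β b‖ * W (2 * θ) (Nr b / B) := by
  rw [co, if_pos ⟨hb, hs⟩, norm_mul, norm_mul,
    Complex.norm_cpow_eq_rpow_re_of_pos (Nr_pos hb.ne_zero), Complex.norm_real,
    Real.norm_of_nonneg (W_pos _ _).le]
  simp

/-- `W (2 θ) ≤ W 2 = (W 4)²` and `(1 + y) W 4 y ≤ C`. -/
theorem EV_co : ∃ C : ℝ, 0 ≤ C ∧ ∀ (θ M B τ : ℝ) (β : O → ℂ), 0 < θ → θ ≤ 1 → 0 < B → Env M B β →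
    EV (C * M) B (co θ B τ β) := by
  obtain ⟨C, hC, h⟩ := psi_pow_W 1
  refine ⟨2 * C, by positivity, fun θ M B τ β h0 h1 hB hE n => ?_⟩
  have hM := hE.nonneg hB
  have hW := W_pos 4 (Nr n / B)
  by_cases hn : Prim n ∧ Squarefree n
  · have hy : 0 < Nr n / B := div_pos (Nr_pos hn.1.ne_zero) hB
    rw [norm_co hn.1 hn.2]
    have a1 : W (2 * θ) (Nr n / B) ≤ W 4 (Nr n / B) ^ 2 := by
      have := W_sq 2 (Nr n / B)
      rw [show (2 : ℝ) * 2 = 4 by norm_num] at this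
      rw [← this]
      exact W_mono (by linarith) (by linarith) _
    have a2 : 1 + Nr n / B ≤ 2 * psi (Nr n / B) := by
      have b1 := one_le_psi hy
      have b2 := rpow_le_psi (β := 1) (by norm_num) (by norm_num) hy
      rw [Real.rpow_one] at b2
      linarith
    have a3 : psi (Nr n / B) * W 4 (Nr n / B) ≤ C := by
      have b1 := h _ hy
      rw [pow_one] at b1
      exact (mul_le_mul_of_nonneg_left (W_mono (by norm_num) (by norm_num) _)
        (psi_nonneg hy.le)).trans b1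
    have a4 := psi_nonneg hy.le
    calc ‖β n‖ * W (2 * θ) (Nr n / B) ≤ (M * (2 * psi (Nr n / B))) * W 4 (Nr n / B) ^ 2 :=
          mul_le_mul ((hE n hn.1).trans (mul_le_mul_of_nonneg_left a2 hM)) a1 (W_pos _ _).le
            (by positivity)
      _ = 2 * (psi (Nr n / B) * W 4 (Nr n / B)) * M * W 4 (Nr n / B) := by ring
      _ ≤ 2 * C * M * W 4 (Nr n / B) := by gcongr
  · rw [co, if_neg hn, norm_zero]
    positivity

theorem rap_co {θ M B : ℝ} {β : O → ℂ} (h0 : 0 < θ) (h1 : θ ≤ 1) (hB : 0 < B) (h : Env M B β)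
    (τ : ℝ) : Rap (co θ B τ β) := (EV_co.choose_spec.2 θ M B τ β h0 h1 hB h).rap hB (supp_zero (supp_co θ B τ β))

/-- `log N b ≤ log B + N b / B`. -/
theorem env_LpV (l : ℤ) (V : ℝ) {B : ℝ} (hB : 1 ≤ B) : Env (1 + Real.log B) B (LpV l V) := by
  intro b hb
  have hB0 : 0 < B := by linarith
  have hy : 0 < Nr b / B := div_pos (Nr_pos hb.ne_zero) hB0
  have hl := Real.log_nonneg hB
  have h1 : ‖LpV l V b‖ ≤ Real.log (Nr b) := by
    rw [LpV, cut]
    split_ifs
    · rw [norm_mul, norm_az l hb.ne_zero, mul_one]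
      exact norm_Lp_le hb.ne_zero
    · rw [norm_zero]
      exact Real.log_nonneg (one_le_Nr hb.ne_zero)
  have h2 : Real.log (Nr b) = Real.log B + Real.log (Nr b / B) := by
    rw [Real.log_div (Nr_pos hb.ne_zero).ne' hB0.ne']
    ring
  have h3 := Real.log_le_sub_one_of_pos hy
  nlinarith [mul_nonneg hl hy.le]

theorem LpV_ne {l : ℤ} {V : ℝ} {b : O} (h : LpV l V b ≠ 0) : Prime b ∧ V < Nr b := by
  rw [LpV, cut] at h
  split_ifs at h with hV
  · refine ⟨?_, hV⟩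
    by_contra hp
    exact h (by rw [Lp, if_neg hp, zero_mul])
  · exact absurd rfl h

/-- If `b` is not squarefree then neither is `a b`. -/
theorem DD_eq_QQ {G : O → ℂ} (hG : ∀ n, ¬ Squarefree n → G n = 0) (θ A B τ : ℝ) (β : O → ℂ) :
    DD G θ A B τ β = QQ G (4 * θ) A (co θ B τ β) := by
  unfold DD QQ
  refine tsum_congr fun x => ?_
  by_cases hx : Prim x
  · rw [if_pos hx, if_pos hx, sm]
    congr 3
    refine tsum_congr fun b => ?_
    by_cases hb : Prim b
    · rw [if_pos hb]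
      by_cases hs : Squarefree b
      · rw [co, if_pos ⟨hb, hs⟩]
        ring
      · rw [hG _ fun h => hs h.of_mul_right]
        simp
    · rw [if_neg hb, co, if_neg fun h => hb h.1, zero_mul]
  · rw [if_neg hx, if_neg hx]

open Classical in
theorem XX_co (θ B τ σ t : ℝ) (β c : O → ℂ) :
    XX (fun n => co θ B τ β n * c n) (σ + t * I) =
      sm (2 * θ) (fun n => (if Squarefree n then β n else 0) * c n *
        (Nr n : ℂ) ^ (((σ - 1 / 2 : ℝ) : ℂ) + t * I)) B τ := by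
  unfold XX sm
  refine tsum_congr fun n => ?_
  have e : (σ : ℂ) + t * I - 1 / 2 = ((σ - 1 / 2 : ℝ) : ℂ) + t * I := by
    push_cast
    ring
  rw [e]
  beta_reduce
  by_cases hb : Prim n
  · rw [if_pos hb]
    by_cases hs : Squarefree n
    · rw [co, if_pos ⟨hb, hs⟩]
      simp only [if_pos hs]
      ring
    · rw [co, if_neg fun h => hs h.2]
      simp only [if_neg hs, zero_mul]
  · rw [if_neg hb, co, if_neg fun h => hb h.1, zero_mul, zero_mul]

open Classical in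
theorem summable_cn2 {a M B : ℝ} {β : O → ℂ} (ha : 0 < a) (hB : 0 < B) (h : Env M B β) :
    Summable (fun b : O => if Prim b ∧ Squarefree b then ‖β b‖ ^ 2 * dv b * W a (Nr b / B) else 0) := by
  obtain ⟨C, hC, hd⟩ := dv_le one_pos
  refine Summable.of_nonneg_of_le (fun b => ?_) (fun b => ?_)
    ((summable_W ha hB 3).mul_left ((M * (1 + B⁻¹)) ^ 2 * C))
  · have := W_pos a (Nr b / B)
    have := dv_nonneg b
    split_ifs <;> positivity
  · have hW := W_pos a (Nr b / B)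
    have hN := Nr_nonneg b
    by_cases hb : Prim b ∧ Squarefree b
    · rw [if_pos hb, if_neg hb.1.ne_zero]
      have h1 := pow_le_pow_left₀ (norm_nonneg _) (h.poly hB b hb.1) 2
      have h2 := hd b hb.1.ne_zero
      rw [Real.rpow_one] at h1 h2
      rw [show (3 : ℝ) = (3 : ℕ) by norm_num, Real.rpow_natCast]
      calc ‖β b‖ ^ 2 * dv b * W a (Nr b / B)
          ≤ (M * (1 + B⁻¹) * Nr b) ^ 2 * (C * Nr b) * W a (Nr b / B) :=
            mul_le_mul_of_nonneg_right (mul_le_mul h1 h2 (dv_nonneg b) (by positivity)) hW.le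
        _ = _ := by ring
    · rw [if_neg hb]
      split_ifs <;> positivity

open Classical in
theorem summable_cn {a M B : ℝ} {β : O → ℂ} (ha : 0 < a) (hB : 0 < B) (h : Env M B β) :
    Summable (fun b : O => if Prim b ∧ Squarefree b then ‖β b‖ ^ 2 * W a (Nr b / B) else 0) := by
  refine Summable.of_nonneg_of_le (fun b => ?_) (fun b => ?_) (summable_cn2 ha hB h)
  · have := W_pos a (Nr b / B)
    split_ifs <;> positivity
  · split_ifs with hb
    · exact mul_le_mul_of_nonneg_right (le_mul_of_one_le_right (by positivity)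
        (one_le_dv hb.1.ne_zero)) (W_pos _ _).le
    · exact le_rfl

theorem db3_dv_le {ε : ℝ} (hε : 0 < ε) : ∃ C : ℝ, 0 ≤ C ∧ ∀ (B : ℝ) (n : O), 1 ≤ B → n ≠ 0 →
    dv n ≤ C * B ^ ε * psi (Nr n / B) := by
  have hm : 0 < min ε 1 := lt_min hε one_pos
  obtain ⟨C, hC, h⟩ := dv_le hm
  refine ⟨C, hC, fun B n hB hn => (h n hn).trans ?_⟩
  have hB0 : 0 < B := by linarith
  have hy : 0 < Nr n / B := div_pos (Nr_pos hn) hB0
  have e : Nr n ^ min ε 1 = B ^ min ε 1 * (Nr n / B) ^ min ε 1 := by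
    rw [← Real.mul_rpow hB0.le hy.le, mul_div_cancel₀ _ hB0.ne']
  rw [e, mul_assoc]
  refine mul_le_mul_of_nonneg_left (mul_le_mul (Real.rpow_le_rpow_of_exponent_le hB (min_le_left _ _))
    (rpow_le_psi (by linarith) ((min_le_right _ _).trans (by norm_num)) hy) (by positivity)
    (by positivity)) hC

theorem db3_co_of_not {θ B τ : ℝ} {β : O → ℂ} {b : O} (h : ¬ (Prim b ∧ Squarefree b)) :
    co θ B τ β b = 0 := by
  rw [co, if_neg h]

/-- `psi · W (2 θ) ≤ C`. -/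
theorem nrmd_co_le : ∃ C : ℝ, 0 ≤ C ∧ ∀ (θ M B τ : ℝ) (β : O → ℂ), 0 < θ → θ ≤ 1 → 0 < B →
    Env M B β → nrmd B (co θ B τ β) ≤ C * cn2 (2 * θ) B β := by
  obtain ⟨C, hC, h⟩ := psi_pow_W 1
  refine ⟨C, hC, fun θ M B τ β h0 h1 hB hE => ?_⟩
  rw [nrmd, cn2, ← tsum_mul_left]
  refine (summable_nrmd (rap_co h0 h1 hB hE τ) (supp_zero (supp_co θ B τ β)) hB).tsum_le_tsum
    (fun n => ?_) ((summable_cn2 (by linarith) hB hE).mul_left C)
  split_ifs with hn
  · have hy : 0 < Nr n / B := div_pos (Nr_pos hn.1.ne_zero) hB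
    rw [norm_co hn.1 hn.2]
    have a3 : psi (Nr n / B) * W (2 * θ) (Nr n / B) ≤ C := by
      have b1 := h _ hy
      rw [pow_one] at b1
      exact (mul_le_mul_of_nonneg_left (W_mono (by linarith) (by linarith) _)
        (psi_nonneg hy.le)).trans b1
    have a4 : 0 ≤ ‖β n‖ ^ 2 * dv n * W (2 * θ) (Nr n / B) :=
      mul_nonneg (mul_nonneg (sq_nonneg _) (dv_nonneg n)) (W_pos _ _).le
    calc (‖β n‖ * W (2 * θ) (Nr n / B)) ^ 2 * (dv n * psi (Nr n / B))
        = (psi (Nr n / B) * W (2 * θ) (Nr n / B)) * (‖β n‖ ^ 2 * dv n * W (2 * θ) (Nr n / B)) := by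
          ring
      _ ≤ _ := mul_le_mul_of_nonneg_right a3 a4
  · rw [db3_co_of_not hn]
    simp

/-- `dv b ≤ C (N b)^ε ≤ C B^ε psi (N b / B)` for `ε ≤ 1` (`dv_le`; reduce to `min ε 1`). -/
theorem nrmd_co_le' {ε : ℝ} (hε : 0 < ε) : ∃ C : ℝ, 0 ≤ C ∧ ∀ (θ M B τ : ℝ) (β : O → ℂ), 0 < θ →
    θ ≤ 1 → 1 ≤ B → Env M B β → nrmd B (co θ B τ β) ≤ C * B ^ ε * cn (2 * θ) B β := by
  obtain ⟨C, hC, h⟩ := psi_pow_W 2
  obtain ⟨C', hC', h'⟩ := db3_dv_le hε
  refine ⟨C' * C, by positivity, fun θ M B τ β h0 h1 hB hE => ?_⟩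
  have hB0 : 0 < B := by linarith
  rw [nrmd, cn, ← tsum_mul_left]
  refine (summable_nrmd (rap_co h0 h1 hB0 hE τ) (supp_zero (supp_co θ B τ β)) hB0).tsum_le_tsum
    (fun n => ?_) ((summable_cn (by linarith) hB0 hE).mul_left _)
  split_ifs with hn
  · have hy : 0 < Nr n / B := div_pos (Nr_pos hn.1.ne_zero) hB0
    rw [norm_co hn.1 hn.2]
    have a3 : psi (Nr n / B) ^ 2 * W (2 * θ) (Nr n / B) ≤ C :=
      (mul_le_mul_of_nonneg_left (W_mono (by linarith) (by linarith) _) (sq_nonneg _)).trans (h _ hy)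
    have a4 := W_pos (2 * θ) (Nr n / B)
    have a5 := psi_nonneg hy.le
    have a6 := h' B n hB hn.1.ne_zero
    calc (‖β n‖ * W (2 * θ) (Nr n / B)) ^ 2 * (dv n * psi (Nr n / B))
        ≤ (‖β n‖ * W (2 * θ) (Nr n / B)) ^ 2 * (C' * B ^ ε * psi (Nr n / B) * psi (Nr n / B)) := by
          gcongr
      _ = C' * (psi (Nr n / B) ^ 2 * W (2 * θ) (Nr n / B)) * B ^ ε *
          (‖β n‖ ^ 2 * W (2 * θ) (Nr n / B)) := by ring
      _ ≤ _ := by gcongr
  · rw [db3_co_of_not hn]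
    simp

theorem SS_nonneg (a A : ℝ) (γ : O → ℂ) : 0 ≤ SS a A γ := by
  refine tsum_nonneg fun x => ?_
  have := W_pos a (Nr x / A)
  split_ifs <;> positivity

theorem QQ_nonneg (G : O → ℂ) (a A : ℝ) (u : O → ℂ) : 0 ≤ QQ G a A u := by
  refine tsum_nonneg fun x => ?_
  have := W_pos a (Nr x / A)
  split_ifs <;> positivity

theorem db3_W0 {a A : ℝ} (ha : 0 < a) (hA : 0 < A) :
    Summable (fun x : O => if x = 0 then 0 else W a (Nr x / A)) := by
  simpa only [Real.rpow_zero, one_mul] using summable_W ha hA 0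

theorem db3_term_le {G : O → ℂ} {K : ℝ} (hG : ∀ n, Prim n → ‖G n‖ ≤ K) {u : O → ℂ} (hs : Supp 1 u)
    {x : O} (hx : Prim x) (b : O) : ‖u b * G (x * b)‖ ≤ K * ‖u b‖ := by
  by_cases hb : u b = 0
  · simp [hb]
  · rw [norm_mul, mul_comm]
    exact mul_le_mul_of_nonneg_right (hG _ (hx.mul (supp_iff.1 hs b hb).1)) (norm_nonneg _)

theorem db3_summ {G : O → ℂ} {K : ℝ} (hG : ∀ n, Prim n → ‖G n‖ ≤ K) {u : O → ℂ} (hs : Supp 1 u)
    (hr : Rap u) {x : O} (hx : Prim x) : Summable (fun b => u b * G (x * b)) :=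
  Summable.of_norm_bounded ((rap_summable hr).mul_left K) (db3_term_le hG hs hx)

theorem db3_norm_le {G : O → ℂ} {K : ℝ} (hG : ∀ n, Prim n → ‖G n‖ ≤ K) {u : O → ℂ} (hs : Supp 1 u)
    (hr : Rap u) {x : O} (hx : Prim x) : ‖∑' b : O, u b * G (x * b)‖ ≤ K * ∑' b, ‖u b‖ :=
  tsum_of_norm_bounded ((rap_summable hr).hasSum.mul_left K) (db3_term_le hG hs hx)

open Classical in
theorem db3_two {a A c : ℝ} {f g h : O → ℂ}
    (hf : Summable (fun x : O => if Prim x then W a (Nr x / A) * ‖f x‖ ^ 2 else 0))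
    (hg : Summable (fun x : O => if Prim x then W a (Nr x / A) * ‖g x‖ ^ 2 else 0))
    (hh : Summable (fun x : O => if Prim x then W a (Nr x / A) * ‖h x‖ ^ 2 else 0))
    (hle : ∀ x, Prim x → ‖f x‖ ≤ ‖g x‖ + c * ‖h x‖) :
    ∑' x : O, (if Prim x then W a (Nr x / A) * ‖f x‖ ^ 2 else 0) ≤
      2 * ∑' x : O, (if Prim x then W a (Nr x / A) * ‖g x‖ ^ 2 else 0) +
      2 * c ^ 2 * ∑' x : O, (if Prim x then W a (Nr x / A) * ‖h x‖ ^ 2 else 0) := by
  rw [← tsum_mul_left, ← tsum_mul_left, ← (hg.mul_left 2).tsum_add (hh.mul_left _)]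
  refine hf.tsum_le_tsum (fun x => ?_) ((hg.mul_left 2).add (hh.mul_left _))
  split_ifs with hx
  · have h1 := pow_le_pow_left₀ (norm_nonneg _) (hle x hx) 2
    have h2 : ‖f x‖ ^ 2 ≤ 2 * ‖g x‖ ^ 2 + 2 * c ^ 2 * ‖h x‖ ^ 2 := by
      nlinarith [sq_nonneg (‖g x‖ - c * ‖h x‖)]
    have h3 := mul_le_mul_of_nonneg_left h2 (W_pos a (Nr x / A)).le
    linarith
  · simp

/-- `‖colC γ x‖ ≤ ∑ ‖γ n‖`, `summable_W`. -/
theorem summable_SS {a A : ℝ} (ha : 0 < a) (hA : 0 < A) {γ : O → ℂ} (hr : Rap γ) :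
    Summable (fun x : O => if x = 0 then 0 else W a (Nr x / A) * ‖colC γ x‖ ^ 2) := by
  refine Summable.of_nonneg_of_le (fun x => ?_) (fun x => ?_)
    ((db3_W0 ha hA).mul_right ((∑' n, ‖γ n‖) ^ 2))
  · have := W_pos a (Nr x / A)
    split_ifs <;> positivity
  · split_ifs
    · simp
    · refine mul_le_mul_of_nonneg_left (pow_le_pow_left₀ (norm_nonneg _) ?_ 2) (W_pos _ _).le
      refine tsum_of_norm_bounded (rap_summable hr).hasSum fun n => ?_
      rw [norm_mul, RCLike.norm_conj]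
      exact mul_le_of_le_one_right (norm_nonneg _) (norm_kap_le _ _)

open Classical in
theorem summable_QQ {G : O → ℂ} {K : ℝ} (hG : ∀ n, Prim n → ‖G n‖ ≤ K) {a A : ℝ} (ha : 0 < a)
    (hA : 0 < A) {u : O → ℂ} (hs : Supp 1 u) (hr : Rap u) :
    Summable (fun x : O =>
      if Prim x then W a (Nr x / A) * ‖∑' b : O, u b * G (x * b)‖ ^ 2 else 0) := by
  refine Summable.of_nonneg_of_le (fun x => ?_) (fun x => ?_)
    ((db3_W0 ha hA).mul_right ((K * ∑' n, ‖u n‖) ^ 2))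
  · have := W_pos a (Nr x / A)
    split_ifs <;> positivity
  · by_cases hx : Prim x
    · rw [if_pos hx, if_neg hx.ne_zero]
      exact mul_le_mul_of_nonneg_left
        (pow_le_pow_left₀ (norm_nonneg _) (db3_norm_le hG hs hr hx) 2) (W_pos _ _).le
    · rw [if_neg hx]
      have := W_pos a (Nr x / A)
      split_ifs <;> positivity

/-- `gt_mul'`, `norm_gt_le`. -/
theorem QQ_gt_le {a A : ℝ} (ha : 0 < a) (hA : 0 < A) {u : O → ℂ} (hs : Supp 1 u) (hr : Rap u) :
    QQ gt a A u ≤ SS a A (fun b => u b * gt b) := by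
  have hr' : Rap (fun b => u b * gt b) :=
    rap_of_le hr (K := 1) fun n => by rw [norm_mul_gt hs, one_mul]
  refine (summable_QQ (fun n => norm_gt_le) ha hA hs hr).tsum_le_tsum (fun x => ?_)
    (summable_SS ha hA hr')
  by_cases hx : Prim x
  · rw [if_pos hx, if_neg hx.ne_zero]
    refine mul_le_mul_of_nonneg_left (pow_le_pow_left₀ (norm_nonneg _) ?_ 2) (W_pos _ _).le
    have e : ∑' b : O, u b * gt (x * b) = gt x * colC (fun b => u b * gt b) x := by
      rw [colC, ← tsum_mul_left]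
      refine tsum_congr fun b => ?_
      by_cases hb : u b = 0
      · simp [hb]
      · rw [gt_mul' hx (supp_iff.1 hs b hb).1]
        ring
    rw [e, norm_mul]
    exact mul_le_of_le_one_left (norm_nonneg _) (norm_gt_le hx)
  · rw [if_neg hx]
    have := W_pos a (Nr x / A)
    split_ifs <;> positivity

theorem QQ_smul (G : O → ℂ) (a A : ℝ) (z : ℂ) (u : O → ℂ) :
    QQ G a A (fun n => z * u n) = ‖z‖ ^ 2 * QQ G a A u := by
  unfold QQ
  rw [← tsum_mul_left]
  refine tsum_congr fun x => ?_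
  split_ifs
  · simp only [mul_assoc]
    rw [tsum_mul_left, norm_mul]
    ring
  · simp

theorem QQ_le_two {G : O → ℂ} {K : ℝ} (hG : ∀ n, Prim n → ‖G n‖ ≤ K) {a A : ℝ} (ha : 0 < a)
    (hA : 0 < A) {u v : O → ℂ} (hu : Supp 1 u) (hur : Rap u) (hv : Supp 1 v) (hvr : Rap v) :
    QQ G a A u ≤ 2 * QQ G a A v + 2 * QQ G a A (fun n => u n - v n) := by
  have h := db3_two (c := 1) (summable_QQ hG ha hA hu hur) (summable_QQ hG ha hA hv hvr)
    (summable_QQ hG ha hA (supp_sub hu hv) (rap_sub hur hvr)) fun x hx => by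
      rw [one_mul]
      refine le_trans (le_of_eq ?_) (norm_add_le _ _)
      rw [← (db3_summ hG hv hvr hx).tsum_add (db3_summ hG (supp_sub hu hv) (rap_sub hur hvr) hx)]
      congr 2
      funext b
      ring
  rw [one_pow, mul_one] at h
  exact h

theorem QQ_FF_split {a A : ℝ} (ha : 0 < a) (hA : 0 < A) {u : O → ℂ} (hu : Supp 1 u) (hur : Rap u) :
    QQ FF a A u ≤ 2 * QQ gt a A u + 2 * cst ^ 2 * QQ md a A u := by
  have hm : ∀ n, Prim n → ‖md n‖ ≤ 1 := fun n hn => norm_md_le_one hn.ne_zero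
  refine db3_two (c := cst) (summable_QQ (fun n => norm_FF_le) ha hA hu hur)
    (summable_QQ (fun n => norm_gt_le) ha hA hu hur) (summable_QQ hm ha hA hu hur) fun x hx => ?_
  have e : ∑' b : O, u b * FF (x * b) =
      ∑' b : O, u b * gt (x * b) - (cst : ℂ) * ∑' b : O, u b * md (x * b) := by
    rw [← tsum_mul_left, ← (db3_summ (fun n => norm_gt_le) hu hur hx).tsum_sub
      ((db3_summ hm hu hur hx).mul_left _)]
    refine tsum_congr fun b => ?_
    rw [FF]
    ring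
  rw [e]
  refine (norm_sub_le _ _).trans (le_of_eq ?_)
  rw [norm_mul, Complex.norm_real, Real.norm_of_nonneg cst_pos.le]

/-- `norm_FF_le`, `EV_sum_le`, `tsum_W_le`. -/
theorem QQ_FF_triv : ∃ C : ℝ, 0 ≤ C ∧ ∀ (A M B : ℝ) (u : O → ℂ), 0 < A → 0 < B → Supp 1 u →
    EV M B u → QQ FF 4 A u ≤ C * A * M ^ 2 * B ^ 2 := by
  obtain ⟨C, hC, h⟩ := EV_sum_le (x := 0) (by norm_num)
  obtain ⟨C', h'⟩ := tsum_W_le (a := 4) (by norm_num) 0 (by norm_num)
  have hc := cst_pos
  refine ⟨|C'| * ((1 + cst) * C) ^ 2, by positivity, fun A M B u hA hB hs hE => ?_⟩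
  have hr := hE.rap hB (supp_zero hs)
  have h1 := h M B u hB (supp_zero hs) hE
  have h2 := h' A hA
  simp only [Real.rpow_zero, mul_one, one_mul, add_zero, Real.rpow_one] at h1 h2
  have h3 : QQ FF 4 A u ≤ ∑' x : O, (if x = 0 then 0 else W 4 (Nr x / A)) *
      ((1 + cst) * (C * M * B)) ^ 2 := by
    refine (summable_QQ (fun n => norm_FF_le) (by norm_num) hA hs hr).tsum_le_tsum (fun x => ?_)
      ((db3_W0 (by norm_num) hA).mul_right _)
    by_cases hx : Prim x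
    · rw [if_pos hx, if_neg hx.ne_zero]
      refine mul_le_mul_of_nonneg_left (pow_le_pow_left₀ (norm_nonneg _) ?_ 2) (W_pos _ _).le
      exact (db3_norm_le (fun n => norm_FF_le) hs hr hx).trans
        (mul_le_mul_of_nonneg_left h1 (by positivity))
    · rw [if_neg hx]
      have := W_pos 4 (Nr x / A)
      split_ifs <;> positivity
  rw [tsum_mul_right] at h3
  refine h3.trans ?_
  calc _ ≤ |C'| * A * ((1 + cst) * (C * M * B)) ^ 2 :=
        mul_le_mul_of_nonneg_right (h2.trans (mul_le_mul_of_nonneg_right (le_abs_self _) hA.le))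
          (sq_nonneg _)
    _ = _ := by ring

/-- `‖md (x b)‖ ≤ (N x)^{-1/6} (N b)^{-1/6}`, `l1_sq_le_nrm`, `tsum_W_le`. -/
theorem QQ_md_le : ∃ C : ℝ, 0 ≤ C ∧ ∀ (A B : ℝ) (u : O → ℂ), 0 < A → 0 < B → Supp 1 u → Rap u →
    QQ md 4 A u ≤ C * (A * B) ^ (2 / 3 : ℝ) * nrm B u := by
  obtain ⟨C, hC, h⟩ := l1_sq_le_nrm (y := -(1 / 6)) (by norm_num) (by norm_num)
  obtain ⟨C', h'⟩ := tsum_W_le (a := 4) (by norm_num) (-(1 / 3)) (by norm_num)
  refine ⟨|C'| * C, by positivity, fun A B u hA hB hs hr => ?_⟩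
  have h1 := h B u hB hr (supp_zero hs)
  have h2 := h' A hA
  rw [show (1 : ℝ) + 2 * -(1 / 6) = 2 / 3 by norm_num] at h1
  rw [show (1 : ℝ) + -(1 / 3) = 2 / 3 by norm_num] at h2
  have hn := nrm_nonneg hB u
  have h3 : QQ md 4 A u ≤ ∑' x : O, (if x = 0 then 0 else Nr x ^ (-(1 / 3) : ℝ) * W 4 (Nr x / A)) *
      (C * B ^ (2 / 3 : ℝ) * nrm B u) := by
    refine (summable_QQ (fun n hn => norm_md_le_one hn.ne_zero) (by norm_num) hA hs hr).tsum_le_tsum
      (fun x => ?_) ((summable_W (by norm_num) hA _).mul_right _)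
    have hW := W_pos 4 (Nr x / A)
    have hN := Nr_nonneg x
    by_cases hx : Prim x
    · rw [if_pos hx, if_neg hx.ne_zero]
      have a1 : ‖∑' b : O, u b * md (x * b)‖ ≤
          Nr x ^ (-(1 / 6) : ℝ) * ∑' b : O, ‖u b‖ * Nr b ^ (-(1 / 6) : ℝ) := by
        refine tsum_of_norm_bounded ((hr _).hasSum.mul_left _) fun b => ?_
        by_cases hb : u b = 0
        · simp [hb]
        · have := norm_md_le (hx.mul (supp_iff.1 hs b hb).1).ne_zero
          rw [Nr_mul, Real.mul_rpow hN (Nr_nonneg b)] at this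
          rw [norm_mul]
          exact (mul_le_mul_of_nonneg_left this (norm_nonneg _)).trans (le_of_eq (by ring))
      have a2 := pow_le_pow_left₀ (norm_nonneg _) a1 2
      have a3 : (Nr x ^ (-(1 / 6) : ℝ)) ^ 2 = Nr x ^ (-(1 / 3) : ℝ) := by
        rw [← Real.rpow_natCast, ← Real.rpow_mul hN]
        norm_num
      rw [mul_pow, a3] at a2
      calc W 4 (Nr x / A) * ‖∑' b : O, u b * md (x * b)‖ ^ 2
          ≤ W 4 (Nr x / A) * (Nr x ^ (-(1 / 3) : ℝ) * (C * B ^ (2 / 3 : ℝ) * nrm B u)) :=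
            mul_le_mul_of_nonneg_left (a2.trans (mul_le_mul_of_nonneg_left h1 (by positivity))) hW.le
        _ = _ := by ring
    · rw [if_neg hx]
      split_ifs <;> positivity
  rw [tsum_mul_right] at h3
  refine h3.trans ?_
  rw [Real.mul_rpow hA.le hB.le]
  calc _ ≤ |C'| * A ^ (2 / 3 : ℝ) * (C * B ^ (2 / 3 : ℝ) * nrm B u) :=
        mul_le_mul_of_nonneg_right (h2.trans (mul_le_mul_of_nonneg_right (le_abs_self _)
          (by positivity))) (by positivity)
    _ = _ := by ring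

end Crest.Agent.R012.D

end
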