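import Crest.Agent.R012.DB2

/-! # Row 12, dispersion: dilations, Dirichlet series, row families -/

set_option autoImplicit false

noncomputable section

open scoped BigOperators ComplexConjugate Topology
open Complex MeasureTheory Filter Set Crest.Agent.R017

namespace Crest.Agent.R012.D

/-- `|g3 n| = 1` on primary squarefree `n` (`g3_eq`, `norm_gt`, `norm_kap_sq3`), `-3 = sq3²`. -/
theorem norm_ud {γ : O → ℂ} (h : Supp 1 γ) {d : O} (hd : Prim d) (n : O) :
    ‖ud γ d n‖ = ‖γ (d * n)‖ := by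
  by_cases h0 : γ (d * n) = 0
  · simp [ud, h0]
  obtain ⟨hp, hs, -⟩ := h _ h0
  have hn : Prim n := hd.of_mul hp
  have hsn : Squarefree n := hs.of_mul_right
  have h3 : ‖kap n (-3)‖ = 1 := by
    rw [← sq3_sq, kap_pow_right _ _ (by norm_num), norm_pow, norm_kap_sq3 hn, one_pow]
  simp only [ud, norm_mul, Complex.norm_conj, h3, g3_eq hn hsn, norm_kap_sq3 hn, norm_gt hn hsn,
    mul_one]

theorem supp_ud {γ : O → ℂ} (h : Supp 1 γ) {d : O} (hd : Prim d) : Supp 1 (ud γ d) :=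
  supp_of_le (supp_dil h hd) (K := 1) fun n => by rw [norm_ud h hd, one_mul]

theorem rap_ud {γ : O → ℂ} (h : Supp 1 γ) (hr : Rap γ) {d : O} (hd : Prim d) : Rap (ud γ d) :=
  rap_of_le (rap_dil hr hd.ne_zero) (K := 1) fun n => by rw [norm_ud h hd, one_mul]

theorem norm_mul_gt {u : O → ℂ} (h : Supp 1 u) (n : O) : ‖u n * gt n‖ = ‖u n‖ := by
  by_cases h0 : u n = 0
  · simp [h0]
  obtain ⟨hp, hs, -⟩ := h _ h0
  rw [norm_mul, norm_gt hp hs, mul_one]

/-- `g3_eq`, `kap_sq3_cube`, `sq3_sq`. -/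
theorem ud_gt_one {u : O → ℂ} (h : Supp 1 u) : ud (fun b => u b * gt b) 1 = u := by
  funext n
  by_cases h0 : u n = 0
  · simp [ud, h0]
  obtain ⟨hp, hs, -⟩ := h _ h0
  have h1 : gt n * conj (gt n) = 1 := by
    rw [Complex.mul_conj, Complex.normSq_eq_norm_sq, norm_gt hp hs]; simp
  have h2 : kap n sq3 * kap n (-3) = 1 := by
    rw [← kap_mul_right, ← sq3_sq, ← kap_sq3_cube hp, pow_succ' sq3 2]
  have h3 : conj (kap n sq3) * conj (kap n (-3)) = 1 := by rw [← map_mul, h2, map_one]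
  simp only [ud, one_mul, g3_eq hp hs, map_mul]
  linear_combination (u n * conj (kap n sq3) * conj (kap n (-3))) * h1 + u n * h3

open Classical in
/-- Regroup the pairs `(d, n)` by the product `d n` (`s4_fib` or `summable_prod_of_nonneg`): the
term `b` occurs for `d ∈ pdiv b`. -/
theorem sum_dil {F : O → ℝ} (hF : ∀ n, 0 ≤ F n) (h0 : F 0 = 0) (hs : Summable (fun n => dv n * F n)) :
    (∀ d, Prim d → Summable (fun n => F (d * n))) ∧
    Summable (fun d : O => if Prim d then ∑' n : O, F (d * n) else 0) ∧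
    ∑' d : O, (if Prim d then ∑' n : O, F (d * n) else 0) = ∑' n : O, dv n * F n := by
  set H : O × O → ℝ := fun x => if x.2 ∈ pdiv x.1 then F x.1 else 0 with hH
  have hH0 : 0 ≤ H := fun x => by
    simp only [hH, Pi.zero_apply]; split_ifs
    · exact hF _
    · exact le_rfl
  have hrow : ∀ b : O, HasSum (fun d => H (b, d)) (dv b * F b) := fun b => by
    have := hasSum_sum_of_ne_finset_zero (f := fun d => H (b, d)) (s := pdiv b)
      (L := SummationFilter.unconditional O) (fun d hd => by simp only [hH, if_neg hd])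
    convert this using 1
    rw [Finset.sum_congr rfl (g := fun _ => F b) (fun d hd => by simp only [hH, if_pos hd]),
      Finset.sum_const, nsmul_eq_mul, dv]
  have hS : Summable H := by
    rw [summable_prod_of_nonneg hH0]
    refine ⟨fun b => (hrow b).summable, ?_⟩
    simpa only [fun b => (hrow b).tsum_eq] using hs
  have hcol : ∀ d : O, ∑' b, H (b, d) = if Prim d then ∑' n : O, F (d * n) else 0 := fun d => by
    split_ifs with hd
    · have hi : Function.Injective (fun n : O => d * n) := mul_right_injective₀ hd.ne_zero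
      rw [← hi.tsum_eq (f := fun b => H (b, d))]
      · refine tsum_congr fun n => ?_
        by_cases hn : d * n = 0
        · simp only [hH, hn, h0, ite_self]
        · simp only [hH]
          rw [if_pos ((mem_pdiv hn).2 ⟨hd, dvd_mul_right _ _⟩)]
      · intro b hb
        simp only [hH, Function.mem_support] at hb
        have hb1 : d ∈ pdiv b := by by_contra hc; exact hb (if_neg hc)
        have hb0 : b ≠ 0 := by rintro rfl; exact hb (by rw [h0, ite_self])
        obtain ⟨c, hc⟩ := ((mem_pdiv hb0).1 hb1).2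
        exact ⟨c, hc.symm⟩
    · refine (tsum_congr fun b => ?_).trans tsum_zero
      by_cases hb0 : b = 0
      · simp only [hH, hb0, h0, ite_self]
      · simp only [hH]
        rw [if_neg fun hc => hd ((mem_pdiv hb0).1 hc).1]
  have hF1 : Summable F := by
    refine hs.of_nonneg_of_le hF fun n => ?_
    by_cases hn : n = 0
    · simp [hn, h0]
    · exact le_mul_of_one_le_left (hF n) (one_le_dv hn)
  refine ⟨fun d hd => hF1.comp_injective (mul_right_injective₀ hd.ne_zero), ?_, ?_⟩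
  · exact hS.prod_symm.prod.congr fun d => hcol d
  · rw [← tsum_congr hcol, ← tsum_congr fun b => (hrow b).tsum_eq]
    exact Summable.tsum_comm (f := fun b d => H (b, d)) hS

open Classical in
/-- `sum_dil`. -/
theorem sum_nrm_dil {γ : O → ℂ} (hr : Rap γ) (h0 : γ 0 = 0) {B : ℝ} (hB : 0 < B) :
    Summable (fun d : O => if Prim d then nrm (B / Nr d) (fun n => γ (d * n)) else 0) ∧
    ∑' d : O, (if Prim d then nrm (B / Nr d) (fun n => γ (d * n)) else 0) ≤ nrmd B γ := by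
  have hs := summable_nrmd hr h0 hB
  have key := sum_dil (F := fun n => ‖γ n‖ ^ 2 * psi (Nr n / B))
    (fun n => mul_nonneg (sq_nonneg _) (psi_nonneg (div_nonneg (Nr_nonneg _) hB.le)))
    (by simp [h0]) (hs.congr fun n => by ring)
  have e : ∀ d : O, (if Prim d then nrm (B / Nr d) (fun n => γ (d * n)) else 0) =
      if Prim d then ∑' n : O, ‖γ (d * n)‖ ^ 2 * psi (Nr (d * n) / B) else 0 := fun d => by
    split_ifs with hd
    · refine tsum_congr fun n => ?_
      rw [Nr_mul, div_div_eq_mul_div, mul_comm (Nr n)]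
    · rfl
  simp only [e]
  refine ⟨key.2.1, key.2.2.le.trans (le_of_eq ?_)⟩
  exact tsum_congr fun n => by ring

theorem norm_XX_term {f : O → ℂ} (h0 : f 0 = 0) (σ t : ℝ) (n : O) :
    ‖f n * (Nr n : ℂ) ^ ((σ : ℂ) + t * I - 1 / 2)‖ = ‖f n‖ * Nr n ^ (σ - 1 / 2) := by
  by_cases hn : n = 0
  · simp [hn, h0]
  rw [norm_mul, Complex.norm_cpow_eq_rpow_re_of_pos (Nr_pos hn)]
  congr 2
  simp

theorem summable_XX {f : O → ℂ} (h : Rap f) (h0 : f 0 = 0) (σ t : ℝ) :
    Summable (fun n => f n * (Nr n : ℂ) ^ ((σ : ℂ) + t * I - 1 / 2)) :=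
  Summable.of_norm ((h (σ - 1 / 2)).congr fun n => (norm_XX_term h0 σ t n).symm)

theorem norm_XX_le {f : O → ℂ} (h : Rap f) (h0 : f 0 = 0) (σ t : ℝ) :
    ‖XX f (σ + t * I)‖ ≤ ∑' n : O, ‖f n‖ * Nr n ^ (σ - 1 / 2) :=
  tsum_of_norm_bounded (h (σ - 1 / 2)).hasSum fun n => (norm_XX_term h0 σ t n).le

/-- `continuous_tsum`. -/
theorem continuous_XX {f : O → ℂ} (h : Rap f) (h0 : f 0 = 0) (σ : ℝ) :
    Continuous (fun t : ℝ => XX f (σ + t * I)) := by
  refine continuous_tsum (fun n => ?_) (h (σ - 1 / 2)) fun n t => (norm_XX_term h0 σ t n).le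
  by_cases hn : n = 0
  · simp only [hn, h0, zero_mul]; exact continuous_const
  · refine continuous_const.mul (Continuous.const_cpow (by fun_prop) (Or.inl ?_))
    exact_mod_cast (Nr_pos hn).ne'

theorem XX_sub {f g : O → ℂ} (hf : Rap f) (hf0 : f 0 = 0) (hg : Rap g) (hg0 : g 0 = 0) (σ t : ℝ) :
    XX (fun n => f n - g n) (σ + t * I) = XX f (σ + t * I) - XX g (σ + t * I) := by
  unfold XX
  rw [← (summable_XX hf hf0 σ t).tsum_sub (summable_XX hg hg0 σ t)]
  exact tsum_congr fun n => by ring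

theorem XX_zero (s : ℂ) : XX (fun _ => 0) s = 0 := by simp [XX]

theorem XX_smul (z : ℂ) (f : O → ℂ) (s : ℂ) : XX (fun n => z * f n) s = z * XX f s := by
  unfold XX
  rw [← tsum_mul_left]
  exact tsum_congr fun n => by ring

theorem XX_eq_rowC (u : O → ℂ) (r : O) (s : ℂ) :
    XX (fun n => u n * kap n r) s = rowC (fun n => u n * (Nr n : ℂ) ^ (s - 1 / 2)) r :=
  tsum_congr fun n => by ring

theorem dom_RW (S : O → Prop) {u : O → ℂ} (h : Rap u) (h0 : u 0 = 0) : Dom (RW S u) := by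
  refine ⟨u, h, h0, fun r n => ?_⟩
  unfold RW
  split_ifs
  · rw [norm_mul]; exact mul_le_of_le_one_right (norm_nonneg _) (norm_kap_le _ _)
  · simp

theorem dom_RC {u : O → ℂ} (h : Rap u) (h0 : u 0 = 0) : Dom (RC u) := by
  refine ⟨u, h, h0, fun r n => ?_⟩
  unfold RC
  split_ifs
  · exact le_rfl
  · simp

theorem Dom.sub {U V : O → O → ℂ} (hU : Dom U) (hV : Dom V) :
    Dom (fun h n => U h n - V h n) := by
  obtain ⟨u, hu, hu0, hU⟩ := hU
  obtain ⟨v, hv, hv0, hV⟩ := hV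
  have e : ∀ n, ‖((‖u n‖ + ‖v n‖ : ℝ) : ℂ)‖ = ‖u n‖ + ‖v n‖ := fun n => by
    rw [Complex.norm_real, Real.norm_of_nonneg (by positivity)]
  refine ⟨fun n => ((‖u n‖ + ‖v n‖ : ℝ) : ℂ), fun A => ?_, by simp [hu0, hv0], fun r n => ?_⟩
  · simp only [e, add_mul]
    exact (hu A).add (hv A)
  · rw [e]
    exact (norm_sub_le _ _).trans (add_le_add (hU r n) (hV r n))

theorem Dom.row {U : O → O → ℂ} (hU : Dom U) (h : O) : Rap (U h) ∧ U h 0 = 0 := by
  obtain ⟨u, hu, hu0, hU⟩ := hU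
  refine ⟨rap_of_le hu (K := 1) fun n => by rw [one_mul]; exact hU h n, ?_⟩
  have := hU h 0
  rw [hu0, norm_zero] at this
  exact norm_le_zero_iff.1 this

theorem RW_sub (S : O → Prop) (u v : O → ℂ) :
    RW S (fun n => u n - v n) = fun h n => RW S u h n - RW S v h n := by
  funext h n
  unfold RW
  split_ifs
  · ring
  · simp

theorem db2b_RW_pos {S : O → Prop} (u : O → ℂ) {h : O} (hS : S (-3 * h)) :
    RW S u h = fun n => u n * kap n (-3 * h) := by
  funext n; unfold RW; rw [if_pos hS]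

theorem db2b_RW_neg {S : O → Prop} (u : O → ℂ) {h : O} (hS : ¬ S (-3 * h)) :
    RW S u h = fun _ => 0 := by
  funext n; unfold RW; rw [if_neg hS]

/-- `h ↦ -3 h` is injective and maps `shell R` into `shell (9 R)`. -/
theorem shell_RW_le' (S : O → Prop) (u : O → ℂ) (R : ℝ) (s : ℂ) [DecidablePred S] :
    ∑ h ∈ shell R, ‖XX (RW S u h) s‖ ^ 2 ≤
      ∑ r ∈ (shell (9 * R)).filter S, ‖XX (fun n => u n * kap n r) s‖ ^ 2 := by
  have hi : Function.Injective (fun h : O => -3 * h) :=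
    mul_right_injective₀ (by decide : (-3 : O) ≠ 0)
  have e : ∀ h : O, ‖XX (RW S u h) s‖ ^ 2 =
      if S (-3 * h) then ‖XX (fun n => u n * kap n (-3 * h)) s‖ ^ 2 else 0 := fun h => by
    split_ifs with hS
    · rw [db2b_RW_pos u hS]
    · rw [db2b_RW_neg u hS, XX_zero]; simp
  simp only [e]
  rw [← Finset.sum_filter,
    ← Finset.sum_image (g := fun h : O => -3 * h)
      (f := fun r => ‖XX (fun n => u n * kap n r) s‖ ^ 2) (fun x _ y _ hxy => hi hxy)]
  refine Finset.sum_le_sum_of_subset_of_nonneg (fun r hr => ?_) fun _ _ _ => sq_nonneg _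
  obtain ⟨h, hh, rfl⟩ := Finset.mem_image.1 hr
  obtain ⟨hh1, hh2⟩ := Finset.mem_filter.1 hh
  obtain ⟨⟨h1, h2⟩, h3⟩ := mem_shell.1 hh1
  refine Finset.mem_filter.2 ⟨mem_shell.2 ⟨⟨mul_ne_zero (by decide) h1, ?_⟩, ?_⟩, hh2⟩
  · rw [Nr_neg_three_mul]; linarith
  · rw [Nr_neg_three_mul]; linarith

theorem shell_RW_le (S : O → Prop) (u : O → ℂ) (R : ℝ) (s : ℂ) :
    ∑ h ∈ shell R, ‖XX (RW S u h) s‖ ^ 2 ≤
      ∑ r ∈ rows S (9 * R), ‖XX (fun n => u n * kap n r) s‖ ^ 2 := by
  classical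
  refine (shell_RW_le' S u R s).trans
    (Finset.sum_le_sum_of_subset_of_nonneg (fun r hr => ?_) fun _ _ _ => sq_nonneg _)
  obtain ⟨h1, h2⟩ := Finset.mem_filter.1 hr
  exact mem_rows.2 ⟨(mem_shell.1 h1).1, h2⟩

theorem RH.mono {σ₁ α a M Rs E E' : ℝ} {U : O → O → ℂ} (h : RH σ₁ α a U M Rs E) (hM : 0 < M)
    (hRs : 0 < Rs) (hE : E ≤ E') : RH σ₁ α a U M Rs E' := by
  intro σ t R hσ hR
  refine (h σ t R hσ hR).trans ?_
  have h1 : 0 < phi α (R / Rs) := phi_pos α (div_pos (by linarith) hRs)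
  have h2 : 0 < M ^ (2 * σ - 1) := Real.rpow_pos_of_pos hM _
  gcongr

theorem RH.sub_rows {σ₁ α a M Rs E : ℝ} {S T : O → Prop} {u : O → ℂ}
    (h : RH σ₁ α a (RW S u) M Rs E) (hST : ∀ r, r ≠ 0 → T r → S r) :
    RH σ₁ α a (RW T u) M Rs E := by
  intro σ t R hσ hR
  refine le_trans (Finset.sum_le_sum fun r hr => ?_) (h σ t R hσ hR)
  by_cases hT : T (-3 * r)
  · have hS : S (-3 * r) := hST _ (mul_ne_zero (by decide) (mem_shell.1 hr).1.1) hT
    rw [db2b_RW_pos u hT, db2b_RW_pos u hS]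
  · rw [db2b_RW_neg u hT, XX_zero]; simp

theorem RG.mono {M B Rs e e' : ℝ} {U : O → O → ℂ} (h : RG U M B Rs e) (hB : 0 < B)
    (hRs : 0 < Rs) (he : e ≤ e') : RG U M B Rs e' := by
  refine RH.mono h hB hRs ?_
  have h2 : 0 < Rs ^ (1 / 3 : ℝ) := Real.rpow_pos_of_pos hRs _
  gcongr

end Crest.Agent.R012.D

end
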