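import Crest.Agent.R012.DK
import Crest.Agent.R012.DB2b

/-! # Row 12, dispersion: formal properties of the dual sum -/

set_option autoImplicit false

noncomputable section

open scoped BigOperators ComplexConjugate Topology
open Complex MeasureTheory Filter Set Crest.Agent.R017

namespace Crest.Agent.R012.D

theorem ds1_rpow {A H N M : ℝ} (hA : 0 < A) (hH : 0 < H) (hN : 0 < N) (hM : 0 < M) (σ : ℝ) :
    (N * M) ^ (-(1 / 2) : ℝ) * (A * H / (N * M)) ^ (-σ) =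
      A ^ (-σ) * H ^ (-σ) * (N ^ (σ - 1 / 2) * M ^ (σ - 1 / 2)) := by
  simp only [Real.rpow_def_of_pos (mul_pos hN hM), Real.rpow_def_of_pos hA, Real.rpow_def_of_pos hH,
    Real.rpow_def_of_pos hN, Real.rpow_def_of_pos hM,
    Real.rpow_def_of_pos (div_pos (mul_pos hA hH) (mul_pos hN hM)), ← Real.exp_add,
    Real.log_div (mul_pos hA hH).ne' (mul_pos hN hM).ne', Real.log_mul hA.ne' hH.ne',
    Real.log_mul hN.ne' hM.ne']
  congr 1; ring

theorem ds1_cpow_def {x : ℝ} (hx : 0 < x) (s : ℂ) :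
    (x : ℂ) ^ s = Complex.exp ((Real.log x : ℝ) * s) := by
  rw [Complex.cpow_def_of_ne_zero (by exact_mod_cast hx.ne'), Complex.ofReal_log hx.le]

theorem ds1_cpow {B N M : ℝ} (hB : 0 < B) (hN : 0 < N) (hM : 0 < M) (s : ℂ) :
    (((N * M) ^ (-(1 / 2) : ℝ) : ℝ) : ℂ) * ((B / (N * M) : ℝ) : ℂ) ^ (-s) =
      (B : ℂ) ^ (-s) * ((N : ℂ) ^ (s - 1 / 2) * (M : ℂ) ^ (s - 1 / 2)) := by
  rw [Real.rpow_def_of_pos (mul_pos hN hM), ds1_cpow_def (div_pos hB (mul_pos hN hM)),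
    ds1_cpow_def hB, ds1_cpow_def hN, ds1_cpow_def hM, Real.log_div hB.ne' (mul_pos hN hM).ne',
    Real.log_mul hN.ne' hM.ne', Complex.ofReal_exp, ← Complex.exp_add, ← Complex.exp_add,
    ← Complex.exp_add]
  congr 1; push_cast; ring

/-- the coefficient of the kernel -/
def ds1_c (A : ℝ) (f g : O → ℂ) (p : O × O) : ℂ :=
  (A : ℂ) * (f p.1 * conj (g p.2)) * (((Nr p.1 * Nr p.2) ^ (-(1 / 2) : ℝ) : ℝ) : ℂ)

theorem ds1_norm {A : ℝ} (hA : 0 < A) {f g : O → ℂ} (hf0 : f 0 = 0) (hg0 : g 0 = 0) {H : ℝ}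
    (hH : 0 < H) (σ : ℝ) (p : O × O) :
    ‖ds1_c A f g p‖ * (A * H / (Nr p.1 * Nr p.2)) ^ (-σ) = A * (A ^ (-σ) * H ^ (-σ)) *
      (‖f p.1‖ * Nr p.1 ^ (σ - 1 / 2) * (‖g p.2‖ * Nr p.2 ^ (σ - 1 / 2))) := by
  unfold ds1_c
  by_cases h1 : p.1 = 0
  · simp [h1, hf0]
  by_cases h2 : p.2 = 0
  · simp [h2, hg0]
  have e := ds1_rpow hA hH (Nr_pos h1) (Nr_pos h2) σ
  rw [norm_mul, norm_mul, norm_mul, Complex.norm_conj, Complex.norm_of_nonneg hA.le,
    Complex.norm_of_nonneg (Real.rpow_nonneg (mul_pos (Nr_pos h1) (Nr_pos h2)).le _), mul_assoc, e]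
  ring

theorem ds1_pos {A : ℝ} (hA : 0 < A) {f g : O → ℂ} (hf0 : f 0 = 0) (hg0 : g 0 = 0) {H : ℝ}
    (hH : 0 < H) (p : O × O) (hp : ds1_c A f g p ≠ 0) : 0 < A * H / (Nr p.1 * Nr p.2) := by
  have h1 : p.1 ≠ 0 := fun h => hp (by simp [ds1_c, h, hf0])
  have h2 : p.2 ≠ 0 := fun h => hp (by simp [ds1_c, h, hg0])
  exact div_pos (mul_pos hA hH) (mul_pos (Nr_pos h1) (Nr_pos h2))

theorem ds1_dt (a A : ℝ) (U V : O → O → ℂ) {h : O} (hh : h ≠ 0) (p : O × O) :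
    dt a A U V (h, p) = ds1_c A (U h) (V h) p * KK a (A * Nr h / (Nr p.1 * Nr p.2)) := by
  simp only [dt, ds1_c, if_neg hh]

theorem ds1_prod {f g : O → ℂ} (hf : Rap f) (hg : Rap g) (x : ℝ) :
    Summable (fun p : O × O => ‖f p.1‖ * Nr p.1 ^ x * (‖g p.2‖ * Nr p.2 ^ x)) :=
  (hf x).mul_of_nonneg (hg x) (fun n => mul_nonneg (norm_nonneg _) (Real.rpow_nonneg (Nr_nonneg n) _))
    (fun n => mul_nonneg (norm_nonneg _) (Real.rpow_nonneg (Nr_nonneg n) _))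

theorem ds1_neg3 {h : O} (hh : h ≠ 0) : -3 * h ≠ 0 := by
  intro e
  have := Nr_neg_three_mul h
  rw [e, Nr_zero] at this
  have := Nr_pos hh
  linarith

/-- `norm_KK_le` with `σ = 2`: the term is `≤ C N(h)^{-2} ‖u n‖ N(n)^{3/2} ‖v m‖ N(m)^{3/2}`. -/
theorem summable_dt {a A : ℝ} (ha : 0 < a) (hA : 0 < A) {U V : O → O → ℂ} (hU : Dom U) (hV : Dom V) :
    Summable (dt a A U V) := by
  obtain ⟨C, hC, HC⟩ := norm_KK_le ha (show (0 : ℝ) < 2 by norm_num)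
  obtain ⟨u, hu, hu0, hUu⟩ := hU
  obtain ⟨v, hv, hv0, hVv⟩ := hV
  have hs : Summable (fun x : O × O × O => Nr x.1 ^ (-2 : ℝ) *
      (‖u x.2.1‖ * Nr x.2.1 ^ (2 - 1 / 2 : ℝ) * (‖v x.2.2‖ * Nr x.2.2 ^ (2 - 1 / 2 : ℝ)))) :=
    (summable_Nr_rpow (show (1 : ℝ) < 2 by norm_num)).mul_of_nonneg (ds1_prod hu hv (2 - 1 / 2))
      (fun n => Real.rpow_nonneg (Nr_nonneg n) _)
      (fun p => mul_nonneg (mul_nonneg (norm_nonneg _) (Real.rpow_nonneg (Nr_nonneg _) _))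
        (mul_nonneg (norm_nonneg _) (Real.rpow_nonneg (Nr_nonneg _) _)))
  refine Summable.of_norm_bounded (hs.mul_left (C * (A * A ^ (-2 : ℝ)))) ?_
  rintro ⟨h, p⟩
  have n1 := Real.rpow_nonneg (Nr_nonneg h) (-2)
  have n2 := Real.rpow_nonneg (Nr_nonneg p.1) (2 - 1 / 2)
  have n3 := Real.rpow_nonneg (Nr_nonneg p.2) (2 - 1 / 2)
  by_cases hh : h = 0
  · have : dt a A U V (h, p) = 0 := by simp only [dt, if_pos hh]
    rw [this, norm_zero]
    positivity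
  have hU0 : U h 0 = 0 := norm_le_zero_iff.1 (by simpa [hu0] using hUu h 0)
  have hV0 : V h 0 = 0 := norm_le_zero_iff.1 (by simpa [hv0] using hVv h 0)
  rw [ds1_dt a A U V hh]
  by_cases hc : ds1_c A (U h) (V h) p = 0
  · rw [hc, zero_mul, norm_zero]
    positivity
  have h1 := HC _ (ds1_pos hA hU0 hV0 (Nr_pos hh) p hc)
  have h2 := ds1_norm hA hU0 hV0 (Nr_pos hh) 2 p
  calc ‖ds1_c A (U h) (V h) p * KK a (A * Nr h / (Nr p.1 * Nr p.2))‖
      ≤ ‖ds1_c A (U h) (V h) p‖ * (C * (A * Nr h / (Nr p.1 * Nr p.2)) ^ (-2 : ℝ)) := by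
        rw [norm_mul]
        exact mul_le_mul_of_nonneg_left h1 (norm_nonneg _)
    _ = C * (A * A ^ (-2 : ℝ)) * (Nr h ^ (-2 : ℝ) * (‖U h p.1‖ * Nr p.1 ^ (2 - 1 / 2 : ℝ) *
          (‖V h p.2‖ * Nr p.2 ^ (2 - 1 / 2 : ℝ)))) := by
        rw [mul_left_comm, h2]; ring
    _ ≤ _ := by
        have a1 := hUu h p.1
        have a2 := hVv h p.2
        dsimp only
        gcongr

theorem DS_sub_left {a A : ℝ} (ha : 0 < a) (hA : 0 < A) {U U' V : O → O → ℂ} (hU : Dom U)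
    (hU' : Dom U') (hV : Dom V) :
    DS a A (fun h n => U h n - U' h n) V = DS a A U V - DS a A U' V := by
  unfold DS
  rw [← (summable_dt ha hA hU hV).tsum_sub (summable_dt ha hA hU' hV)]
  refine tsum_congr fun x => ?_
  unfold dt
  split_ifs
  · simp
  · ring

theorem DS_sub_right {a A : ℝ} (ha : 0 < a) (hA : 0 < A) {U V V' : O → O → ℂ} (hU : Dom U)
    (hV : Dom V) (hV' : Dom V') :
    DS a A U (fun h n => V h n - V' h n) = DS a A U V - DS a A U V' := by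
  unfold DS
  rw [← (summable_dt ha hA hU hV).tsum_sub (summable_dt ha hA hU hV')]
  refine tsum_congr fun x => ?_
  unfold dt
  split_ifs
  · simp
  · rw [map_sub]; ring

theorem DS_RW_sub {a A : ℝ} (ha : 0 < a) (hA : 0 < A) (S : O → Prop) {u v : O → ℂ} (hu : Rap u)
    (hu0 : u 0 = 0) (hv : Rap v) (hv0 : v 0 = 0) :
    DS a A (RW S fun n => u n - v n) (RW S fun n => u n - v n) =
      DS a A (RW S u) (RW S u) - DS a A (RW S u) (RW S v) - DS a A (RW S v) (RW S u) +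
        DS a A (RW S v) (RW S v) := by
  have du := dom_RW S hu hu0
  have dv := dom_RW S hv hv0
  rw [RW_sub, DS_sub_left ha hA du dv (du.sub dv), DS_sub_right ha hA du du dv,
    DS_sub_right ha hA dv du dv]
  ring

theorem DS_congr (a A : ℝ) {S T : O → Prop} (h : ∀ r, r ≠ 0 → (S r ↔ T r)) (u v : O → ℂ) :
    DS a A (RW S u) (RW S v) = DS a A (RW T u) (RW T v) := by
  refine tsum_congr fun x => ?_
  unfold dt
  split_ifs with hx
  · rfl
  · have := h _ (ds1_neg3 hx)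
    by_cases hS : S (-3 * x.1)
    · simp only [RW, if_pos hS, if_pos (this.1 hS)]
    · simp only [RW, if_neg hS, if_neg (mt this.2 hS)]

/-- Splitting the rows. -/
theorem DS_split {a A : ℝ} (ha : 0 < a) (hA : 0 < A) {S S₁ S₂ : O → Prop}
    (h : ∀ r, r ≠ 0 → (S r ↔ S₁ r ∨ S₂ r)) (hd : ∀ r, r ≠ 0 → S₁ r → ¬ S₂ r) {u v : O → ℂ}
    (hu : Rap u) (hu0 : u 0 = 0) (hv : Rap v) (hv0 : v 0 = 0) :
    DS a A (RW S u) (RW S v) = DS a A (RW S₁ u) (RW S₁ v) + DS a A (RW S₂ u) (RW S₂ v) := by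
  unfold DS
  rw [← (summable_dt ha hA (dom_RW S₁ hu hu0) (dom_RW S₁ hv hv0)).tsum_add
    (summable_dt ha hA (dom_RW S₂ hu hu0) (dom_RW S₂ hv hv0))]
  refine tsum_congr fun x => ?_
  unfold dt
  split_ifs with hx
  · simp
  · have e := h _ (ds1_neg3 hx)
    by_cases h1 : S₁ (-3 * x.1)
    · simp only [RW, if_pos h1, if_pos (e.2 (Or.inl h1)), if_neg (hd _ (ds1_neg3 hx) h1)]
      simp
    · by_cases h2 : S₂ (-3 * x.1)
      · simp only [RW, if_neg h1, if_pos (e.2 (Or.inr h2)), if_pos h2]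
        simp
      · simp only [RW, if_neg h1, if_neg h2, if_neg (fun hS => (e.1 hS).elim h1 h2)]
        simp

theorem hasSum_DS_rows {a A : ℝ} (ha : 0 < a) (hA : 0 < A) {U V : O → O → ℂ} (hU : Dom U)
    (hV : Dom V) : HasSum (fun h : O => ∑' p : O × O, dt a A U V (h, p)) (DS a A U V) := by
  have hs := summable_dt ha hA hU hV
  exact hs.hasSum.prod_fiberwise fun h => (hs.prod_factor h).hasSum

theorem hasSum_DS_cols {a A : ℝ} (ha : 0 < a) (hA : 0 < A) {U V : O → O → ℂ} (hU : Dom U)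
    (hV : Dom V) : HasSum (fun p : O × O => ∑' h : O, dt a A U V (h, p)) (DS a A U V) := by
  have hs := summable_dt ha hA hU hV
  have h2 := (Equiv.prodComm (O × O) O).hasSum_iff.2 hs.hasSum
  exact h2.prod_fiberwise fun p => (h2.summable.prod_factor p).hasSum

theorem integrable_row {a σ : ℝ} (ha : 0 < a) (hσ : 0 < σ) {f g : O → ℂ} (hf : Rap f) (hf0 : f 0 = 0)
    (hg : Rap g) (hg0 : g 0 = 0) :
    Integrable (fun t : ℝ => ‖mK a (σ + t * I)‖ *
      (‖XX f (σ + t * I)‖ * ‖XX g (σ + (-t : ℝ) * I)‖)) := by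
  refine (integrable_mK ha hσ).norm.mul_bdd
    (c := (∑' n : O, ‖f n‖ * Nr n ^ (σ - 1 / 2)) * ∑' n : O, ‖g n‖ * Nr n ^ (σ - 1 / 2))
    ((continuous_XX hf hf0 σ).norm.mul
      ((continuous_XX hg hg0 σ).comp continuous_neg).norm).aestronglyMeasurable
    (Eventually.of_forall fun t => ?_)
  rw [norm_mul, norm_norm, norm_norm]
  exact mul_le_mul (norm_XX_le hf hf0 σ t) (norm_XX_le hg hg0 σ (-t)) (norm_nonneg _)
    ((norm_nonneg _).trans (norm_XX_le hf hf0 σ t))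

/-- One row: `tsum_KK` over the pairs `(n, m)`; the inner series factorises as
`(A N h)^{-s} XX (U h) s · conj (XX (V h) (conj s))` (`tsum_mul_tsum_of_summable_norm`,
`f1_conj_cpow`). -/
theorem norm_row_le {a A σ : ℝ} (ha : 0 < a) (hA : 0 < A) (hσ : 0 < σ) {U V : O → O → ℂ}
    (hU : Dom U) (hV : Dom V) {h : O} (hh : h ≠ 0) :
    ‖∑' p : O × O, dt a A U V (h, p)‖ ≤ A ^ (1 - σ) * Nr h ^ (-σ) *
      ∫ t : ℝ, ‖mK a (σ + t * I)‖ *
        (‖XX (U h) (σ + t * I)‖ * ‖XX (V h) (σ + (-t : ℝ) * I)‖) := by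
  obtain ⟨hf, hf0⟩ := hU.row h
  obtain ⟨hg, hg0⟩ := hV.row h
  have hH := Nr_pos hh
  have hB := mul_pos hA hH
  have hs : Summable (fun p : O × O =>
      ‖ds1_c A (U h) (V h) p‖ * (A * Nr h / (Nr p.1 * Nr p.2)) ^ (-σ)) := by
    simp only [ds1_norm hA hf0 hg0 hH σ]
    exact (ds1_prod hf hg _).mul_left _
  have inner : ∀ t : ℝ, ∑' p : O × O, ds1_c A (U h) (V h) p *
      ((A * Nr h / (Nr p.1 * Nr p.2) : ℝ) : ℂ) ^ (-((σ : ℂ) + t * I)) =
      (A : ℂ) * ((A * Nr h : ℝ) : ℂ) ^ (-((σ : ℂ) + t * I)) *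
        (XX (U h) (σ + t * I) * conj (XX (V h) (σ + (-t : ℝ) * I))) := by
    intro t
    have s1 := (summable_XX hf hf0 σ t).norm
    have s2 := (summable_XX hg hg0 σ (-t)).norm
    unfold XX
    rw [Complex.conj_tsum, tsum_mul_tsum_of_summable_norm s1 (by simpa only [norm_conj] using s2),
      ← tsum_mul_left]
    refine tsum_congr fun p => ?_
    unfold ds1_c
    by_cases h1 : p.1 = 0
    · simp [h1, hf0]
    by_cases h2 : p.2 = 0
    · simp [h2, hg0]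
    have e := ds1_cpow hB (Nr_pos h1) (Nr_pos h2) ((σ : ℂ) + t * I)
    have e2 : ((σ : ℂ) + (-t : ℝ) * I - 1 / 2) = conj ((σ : ℂ) + t * I - 1 / 2) := by
      simp only [map_sub, map_add, map_mul, conj_ofReal, conj_I, map_div₀, map_one, map_ofNat,
        ofReal_neg]
      ring
    rw [map_mul, e2, f1_conj_cpow (Nr_nonneg _), mul_assoc, e]
    ring
  simp only [ds1_dt a A U V hh]
  rw [tsum_KK ha hσ _ (fun p : O × O => A * Nr h / (Nr p.1 * Nr p.2))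
    (ds1_pos hA hf0 hg0 hH) hs]
  simp only [inner]
  have h2π : ‖(1 / (2 * Real.pi) : ℂ)‖ ≤ 1 := by
    rw [norm_div, norm_one, norm_mul, Complex.norm_real, Real.norm_of_nonneg Real.pi_pos.le,
      Complex.norm_two, div_le_one (by positivity)]
    linarith [Real.two_le_pi]
  rw [norm_mul]
  refine (mul_le_of_le_one_left (norm_nonneg _) h2π).trans
    ((norm_integral_le_integral_norm _).trans (le_of_eq ?_))
  rw [← integral_const_mul]
  refine integral_congr_ae (Eventually.of_forall fun t => ?_)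
  dsimp only
  rw [norm_mul, norm_mul, norm_mul, norm_mul, norm_conj, Complex.norm_of_nonneg hA.le,
    Complex.norm_cpow_eq_rpow_re_of_pos hB, Real.mul_rpow hA.le hH.le, sub_eq_add_neg,
    Real.rpow_add hA, Real.rpow_one]
  simp only [neg_re, add_re, ofReal_re, mul_re, I_re, mul_zero, ofReal_im, I_im, mul_one, sub_self,
    add_zero]
  ring

end Crest.Agent.R012.D

end
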