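import Crest.Agent.R012.DP
import Crest.Agent.R012.DS1
import Crest.Agent.R012.DB3

/-! # Row 12, dispersion: positivity and Poisson summation -/

set_option autoImplicit false

noncomputable section

open scoped BigOperators ComplexConjugate Topology
open Complex MeasureTheory Filter Set Crest.Agent.R017

namespace Crest.Agent.R012.D

theorem dt0_supp {γ : O → ℂ} (hs : Supp 1 γ) : Supp 1 (fun n => conj (γ n)) :=
  fun n h => hs n fun h0 => h (by simp [h0])

theorem dt0_rap {γ : O → ℂ} (hr : Rap γ) : Rap (fun n => conj (γ n)) :=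
  fun B => by simpa only [Complex.norm_conj] using hr B

theorem dt0_col (γ : O → ℂ) (x : O) : ‖colC γ x‖ = ‖rowC (fun n => conj (γ n)) x‖ := by
  rw [← Complex.norm_conj (colC γ x), colC, rowC, Complex.conj_tsum]
  simp only [map_mul, Complex.conj_conj]

theorem dt0_RW {γ : O → ℂ} {d n : O} (hn : Prim n) (h : O) :
    RW All (ud γ d) h n = γ (d * n) * conj (g3 n) * kap n h := by
  have h3 : IsCoprime n (-3) := by
    obtain ⟨y, hy⟩ := hn
    exact ⟨1, y, by linear_combination hy⟩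
  have h1 := Complex.conj_mul' (kap n (-3))
  rw [ck_norm_kap hn h3, ofReal_one, one_pow] at h1
  rw [RW, if_pos (show All (-3 * h) from trivial), ud, kap_mul_right]
  linear_combination (γ (d * n) * conj (g3 n) * kap n h) * h1

theorem dt0_kap_zero {n : O} (hn : Prim n) (h1 : n ≠ 1) : kap n 0 = 0 :=
  (kap_eq_zero hn.ne_zero).2 (Or.inr fun h => h1 (hn.eq_one_of_isUnit (isCoprime_zero_right.1 h)))

open Classical in
/-- Exchange of the summations: `‖colC γ x‖ = ‖rowC (conj γ) x‖`, `c3_psd_row` with `Q = 1`,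
`c3_G_bound` (uniform in the row) and `summable_W`. -/
theorem t0_swap {a A : ℝ} (ha : 0 < a) (hA : 0 < A) {γ : O → ℂ} (hs : Supp 1 γ) (hr : Rap γ) :
    Summable (fun y : O × O × O => ∑' x : O, if x = 0 then 0 else
      (W a (Nr x / A) : ℂ) * c3_G 1 (fun n => conj (γ n)) x y) ∧
    SS a A γ ≤ (∑' y : O × O × O, ∑' x : O, if x = 0 then 0 else
      (W a (Nr x / A) : ℂ) * c3_G 1 (fun n => conj (γ n)) x y).re := by
  obtain ⟨M, hM, hG⟩ := c3_G_bound (dt0_supp hs) (dt0_rap hr)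
  have hM0 : ∀ y, 0 ≤ M y := fun y => (norm_nonneg _).trans (hG 0 y)
  have hw : Summable (fun x : O => if x = 0 then 0 else W a (Nr x / A)) := by
    simpa only [Real.rpow_zero, one_mul] using summable_W ha hA 0
  have hw0 : ∀ x : O, 0 ≤ (if x = 0 then 0 else W a (Nr x / A)) := fun x => by
    split_ifs
    · exact le_rfl
    · exact (W_pos _ _).le
  have hF : Summable (Function.uncurry fun (x : O) (y : O × O × O) => if x = 0 then (0 : ℂ) else
      (W a (Nr x / A) : ℂ) * c3_G 1 (fun n => conj (γ n)) x y) := by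
    refine Summable.of_norm_bounded (hw.mul_of_nonneg hM hw0 hM0) fun ⟨x, y⟩ => ?_
    simp only [Function.uncurry_apply_pair]
    split_ifs
    · simp
    · rw [norm_mul, Complex.norm_real, Real.norm_of_nonneg (W_pos _ _).le]
      exact mul_le_mul_of_nonneg_left (hG x y) (W_pos _ _).le
  refine ⟨hF.prod_symm.prod, ?_⟩
  have hP : Summable (fun x : O => ∑' y : O × O × O, if x = 0 then (0 : ℂ) else
      (W a (Nr x / A) : ℂ) * c3_G 1 (fun n => conj (γ n)) x y) := hF.prod
  rw [hF.tsum_comm, Complex.re_tsum hP]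
  refine (summable_SS ha hA hr).tsum_le_tsum (fun x => ?_) (Complex.reCLM.summable hP)
  split_ifs
  · simp
  · rw [tsum_mul_left, Complex.re_ofReal_mul, dt0_col]
    exact mul_le_mul_of_nonneg_left (c3_psd_row (dt0_supp hs) (dt0_rap hr) x) (W_pos _ _).le

open Classical in
/-- One term: `thin_KC`; `κ_n(0) = 0` unless `n = 1`;
`RW All (ud γ d) h n = γ (d n) conj (g3 n) κ_n(h)`. Note the exchange of `n` and `m`. -/
theorem t0_term {a A : ℝ} (ha : 0 < a) (hA : 0 < A) {γ : O → ℂ} (hs : Supp 1 γ) {d : O}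
    (hd : Prim d) (hd' : Squarefree d) (n m : O) :
    (∑' x : O, if x = 0 then 0 else (W a (Nr x / A) : ℂ) * c3_G 1 (fun n => conj (γ n)) x (d, n, m)) =
      (if n = 1 ∧ m = 1 then (A : ℂ) * (c0 * Wh a 1) * ((‖γ d‖ ^ 2 : ℝ) : ℂ) else 0) +
        ∑' h : O, dt a A (RW All (ud γ d)) (RW All (ud γ d)) (h, m, n) := by
  have hA1 : Adm 1 d := ⟨hd, hd', isCoprime_one_right⟩
  by_cases h1 : γ (d * n) = 0
  · have e : (if n = 1 ∧ m = 1 then (A : ℂ) * (c0 * Wh a 1) * ((‖γ d‖ ^ 2 : ℝ) : ℂ) else 0) = 0 := by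
      split_ifs with h
      · rw [h.1, mul_one] at h1
        simp [h1]
      · rfl
    rw [e]
    simp [c3_G, dt, RW, ud, h1]
  by_cases h2 : γ (d * m) = 0
  · have e : (if n = 1 ∧ m = 1 then (A : ℂ) * (c0 * Wh a 1) * ((‖γ d‖ ^ 2 : ℝ) : ℂ) else 0) = 0 := by
      split_ifs with h
      · rw [h.2, mul_one] at h2
        simp [h2]
      · rfl
    rw [e]
    simp [c3_G, dt, RW, ud, h2]
  have pn : Prim n := (c3_adm (hs _ h1) hd).1
  have pm : Prim m := (c3_adm (hs _ h2) hd).1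
  have e1 : ∀ x : O, (if x = 0 then 0 else
      (W a (Nr x / A) : ℂ) * c3_G 1 (fun n => conj (γ n)) x (d, n, m)) =
      (conj (γ (d * n)) * γ (d * m) * (g3 n * conj (g3 m))) *
        (if x = 0 then 0 else (W a (Nr x / A) : ℂ) * KC n m x) := fun x => by
    split_ifs
    · rw [mul_zero]
    · simp only [c3_G, if_pos hA1, Complex.conj_conj]
      ring
  have e2 : ∀ h : O, dt a A (RW All (ud γ d)) (RW All (ud γ d)) (h, m, n) =
      (conj (γ (d * n)) * γ (d * m) * (g3 n * conj (g3 m))) *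
        ((A : ℂ) * (((Nr n * Nr m) ^ (-(1 / 2) : ℝ) : ℝ) : ℂ)) * (if h = 0 then 0 else
          conj (kap n h) * kap m h * KK a (A * Nr h / (Nr n * Nr m))) := fun h => by
    simp only [dt, dt0_RW pn, dt0_RW pm, map_mul, Complex.conj_conj, mul_comm (Nr m) (Nr n)]
    split_ifs
    · rw [mul_zero]
    · ring
  rw [tsum_congr e1, tsum_congr e2, tsum_mul_left, tsum_mul_left, thin_KC ha hA pn pm]
  split_ifs with h
  · obtain ⟨rfl, rfl⟩ := h
    have h3 := Complex.conj_mul' (γ d)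
    simp only [kap_unit_left isUnit_one, g3_one, Nr_one, mul_one, map_one, Real.one_rpow,
      ofReal_one, ofReal_pow]
    linear_combination (A * (c0 * Wh a 1)) * h3
  · have h0 : conj (kap n 0) * kap m 0 = 0 := by
      rcases not_and_or.1 h with h | h
      · rw [dt0_kap_zero pn h, map_zero, zero_mul]
      · rw [dt0_kap_zero pm h, mul_zero]
    rw [h0]
    ring

/-- `t0_swap`, `t0_term`, `hasSum_DS_cols` (with `Equiv.prodComm`), `norm_Wh`. -/
theorem T0 : ∃ C : ℝ, 0 ≤ C ∧ ∀ (a A : ℝ) (γ : O → ℂ) (b : O → ℝ), 0 < a → a ≤ 4 → 0 < A →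
    Supp 1 γ → Rap γ → Summable b → (∀ d, 0 ≤ b d) →
    (∀ d, Prim d → Squarefree d → ‖DS a A (RW All (ud γ d)) (RW All (ud γ d))‖ ≤ b d) →
    SS a A γ ≤ C * (A * Real.sqrt a) * (∑' n : O, ‖γ n‖ ^ 2) + ∑' d, b d := by
  classical
  refine ⟨c0 * (Real.sqrt (4 * Real.pi) * Real.exp 4), by have := c0_pos; positivity, ?_⟩
  intro a A γ b ha ha4 hA hs hr hb hb0 hD
  obtain ⟨h1, h2⟩ := t0_swap ha hA hs hr
  have hW : ‖Wh a 1‖ ≤ Real.sqrt (4 * Real.pi) * Real.exp 4 * Real.sqrt a := by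
    have h := norm_Wh ha 1 0
    simp only [ofReal_one, ofReal_zero, zero_mul, add_zero, one_pow, ne_eq, OfNat.ofNat_ne_zero,
      not_false_eq_true, zero_pow, sub_zero, mul_one] at h
    rw [h, Real.sqrt_mul (by positivity), mul_right_comm]
    gcongr
  have hg : Summable (fun n : O => ‖γ n‖ ^ 2) := by
    simpa only [Real.rpow_zero, mul_one] using rap_sq hr 0
  refine h2.trans ((re_le_norm _).trans ?_)
  rw [h1.tsum_prod, ← tsum_mul_left, ← (hg.mul_left _).tsum_add hb]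
  refine tsum_of_norm_bounded ((hg.mul_left _).add hb).hasSum fun d => ?_
  by_cases hd : Prim d ∧ Squarefree d
  · have hU : Dom (RW All (ud γ d)) :=
      dom_RW All (rap_ud hs hr hd.1) (supp_zero (supp_ud hs hd.1))
    have h3 : HasSum (fun p : O × O => ∑' h : O, dt a A (RW All (ud γ d)) (RW All (ud γ d))
        (h, p.2, p.1)) (DS a A (RW All (ud γ d)) (RW All (ud γ d))) :=
      (Equiv.prodComm O O).hasSum_iff.2 (hasSum_DS_cols ha hA hU hU)
    have h4 : HasSum (fun p : O × O => if p.1 = 1 ∧ p.2 = 1 then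
        (A : ℂ) * (c0 * Wh a 1) * ((‖γ d‖ ^ 2 : ℝ) : ℂ) else 0)
        ((A : ℂ) * (c0 * Wh a 1) * ((‖γ d‖ ^ 2 : ℝ) : ℂ)) := by
      simpa only [Prod.ext_iff] using hasSum_ite_eq ((1, 1) : O × O)
        ((A : ℂ) * (c0 * Wh a 1) * ((‖γ d‖ ^ 2 : ℝ) : ℂ))
    rw [tsum_congr fun p : O × O => t0_term ha hA hs hd.1 hd.2 p.1 p.2, (h4.add h3).tsum_eq]
    refine (norm_add_le _ _).trans (add_le_add ?_ (hD d hd.1 hd.2))
    rw [norm_mul, norm_mul, norm_mul, Complex.norm_real, Complex.norm_real, Complex.norm_real,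
      Real.norm_of_nonneg hA.le, Real.norm_of_nonneg c0_pos.le, Real.norm_of_nonneg (sq_nonneg _)]
    refine mul_le_mul_of_nonneg_right ?_ (sq_nonneg _)
    calc A * (c0 * ‖Wh a 1‖) ≤ A * (c0 * (Real.sqrt (4 * Real.pi) * Real.exp 4 * Real.sqrt a)) :=
          mul_le_mul_of_nonneg_left (mul_le_mul_of_nonneg_left hW c0_pos.le) hA.le
      _ = _ := by ring
  · have hd' : ¬ Adm 1 d := fun h => hd ⟨h.1, h.2.1⟩
    have := hb0 d
    have := c0_pos
    simp only [c3_G, if_neg hd', mul_zero, ite_self, tsum_zero, norm_zero]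
    positivity

end Crest.Agent.R012.D

end
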