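import Crest.Agent.R012.DL
import Crest.Agent.R012.DT0
import Crest.Agent.R012.DT2

/-! # Row 12, dispersion: one Poisson summation -/

set_option autoImplicit false

noncomputable section

open scoped BigOperators ComplexConjugate Topology
open Complex MeasureTheory Filter Set Crest.Agent.R017

namespace Crest.Agent.R012.D

theorem dt1_alg1 {A a P : ℝ} (hA : 0 < A) (ha : 0 < a) (hP : 0 < P) :
    A * Real.sqrt a * P ^ (-(1 / 2) : ℝ) * ((P / (A * a)) ^ (1 / 3 : ℝ) * Real.sqrt P) =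
      A ^ (2 / 3 : ℝ) * a ^ (1 / 6 : ℝ) * P ^ (1 / 3 : ℝ) := by
  obtain ⟨A, rfl⟩ : ∃ u, A = Real.exp u := ⟨_, (Real.exp_log hA).symm⟩
  obtain ⟨a, rfl⟩ : ∃ u, a = Real.exp u := ⟨_, (Real.exp_log ha).symm⟩
  obtain ⟨P, rfl⟩ : ∃ u, P = Real.exp u := ⟨_, (Real.exp_log hP).symm⟩
  simp only [Real.sqrt_eq_rpow, ← Real.exp_mul, ← Real.exp_add, ← Real.exp_sub]
  congr 1
  ring

theorem dt1_alg2 {A a M : ℝ} (hA : 0 < A) (ha : 0 < a) (hM : 0 < M) :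
    A * Real.sqrt a * M⁻¹ * (M ^ 2 / (A * a) + (M ^ 2 / (A * a)) ^ (1 / 3 : ℝ) * M +
      (M ^ 2 / (A * a) * M) ^ (2 / 3 : ℝ)) =
      M / Real.sqrt a + (A * M) ^ (2 / 3 : ℝ) * a ^ (1 / 6 : ℝ) +
        A ^ (1 / 3 : ℝ) * M * a ^ (-(1 / 6) : ℝ) := by
  obtain ⟨A, rfl⟩ : ∃ u, A = Real.exp u := ⟨_, (Real.exp_log hA).symm⟩
  obtain ⟨a, rfl⟩ : ∃ u, a = Real.exp u := ⟨_, (Real.exp_log ha).symm⟩
  obtain ⟨M, rfl⟩ : ∃ u, M = Real.exp u := ⟨_, (Real.exp_log hM).symm⟩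
  simp only [mul_add, Real.sqrt_eq_rpow, ← Real.exp_mul, ← Real.exp_add, ← Real.exp_sub,
    ← Real.exp_nat_mul, ← Real.exp_neg]
  congr 1
  · congr 1 <;> congr 1 <;> push_cast <;> ring
  · congr 1
    push_cast
    ring

theorem dt1_sqrt (θ : ℝ) : Real.sqrt (4 * θ) = 2 * Real.sqrt θ := by
  rw [Real.sqrt_mul (by norm_num), show (4 : ℝ) = 2 ^ 2 by norm_num, Real.sqrt_sq (by norm_num)]

theorem dt1_six {θ : ℝ} (h : 0 < θ) : (4 * θ) ^ (1 / 6 : ℝ) ≤ 2 * θ ^ (1 / 6 : ℝ) := by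
  rw [Real.mul_rpow (by norm_num) h.le]
  refine mul_le_mul_of_nonneg_right ?_ (by positivity)
  calc (4 : ℝ) ^ (1 / 6 : ℝ) ≤ 4 ^ (1 / 2 : ℝ) :=
        Real.rpow_le_rpow_of_exponent_le (by norm_num) (by norm_num)
    _ = 2 := by
        rw [← Real.sqrt_eq_rpow, show (4 : ℝ) = 2 ^ 2 by norm_num, Real.sqrt_sq (by norm_num)]

theorem dt1_co {θ M B : ℝ} {β : O → ℂ} (h0 : 0 < θ) (h1 : θ ≤ 1) (hB : 0 < B) (h : Env M B β)
    (τ : ℝ) : Supp 1 (fun b => co θ B τ β b * gt b) ∧ Rap (fun b => co θ B τ β b * gt b) ∧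
      nrmd B (fun b => co θ B τ β b * gt b) ≤ nrmd B (co θ B τ β) := by
  have hs := supp_co θ B τ β
  have hr := rap_co h0 h1 hB h τ
  have e := norm_mul_gt hs
  exact ⟨supp_of_le hs (K := 1) fun n => by rw [e, one_mul],
    rap_of_le hr (K := 1) fun n => by rw [e, one_mul],
    nrmd_mono hB hr (supp_zero hs) fun n => (e n).le⟩

theorem dt1_cn (a B : ℝ) (β : O → ℂ) : 0 ≤ cn a B β :=
  tsum_nonneg fun b => by
    have := W_pos a (Nr b / B)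
    split_ifs <;> positivity

theorem dt1_cn2 (a B : ℝ) (β : O → ℂ) : 0 ≤ cn2 a B β :=
  tsum_nonneg fun b => by
    have := W_pos a (Nr b / B)
    unfold dv
    split_ifs <;> positivity

/-- `T2` and `RH_free`. -/
theorem DS_free {κ : ℝ} (h1 : 1 < κ) (h2 : κ ≤ 5 / 3) : ∃ C : ℝ, 0 ≤ C ∧
    ∀ (S : O → Prop) (a A m₁ m₂ : ℝ) (f g : O → ℂ), 0 < a → a ≤ 4 → 0 < A → 0 < m₁ → 0 < m₂ →
    (m₁ * m₂ / (A * a)) ^ κ ≤ m₁ → (m₁ * m₂ / (A * a)) ^ κ ≤ m₂ →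
    Supp 1 f → Rap f → Supp 1 g → Rap g →
    ‖DS a A (RW S f) (RW S g)‖ ≤ C * (A ^ (2 / 3 : ℝ) * a ^ (1 / 6 : ℝ)) *
      (m₁ * m₂) ^ (1 / 3 : ℝ) * Real.sqrt (nrm m₁ f * nrm m₂ g) := by
  obtain ⟨C, hC, hT⟩ := T2 (σ₁ := 1 / 4) (α := 1 / 3) (by norm_num) (by norm_num) (by norm_num)
  obtain ⟨C', hC', hR⟩ := RH_free h1 h2
  refine ⟨C * (2 * C'), by positivity,
    fun S a A m₁ m₂ f g ha ha4 hA hm₁ hm₂ k₁ k₂ hf hfr hg hgr => ?_⟩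
  have hRs : 0 < m₁ * m₂ / (A * a) := by positivity
  have n₁ := nrm_nonneg hm₁ f
  have n₂ := nrm_nonneg hm₂ g
  have key : ∀ (m : ℝ) (u : O → ℂ), 0 < m → (m₁ * m₂ / (A * a)) ^ κ ≤ m → Supp 1 u → Rap u →
      RH (1 / 4) (1 / 3) a (RW S u) m (m₁ * m₂ / (A * a))
        (2 * C' * (m₁ * m₂ / (A * a)) ^ (1 / 3 : ℝ) * m * nrm m u) := fun m u hm k hu hur => by
    refine (hR S a m _ u ha.le hm hRs hu hur).mono hm hRs ?_
    have := nrm_nonneg hm u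
    calc _ ≤ C' * (m₁ * m₂ / (A * a)) ^ (1 / 3 : ℝ) * (m + m) * nrm m u := by gcongr
      _ = _ := by ring
  refine (hT a A m₁ m₂ _ _ _ _ ha ha4 hA hm₁ hm₂ (by positivity) (by positivity)
    (dom_RW S hfr (supp_zero hf)) (dom_RW S hgr (supp_zero hg)) (key m₁ f hm₁ k₁ hf hfr)
    (key m₂ g hm₂ k₂ hg hgr)).trans (le_of_eq ?_)
  rw [show 2 * C' * (m₁ * m₂ / (A * a)) ^ (1 / 3 : ℝ) * m₁ * nrm m₁ f *
      (2 * C' * (m₁ * m₂ / (A * a)) ^ (1 / 3 : ℝ) * m₂ * nrm m₂ g) =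
      (2 * C' * (m₁ * m₂ / (A * a)) ^ (1 / 3 : ℝ)) ^ 2 * (m₁ * m₂ * (nrm m₁ f * nrm m₂ g)) by ring,
    Real.sqrt_mul (by positivity), Real.sqrt_sq (by positivity), Real.sqrt_mul (by positivity)]
  linear_combination (C * (2 * C') * Real.sqrt (nrm m₁ f * nrm m₂ g)) *
    dt1_alg1 hA ha (mul_pos hm₁ hm₂)

/-- `T0` with `b d = Δ · nrm (B / N d) (γ (d ·))` on primary `d`; `sum_nrm_dil`, `norm_ud`,
`l2_le_nrm`, `nrm_le_nrmd`. -/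
theorem T1 : ∃ C : ℝ, 0 ≤ C ∧ ∀ (a A B Δ : ℝ) (γ : O → ℂ), 0 < a → a ≤ 4 → 0 < A → 0 < B → 0 ≤ Δ →
    Supp 1 γ → Rap γ →
    (∀ (M : ℝ) (u : O → ℂ), 0 < M → M ≤ B → Supp 1 u → Rap u →
      ‖DS a A (RW All u) (RW All u)‖ ≤ Δ * nrm M u) →
    SS a A γ ≤ (C * (A * Real.sqrt a) + Δ) * nrmd B γ := by
  classical
  obtain ⟨C, hC, hT⟩ := T0
  refine ⟨C, hC, fun a A B Δ γ ha ha4 hA hB hΔ hs hr h => ?_⟩
  obtain ⟨s1, s2⟩ := sum_nrm_dil hr (supp_zero hs) hB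
  have h1 := hT a A γ (fun d => Δ * if Prim d then nrm (B / Nr d) (fun n => γ (d * n)) else 0) ha ha4
    hA hs hr (s1.mul_left Δ) (fun d => mul_nonneg hΔ (by
      split_ifs with hd
      · exact nrm_nonneg (div_pos hB (Nr_pos hd.ne_zero)) _
      · exact le_rfl)) fun d hd _ => by
    refine (h _ _ (div_pos hB (Nr_pos hd.ne_zero)) (div_le_self hB.le (one_le_Nr hd.ne_zero))
      (supp_ud hs hd) (rap_ud hs hr hd)).trans (le_of_eq ?_)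
    simp only [if_pos hd, nrm, norm_ud hs hd]
  rw [tsum_mul_left] at h1
  have h2 := (l2_le_nrm hB hr (supp_zero hs)).trans (nrm_le_nrmd hB hr (supp_zero hs))
  rw [add_mul]
  exact h1.trans (add_le_add (mul_le_mul_of_nonneg_left h2 (by positivity))
    (mul_le_mul_of_nonneg_left s2 hΔ))

/-- `T1` and `DS_free`. -/
theorem T1U {κ : ℝ} (h1 : 1 < κ) (h2 : κ ≤ 5 / 3) : ∃ C : ℝ, 0 ≤ C ∧
    ∀ (a A B : ℝ) (γ : O → ℂ), 0 < a → a ≤ 4 → 0 < A → 0 < B → B ^ (2 * κ - 1) ≤ (A * a) ^ κ →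
    Supp 1 γ → Rap γ →
    SS a A γ ≤ C * (A * Real.sqrt a + (A * B) ^ (2 / 3 : ℝ) * a ^ (1 / 6 : ℝ)) * nrmd B γ := by
  obtain ⟨C, hC, hT⟩ := T1
  obtain ⟨C', hC', hD⟩ := DS_free h1 h2
  refine ⟨C + C', by positivity, fun a A B γ ha ha4 hA hB hκ hs hr => ?_⟩
  refine (hT a A B (C' * ((A * B) ^ (2 / 3 : ℝ) * a ^ (1 / 6 : ℝ))) γ ha ha4 hA hB (by positivity)
    hs hr fun M u hM hMB hu hur => ?_).trans (mul_le_mul_of_nonneg_right ?_ (nrmd_nonneg hB _))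
  · have k : (M * M / (A * a)) ^ κ ≤ M := by
      rw [Real.div_rpow (by positivity) (by positivity), div_le_iff₀ (by positivity)]
      calc (M * M) ^ κ = M * M ^ (2 * κ - 1) := by
            rw [Real.mul_rpow hM.le hM.le, ← Real.rpow_add hM, mul_comm M, ← Real.rpow_add_one hM.ne']
            congr 1
            ring
        _ ≤ M * B ^ (2 * κ - 1) := by
            have : 0 ≤ 2 * κ - 1 := by linarith
            gcongr
        _ ≤ _ := by gcongr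
    refine (hD All a A M M u u ha ha4 hA hM hM k k hu hur hu hur).trans ?_
    have hn := nrm_nonneg hM u
    rw [Real.sqrt_mul_self hn, Real.mul_rpow hA.le hB.le]
    have : (M * M) ^ (1 / 3 : ℝ) ≤ B ^ (2 / 3 : ℝ) := by
      rw [Real.mul_rpow hM.le hM.le, ← Real.rpow_add hM, show (1 / 3 + 1 / 3 : ℝ) = 2 / 3 by norm_num]
      gcongr
    calc _ ≤ C' * (A ^ (2 / 3 : ℝ) * a ^ (1 / 6 : ℝ)) * B ^ (2 / 3 : ℝ) * nrm M u := by gcongr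
      _ = _ := by ring
  · have t1 : 0 ≤ C' * (A * Real.sqrt a) := by positivity
    have t2 : 0 ≤ C * ((A * B) ^ (2 / 3 : ℝ) * a ^ (1 / 6 : ℝ)) := by positivity
    linarith

/-- `T1`, `T2d` and `RH_all`. -/
theorem T1H {ε : ℝ} (h0 : 0 < ε) (h1 : ε ≤ 1) : ∃ C : ℝ, 0 ≤ C ∧
    ∀ (a A B : ℝ) (γ : O → ℂ), 0 < a → a ≤ 4 → 0 < A → 0 < B → Supp 1 γ → Rap γ →
    SS a A γ ≤ C * (1 + (B ^ 3 / (A * a)) ^ ε) * D1 a A B * nrmd B γ := by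
  obtain ⟨C, hC, hT⟩ := T1
  obtain ⟨C₁, hC₁, hD⟩ := T2d (σ₁ := 1 / 4) (α := 1 / 3) (by norm_num) (by norm_num) (by norm_num)
  obtain ⟨C₂, hC₂, hR⟩ := RH_all h0 h1
  refine ⟨C + C₁ * C₂, by positivity, fun a A B γ ha ha4 hA hB hs hr => ?_⟩
  have hsa := Real.sqrt_pos.2 ha
  refine (hT a A B (C₁ * C₂ * (B ^ 3 / (A * a)) ^ ε * (B / Real.sqrt a +
    (A * B) ^ (2 / 3 : ℝ) * a ^ (1 / 6 : ℝ) + A ^ (1 / 3 : ℝ) * B * a ^ (-(1 / 6) : ℝ))) γ ha ha4 hA hB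
    (by positivity) hs hr fun M u hM hMB hu hur => ?_).trans
    (mul_le_mul_of_nonneg_right ?_ (nrmd_nonneg hB _))
  · have hn := nrm_nonneg hM u
    refine (hD a A M _ _ ha ha4 hA hM (by positivity) (dom_RW All hur (supp_zero hu))
      (hR a M _ u ha.le hM (by positivity) hu hur)).trans ?_
    calc _ = C₁ * C₂ * (M ^ 3 / (A * a)) ^ ε * (M / Real.sqrt a +
          (A * M) ^ (2 / 3 : ℝ) * a ^ (1 / 6 : ℝ) + A ^ (1 / 3 : ℝ) * M * a ^ (-(1 / 6) : ℝ)) *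
          nrm M u := by
          rw [← dt1_alg2 hA ha hM, show M ^ 3 / (A * a) = M ^ 2 / (A * a) * M by ring]
          ring
      _ ≤ _ := by gcongr
  · unfold D1
    set X := (B ^ 3 / (A * a)) ^ ε
    have hX : 0 ≤ X := by positivity
    have t1 : 0 ≤ A * Real.sqrt a := by positivity
    rw [add_assoc, add_assoc, add_assoc (A * Real.sqrt a)]
    have t2 : 0 ≤ B / Real.sqrt a + ((A * B) ^ (2 / 3 : ℝ) * a ^ (1 / 6 : ℝ) +
      A ^ (1 / 3 : ℝ) * B * a ^ (-(1 / 6) : ℝ)) := by positivity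
    generalize B / Real.sqrt a + ((A * B) ^ (2 / 3 : ℝ) * a ^ (1 / 6 : ℝ) +
      A ^ (1 / 3 : ℝ) * B * a ^ (-(1 / 6) : ℝ)) = Y at t2 ⊢
    generalize A * Real.sqrt a = Z at t1 ⊢
    have t3 : 0 ≤ C * X * Z + C * (1 + X) * Y + C₁ * C₂ * (1 + X) * Z + C₁ * C₂ * Y := by positivity
    linarith

/-- `DD_eq_QQ`, `QQ_gt_le`. -/
theorem DD_gt_le {θ A M B : ℝ} {β : O → ℂ} (h0 : 0 < θ) (h1 : θ ≤ 1) (hA : 0 < A) (hB : 0 < B)
    (h : Env M B β) (τ : ℝ) :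
    DD gt θ A B τ β ≤ SS (4 * θ) A (fun b => co θ B τ β b * gt b) := by
  rw [DD_eq_QQ (G := gt) fun n hn => if_neg hn]
  exact QQ_gt_le (by positivity) hA (supp_co θ B τ β) (rap_co h0 h1 hB h τ)

/-- `T1U` with `η' = min η (1/2)`, `κ = 1 + η' / 2`, `s = η' / 4`; `nrmd_co_le`. -/
theorem disp_UB {η : ℝ} (hη : 0 < η) : ∃ s : ℝ, 0 < s ∧ ∃ C : ℝ, 0 ≤ C ∧
    ∀ (θ A B τ M : ℝ) (β : O → ℂ), 1 ≤ A → A ^ (2 / 5 : ℝ) ≤ B → B ≤ A ^ (1 - η) → A ^ (-s) ≤ θ → θ ≤ 1 →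
    Env M B β →
    DD gt θ A B τ β ≤ C * ((A * Real.sqrt θ + (A * B) ^ (2 / 3 : ℝ) * θ ^ (1 / 6 : ℝ)) * cn2 (2 * θ) B β +
      M ^ 2 * A ^ (2 / 3 - s) * B ^ (5 / 3 : ℝ)) := by
  obtain ⟨η', h0, h1, h2⟩ : ∃ η' : ℝ, 0 < η' ∧ η' ≤ η ∧ η' ≤ 1 / 2 :=
    ⟨min η (1 / 2), lt_min hη (by norm_num), min_le_left _ _, min_le_right _ _⟩
  obtain ⟨C, hC, hT⟩ := T1U (κ := 1 + η' / 2) (by linarith) (by linarith)
  obtain ⟨C', hC', hn⟩ := nrmd_co_le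
  refine ⟨η' / 4, by positivity, C * 2 * C', by positivity,
    fun θ A B τ M β hA hB1 hB2 hθ hθ1 hE => ?_⟩
  have hA0 : 0 < A := by linarith
  have hB : 0 < B := lt_of_lt_of_le (by positivity) hB1
  have hθ0 : 0 < θ := lt_of_lt_of_le (by positivity) hθ
  obtain ⟨c1, c2, c3⟩ := dt1_co hθ0 hθ1 hB hE τ
  have k : B ^ (2 * (1 + η' / 2) - 1) ≤ (A * (4 * θ)) ^ (1 + η' / 2) := by
    calc _ ≤ (A ^ (1 - η)) ^ (2 * (1 + η' / 2) - 1) := by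
          have : 0 ≤ 2 * (1 + η' / 2) - 1 := by linarith
          gcongr
      _ ≤ (A * A ^ (-(η' / 4))) ^ (1 + η' / 2) := by
          rw [mul_comm A, ← Real.rpow_add_one hA0.ne', ← Real.rpow_mul hA0.le, ← Real.rpow_mul hA0.le]
          exact Real.rpow_le_rpow_of_exponent_le hA (by nlinarith)
      _ ≤ _ := by
          gcongr
          linarith
  have h3 := (DD_gt_le hθ0 hθ1 hA0 hB hE τ).trans
    (hT (4 * θ) A B _ (by positivity) (by linarith) hA0 hB k c1 c2)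
  have h4 := c3.trans (hn θ M B τ β hθ0 hθ1 hB hE)
  have h5 := dt1_six hθ0
  have h6 := dt1_cn2 (2 * θ) B β
  have h7 := nrmd_nonneg hB (fun b => co θ B τ β b * gt b)
  rw [dt1_sqrt] at h3
  refine h3.trans ?_
  calc _ ≤ C * (A * (2 * Real.sqrt θ) + (A * B) ^ (2 / 3 : ℝ) * (2 * θ ^ (1 / 6 : ℝ))) *
        (C' * cn2 (2 * θ) B β) := by gcongr
    _ = C * 2 * C' * ((A * Real.sqrt θ + (A * B) ^ (2 / 3 : ℝ) * θ ^ (1 / 6 : ℝ)) *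
        cn2 (2 * θ) B β) := by ring
    _ ≤ _ := by
        gcongr
        exact le_add_of_nonneg_right (by positivity)

/-- `T1H` with `min ε 1 / 8`, `B³ / (4 A θ) ≤ (A B)^4`; `nrmd_co_le'`. -/
theorem disp_H1 {ε : ℝ} (hε : 0 < ε) : ∃ C : ℝ, 0 ≤ C ∧
    ∀ (θ A B τ M : ℝ) (β : O → ℂ), 1 ≤ A → 1 ≤ B → (A * B)⁻¹ ≤ θ → θ ≤ 1 → Env M B β →
    DD gt θ A B τ β ≤ C * (A * B) ^ ε * ((A * Real.sqrt θ + B / Real.sqrt θ +
      (A * B) ^ (2 / 3 : ℝ) * θ ^ (1 / 6 : ℝ) + A ^ (1 / 3 : ℝ) * B * θ ^ (-(1 / 6) : ℝ)) *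
        cn (2 * θ) B β + M ^ 2) := by
  obtain ⟨e, h0, h1, h2⟩ : ∃ e : ℝ, 0 < e ∧ 5 * e ≤ ε ∧ e ≤ 1 :=
    ⟨min ε 1 / 8, by positivity, by linarith [min_le_left ε 1], by linarith [min_le_right ε 1]⟩
  obtain ⟨C, hC, hT⟩ := T1H h0 h2
  obtain ⟨C', hC', hn⟩ := nrmd_co_le' h0
  refine ⟨C * 4 * C', by positivity, fun θ A B τ M β hA hB hθ hθ1 hE => ?_⟩
  have hA0 : 0 < A := by linarith
  have hB0 : 0 < B := by linarith
  have hAB : 1 ≤ A * B := one_le_mul_of_one_le_of_one_le hA hB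
  have hθ0 : 0 < θ := lt_of_lt_of_le (by positivity) hθ
  have hsθ := Real.sqrt_pos.2 hθ0
  obtain ⟨c1, c2, c3⟩ := dt1_co hθ0 hθ1 hB0 hE τ
  have h3 := (DD_gt_le hθ0 hθ1 hA0 hB0 hE τ).trans
    (hT (4 * θ) A B _ (by positivity) (by linarith) hA0 hB0 c1 c2)
  have h4 := c3.trans (hn θ M B τ β hθ0 hθ1 hB hE)
  have h6 := dt1_cn (2 * θ) B β
  have h7 := nrmd_nonneg hB0 (fun b => co θ B τ β b * gt b)
  have hBA : B ≤ A * B := le_mul_of_one_le_left hB0.le hA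
  have k1 : B ^ 3 / (A * (4 * θ)) ≤ (A * B) ^ 4 := by
    have : 1 ≤ A * B * θ := by
      rwa [inv_le_iff_one_le_mul₀' (by positivity)] at hθ
    rw [div_le_iff₀ (by positivity)]
    calc B ^ 3 ≤ (A * B) ^ 3 * (A * B * θ) * (1 * 1) := by
          rw [mul_one, mul_one]
          exact (pow_le_pow_left₀ hB0.le hBA 3).trans (le_mul_of_one_le_right (by positivity) this)
      _ ≤ (A * B) ^ 3 * (A * B * θ) * (A * 4) := by gcongr; norm_num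
      _ = _ := by ring
  have k2 : 1 + (B ^ 3 / (A * (4 * θ))) ^ e ≤ 2 * (A * B) ^ (4 * e) := by
    have t1 : (B ^ 3 / (A * (4 * θ))) ^ e ≤ (A * B) ^ (4 * e) := by
      rw [Real.rpow_mul (by positivity), show (4 : ℝ) = ((4 : ℕ) : ℝ) by norm_num, Real.rpow_natCast]
      gcongr
      exact_mod_cast k1
    have t2 : 1 ≤ (A * B) ^ (4 * e) := Real.one_le_rpow hAB (by positivity)
    linarith
  have k3 : (A * B) ^ (4 * e) * B ^ e ≤ (A * B) ^ ε := by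
    calc _ ≤ (A * B) ^ (4 * e) * (A * B) ^ e := by gcongr
      _ ≤ _ := by
        rw [← Real.rpow_add (by positivity)]
        exact Real.rpow_le_rpow_of_exponent_le hAB (by linarith)
  obtain ⟨D, hD⟩ : ∃ D, D = A * Real.sqrt θ + B / Real.sqrt θ +
      (A * B) ^ (2 / 3 : ℝ) * θ ^ (1 / 6 : ℝ) + A ^ (1 / 3 : ℝ) * B * θ ^ (-(1 / 6) : ℝ) := ⟨_, rfl⟩
  have hD0 : 0 ≤ D := by rw [hD]; positivity
  have k4 : D1 (4 * θ) A B ≤ 2 * D := by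
    have t1 := dt1_six hθ0
    have t2 : (4 * θ) ^ (-(1 / 6) : ℝ) ≤ 2 * θ ^ (-(1 / 6) : ℝ) := by
      have := Real.rpow_le_rpow_of_nonpos hθ0 (show θ ≤ 4 * θ by linarith)
        (show (-(1 / 6) : ℝ) ≤ 0 by norm_num)
      have : 0 ≤ θ ^ (-(1 / 6) : ℝ) := by positivity
      linarith
    have t3 : B / (2 * Real.sqrt θ) ≤ 2 * (B / Real.sqrt θ) := by
      have : B / (2 * Real.sqrt θ) ≤ B / Real.sqrt θ := by gcongr; linarith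
      have : 0 ≤ B / Real.sqrt θ := by positivity
      linarith
    rw [D1, dt1_sqrt, hD]
    calc _ ≤ A * (2 * Real.sqrt θ) + 2 * (B / Real.sqrt θ) +
          (A * B) ^ (2 / 3 : ℝ) * (2 * θ ^ (1 / 6 : ℝ)) +
          A ^ (1 / 3 : ℝ) * B * (2 * θ ^ (-(1 / 6) : ℝ)) := by gcongr
      _ = _ := by ring
  have k5 : 0 ≤ D1 (4 * θ) A B := by unfold D1; positivity
  rw [← hD]
  refine h3.trans ?_
  calc _ ≤ C * (2 * (A * B) ^ (4 * e)) * (2 * D) * (C' * B ^ e * cn (2 * θ) B β) := by gcongr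
    _ = C * 4 * C' * ((A * B) ^ (4 * e) * B ^ e) * (D * cn (2 * θ) B β) := by ring
    _ ≤ _ := by
        gcongr
        exact le_add_of_nonneg_right (by positivity)

end Crest.Agent.R012.D

end
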