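import Crest.Agent.R012.DA1b
import Crest.Agent.R012.DKc
import Crest.Agent.R012.DT1

/-! # Row 12, dispersion: pairs of sequences -/

set_option autoImplicit false

noncomputable section

open scoped BigOperators ComplexConjugate Topology
open Complex MeasureTheory Filter Set Crest.Agent.R017

namespace Crest.Agent.R012.D

theorem da2_e1 {A x y : ℝ} (hA : 0 < A) (hx : 0 < x) (hy : 0 < y) :
    A * (x * y) ^ (-(1 / 2) : ℝ) * (A / (x * y)) ^ (-(1 / 3) : ℝ) =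
      A ^ (2 / 3 : ℝ) * (x ^ (-(1 / 6) : ℝ) * y ^ (-(1 / 6) : ℝ)) := by
  obtain ⟨a, rfl⟩ : ∃ a, A = Real.exp a := ⟨_, (Real.exp_log hA).symm⟩
  obtain ⟨b, rfl⟩ : ∃ a, x = Real.exp a := ⟨_, (Real.exp_log hx).symm⟩
  obtain ⟨c, rfl⟩ : ∃ a, y = Real.exp a := ⟨_, (Real.exp_log hy).symm⟩
  simp only [← Real.exp_mul, ← Real.exp_add, ← Real.exp_sub]
  congr 1
  ring

theorem da2_e2 {A x y : ℝ} (hA : 0 < A) (hx : 0 < x) (hy : 0 < y) :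
    A * (x * y) ^ (-(1 / 2) : ℝ) * (A / (x * y)) ^ (-(1 / 4) : ℝ) =
      A ^ (3 / 4 : ℝ) * (x ^ (-(1 / 4) : ℝ) * y ^ (-(1 / 4) : ℝ)) := by
  obtain ⟨a, rfl⟩ : ∃ a, A = Real.exp a := ⟨_, (Real.exp_log hA).symm⟩
  obtain ⟨b, rfl⟩ : ∃ a, x = Real.exp a := ⟨_, (Real.exp_log hx).symm⟩
  obtain ⟨c, rfl⟩ : ∃ a, y = Real.exp a := ⟨_, (Real.exp_log hy).symm⟩
  simp only [← Real.exp_mul, ← Real.exp_add, ← Real.exp_sub]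
  congr 1
  ring

theorem da2_md_summable {u : O → ℂ} (hr : Rap u) (h0 : u 0 = 0) :
    Summable fun n => ‖u n * md n‖ := by
  refine Summable.of_nonneg_of_le (fun _ => norm_nonneg _) (fun n => ?_) (rap_summable hr)
  by_cases hn : n = 0
  · simp [hn, h0]
  · rw [norm_mul]
    exact mul_le_of_le_one_right (norm_nonneg _) (norm_md_le_one hn)

theorem da2_sqrt {C₁ C₂ x y z : ℝ} (h₁ : 0 ≤ C₁) (h₂ : 0 ≤ C₂) (hz : 0 ≤ z) (h : x * y ≤ z ^ 2) :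
    Real.sqrt (C₁ * x * (C₂ * y)) ≤ (C₁ + C₂) * z := by
  refine Real.sqrt_le_iff.2 ⟨by positivity, ?_⟩
  calc C₁ * x * (C₂ * y) = C₁ * C₂ * (x * y) := by ring
    _ ≤ C₁ * C₂ * z ^ 2 := mul_le_mul_of_nonneg_left h (by positivity)
    _ ≤ (C₁ + C₂) ^ 2 * z ^ 2 := by
        refine mul_le_mul_of_nonneg_right ?_ (by positivity)
        nlinarith [mul_nonneg h₁ h₂, sq_nonneg C₁, sq_nonneg C₂]
    _ = _ := by ring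

/-- The rank one main term: `hasSum_DS_cols`, `Kcube` with `z = A / (N n N m)`,
`tsum_mul_tsum_of_summable_norm`. -/
theorem DS_RC : ∃ κ₀ : ℂ, ∃ C : ℝ, 0 ≤ C ∧ ∀ (A : ℝ) (u v : O → ℂ), 0 < A → Supp 1 u → Rap u →
    Supp 1 v → Rap v →
    ‖DS 4 A (RC u) (RC v) - κ₀ * ((A ^ (2 / 3 : ℝ) : ℝ) : ℂ) * (mm u * conj (mm v))‖ ≤
      C * A ^ (3 / 4 : ℝ) * (∑' n : O, ‖u n‖ * Nr n ^ (-(1 / 4) : ℝ)) *
        ∑' n : O, ‖v n‖ * Nr n ^ (-(1 / 4) : ℝ) := by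
  classical
  obtain ⟨κ₀, C, hC, hK⟩ := Kcube
  refine ⟨κ₀, C, hC, fun A u v hA hu hur hv hvr => ?_⟩
  have hu0 := supp_zero hu
  have hv0 := supp_zero hv
  have h1 := hasSum_DS_cols (a := 4) (by norm_num) hA (dom_RC hur hu0) (dom_RC hvr hv0)
  have hf := da2_md_summable hur hu0
  have hg : Summable fun m => ‖conj (v m * md m)‖ := by
    simpa only [Complex.norm_conj] using da2_md_summable hvr hv0
  have h2 : HasSum (fun p : O × O => κ₀ * ((A ^ (2 / 3 : ℝ) : ℝ) : ℂ) *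
      (u p.1 * md p.1 * conj (v p.2 * md p.2)))
      (κ₀ * ((A ^ (2 / 3 : ℝ) : ℝ) : ℂ) * (mm u * conj (mm v))) := by
    refine HasSum.mul_left _ ?_
    unfold mm
    rw [Complex.conj_tsum, tsum_mul_tsum_of_summable_norm hf hg]
    exact (summable_mul_of_summable_norm hf hg).hasSum
  have hsu := hur (-(1 / 4))
  have hsv := hvr (-(1 / 4))
  have hn1 : ∀ (f : O → ℂ) (n : O), 0 ≤ ‖f n‖ * Nr n ^ (-(1 / 4) : ℝ) := fun f n =>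
    mul_nonneg (norm_nonneg _) (Real.rpow_nonneg (Nr_nonneg n) _)
  have h3 : HasSum (fun p : O × O => C * A ^ (3 / 4 : ℝ) *
      (‖u p.1‖ * Nr p.1 ^ (-(1 / 4) : ℝ) * (‖v p.2‖ * Nr p.2 ^ (-(1 / 4) : ℝ))))
      (C * A ^ (3 / 4 : ℝ) * ((∑' n : O, ‖u n‖ * Nr n ^ (-(1 / 4) : ℝ)) *
        ∑' n : O, ‖v n‖ * Nr n ^ (-(1 / 4) : ℝ))) :=
    HasSum.mul_left _ (HasSum.mul hsu.hasSum hsv.hasSum (hsu.mul_of_nonneg hsv (hn1 u) (hn1 v)))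
  rw [← (h1.sub h2).tsum_eq, mul_assoc (C * _)]
  refine tsum_of_norm_bounded h3 fun p => ?_
  obtain ⟨n, m⟩ := p
  have hcol : ∑' h : O, dt 4 A (RC u) (RC v) (h, n, m) =
      (A : ℂ) * (u n * conj (v m)) * (((Nr n * Nr m) ^ (-(1 / 2) : ℝ) : ℝ) : ℂ) *
        ∑' h : O, if h ≠ 0 ∧ IsCube (-3 * h) then KK 4 (A / (Nr n * Nr m) * Nr h) else 0 := by
    rw [← tsum_mul_left]
    refine tsum_congr fun h => ?_
    unfold dt RC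
    by_cases h0 : h = 0
    · simp [h0]
    · by_cases hc : IsCube (-3 * h)
      · rw [if_neg h0, if_pos hc, if_pos hc, if_pos ⟨h0, hc⟩]
        congr 2
        ring
      · rw [if_neg h0, if_neg hc, if_neg hc, if_neg (fun h' => hc h'.2)]
        simp
  simp only
  rw [hcol]
  by_cases hn : u n = 0
  · simp [hn]
  by_cases hm : v m = 0
  · simp [hm]
  obtain ⟨hn1, hn2⟩ := supp_iff.1 hu n hn
  obtain ⟨hm1, hm2⟩ := supp_iff.1 hv m hm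
  have hN := Nr_pos hn1.ne_zero
  have hM := Nr_pos hm1.ne_zero
  have hz := hK (A / (Nr n * Nr m)) (by positivity)
  set Kz := ∑' h : O, if h ≠ 0 ∧ IsCube (-3 * h) then KK 4 (A / (Nr n * Nr m) * Nr h) else 0
  have e : (A : ℂ) * (u n * conj (v m)) * (((Nr n * Nr m) ^ (-(1 / 2) : ℝ) : ℝ) : ℂ) * Kz -
      κ₀ * ((A ^ (2 / 3 : ℝ) : ℝ) : ℂ) * (u n * md n * conj (v m * md m)) =
      (u n * conj (v m)) * ((A * (Nr n * Nr m) ^ (-(1 / 2) : ℝ) : ℝ) : ℂ) *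
        (Kz - κ₀ * (((A / (Nr n * Nr m)) ^ (-(1 / 3) : ℝ) : ℝ) : ℂ)) := by
    have e1 := congrArg (fun x : ℝ => (x : ℂ)) (da2_e1 hA hN hM)
    unfold md
    rw [if_pos hn2, if_pos hm2, map_mul, Complex.conj_ofReal]
    simp only [Complex.ofReal_mul] at e1 ⊢
    linear_combination (κ₀ * (u n * conj (v m))) * e1
  rw [e, norm_mul, norm_mul, norm_mul, Complex.norm_conj, Complex.norm_real,
    Real.norm_of_nonneg (by positivity)]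
  calc ‖u n‖ * ‖v m‖ * (A * (Nr n * Nr m) ^ (-(1 / 2) : ℝ)) *
        ‖Kz - κ₀ * (((A / (Nr n * Nr m)) ^ (-(1 / 3) : ℝ) : ℝ) : ℂ)‖
      ≤ ‖u n‖ * ‖v m‖ * (A * (Nr n * Nr m) ^ (-(1 / 2) : ℝ)) *
        (C * (A / (Nr n * Nr m)) ^ (-(1 / 4) : ℝ)) := mul_le_mul_of_nonneg_left hz (by positivity)
    _ = _ := by linear_combination (C * (‖u n‖ * ‖v m‖)) * da2_e2 hA hN hM

/-- `DS (RW u) (RW v) - DS (RC u) (RC v) = DS (RW u - RC u) (RW v) + DS (RC u) (RW v - RC v)`;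
`T2g`, `RG_cube`, `RG_diff`. -/
theorem DS_cube : ∃ C : ℝ, 0 ≤ C ∧ ∀ (A M₁ M₂ B₁ B₂ w Λ : ℝ) (u v : O → ℂ), 0 < A → 0 < B₁ →
    0 < B₂ → 0 < w → 1 ≤ Λ → B₁ * B₂ / (A * 4) ≤ Real.exp Λ → Good M₁ B₁ w u → Good M₂ B₂ w v →
    ‖DS 4 A (RW IsCube u) (RW IsCube v) - DS 4 A (RC u) (RC v)‖ ≤
      C * A ^ (2 / 3 : ℝ) * (M₁ * B₁ ^ (5 / 6 : ℝ)) * (M₂ * B₂ ^ (5 / 6 : ℝ)) * (Λ ^ 2 / w) := by
  obtain ⟨C, hC, hT⟩ := T2g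
  obtain ⟨C₁, hC₁, h₁⟩ := RG_cube
  obtain ⟨C₂, hC₂, h₂⟩ := RG_diff
  refine ⟨2 * C * (C₁ + C₂), by positivity,
    fun A M₁ M₂ B₁ B₂ w Λ u v hA hB₁ hB₂ hw hΛ hR hu hv => ?_⟩
  have hu0 := supp_zero hu.supp
  have hv0 := supp_zero hv.supp
  have hur := hu.ev.rap hB₁ hu0
  have hvr := hv.ev.rap hB₂ hv0
  have hM₁ := hu.ev.nonneg
  have hM₂ := hv.ev.nonneg
  have hRs : 0 < B₁ * B₂ / (A * 4) := by positivity
  have dU := dom_RW IsCube hur hu0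
  have dV := dom_RW IsCube hvr hv0
  have dU0 := dom_RC hur hu0
  have dV0 := dom_RC hvr hv0
  have e : DS 4 A (RW IsCube u) (RW IsCube v) - DS 4 A (RC u) (RC v) =
      DS 4 A (fun h n => RW IsCube u h n - RC u h n) (RW IsCube v) +
        DS 4 A (RC u) (fun h n => RW IsCube v h n - RC v h n) := by
    rw [DS_sub_left (by norm_num) hA dU dU0 dV, DS_sub_right (by norm_num) hA dU0 dV dV0]
    ring
  have b1 := hT A M₁ M₂ B₁ B₂ _ _ _ _ hA hM₁ hM₂ hB₁ hB₂ (by positivity) (by positivity)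
    (dU.sub dU0) dV (h₂ u M₁ B₁ w _ Λ hB₁ hw hRs hΛ hR hu.supp hu.rough hu.ev)
    (h₁ v M₂ B₂ _ Λ hB₂ hRs hΛ hR hv0 hv.ev).2
  have b2 := hT A M₁ M₂ B₁ B₂ _ _ _ _ hA hM₁ hM₂ hB₁ hB₂ (by positivity) (by positivity)
    dU0 (dV.sub dV0) (h₁ u M₁ B₁ _ Λ hB₁ hRs hΛ hR hu0 hu.ev).1
    (h₂ v M₂ B₂ w _ Λ hB₂ hw hRs hΛ hR hv.supp hv.rough hv.ev)
  have s1 : Real.sqrt (C₂ * Λ ^ 2 / w ^ 2 * (C₁ * Λ ^ 2)) ≤ (C₁ + C₂) * (Λ ^ 2 / w) := by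
    rw [mul_div_assoc, add_comm]
    exact da2_sqrt hC₂ hC₁ (by positivity) (le_of_eq (by ring))
  have s2 : Real.sqrt (C₁ * Λ ^ 2 * (C₂ * Λ ^ 2 / w ^ 2)) ≤ (C₁ + C₂) * (Λ ^ 2 / w) := by
    rw [mul_comm]
    exact s1
  have hP : 0 ≤ C * A ^ (2 / 3 : ℝ) * (M₁ * B₁ ^ (5 / 6 : ℝ)) * (M₂ * B₂ ^ (5 / 6 : ℝ)) := by
    positivity
  rw [e]
  refine (norm_add_le _ _).trans ((add_le_add (b1.trans (mul_le_mul_of_nonneg_left s1 hP))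
    (b2.trans (mul_le_mul_of_nonneg_left s2 hP))).trans (le_of_eq ?_))
  ring

/-- `DS_split` twice: `Near Z₁ = IsCube ⊔ (Near Z₀ ∧ ¬ IsCube) ⊔ (Near Z₁ ∧ ¬ Near Z₀)`;
`DS_RC`, `DS_cube`, `T2g` with `RG_near` and `RG_mid`. -/
theorem pair_near : ∃ κ₀ : ℂ, ∃ C : ℝ, 0 ≤ C ∧ ∀ (A M₁ M₂ B₁ B₂ w Z₀ Z₁ Λ : ℝ) (u v : O → ℂ),
    0 < A → 0 < B₁ → 0 < B₂ → 1 ≤ Z₀ → Z₀ ≤ w → Z₀ ≤ Z₁ → 1 ≤ Λ →
    B₁ * B₂ / (A * 4) ≤ Real.exp Λ → Z₁ ^ 2 ≤ B₁ * Z₀ ^ (-(1 / 3) : ℝ) →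
    Z₁ ^ 2 ≤ B₂ * Z₀ ^ (-(1 / 3) : ℝ) → Good M₁ B₁ w u → Good M₂ B₂ w v →
    ‖DS 4 A (RW (Near Z₁) u) (RW (Near Z₁) v) -
        κ₀ * ((A ^ (2 / 3 : ℝ) : ℝ) : ℂ) * (mm u * conj (mm v))‖ ≤
      C * (A ^ (3 / 4 : ℝ) * (∑' n : O, ‖u n‖ * Nr n ^ (-(1 / 4) : ℝ)) *
          (∑' n : O, ‖v n‖ * Nr n ^ (-(1 / 4) : ℝ)) +
        A ^ (2 / 3 : ℝ) * (M₁ * B₁ ^ (5 / 6 : ℝ)) * (M₂ * B₂ ^ (5 / 6 : ℝ)) *
          (Λ ^ 2 * Z₀ ^ (2 / 3 : ℝ) / w + Z₀ ^ (-(1 / 3) : ℝ))) := by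
  obtain ⟨κ₀, C₀, hC₀, h₀⟩ := DS_RC
  obtain ⟨C, hC, hT⟩ := T2g
  obtain ⟨C₁, hC₁, h₁⟩ := DS_cube
  obtain ⟨C₂, hC₂, h₂⟩ := RG_near
  obtain ⟨C₃, hC₃, h₃⟩ := RG_mid
  refine ⟨κ₀, C₀ + C₁ + C * (C₂ + C₂) + C * (C₃ + C₃), by positivity,
    fun A M₁ M₂ B₁ B₂ w Z₀ Z₁ Λ u v hA hB₁ hB₂ hZ₀ hw hZ hΛ hR hZ₁ hZ₂ hu hv => ?_⟩
  have hu0 := supp_zero hu.supp
  have hv0 := supp_zero hv.supp
  have hur := hu.ev.rap hB₁ hu0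
  have hvr := hv.ev.rap hB₂ hv0
  have hM₁ := hu.ev.nonneg
  have hM₂ := hv.ev.nonneg
  have hRs : 0 < B₁ * B₂ / (A * 4) := by positivity
  have hw1 : 1 ≤ w := hZ₀.trans hw
  have hw0 : 0 < w := by linarith
  have hZ0 : 0 < Z₀ := by linarith
  have e1 := DS_split (a := 4) (by norm_num) hA (S := Near Z₁) (S₁ := IsCube)
    (S₂ := fun r => Near Z₁ r ∧ ¬ IsCube r)
    (fun r _ => ⟨fun h => by tauto, fun h => h.elim (near_of_cube (hZ₀.trans hZ)) (·.1)⟩)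
    (fun r _ h h' => h'.2 h) hur hu0 hvr hv0
  have e2 := DS_split (a := 4) (by norm_num) hA (S := fun r => Near Z₁ r ∧ ¬ IsCube r)
    (S₁ := fun r => Near Z₀ r ∧ ¬ IsCube r) (S₂ := fun r => Near Z₁ r ∧ ¬ Near Z₀ r)
    (fun r _ => ⟨fun h => by tauto, fun h => h.elim (fun h => ⟨h.1.mono hZ, h.2⟩)
      (fun h => ⟨h.1, fun hc => h.2 (near_of_cube hZ₀ hc)⟩)⟩)
    (fun r _ h h' => h'.2 h.1) hur hu0 hvr hv0
  have b0 := h₀ A u v hA hu.supp hur hv.supp hvr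
  have b1 := h₁ A M₁ M₂ B₁ B₂ w Λ u v hA hB₁ hB₂ hw0 hΛ hR hu hv
  have b2 := hT A M₁ M₂ B₁ B₂ _ _ _ _ hA hM₁ hM₂ hB₁ hB₂ (by positivity) (by positivity)
    (dom_RW _ hur hu0) (dom_RW _ hvr hv0) (h₂ u M₁ B₁ w _ Z₀ Λ hB₁ hRs hZ₀ hw hΛ hR hu)
    (h₂ v M₂ B₂ w _ Z₀ Λ hB₂ hRs hZ₀ hw hΛ hR hv)
  have b3 := hT A M₁ M₂ B₁ B₂ _ _ _ _ hA hM₁ hM₂ hB₁ hB₂ (by positivity) (by positivity)
    (dom_RW _ hur hu0) (dom_RW _ hvr hv0)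
    (h₃ u M₁ B₁ _ Z₀ Z₁ hB₁ hRs hZ0 (hZ₀.trans hZ) hZ₁ hu.supp hu.ev)
    (h₃ v M₂ B₂ _ Z₀ Z₁ hB₂ hRs hZ0 (hZ₀.trans hZ) hZ₂ hv.supp hv.ev)
  rw [Real.sqrt_mul_self (by positivity)] at b2 b3
  set X := A ^ (3 / 4 : ℝ) * (∑' n : O, ‖u n‖ * Nr n ^ (-(1 / 4) : ℝ)) *
    (∑' n : O, ‖v n‖ * Nr n ^ (-(1 / 4) : ℝ)) with hX
  have hn1 : ∀ f : O → ℂ, 0 ≤ ∑' n : O, ‖f n‖ * Nr n ^ (-(1 / 4) : ℝ) := fun f =>
    tsum_nonneg fun n => mul_nonneg (norm_nonneg _) (Real.rpow_nonneg (Nr_nonneg n) _)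
  have hX0 : 0 ≤ X := mul_nonneg (mul_nonneg (by positivity) (hn1 u)) (hn1 v)
  set P := A ^ (2 / 3 : ℝ) * (M₁ * B₁ ^ (5 / 6 : ℝ)) * (M₂ * B₂ ^ (5 / 6 : ℝ)) with hP
  have hP0 : 0 ≤ P := by positivity
  set g := Λ ^ 2 * Z₀ ^ (2 / 3 : ℝ) / w + Z₀ ^ (-(1 / 3) : ℝ) with hg
  have hz1 : 1 ≤ Z₀ ^ (2 / 3 : ℝ) := Real.one_le_rpow hZ₀ (by norm_num)
  have hz2 : 0 ≤ Z₀ ^ (-(1 / 3) : ℝ) := by positivity
  have g1 : Λ ^ 2 / w ≤ g := by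
    have : Λ ^ 2 / w ≤ Λ ^ 2 * Z₀ ^ (2 / 3 : ℝ) / w :=
      div_le_div_of_nonneg_right (le_mul_of_one_le_right (by positivity) hz1) hw0.le
    linarith
  have g2 : Z₀ ^ (2 / 3 : ℝ) * Λ ^ 2 / w ^ 2 ≤ g := by
    have : Z₀ ^ (2 / 3 : ℝ) * Λ ^ 2 / w ^ 2 ≤ Λ ^ 2 * Z₀ ^ (2 / 3 : ℝ) / w := by
      rw [mul_comm]
      exact div_le_div_of_nonneg_left (by positivity) hw0 (by nlinarith)
    linarith
  have g3' : Z₀ ^ (-(1 / 3) : ℝ) ≤ g := le_add_of_nonneg_left (by positivity)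
  have hg0 : 0 ≤ g := hz2.trans g3'
  have c0' : ‖DS 4 A (RC u) (RC v) - κ₀ * ((A ^ (2 / 3 : ℝ) : ℝ) : ℂ) * (mm u * conj (mm v))‖ ≤
      C₀ * (X + P * g) := by
    refine b0.trans ?_
    have : 0 ≤ C₀ * (P * g) := by positivity
    calc _ = C₀ * X := by rw [hX]; ring
      _ ≤ _ := by linarith [mul_add C₀ X (P * g)]
  have key : ∀ {D e y : ℝ}, 0 ≤ D → e ≤ g → y ≤ D * P * e → y ≤ D * (X + P * g) := by
    intro D e y hD he hy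
    refine hy.trans ?_
    rw [mul_assoc]
    refine mul_le_mul_of_nonneg_left ?_ hD
    have := mul_le_mul_of_nonneg_left he hP0
    linarith
  have c1 := key hC₁ g1 (b1.trans (le_of_eq (by rw [hP]; ring)))
  have c2 := key (D := C * C₂) (by positivity) g2 (b2.trans (le_of_eq (by rw [hP]; ring)))
  have c3 := key (D := C * C₃) (by positivity) g3' (b3.trans (le_of_eq (by rw [hP]; ring)))
  rw [e1, e2]
  have hY : 0 ≤ X + P * g := by positivity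
  have tri : ∀ a b c d e : ℂ, ‖a + (b + c) - e‖ ≤ ‖d - e‖ + ‖a - d‖ + ‖b‖ + ‖c‖ := by
    intro a b c d e
    rw [show a + (b + c) - e = d - e + (a - d) + b + c by ring]
    exact norm_add₄_le
  refine (tri _ _ _ (DS 4 A (RC u) (RC v)) _).trans ?_
  have h22 : 0 ≤ C * C₂ * (X + P * g) := by positivity
  have h33 : 0 ≤ C * C₃ * (X + P * g) := by positivity
  nlinarith [c0', c1, c2, c3]

/-- `T2g` with `RG_far` (`η = 1/10`, gain `A^{-c₁}`) for `u` and `RG_loss` (loss `A^{c₁/2}`) for `v`;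
`η₁ = min η (1/10)`, `c = c₁ / 4`. -/
theorem far_cross : ∃ η₁ : ℝ, 0 < η₁ ∧ η₁ ≤ 1 / 10 ∧ ∃ c : ℝ, 0 < c ∧ ∃ C : ℝ, 0 ≤ C ∧
    ∀ (A M₁ M₂ B : ℝ) (u v : O → ℂ), 1 ≤ A → A ^ (2 / 5 : ℝ) ≤ B → B ≤ A ^ (1 + η₁) →
    Supp 1 u → EV M₁ B u → Supp 1 v → EV M₂ (A ^ (9 / 10 : ℝ)) v →
    ‖DS 4 A (RW (Far (A ^ (1 / 20 : ℝ))) u) (RW (Far (A ^ (1 / 20 : ℝ))) v)‖ ≤
        C * A ^ (2 / 3 - c) * (M₁ * B ^ (5 / 6 : ℝ)) * (M₂ * A ^ (3 / 4 : ℝ)) ∧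
      ‖DS 4 A (RW (Far (A ^ (1 / 20 : ℝ))) v) (RW (Far (A ^ (1 / 20 : ℝ))) u)‖ ≤
        C * A ^ (2 / 3 - c) * (M₁ * B ^ (5 / 6 : ℝ)) * (M₂ * A ^ (3 / 4 : ℝ)) := by
  obtain ⟨C, hC, hT⟩ := T2g
  obtain ⟨c, hc, C₁, hC₁, h₁⟩ := RG_far (η := 1 / 10) (by norm_num)
  obtain ⟨η, hη, C₂, hC₂, h₂⟩ := RG_loss (c := c / 2) (by positivity)
  refine ⟨min η (1 / 10), lt_min hη (by norm_num), min_le_right _ _, c / 4, by positivity,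
    C * (C₁ + C₂), by positivity, fun A M₁ M₂ B u v hA hB₁ hB₂ hu hue hv hve => ?_⟩
  have hA0 : 0 < A := by linarith
  have hB : 0 < B := lt_of_lt_of_le (by positivity) hB₁
  have hB' : 0 < A ^ (9 / 10 : ℝ) := by positivity
  have hu0 := supp_zero hu
  have hv0 := supp_zero hv
  have hur := hue.rap hB hu0
  have hvr := hve.rap hB' hv0
  have hM₁ := hue.nonneg
  have hM₂ := hve.nonneg
  have hη₁ := min_le_left η (1 / 10)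
  have hη₂ := min_le_right η (1 / 10)
  have hBA : B ≤ A ^ 2 := hB₂.trans (by
    rw [← Real.rpow_natCast]
    exact Real.rpow_le_rpow_of_exponent_le hA (by push_cast; linarith))
  have hBA' : A ^ (9 / 10 : ℝ) ≤ A ^ 2 := by
    rw [← Real.rpow_natCast]
    exact Real.rpow_le_rpow_of_exponent_le hA (by norm_num)
  have hRs : 0 < B * A ^ (9 / 10 : ℝ) / (A * 4) := by positivity
  have r1 : B * A ^ (9 / 10 : ℝ) / (A * 4) ≤ B * A ^ (-(1 / 10) : ℝ) := by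
    have : A ^ (9 / 10 : ℝ) = A ^ (-(1 / 10) : ℝ) * A := by
      rw [← Real.rpow_add_one hA0.ne']; norm_num
    rw [this, div_le_iff₀ (by positivity)]
    have : 0 ≤ B * A ^ (-(1 / 10) : ℝ) * A := by positivity
    nlinarith
  have r2 : B * A ^ (9 / 10 : ℝ) / (A * 4) ≤ A ^ (9 / 10 : ℝ) * A ^ η := by
    have h3 : B ≤ A ^ η * A := hB₂.trans (by
      rw [← Real.rpow_add_one hA0.ne']
      exact Real.rpow_le_rpow_of_exponent_le hA (by linarith))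
    rw [div_le_iff₀ (by positivity)]
    have h4 := mul_le_mul_of_nonneg_right h3 hB'.le
    have : 0 ≤ A ^ η * A * A ^ (9 / 10 : ℝ) := by positivity
    nlinarith
  have g1 := h₁ u A M₁ B _ hA hB₁ hBA hRs r1 hu hue
  have g2 := h₂ (Far (A ^ (1 / 20 : ℝ))) v A M₂ _ _ hA hB' hBA' hRs r2 hv hve
  have b1 := hT A M₁ M₂ B _ _ _ _ _ hA0 hM₁ hM₂ hB hB' (by positivity) (by positivity)
    (dom_RW _ hur hu0) (dom_RW _ hvr hv0) g1 g2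
  rw [mul_comm B] at g1 g2
  have b2 := hT A M₂ M₁ _ B _ _ _ _ hA0 hM₂ hM₁ hB' hB (by positivity) (by positivity)
    (dom_RW _ hvr hv0) (dom_RW _ hur hu0) g2 g1
  have s1 : Real.sqrt (C₁ * A ^ (-c) * (C₂ * A ^ (c / 2))) ≤ (C₁ + C₂) * A ^ (-(c / 4)) := by
    refine da2_sqrt hC₁ hC₂ (by positivity) (le_of_eq ?_)
    rw [← Real.rpow_add hA0, ← Real.rpow_natCast, ← Real.rpow_mul hA0.le]
    congr 1
    push_cast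
    ring
  have e1 : (A ^ (9 / 10 : ℝ)) ^ (5 / 6 : ℝ) = A ^ (3 / 4 : ℝ) := by
    rw [← Real.rpow_mul hA0.le]; norm_num
  have e2 : A ^ (2 / 3 - c / 4) = A ^ (2 / 3 : ℝ) * A ^ (-(c / 4)) := by
    rw [← Real.rpow_add hA0]; rfl
  rw [e1] at b1 b2
  rw [mul_comm (C₂ * _)] at b2
  constructor
  · refine (b1.trans (mul_le_mul_of_nonneg_left s1 (by positivity))).trans (le_of_eq ?_)
    rw [e2]; ring
  · refine (b2.trans (mul_le_mul_of_nonneg_left s1 (by positivity))).trans (le_of_eq ?_)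
    rw [e2]; ring

/-- `T2g` with `RG_far` on both sides. -/
theorem far_unb {η : ℝ} (hη : 0 < η) : ∃ c : ℝ, 0 < c ∧ ∃ C : ℝ, 0 ≤ C ∧
    ∀ (A M B : ℝ) (u : O → ℂ), 1 ≤ A → A ^ (2 / 5 : ℝ) ≤ B → B ≤ A ^ (1 - η) → Supp 1 u → EV M B u →
    ‖DS 4 A (RW (Far (A ^ (1 / 20 : ℝ))) u) (RW (Far (A ^ (1 / 20 : ℝ))) u)‖ ≤
      C * A ^ (2 / 3 - c) * M ^ 2 * B ^ (5 / 3 : ℝ) := by
  obtain ⟨C, hC, hT⟩ := T2g
  obtain ⟨c, hc, C₁, hC₁, h₁⟩ := RG_far hη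
  refine ⟨c, hc, C * C₁, by positivity, fun A M B u hA hB₁ hB₂ hu hue => ?_⟩
  have hA0 : 0 < A := by linarith
  have hB : 0 < B := lt_of_lt_of_le (by positivity) hB₁
  have hu0 := supp_zero hu
  have hur := hue.rap hB hu0
  have hM := hue.nonneg
  have hBA : B ≤ A ^ 2 := hB₂.trans (by
    rw [← Real.rpow_natCast]
    exact Real.rpow_le_rpow_of_exponent_le hA (by push_cast; linarith))
  have hRs : 0 < B * B / (A * 4) := by positivity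
  have r1 : B * B / (A * 4) ≤ B * A ^ (-η) := by
    have h3 : B ≤ A ^ (-η) * A := hB₂.trans (le_of_eq (by
      rw [← Real.rpow_add_one hA0.ne']; congr 1; ring))
    rw [div_le_iff₀ (by positivity)]
    have h4 := mul_le_mul_of_nonneg_left h3 hB.le
    have : 0 ≤ B * (A ^ (-η) * A) := by positivity
    nlinarith
  have g1 := h₁ u A M B _ hA hB₁ hBA hRs r1 hu hue
  have b1 := hT A M M B B _ _ _ _ hA0 hM hM hB hB (by positivity) (by positivity)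
    (dom_RW _ hur hu0) (dom_RW _ hur hu0) g1 g1
  rw [Real.sqrt_mul_self (by positivity)] at b1
  refine b1.trans (le_of_eq ?_)
  have e1 : B ^ (5 / 3 : ℝ) = B ^ (5 / 6 : ℝ) * B ^ (5 / 6 : ℝ) := by
    rw [← Real.rpow_add hB]; norm_num
  have e2 : A ^ (2 / 3 - c) = A ^ (2 / 3 : ℝ) * A ^ (-c) := by
    rw [← Real.rpow_add hA0]; rfl
  rw [e1, e2]; ring

theorem da2_Rs {k η₀ A m₁ m₂ : ℝ} (hk : 0 ≤ k) (hk' : k ≤ η₀) (hA : 1 ≤ A) (h₁ : 0 < m₁)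
    (h₁' : m₁ ≤ A ^ (1 - η₀)) (h₂ : 0 < m₂) (h₂' : m₂ ≤ A ^ (1 - η₀)) :
    (m₁ * m₂ / (A * 4)) ^ (1 + k) ≤ m₁ := by
  have hA0 : 0 < A := by linarith
  have h4 : m₁ * m₂ / (A * 4) ≤ m₁ * m₂ / A :=
    div_le_div_of_nonneg_left (by positivity) hA0 (by linarith)
  refine (Real.rpow_le_rpow (by positivity) h4 (by linarith)).trans ?_
  have ha := Real.log_nonneg hA
  obtain ⟨a, rfl⟩ : ∃ a, A = Real.exp a := ⟨_, (Real.exp_log hA0).symm⟩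
  obtain ⟨b, rfl⟩ : ∃ a, m₁ = Real.exp a := ⟨_, (Real.exp_log h₁).symm⟩
  obtain ⟨c, rfl⟩ : ∃ a, m₂ = Real.exp a := ⟨_, (Real.exp_log h₂).symm⟩
  rw [Real.log_exp] at ha
  simp only [← Real.exp_mul, ← Real.exp_add, ← Real.exp_sub, Real.exp_le_exp] at h₁' h₂' ⊢
  have h5 : 0 ≤ a * η₀ := mul_nonneg ha (hk.trans hk')
  nlinarith [mul_le_mul_of_nonneg_left h₁' hk, mul_le_mul_of_nonneg_left h₂' hk,
    mul_le_mul_of_nonneg_left hk' ha, mul_nonneg hk h5]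

/-- `DS_free` with `κ = 1 + min η₀ (1/2)`. -/
theorem dterm {η₀ : ℝ} (h : 0 < η₀) : ∃ C : ℝ, 0 ≤ C ∧ ∀ (A m₁ m₂ : ℝ) (f g : O → ℂ), 1 ≤ A →
    0 < m₁ → m₁ ≤ A ^ (1 - η₀) → 0 < m₂ → m₂ ≤ A ^ (1 - η₀) → Supp 1 f → Rap f → Supp 1 g → Rap g →
    ‖DS 4 A (RW All f) (RW All g)‖ ≤ C * A ^ (2 / 3 : ℝ) *
      (m₁ ^ (2 / 3 : ℝ) * nrm m₁ f + m₂ ^ (2 / 3 : ℝ) * nrm m₂ g) := by
  have hk0 : 0 < min η₀ (1 / 2) := lt_min h (by norm_num)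
  have hk1 := min_le_left η₀ (1 / 2)
  have hk2 := min_le_right η₀ (1 / 2)
  obtain ⟨C, hC, hD⟩ := DS_free (κ := 1 + min η₀ (1 / 2)) (by linarith) (by linarith)
  refine ⟨C * 4 ^ (1 / 6 : ℝ), by positivity,
    fun A m₁ m₂ f g hA h₁ h₁' h₂ h₂' hf hfr hg hgr => ?_⟩
  have hA0 : 0 < A := by linarith
  have b := hD All 4 A m₁ m₂ f g (by norm_num) le_rfl hA0 h₁ h₂
    (da2_Rs hk0.le hk1 hA h₁ h₁' h₂ h₂') (by rw [mul_comm m₁]; exact da2_Rs hk0.le hk1 hA h₂ h₂' h₁ h₁')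
    hf hfr hg hgr
  refine b.trans ?_
  have n1 := nrm_nonneg h₁ f
  have n2 := nrm_nonneg h₂ g
  have e : (m₁ * m₂) ^ (1 / 3 : ℝ) * Real.sqrt (nrm m₁ f * nrm m₂ g) ≤
      m₁ ^ (2 / 3 : ℝ) * nrm m₁ f + m₂ ^ (2 / 3 : ℝ) * nrm m₂ g := by
    have e1 : ∀ {m : ℝ}, 0 < m → m ^ (2 / 3 : ℝ) = (m ^ (1 / 3 : ℝ)) ^ 2 := fun hm => by
      rw [← Real.rpow_natCast, ← Real.rpow_mul hm.le]; norm_num
    rw [Real.mul_rpow h₁.le h₂.le, Real.sqrt_mul n1, e1 h₁, e1 h₂]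
    have s1 := Real.sq_sqrt n1
    have s2 := Real.sq_sqrt n2
    set x := Real.sqrt (nrm m₁ f)
    set y := Real.sqrt (nrm m₂ g)
    rw [← s1, ← s2]
    nlinarith [sq_nonneg (m₁ ^ (1 / 3 : ℝ) * x - m₂ ^ (1 / 3 : ℝ) * y),
      sq_nonneg (m₁ ^ (1 / 3 : ℝ) * x), sq_nonneg (m₂ ^ (1 / 3 : ℝ) * y)]
  calc _ = C * 4 ^ (1 / 6 : ℝ) * A ^ (2 / 3 : ℝ) *
        ((m₁ * m₂) ^ (1 / 3 : ℝ) * Real.sqrt (nrm m₁ f * nrm m₂ g)) := by ring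
    _ ≤ _ := mul_le_mul_of_nonneg_left e (by positivity)

/-- The forms with `d ≠ 1`: `DS_RW_sub`, `dterm`, `norm_ud`, `nrm_mono`;
`b = C A^{2/3} (de m₁ u + de m₂ v)`. -/
theorem dsum {η₀ : ℝ} (h : 0 < η₀) : ∃ C : ℝ, 0 ≤ C ∧ ∀ (A E₁ E₂ : ℝ) (u v : O → ℂ), 1 ≤ A →
    Supp 1 u → Rap u → Supp 1 v → Rap v → DE (A ^ (1 - η₀)) u E₁ → DE (A ^ (1 - η₀)) v E₂ →
    ∃ b : O → ℝ, Summable b ∧ (∀ d, 0 ≤ b d) ∧ ∑' d, b d ≤ C * A ^ (2 / 3 : ℝ) * (E₁ + E₂) ∧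
      ∀ d, Prim d → d ≠ 1 →
        ‖DS 4 A (RW All (ud (fun n => (u n - v n) * gt n) d))
          (RW All (ud (fun n => (u n - v n) * gt n) d))‖ ≤ b d := by
  obtain ⟨C, hC, hD⟩ := dterm h
  refine ⟨4 * C, by positivity, fun A E₁ E₂ u v hA hu hur hv hvr ⟨m₁, hm₁, hs₁, hE₁⟩
    ⟨m₂, hm₂, hs₂, hE₂⟩ => ?_⟩
  have hA0 : 0 < A := by linarith
  have hde : ∀ (m : O → ℝ) (f : O → ℂ), (∀ d, 0 < m d) → ∀ d, 0 ≤ de m f d := fun m f hm d => by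
    unfold de
    split_ifs
    · exact mul_nonneg (Real.rpow_nonneg (hm d).le _) (nrm_nonneg (hm d) _)
    · exact le_rfl
  refine ⟨fun d => 4 * C * A ^ (2 / 3 : ℝ) * (de m₁ u d + de m₂ v d), (hs₁.add hs₂).mul_left _,
    fun d => mul_nonneg (by positivity) (add_nonneg (hde _ _ (fun d => (hm₁ d).1) d)
      (hde _ _ (fun d => (hm₂ d).1) d)), ?_, fun d hd hd1 => ?_⟩
  · rw [tsum_mul_left, hs₁.tsum_add hs₂]
    exact mul_le_mul_of_nonneg_left (add_le_add hE₁ hE₂) (by positivity)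
  have aux : ∀ {f : O → ℂ}, Supp 1 f → Rap f → ∀ {m : ℝ}, 0 < m →
      Supp 1 (ud (fun n => f n * gt n) d) ∧ Rap (ud (fun n => f n * gt n) d) ∧
      nrm m (ud (fun n => f n * gt n) d) ≤ nrm m (fun n => f (d * n)) := by
    intro f hf hfr m hm
    have h1 : ∀ n, ‖f n * gt n‖ ≤ 1 * ‖f n‖ := fun n => by rw [norm_mul_gt hf, one_mul]
    have hs := supp_of_le hf h1
    refine ⟨supp_ud hs hd, rap_ud hs (rap_of_le hfr h1) hd,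
      nrm_mono hm (rap_dil hfr hd.ne_zero) fun n => ?_⟩
    rw [norm_ud hs hd, norm_mul_gt hf]
  obtain ⟨f1, f2, f3⟩ := aux hu hur (hm₁ d).1
  obtain ⟨g1, g2, g3'⟩ := aux hv hvr (hm₂ d).1
  have e : ud (fun n => (u n - v n) * gt n) d =
      fun n => ud (fun n => u n * gt n) d n - ud (fun n => v n * gt n) d n := by
    funext n
    unfold ud
    ring
  rw [e, DS_RW_sub (by norm_num) hA0 All f2 (supp_zero f1) g2 (supp_zero g1)]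
  have x1 : m₁ d ^ (2 / 3 : ℝ) * nrm (m₁ d) (ud (fun n => u n * gt n) d) ≤ de m₁ u d := by
    unfold de
    rw [if_pos ⟨hd, hd1⟩]
    exact mul_le_mul_of_nonneg_left f3 (Real.rpow_nonneg (hm₁ d).1.le _)
  have x2 : m₂ d ^ (2 / 3 : ℝ) * nrm (m₂ d) (ud (fun n => v n * gt n) d) ≤ de m₂ v d := by
    unfold de
    rw [if_pos ⟨hd, hd1⟩]
    exact mul_le_mul_of_nonneg_left g3' (Real.rpow_nonneg (hm₂ d).1.le _)
  have hCA : 0 ≤ C * A ^ (2 / 3 : ℝ) := by positivity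
  have b11 := (hD A _ _ _ _ hA (hm₁ d).1 (hm₁ d).2 (hm₁ d).1 (hm₁ d).2 f1 f2 f1 f2).trans
    (mul_le_mul_of_nonneg_left (add_le_add x1 x1) hCA)
  have b12 := (hD A _ _ _ _ hA (hm₁ d).1 (hm₁ d).2 (hm₂ d).1 (hm₂ d).2 f1 f2 g1 g2).trans
    (mul_le_mul_of_nonneg_left (add_le_add x1 x2) hCA)
  have b21 := (hD A _ _ _ _ hA (hm₂ d).1 (hm₂ d).2 (hm₁ d).1 (hm₁ d).2 g1 g2 f1 f2).trans
    (mul_le_mul_of_nonneg_left (add_le_add x2 x1) hCA)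
  have b22 := (hD A _ _ _ _ hA (hm₂ d).1 (hm₂ d).2 (hm₂ d).1 (hm₂ d).2 g1 g2 g1 g2).trans
    (mul_le_mul_of_nonneg_left (add_le_add x2 x2) hCA)
  have tri : ∀ a b c e : ℂ, ‖a - b - c + e‖ ≤ ‖a‖ + ‖b‖ + ‖c‖ + ‖e‖ := fun a b c e =>
    (norm_add_le _ _).trans (add_le_add ((norm_sub_le _ _).trans
      (add_le_add (norm_sub_le _ _) le_rfl)) le_rfl)
  refine (tri _ _ _ _).trans ?_
  beta_reduce
  linarith

end Crest.Agent.R012.D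

end
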