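import Crest.Agent.R012.DA2

/-! # Row 12, dispersion: the main term cancels -/

set_option autoImplicit false

noncomputable section

open scoped BigOperators ComplexConjugate Topology
open Complex MeasureTheory Filter Set Crest.Agent.R017

namespace Crest.Agent.R012.D

theorem da3_V {A : ℝ} (hA : 0 ≤ A) : (A ^ (9 / 10 : ℝ)) ^ (5 / 6 : ℝ) = A ^ (3 / 4 : ℝ) := by
  rw [← Real.rpow_mul hA]; norm_num

theorem da3_four (K a b c d : ℂ) : ‖a - b - c + d‖ ≤ ‖a - K‖ + ‖b - K‖ + ‖c - K‖ + ‖d - K‖ := by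
  rw [show a - b - c + d = (a - K) - (b - K) - (c - K) + (d - K) by ring]
  exact (norm_add_le _ _).trans (add_le_add ((norm_sub_le _ _).trans
    (add_le_add (norm_sub_le _ _) le_rfl)) le_rfl)

theorem da3_pair : ∃ κ₀ : ℂ, ∃ C : ℝ, 0 ≤ C ∧ ∀ (A M₁ M₂ B₁ B₂ P w Z₀ Λ : ℝ) (u v : O → ℂ),
    1 ≤ A → A ^ (2 / 5 : ℝ) ≤ B₁ → B₁ ≤ A ^ (3 / 2 : ℝ) → A ^ (2 / 5 : ℝ) ≤ B₂ →
    B₂ ≤ A ^ (3 / 2 : ℝ) → 1 ≤ Z₀ → Z₀ ≤ w → Z₀ ≤ A ^ (1 / 20 : ℝ) → 1 ≤ Λ →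
    A ^ 2 ≤ Real.exp Λ → Good M₁ B₁ w u → Good M₂ B₂ w v → M₁ * B₁ ^ (5 / 6 : ℝ) ≤ P →
    M₂ * B₂ ^ (5 / 6 : ℝ) ≤ P →
    ‖DS 4 A (RW (Near (A ^ (1 / 20 : ℝ))) u) (RW (Near (A ^ (1 / 20 : ℝ))) v) -
        κ₀ * ((A ^ (2 / 3 : ℝ) : ℝ) : ℂ) * (mm u * conj (mm v))‖ ≤
      C * (A ^ (3 / 4 : ℝ) * (∑' n : O, ‖u n‖ * Nr n ^ (-(1 / 4) : ℝ)) *
          (∑' n : O, ‖v n‖ * Nr n ^ (-(1 / 4) : ℝ)) +
        A ^ (2 / 3 : ℝ) * P ^ 2 * (Λ ^ 2 * Z₀ ^ (2 / 3 : ℝ) / w + Z₀ ^ (-(1 / 3) : ℝ))) := by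
  obtain ⟨κ₀, C, hC, h⟩ := pair_near
  refine ⟨κ₀, C, hC, ?_⟩
  intro A M₁ M₂ B₁ B₂ P w Z₀ Λ u v hA h1 h1' h2 h2' hZ hZw hZA hΛ hAΛ hu hv hP₁ hP₂
  have hA0 : 0 < A := by linarith
  have hB₁ : 0 < B₁ := (Real.rpow_pos_of_pos hA0 _).trans_le h1
  have hB₂ : 0 < B₂ := (Real.rpow_pos_of_pos hA0 _).trans_le h2
  have hZ0 : 0 < Z₀ := by linarith
  have hw : 0 < w := by linarith
  have hM₁ := hu.ev.nonneg
  have hM₂ := hv.ev.nonneg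
  have hP : 0 ≤ P := le_trans (by positivity) hP₁
  have hz : ∀ B, A ^ (2 / 5 : ℝ) ≤ B → (A ^ (1 / 20 : ℝ)) ^ 2 ≤ B * Z₀ ^ (-(1 / 3) : ℝ) := by
    intro B hB
    have a1 := Real.rpow_le_rpow_of_nonpos hZ0 hZA (show (-(1 / 3) : ℝ) ≤ 0 by norm_num)
    calc _ ≤ A ^ (2 / 5 : ℝ) * (A ^ (1 / 20 : ℝ)) ^ (-(1 / 3) : ℝ) := by
          rw [← Real.rpow_mul hA0.le, ← Real.rpow_add hA0, ← Real.rpow_natCast,
            ← Real.rpow_mul hA0.le]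
          exact Real.rpow_le_rpow_of_exponent_le hA (by norm_num)
      _ ≤ _ := mul_le_mul hB a1 (by positivity) ((Real.rpow_nonneg hA0.le _).trans hB)
  refine (h A M₁ M₂ B₁ B₂ w Z₀ _ Λ u v hA0 hB₁ hB₂ hZ hZw hZA hΛ ?_ (hz _ h1) (hz _ h2)
    hu hv).trans ?_
  · refine le_trans ?_ hAΛ
    have a1 : A ^ (3 / 2 : ℝ) * A ^ (3 / 2 : ℝ) = A ^ 3 := by
      rw [← Real.rpow_add hA0, ← Real.rpow_natCast]; norm_num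
    have a2 : B₁ * B₂ ≤ A ^ 3 := a1 ▸ mul_le_mul h1' h2' hB₂.le (by positivity)
    rw [div_le_iff₀ (by positivity)]
    nlinarith [pow_pos hA0 3]
  · rw [sq P, ← mul_assoc (A ^ (2 / 3 : ℝ)) P P]
    gcongr

/-- The near rows of the form `d = 1`: `DS_RW_sub`, `pair_near` four times with `Z₁ = A^{1/20}`;
the main terms cancel as `mm u = mm v`. For the pair `(u, u)` use `l1_sq_le_nrm`, for the other
pairs `EV_sum_le` and `B A^{9/10} ≥ A^{13/10}`. -/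
theorem near_sub : ∃ C : ℝ, 0 ≤ C ∧ ∀ (A B M₁ M₂ P w Z₀ Λ : ℝ) (u v : O → ℂ), 1 ≤ A →
    A ^ (2 / 5 : ℝ) ≤ B → B ≤ A ^ (3 / 2 : ℝ) → 1 ≤ Z₀ → Z₀ ≤ w → Z₀ ≤ A ^ (1 / 20 : ℝ) → 1 ≤ Λ →
    A ^ 2 ≤ Real.exp Λ → Good M₁ B w u → Good M₂ (A ^ (9 / 10 : ℝ)) w v → mm u = mm v →
    M₁ * B ^ (5 / 6 : ℝ) ≤ P → M₂ * A ^ (3 / 4 : ℝ) ≤ P →
    ‖DS 4 A (RW (Near (A ^ (1 / 20 : ℝ))) fun n => u n - v n)
        (RW (Near (A ^ (1 / 20 : ℝ))) fun n => u n - v n)‖ ≤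
      C * (A ^ (3 / 4 : ℝ) * B ^ (1 / 2 : ℝ) * nrm B u + A ^ (2 / 3 : ℝ) * P ^ 2 *
        (Λ ^ 2 * Z₀ ^ (2 / 3 : ℝ) / w + Z₀ ^ (-(1 / 3) : ℝ) + A ^ (-(1 / 40) : ℝ))) := by
  obtain ⟨κ₀, C₁, hC₁, h₁⟩ := da3_pair
  obtain ⟨C₂, hC₂, h₂⟩ := l1_sq_le_nrm (y := -(1 / 4)) (by norm_num) (by norm_num)
  obtain ⟨C₃, hC₃, h₃⟩ := EV_sum_le (x := -(1 / 4)) (by norm_num)
  refine ⟨C₁ * (C₂ + 3 * C₃ ^ 2 + 4), by positivity, ?_⟩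
  intro A B M₁ M₂ P w Z₀ Λ u v hA hB hB' hZ hZw hZA hΛ hAΛ hu hv hm hP₁ hP₂
  have hA0 : 0 < A := by linarith
  have hB0 : 0 < B := (Real.rpow_pos_of_pos hA0 _).trans_le hB
  have hV0 : 0 < A ^ (9 / 10 : ℝ) := Real.rpow_pos_of_pos hA0 _
  have hV : A ^ (2 / 5 : ℝ) ≤ A ^ (9 / 10 : ℝ) :=
    Real.rpow_le_rpow_of_exponent_le hA (by norm_num)
  have hV' : A ^ (9 / 10 : ℝ) ≤ A ^ (3 / 2 : ℝ) :=
    Real.rpow_le_rpow_of_exponent_le hA (by norm_num)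
  have hP₂' : M₂ * (A ^ (9 / 10 : ℝ)) ^ (5 / 6 : ℝ) ≤ P := by rwa [da3_V hA0.le]
  have hu0 := supp_zero hu.supp
  have hv0 := supp_zero hv.supp
  have hur := hu.ev.rap hB0 hu0
  have hvr := hv.ev.rap hV0 hv0
  have hM₁ := hu.ev.nonneg
  have hM₂ := hv.ev.nonneg
  have hP : 0 ≤ P := le_trans (by positivity) hP₁
  have e₁ := h₁ A M₁ M₁ B B P w Z₀ Λ u u hA hB hB' hB hB' hZ hZw hZA hΛ hAΛ hu hu hP₁ hP₁
  have e₂ := h₁ A M₁ M₂ B _ P w Z₀ Λ u v hA hB hB' hV hV' hZ hZw hZA hΛ hAΛ hu hv hP₁ hP₂'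
  have e₃ := h₁ A M₂ M₁ _ B P w Z₀ Λ v u hA hV hV' hB hB' hZ hZw hZA hΛ hAΛ hv hu hP₂' hP₁
  have e₄ := h₁ A M₂ M₂ _ _ P w Z₀ Λ v v hA hV hV' hV hV' hZ hZw hZA hΛ hAΛ hv hv hP₂' hP₂'
  rw [← hm] at e₂ e₃ e₄
  rw [DS_RW_sub (by norm_num) hA0 _ hur hu0 hvr hv0]
  set K := κ₀ * ((A ^ (2 / 3 : ℝ) : ℝ) : ℂ) * (mm u * conj (mm u))
  set Su := ∑' n : O, ‖u n‖ * Nr n ^ (-(1 / 4) : ℝ)
  set Sv := ∑' n : O, ‖v n‖ * Nr n ^ (-(1 / 4) : ℝ)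
  have hSu0 : 0 ≤ Su := tsum_nonneg fun n => mul_nonneg (norm_nonneg _)
    (Real.rpow_nonneg (Nr_nonneg n) _)
  have hSv0 : 0 ≤ Sv := tsum_nonneg fun n => mul_nonneg (norm_nonneg _)
    (Real.rpow_nonneg (Nr_nonneg n) _)
  have hSu : Su ≤ C₃ * P * A ^ (-(1 / 30) : ℝ) := by
    refine (h₃ M₁ B u hB0 hu0 hu.ev).trans ?_
    have a1 : B ^ (1 + -(1 / 4) : ℝ) = B ^ (5 / 6 : ℝ) * B ^ (-(1 / 12) : ℝ) := by
      rw [← Real.rpow_add hB0]; norm_num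
    have a2 : B ^ (-(1 / 12) : ℝ) ≤ A ^ (-(1 / 30) : ℝ) := by
      refine (Real.rpow_le_rpow_of_nonpos (Real.rpow_pos_of_pos hA0 _) hB (by norm_num)).trans ?_
      rw [← Real.rpow_mul hA0.le]; norm_num
    rw [a1, mul_assoc C₃, ← mul_assoc M₁, mul_assoc C₃]
    gcongr
  have hSv : Sv ≤ C₃ * P * A ^ (-(3 / 40) : ℝ) := by
    refine (h₃ M₂ _ v hV0 hv0 hv.ev).trans ?_
    have a1 : (A ^ (9 / 10 : ℝ)) ^ (1 + -(1 / 4) : ℝ) = A ^ (3 / 4 : ℝ) * A ^ (-(3 / 40) : ℝ) := by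
      rw [← Real.rpow_add hA0, ← Real.rpow_mul hA0.le]; norm_num
    rw [a1, mul_assoc C₃, ← mul_assoc M₂, mul_assoc C₃]
    gcongr
  have hSv' : Sv ≤ C₃ * P * A ^ (-(1 / 30) : ℝ) := by
    refine hSv.trans (mul_le_mul_of_nonneg_left ?_ (by positivity))
    exact Real.rpow_le_rpow_of_exponent_le hA (by norm_num)
  set Y := A ^ (2 / 3 : ℝ) * P ^ 2 * A ^ (-(1 / 40) : ℝ) with hY
  have hcross : ∀ S : ℝ, 0 ≤ S → S ≤ C₃ * P * A ^ (-(1 / 30) : ℝ) →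
      A ^ (3 / 4 : ℝ) * S * Sv ≤ C₃ ^ 2 * Y := by
    intro S _ hS
    have a1 : A ^ (3 / 4 : ℝ) * A ^ (-(1 / 30) : ℝ) * A ^ (-(3 / 40) : ℝ) =
        A ^ (2 / 3 : ℝ) * A ^ (-(1 / 40) : ℝ) := by
      rw [← Real.rpow_add hA0, ← Real.rpow_add hA0, ← Real.rpow_add hA0]; norm_num
    calc _ ≤ A ^ (3 / 4 : ℝ) * (C₃ * P * A ^ (-(1 / 30) : ℝ)) * (C₃ * P * A ^ (-(3 / 40) : ℝ)) := by
          gcongr
      _ = C₃ ^ 2 * (P ^ 2 * (A ^ (3 / 4 : ℝ) * A ^ (-(1 / 30) : ℝ) * A ^ (-(3 / 40) : ℝ))) := by ring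
      _ = _ := by rw [a1, hY]; ring
  have c₁ := hcross Su hSu0 hSu
  have c₂ := hcross Sv hSv0 hSv'
  set N := A ^ (3 / 4 : ℝ) * B ^ (1 / 2 : ℝ) * nrm B u with hN
  have hN0 : 0 ≤ N := by have := nrm_nonneg hB0 u; positivity
  have c₀ : A ^ (3 / 4 : ℝ) * Su * Su ≤ C₂ * N := by
    have a1 := h₂ B u hB0 hur hu0
    rw [show (1 + 2 * -(1 / 4) : ℝ) = 1 / 2 by norm_num] at a1
    calc _ = A ^ (3 / 4 : ℝ) * Su ^ 2 := by ring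
      _ ≤ A ^ (3 / 4 : ℝ) * (C₂ * B ^ (1 / 2 : ℝ) * nrm B u) := by gcongr
      _ = _ := by rw [hN]; ring
  set X := A ^ (2 / 3 : ℝ) * P ^ 2 * (Λ ^ 2 * Z₀ ^ (2 / 3 : ℝ) / w + Z₀ ^ (-(1 / 3) : ℝ)) with hX
  have hw : 0 < w := by linarith
  have hZ0 : 0 < Z₀ := by linarith
  have hX0 : 0 ≤ X := by positivity
  have hY0 : 0 ≤ Y := by positivity
  have c₃ : A ^ (3 / 4 : ℝ) * Sv * Su ≤ C₃ ^ 2 * Y := by rwa [mul_right_comm]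
  refine (da3_four K _ _ _ _).trans ?_
  have e : A ^ (2 / 3 : ℝ) * P ^ 2 * (Λ ^ 2 * Z₀ ^ (2 / 3 : ℝ) / w + Z₀ ^ (-(1 / 3) : ℝ) +
      A ^ (-(1 / 40) : ℝ)) = X + Y := by rw [hX, hY]; ring
  rw [e]
  calc _ ≤ C₁ * (C₂ * N + X) + C₁ * (C₃ ^ 2 * Y + X) + C₁ * (C₃ ^ 2 * Y + X) +
        C₁ * (C₃ ^ 2 * Y + X) := by
        refine add_le_add (add_le_add (add_le_add (e₁.trans ?_) (e₂.trans ?_)) (e₃.trans ?_))
          (e₄.trans ?_) <;> gcongr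
    _ = C₁ * (C₂ * N + 3 * C₃ ^ 2 * Y + 4 * X) := by ring
    _ ≤ C₁ * ((C₂ + 3 * C₃ ^ 2 + 4) * (N + (X + Y))) := by
        gcongr
        nlinarith [mul_nonneg hC₂ hX0, mul_nonneg hC₂ hY0, mul_nonneg (sq_nonneg C₃) hX0,
          mul_nonneg (sq_nonneg C₃) hN0]
    _ = _ := by ring

/-- The far rows: `DS_RW_sub`, `far_cross` (also for the pair `(v, v)`). -/
theorem far_sub : ∃ η₁ : ℝ, 0 < η₁ ∧ η₁ ≤ 1 / 10 ∧ ∃ c : ℝ, 0 < c ∧ ∃ C : ℝ, 0 ≤ C ∧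
    ∀ (A B M₁ M₂ P : ℝ) (u v : O → ℂ), 1 ≤ A → A ^ (2 / 5 : ℝ) ≤ B → B ≤ A ^ (1 + η₁) →
    Supp 1 u → EV M₁ B u → Supp 1 v → EV M₂ (A ^ (9 / 10 : ℝ)) v →
    M₁ * B ^ (5 / 6 : ℝ) ≤ P → M₂ * A ^ (3 / 4 : ℝ) ≤ P →
    ‖DS 4 A (RW (Far (A ^ (1 / 20 : ℝ))) fun n => u n - v n)
        (RW (Far (A ^ (1 / 20 : ℝ))) fun n => u n - v n)‖ ≤
      ‖DS 4 A (RW (Far (A ^ (1 / 20 : ℝ))) u) (RW (Far (A ^ (1 / 20 : ℝ))) u)‖ +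
        C * A ^ (2 / 3 - c) * P ^ 2 := by
  obtain ⟨η₁, h1, h2, c, hc, C, hC, h⟩ := far_cross
  refine ⟨η₁, h1, h2, c, hc, 3 * C, by positivity, ?_⟩
  intro A B M₁ M₂ P u v hA hB hB' hu hue hv hve hP₁ hP₂
  have hA0 : 0 < A := by linarith
  have hB0 : 0 < B := (Real.rpow_pos_of_pos hA0 _).trans_le hB
  have hV0 : 0 < A ^ (9 / 10 : ℝ) := Real.rpow_pos_of_pos hA0 _
  have hu0 := supp_zero hu
  have hv0 := supp_zero hv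
  have hM₁ := hue.nonneg
  have hM₂ := hve.nonneg
  have hP : 0 ≤ P := le_trans (by positivity) hP₁
  obtain ⟨e₁, e₂⟩ := h A M₁ M₂ B u v hA hB hB' hu hue hv hve
  obtain ⟨e₃, -⟩ := h A M₂ M₂ _ v v hA (Real.rpow_le_rpow_of_exponent_le hA (by norm_num))
    (Real.rpow_le_rpow_of_exponent_le hA (by linarith)) hv hve hv hve
  rw [da3_V hA0.le] at e₃
  have a1 : C * A ^ (2 / 3 - c) * (M₁ * B ^ (5 / 6 : ℝ)) * (M₂ * A ^ (3 / 4 : ℝ)) ≤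
      C * A ^ (2 / 3 - c) * P * P := by gcongr
  have a2 : C * A ^ (2 / 3 - c) * (M₂ * A ^ (3 / 4 : ℝ)) * (M₂ * A ^ (3 / 4 : ℝ)) ≤
      C * A ^ (2 / 3 - c) * P * P := by gcongr
  rw [DS_RW_sub (by norm_num) hA0 _ (hue.rap hB0 hu0) hu0 (hve.rap hV0 hv0) hv0]
  refine (da3_four 0 _ _ _ _).trans ?_
  simp only [sub_zero]
  nlinarith

theorem da3_DE {T E : ℝ} {u : O → ℂ} (h : DE T u E) : 0 ≤ E := by
  obtain ⟨m, hm, -, h⟩ := h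
  refine le_trans (tsum_nonneg fun d => ?_) h
  unfold de
  split_ifs
  · exact mul_nonneg (Real.rpow_nonneg (hm d).1.le _) (nrm_nonneg (hm d).1 _)
  · exact le_rfl

/-- `QQ_gt_le`, `T0` with `b 1 = ‖DS …‖` and `dsum` elsewhere, `ud_gt_one`, `DS_split`, `near_sub`,
`far_sub`. Diagonal: `A ‖u - v‖² ≤ 2 A nrm B u + C A M₂² A^{9/10}`, and
`A^{19/10} M₂² ≤ A^{2/3 - 4/15} P²`. -/
theorem AS_I : ∃ η₁ : ℝ, 0 < η₁ ∧ η₁ ≤ 1 / 10 ∧ ∃ c : ℝ, 0 < c ∧ ∀ η₀ : ℝ, 0 < η₀ →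
    ∃ C : ℝ, 0 ≤ C ∧ ∀ (A B M₁ M₂ P w Z₀ Λ E₁ E₂ Ef : ℝ) (u v : O → ℂ), 1 ≤ A →
    A ^ (2 / 5 : ℝ) ≤ B → B ≤ A ^ (1 + η₁) → 1 ≤ Z₀ → Z₀ ≤ w → Z₀ ≤ A ^ (1 / 20 : ℝ) → 1 ≤ Λ →
    A ^ 2 ≤ Real.exp Λ → Good M₁ B w u → Good M₂ (A ^ (9 / 10 : ℝ)) w v → mm u = mm v →
    M₁ * B ^ (5 / 6 : ℝ) ≤ P → M₂ * A ^ (3 / 4 : ℝ) ≤ P →
    DE (A ^ (1 - η₀)) u E₁ → DE (A ^ (1 - η₀)) v E₂ →
    ‖DS 4 A (RW (Far (A ^ (1 / 20 : ℝ))) u) (RW (Far (A ^ (1 / 20 : ℝ))) u)‖ ≤ Ef →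
    QQ gt 4 A (fun n => u n - v n) ≤
      C * ((A + A ^ (3 / 4 : ℝ) * B ^ (1 / 2 : ℝ)) * nrm B u + A ^ (2 / 3 : ℝ) * P ^ 2 *
        (Λ ^ 2 * Z₀ ^ (2 / 3 : ℝ) / w + Z₀ ^ (-(1 / 3) : ℝ) + A ^ (-c)) +
        A ^ (2 / 3 : ℝ) * (E₁ + E₂) + Ef) := by
  classical
  obtain ⟨η₁, h1, h2, c, hc, C₁, hC₁, hfar⟩ := far_sub
  obtain ⟨C₂, hC₂, hnear⟩ := near_sub
  obtain ⟨C₃, hC₃, hT⟩ := T0
  obtain ⟨C₄, hC₄, hnrm⟩ := EV_nrm_le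
  refine ⟨η₁, h1, h2, min c (1 / 40), by positivity, fun η₀ hη₀ => ?_⟩
  obtain ⟨C₅, hC₅, hd⟩ := dsum hη₀
  refine ⟨4 * C₃ + 4 * C₃ * C₄ + C₁ + C₂ + C₅ + 1, by positivity, ?_⟩
  intro A B M₁ M₂ P w Z₀ Λ E₁ E₂ Ef u v hA hB hB' hZ hZw hZA hΛ hAΛ hu hv hm hP₁ hP₂ hE₁ hE₂ hEf
  have hA0 : 0 < A := by linarith
  have hB0 : 0 < B := (Real.rpow_pos_of_pos hA0 _).trans_le hB
  have hV0 : 0 < A ^ (9 / 10 : ℝ) := Real.rpow_pos_of_pos hA0 _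
  have hZ0 : 0 < Z₀ := by linarith
  have hw : 0 < w := by linarith
  have hu0 := supp_zero hu.supp
  have hv0 := supp_zero hv.supp
  have hur := hu.ev.rap hB0 hu0
  have hvr := hv.ev.rap hV0 hv0
  have hM₂ := hv.ev.nonneg
  have hs := supp_sub hu.supp hv.supp
  have hr := rap_sub hur hvr
  have hγ : ∀ n, ‖(u n - v n) * gt n‖ = ‖u n - v n‖ := norm_mul_gt hs
  have hγ' : ∀ n, ‖(u n - v n) * gt n‖ ≤ 1 * ‖u n - v n‖ := fun n => by rw [hγ, one_mul]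
  obtain ⟨b, hb, hb0, hbs, hbd⟩ := hd A E₁ E₂ u v hA hu.supp hur hv.supp hvr hE₁ hE₂
  set D := ‖DS 4 A (RW All fun n => u n - v n) (RW All fun n => u n - v n)‖ with hD
  have hsD : HasSum (fun d : O => if d = 1 then D else 0) D := hasSum_ite_eq 1 D
  have e₁ := hT 4 A (fun n => (u n - v n) * gt n) (fun d => b d + if d = 1 then D else 0)
    (by norm_num) le_rfl hA0 (supp_of_le hs hγ') (rap_of_le hr hγ') (hb.add hsD.summable)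
    (fun d => add_nonneg (hb0 d) (by split_ifs; exacts [norm_nonneg _, le_rfl])) (by
      intro d hp _
      by_cases h1 : d = 1
      · subst h1
        rw [ud_gt_one hs, if_pos rfl]
        linarith [hb0 1]
      · rw [if_neg h1, add_zero]
        exact hbd d hp h1)
  rw [hb.tsum_add hsD.summable, hsD.tsum_eq, show Real.sqrt 4 = 2 by
    rw [show (4 : ℝ) = 2 ^ 2 by norm_num, Real.sqrt_sq zero_le_two]] at e₁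
  have e₂ := hnear A B M₁ M₂ P w Z₀ Λ u v hA hB
    (hB'.trans (Real.rpow_le_rpow_of_exponent_le hA (by linarith))) hZ hZw hZA hΛ hAΛ hu hv hm
    hP₁ hP₂
  have e₃ := hfar A B M₁ M₂ P u v hA hB hB' hu.supp hu.ev hv.supp hv.ev hP₁ hP₂
  have e₄ := (norm_add_le _ _).trans (add_le_add e₂ (e₃.trans (add_le_add hEf le_rfl)))
  rw [← DS_split (S := All) (S₁ := Near (A ^ (1 / 20 : ℝ))) (S₂ := Far (A ^ (1 / 20 : ℝ)))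
    (by norm_num) hA0 (fun r _ => ⟨fun _ => em _, fun _ => trivial⟩)
    (fun r _ h h' => h' h) hr (supp_zero hs) hr (supp_zero hs), ← hD] at e₄
  have hsq : ∀ {f : O → ℂ}, Rap f → Summable fun n => ‖f n‖ ^ 2 := fun hf => by
    simpa using rap_sq hf 0
  have e₅ : ∑' n : O, ‖(u n - v n) * gt n‖ ^ 2 ≤
      2 * nrm B u + 2 * (C₄ * M₂ ^ 2 * A ^ (9 / 10 : ℝ)) := by
    simp only [hγ]
    calc _ ≤ ∑' n : O, (2 * ‖u n‖ ^ 2 + 2 * ‖v n‖ ^ 2) := by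
          refine (hsq hr).tsum_le_tsum (fun n => ?_)
            (((hsq hur).mul_left 2).add ((hsq hvr).mul_left 2))
          have := norm_sub_le (u n) (v n)
          nlinarith [sq_nonneg (‖u n‖ - ‖v n‖), norm_nonneg (u n - v n)]
      _ = 2 * ∑' n : O, ‖u n‖ ^ 2 + 2 * ∑' n : O, ‖v n‖ ^ 2 := by
          rw [((hsq hur).mul_left 2).tsum_add ((hsq hvr).mul_left 2), tsum_mul_left, tsum_mul_left]
      _ ≤ _ := by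
          gcongr
          · exact l2_le_nrm hB0 hur hu0
          · exact (l2_le_nrm hV0 hvr hv0).trans (hnrm M₂ _ v hV0 hv0 hv.ev)
  set Y := A ^ (2 / 3 : ℝ) * P ^ 2 * A ^ (-min c (1 / 40)) with hY
  have y₁ : A * (M₂ ^ 2 * A ^ (9 / 10 : ℝ)) ≤ Y := by
    have a1 : A * A ^ (9 / 10 : ℝ) ≤
        A ^ (2 / 3 : ℝ) * (A ^ (3 / 4 : ℝ)) ^ 2 * A ^ (-min c (1 / 40)) := by
      rw [← Real.rpow_natCast, ← Real.rpow_mul hA0.le, ← Real.rpow_add hA0, ← Real.rpow_add hA0,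
        ← Real.rpow_one_add' hA0.le (by norm_num)]
      refine Real.rpow_le_rpow_of_exponent_le hA ?_
      have := min_le_right c (1 / 40)
      push_cast
      linarith
    calc _ = M₂ ^ 2 * (A * A ^ (9 / 10 : ℝ)) := by ring
      _ ≤ M₂ ^ 2 * (A ^ (2 / 3 : ℝ) * (A ^ (3 / 4 : ℝ)) ^ 2 * A ^ (-min c (1 / 40))) := by gcongr
      _ = A ^ (2 / 3 : ℝ) * (M₂ * A ^ (3 / 4 : ℝ)) ^ 2 * A ^ (-min c (1 / 40)) := by ring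
      _ ≤ _ := by rw [hY]; gcongr
  have y₂ : A ^ (2 / 3 - c) * P ^ 2 ≤ Y := by
    rw [hY, mul_right_comm, ← Real.rpow_add hA0]
    gcongr
    linarith [min_le_left c (1 / 40)]
  have y₃ : A ^ (2 / 3 : ℝ) * P ^ 2 * A ^ (-(1 / 40) : ℝ) ≤ Y := by
    rw [hY]
    gcongr
    exact min_le_right _ _
  set X := A ^ (2 / 3 : ℝ) * P ^ 2 * (Λ ^ 2 * Z₀ ^ (2 / 3 : ℝ) / w + Z₀ ^ (-(1 / 3) : ℝ)) with hX
  have hn0 := nrm_nonneg hB0 u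
  set N₁ := A * nrm B u with hN₁
  set N₂ := A ^ (3 / 4 : ℝ) * B ^ (1 / 2 : ℝ) * nrm B u with hN₂
  set E := A ^ (2 / 3 : ℝ) * (E₁ + E₂) with hE
  have hE0 : 0 ≤ E := mul_nonneg (by positivity) (add_nonneg (da3_DE hE₁) (da3_DE hE₂))
  have hEf0 : 0 ≤ Ef := (norm_nonneg _).trans hEf
  have hX0 : 0 ≤ X := by positivity
  have hY0 : 0 ≤ Y := by positivity
  have hN₁0 : 0 ≤ N₁ := by positivity
  have hN₂0 : 0 ≤ N₂ := by positivity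
  have f₁ : C₃ * (A * 2) * ∑' n : O, ‖(u n - v n) * gt n‖ ^ 2 ≤
      4 * C₃ * N₁ + 4 * C₃ * C₄ * Y := by
    calc _ ≤ C₃ * (A * 2) * (2 * nrm B u + 2 * (C₄ * M₂ ^ 2 * A ^ (9 / 10 : ℝ))) := by gcongr
      _ = 4 * C₃ * N₁ + 4 * C₃ * C₄ * (A * (M₂ ^ 2 * A ^ (9 / 10 : ℝ))) := by rw [hN₁]; ring
      _ ≤ _ := by gcongr
  have f₂ : D ≤ C₂ * (N₂ + (X + Y)) + (Ef + C₁ * Y) := by
    refine e₄.trans (add_le_add ?_ (add_le_add le_rfl ?_))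
    · rw [mul_add (A ^ (2 / 3 : ℝ) * P ^ 2)]
      gcongr
    · rw [mul_assoc]
      gcongr
  have f₃ : ∑' d, b d ≤ C₅ * E := by rwa [hE, ← mul_assoc]
  have f₄ : (A + A ^ (3 / 4 : ℝ) * B ^ (1 / 2 : ℝ)) * nrm B u + A ^ (2 / 3 : ℝ) * P ^ 2 *
      (Λ ^ 2 * Z₀ ^ (2 / 3 : ℝ) / w + Z₀ ^ (-(1 / 3) : ℝ) + A ^ (-min c (1 / 40))) + E + Ef =
      N₁ + N₂ + X + Y + E + Ef := by
    rw [hN₁, hN₂, hX, hY]; ring
  rw [f₄]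
  refine (QQ_gt_le (by norm_num) hA0 hs hr).trans (e₁.trans ?_)
  set T := N₁ + N₂ + X + Y + E + Ef with hTT
  have t₁ : N₁ ≤ T := by linarith
  have t₂ : Y ≤ T := by linarith
  have t₃ : N₂ + (X + Y) ≤ T := by linarith
  have t₄ : E ≤ T := by linarith
  have t₅ : Ef ≤ T := by linarith
  calc _ ≤ 4 * C₃ * N₁ + 4 * C₃ * C₄ * Y + (C₅ * E + (C₂ * (N₂ + (X + Y)) + (Ef + C₁ * Y))) := by
        gcongr
    _ ≤ 4 * C₃ * T + 4 * C₃ * C₄ * T + (C₅ * T + (C₂ * T + (T + C₁ * T))) := by gcongr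
    _ = _ := by ring

/-- `md_mul`: `∑ (u - v)(b) md (x b) = - md x ∑_{(b, x) ≠ 1} (u - v)(b) md b`; `ncop_le` with
`x = -1/6`, `tsum_W_log`. -/
theorem AS_II : ∃ C : ℝ, 0 ≤ C ∧ ∀ (A B₁ B₂ M₁ M₂ P w Λ : ℝ) (u v : O → ℂ), 0 < A → 0 < B₁ →
    0 < B₂ → 0 < w → 1 ≤ Λ → A ≤ Real.exp Λ → Good M₁ B₁ w u → Good M₂ B₂ w v → mm u = mm v →
    M₁ * B₁ ^ (5 / 6 : ℝ) ≤ P → M₂ * B₂ ^ (5 / 6 : ℝ) ≤ P →
    QQ md 4 A (fun n => u n - v n) ≤ C * A ^ (2 / 3 : ℝ) * P ^ 2 * (Λ ^ 2 / w ^ 2) := by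
  classical
  obtain ⟨C₁, hC₁, h₁⟩ := ncop_le (x := -(1 / 6)) (by norm_num)
  obtain ⟨C₂, hC₂, h₂⟩ := tsum_W_log
  refine ⟨4 * C₁ ^ 2 * C₂, by positivity, ?_⟩
  intro A B₁ B₂ M₁ M₂ P w Λ u v hA hB₁ hB₂ hw hΛ hAΛ hu hv hm hP₁ hP₂
  have hP : 0 ≤ P := le_trans (mul_nonneg hu.ev.nonneg (by positivity)) hP₁
  have key : ∀ {M B : ℝ} {f : O → ℂ}, 0 < B → Good M B w f → M * B ^ (5 / 6 : ℝ) ≤ P →
      ∀ x, Prim x → Summable (fun b => f b * md (x * b)) ∧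
        ‖∑' b, f b * md (x * b) - md x * mm f‖ ≤
          Nr x ^ (-(1 / 6) : ℝ) * (C₁ * P * Real.log (Nr x) / w) := by
    intro M B f hB hf hMP x hx
    have hf0 := supp_zero hf.supp
    have hfr := hf.ev.rap hB hf0
    have hlog : 0 ≤ Real.log (Nr x) := Real.log_nonneg (one_le_Nr hx.ne_zero)
    have hmd : ∀ b, ‖f b * md b‖ ≤ ‖f b‖ * Nr b ^ (-(1 / 6) : ℝ) := fun b => by
      by_cases hb : b = 0
      · simp [hb, hf0]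
      · rw [norm_mul]
        gcongr
        exact norm_md_le hb
    have s₁ : Summable fun b => f b * md b := .of_norm_bounded (hfr _) hmd
    have hR : ∀ b, ‖if IsCoprime b x then 0 else f b * md b‖ ≤
        if IsCoprime b x then 0 else ‖f b‖ * Nr b ^ (-(1 / 6) : ℝ) := fun b => by
      split_ifs
      · simp
      · exact hmd b
    have s₂ : Summable fun b => if IsCoprime b x then 0 else ‖f b‖ * Nr b ^ (-(1 / 6) : ℝ) := by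
      refine Summable.of_nonneg_of_le (fun b => (norm_nonneg _).trans (hR b)) (fun b => ?_)
        (hfr (-(1 / 6)))
      split_ifs
      · exact (norm_nonneg _).trans (hmd b)
      · exact le_rfl
    have s₃ : Summable fun b => if IsCoprime b x then 0 else f b * md b :=
      .of_norm_bounded s₂ hR
    have e : ∀ b, f b * md (x * b) =
        md x * (f b * md b - if IsCoprime b x then 0 else f b * md b) := fun b => by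
      by_cases hb : f b = 0
      · simp [hb]
      · rw [md_mul hx (supp_iff.1 hf.supp b hb).1, isCoprime_comm]
        split_ifs <;> ring
    simp only [e]
    refine ⟨(s₁.sub s₃).mul_left _, ?_⟩
    rw [tsum_mul_left, s₁.tsum_sub s₃, mm, ← mul_sub, sub_sub_cancel_left, norm_mul, norm_neg]
    refine mul_le_mul (norm_md_le hx.ne_zero) ?_ (norm_nonneg _)
      (Real.rpow_nonneg (Nr_nonneg x) _)
    refine (tsum_of_norm_bounded s₂.hasSum hR).trans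
      ((h₁ M B w f x hB hw hx.ne_zero hf0 hf.rough hf.ev).trans ?_)
    rw [show (1 + -(1 / 6) : ℝ) = 5 / 6 by norm_num, mul_assoc C₁]
    gcongr
  obtain ⟨s₄, h₄⟩ := h₂ A Λ hA hΛ hAΛ
  have hpt : ∀ x : O, (if Prim x then W 4 (Nr x / A) * ‖∑' b : O, (u b - v b) * md (x * b)‖ ^ 2
      else 0) ≤ (2 * C₁ * P / w) ^ 2 * (if x = 0 then 0 else
        W 4 (Nr x / A) * (Nr x ^ (-(1 / 3) : ℝ) * Real.log (Nr x) ^ 2)) := by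
    intro x
    have hW := W_pos 4 (Nr x / A)
    have hN := Nr_nonneg x
    by_cases hx : Prim x
    · obtain ⟨a1, a2⟩ := key hB₁ hu hP₁ x hx
      obtain ⟨a3, a4⟩ := key hB₂ hv hP₂ x hx
      rw [if_pos hx, if_neg hx.ne_zero]
      simp only [sub_mul]
      rw [a1.tsum_sub a3, ← sub_sub_sub_cancel_right _ _ (md x * mm u)]
      rw [← hm] at a4
      have a5 := (norm_sub_le _ _).trans (add_le_add a2 a4)
      have a6 : Nr x ^ (-(1 / 3) : ℝ) = (Nr x ^ (-(1 / 6) : ℝ)) ^ 2 := by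
        rw [← Real.rpow_natCast, ← Real.rpow_mul hN]; norm_num
      calc _ ≤ W 4 (Nr x / A) * (Nr x ^ (-(1 / 6) : ℝ) * (C₁ * P * Real.log (Nr x) / w) +
            Nr x ^ (-(1 / 6) : ℝ) * (C₁ * P * Real.log (Nr x) / w)) ^ 2 := by gcongr
        _ = _ := by rw [a6]; ring
    · rw [if_neg hx]
      split_ifs <;> positivity
  calc _ ≤ ∑' x : O, (2 * C₁ * P / w) ^ 2 * (if x = 0 then 0 else
        W 4 (Nr x / A) * (Nr x ^ (-(1 / 3) : ℝ) * Real.log (Nr x) ^ 2)) := by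
        refine Summable.tsum_le_tsum hpt (Summable.of_nonneg_of_le (fun x => ?_) hpt
          (s₄.mul_left _)) (s₄.mul_left _)
        have hW := W_pos 4 (Nr x / A)
        split_ifs <;> positivity
    _ ≤ (2 * C₁ * P / w) ^ 2 * (C₂ * A ^ (2 / 3 : ℝ) * Λ ^ 2) := by
        rw [tsum_mul_left]
        gcongr
    _ = _ := by ring

end Crest.Agent.R012.D

end
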