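import Crest.Agent.R012.DB3
import Crest.Agent.R017.Sieve

/-! # Row 12, dispersion: the comparison sequence -/

set_option autoImplicit false

noncomputable section

open scoped BigOperators ComplexConjugate Topology
open Complex MeasureTheory Filter Set Crest.Agent.R017

namespace Crest.Agent.R012.D

/-- The product of the primary primes of norm `≤ w`. -/
def pw (w : ℝ) : O := by
  classical exact ∏ p ∈ (box w).filter (fun p => Prime p ∧ Prim p), p

open Classical in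
/-- The primary primes of norm `≤ w`. -/
def da4_P (w : ℝ) : Finset O := (box w).filter (fun p => Prime p ∧ Prim p)

theorem da4_mem {w : ℝ} {p : O} : p ∈ da4_P w ↔ Prime p ∧ Prim p ∧ Nr p ≤ w := by
  classical
  unfold da4_P
  rw [Finset.mem_filter, mem_box]
  exact ⟨fun h => ⟨h.2.1, h.2.2, h.1.2⟩, fun h => ⟨⟨h.1.ne_zero, h.2.2⟩, h.1, h.2.1⟩⟩

theorem da4_pw (w : ℝ) : pw w = ∏ p ∈ da4_P w, p := rfl

theorem da4_dvd {w : ℝ} {p : O} (hp : Prime p) : p ∣ pw w ↔ ¬ lam ∣ p ∧ Nr p ≤ w := by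
  rw [da4_pw]
  constructor
  · intro h
    obtain ⟨q, hq, hpq⟩ := hp.exists_mem_finset_dvd h
    obtain ⟨q1, q2, q3⟩ := da4_mem.1 hq
    exact ⟨fun hl => q2.not_lam_dvd (hl.trans hpq), (Nr_le_of_dvd q1.ne_zero hpq).trans q3⟩
  · rintro ⟨h1, h2⟩
    obtain ⟨u, hu, hup⟩ := exists_prim h1
    have ha : Associated p (u * p) := (associated_mul_unit_right p u hu).trans (by rw [mul_comm])
    exact ha.dvd.trans (Finset.dvd_prod_of_mem (fun p : O => p)
      (da4_mem.2 ⟨ha.prime hp, hup, by rwa [← Nr_eq_of_associated ha]⟩))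

theorem da4_sqf (w : ℝ) : Squarefree (pw w) := by
  rw [da4_pw]
  exact Finset.squarefree_prod_of_pairwise_isCoprime (f := fun p : O => p)
    (fun _ hp _ hq hne => (a1_coprime ⟨(da4_mem.1 hp).1, Or.inl (da4_mem.1 hp).2.1⟩
      ⟨(da4_mem.1 hq).1, Or.inl (da4_mem.1 hq).2.1⟩ hne).isRelPrime)
    (fun _ hp => (da4_mem.1 hp).1.squarefree)

theorem prim_pw (w : ℝ) : Prim (pw w) := by
  rw [da4_pw]
  exact Finset.prod_induction (fun p : O => p) Prim (fun _ _ => Prim.mul) prim_one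
    fun _ hp => (da4_mem.1 hp).2.1

theorem mem_pdiv_pw {w : ℝ} {d : O} : d ∈ pdiv (pw w) ↔ Prim d ∧ Squarefree d ∧ Smth w d := by
  rw [mem_pdiv (prim_pw w).ne_zero]
  constructor
  · rintro ⟨h1, h2⟩
    exact ⟨h1, (da4_sqf w).squarefree_of_dvd h2, fun p hp hpd => ((da4_dvd hp).1 (hpd.trans h2)).2⟩
  · rintro ⟨h1, h2, h3⟩
    refine ⟨h1, ?_⟩
    rw [← rad_eq_self h1 h2]
    exact a1_rad_dvd_of fun p hp hpd =>
      (da4_dvd hp).2 ⟨fun hl => h1.not_lam_dvd (hl.trans hpd), h3 p hp hpd⟩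

theorem rough_iff {w : ℝ} {n : O} (hn : Prim n) : Rough w n ↔ IsCoprime n (pw w) := by
  constructor
  · intro h
    exact isCoprime_of_prime_dvd (fun h0 => hn.ne_zero h0.1) fun p hp hpn hpw =>
      absurd ((da4_dvd hp).1 hpw).2 (not_le.2 (h p hp hpn))
  · intro h p hp hpn
    by_contra hw
    exact hp.not_isUnit (h.isUnit_of_dvd' hpn
      ((da4_dvd hp).2 ⟨fun hl => hn.not_lam_dvd (hl.trans hpn), not_lt.1 hw⟩))

/-- Rankin's bound: `∑_{d ∣ pw w} N(d)^{δ-1} ≤ ∏ (1 + N(p)^{δ-1}) ≤ exp (∑_{box w} N^{δ-1})`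
(`Finset.prod_one_add`, `d = ∏ p ∈ pf d, p` by `rad_eq_self`, `sum_box_rpow_le`). -/
theorem rankin {δ : ℝ} (h0 : 0 < δ) (h1 : δ ≤ 1) : ∃ C : ℝ, 0 ≤ C ∧ ∀ w : ℝ, 1 ≤ w →
    ∑ d ∈ pdiv (pw w), Nr d ^ (δ - 1) ≤ Real.exp (C * w ^ δ) := by
  classical
  obtain ⟨C, hC⟩ := sum_box_rpow_le (σ := 1 - δ) (by linarith)
  refine ⟨|C|, abs_nonneg _, fun w hw => ?_⟩
  have hf : ∀ p : O, 0 ≤ Nr p ^ (δ - 1) := fun p => Real.rpow_nonneg (Nr_nonneg p) _
  have hd : ∀ d ∈ pdiv (pw w), d = ∏ p ∈ pf d, p := fun d hd =>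
    (rad_eq_self (mem_pdiv_pw.1 hd).1 (mem_pdiv_pw.1 hd).2.1).symm
  have h1 : ∑ d ∈ pdiv (pw w), Nr d ^ (δ - 1) =
      ∑ t ∈ (pdiv (pw w)).image pf, ∏ p ∈ t, Nr p ^ (δ - 1) := by
    rw [Finset.sum_image fun a ha b hb hab => by rw [hd a ha, hd b hb, hab]]
    refine Finset.sum_congr rfl fun d hd' => ?_
    rw [Real.finsetProd_rpow _ _ (fun p _ => Nr_nonneg p), ← Nr_prod, ← hd d hd']
  have h2 : (pdiv (pw w)).image pf ⊆ (da4_P w).powerset := by
    intro t ht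
    obtain ⟨d, hd', rfl⟩ := Finset.mem_image.1 ht
    obtain ⟨d1, -, d3⟩ := mem_pdiv_pw.1 hd'
    refine Finset.mem_powerset.2 fun p hp => ?_
    have := a1_of_mem_pf hp
    exact da4_mem.2 ⟨this.1.1, a1_prim_of_mem_pf d1 hp, d3 p this.1.1 this.2⟩
  have h3 := hC w hw
  rw [neg_sub, sub_sub_cancel] at h3
  calc ∑ d ∈ pdiv (pw w), Nr d ^ (δ - 1)
      ≤ ∑ t ∈ (da4_P w).powerset, ∏ p ∈ t, Nr p ^ (δ - 1) := by
        rw [h1]
        exact Finset.sum_le_sum_of_subset_of_nonneg h2 fun t _ _ =>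
          Finset.prod_nonneg fun p _ => hf p
    _ = ∏ p ∈ da4_P w, (1 + Nr p ^ (δ - 1)) := (Finset.prod_one_add _).symm
    _ ≤ ∏ p ∈ da4_P w, Real.exp (Nr p ^ (δ - 1)) :=
        Finset.prod_le_prod (fun p _ => by linarith [hf p])
          (fun p _ => by linarith [Real.add_one_le_exp (Nr p ^ (δ - 1))])
    _ = Real.exp (∑ p ∈ da4_P w, Nr p ^ (δ - 1)) := (Real.exp_sum _ _).symm
    _ ≤ _ := by
        refine Real.exp_le_exp.2 ?_
        calc ∑ p ∈ da4_P w, Nr p ^ (δ - 1) ≤ ∑ p ∈ box w, Nr p ^ (δ - 1) :=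
              Finset.sum_le_sum_of_subset_of_nonneg (Finset.filter_subset _ _) fun p _ _ => hf p
          _ ≤ C * w ^ δ := h3
          _ ≤ |C| * w ^ δ := mul_le_mul_of_nonneg_right (le_abs_self C) (by positivity)

/-- `sm_decay` with `A = 0` for `kc k` (`isCh_kc`, `princ_kc`, `Nr_mod_kc`) if `Y ≥ 1`, `norm_sm_le`
if `Y ≤ 1`. -/
theorem sm_kap_le {β : ℝ} (hβ : 0 ≤ β) : ∃ C : ℝ, 0 ≤ C ∧ ∀ (k : O) (Y t : ℝ), k ≠ 0 → ¬ IsCube k →
    0 < Y → ‖sm 4 (fun n => kap n k) Y t‖ ≤ C * (1 + |t|) ^ C * Nr k * Y ^ β := by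
  obtain ⟨C1, hC1, h1⟩ := sm_decay (a := 4) (by norm_num) 0 le_rfl
  obtain ⟨C2, h2⟩ := norm_sm_le (a := 4) (by norm_num) β
  refine ⟨81 * C1 + |C2|, by positivity, fun k Y t hk hc hY => ?_⟩
  have hT : 1 ≤ 1 + |t| := by linarith [abs_nonneg t]
  have hk1 := one_le_Nr hk
  have hA := abs_nonneg C2
  have hT1 : 1 ≤ (1 + |t|) ^ (81 * C1 + |C2|) := Real.one_le_rpow hT (by positivity)
  rcases le_total Y 1 with hY1 | hY1
  · refine (h2 _ Y t hY (fun n _ => norm_kap_le n k) (Or.inr hY1)).trans ?_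
    refine mul_le_mul_of_nonneg_right ?_ (by positivity)
    calc C2 ≤ |C2| * 1 * 1 := by rw [mul_one, mul_one]; exact le_abs_self C2
      _ ≤ _ := by gcongr; linarith
  · rw [← sv_congr (c := kc k) fun n hn => kc_prim hn]
    refine (h1 _ _ (isCh_kc hk) (fun h => hc ((princ_kc hk).1 h)) Y t hY).trans ?_
    rw [Real.rpow_zero]
    have hYβ : 1 ≤ Y ^ β := Real.one_le_rpow hY1 hβ
    have h3 : (1 + |t|) ^ C1 ≤ (1 + |t|) ^ (81 * C1 + |C2|) :=
      Real.rpow_le_rpow_of_exponent_le hT (by linarith)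
    calc C1 * (1 + |t|) ^ C1 * Nr (9 * rad k) * 1
        ≤ C1 * (1 + |t|) ^ (81 * C1 + |C2|) * (81 * Nr k) * Y ^ β := by
          have h4 := Nr_mod_kc hk
          have h5 := Nr_nonneg (9 * rad k)
          gcongr
      _ = 81 * C1 * (1 + |t|) ^ (81 * C1 + |C2|) * Nr k * Y ^ β := by ring
      _ ≤ _ := by gcongr; linarith

open Classical in
theorem da4_cop {δ : ℝ} (h0 : 0 < δ) (h1 : δ ≤ 1) : ∃ C D : ℝ, 0 ≤ C ∧ 0 ≤ D ∧
    ∀ (k : O) (w Y t : ℝ), k ≠ 0 → ¬ IsCube k → 1 ≤ w → 0 < Y →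
    ‖sm 4 (fun n => if IsCoprime n (pw w) then kap n k else 0) Y t‖ ≤
      C * (1 + |t|) ^ C * Nr k * Y ^ (1 - δ) * Real.exp (D * w ^ δ) := by
  obtain ⟨C, hC, h⟩ := sm_kap_le (β := 1 - δ) (by linarith)
  obtain ⟨D, hD, h'⟩ := rankin h0 h1
  refine ⟨C, D, hC, hD, fun k w Y t hk hc hw hY => ?_⟩
  have hk0 := Nr_pos hk
  rw [sm_coprime (by norm_num) hY (K := 1) (A := 0) (fun n _ => by simpa using norm_kap_le n k)
    (prim_pw w).ne_zero]
  refine (norm_sum_le _ _).trans (le_trans ?_ (mul_le_mul_of_nonneg_left (h' w hw) (by positivity)))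
  rw [Finset.mul_sum]
  refine Finset.sum_le_sum fun d hd => ?_
  have d1 := (mem_pdiv_pw.1 hd).1
  have f0 := Nr_pos d1.ne_zero
  rw [sv_congr (c' := fun n => kap d k * kap n k)
    (fun n hn => kap_mul_left d1.ne_zero hn.ne_zero k), sv_mul, norm_mul, norm_mul,
    norm_mul, sv_norm_cpow d1.ne_zero, mul_one]
  refine (mul_le_of_le_one_left (by positivity) (norm_mu_le d)).trans
    ((mul_le_of_le_one_left (norm_nonneg _) (norm_kap_le d k)).trans
      ((h k _ t hk hc (by positivity)).trans (le_of_eq ?_)))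
  rw [Real.div_rpow hY.le f0.le, div_eq_mul_inv, ← Real.rpow_neg f0.le, neg_sub]
  ring

/-- `sm_sqf` (the series over `j`, `∑ N(j)^{-2 (1 - δ)} < ∞`), then `sm_coprime` with `pw w`,
`sm_kap_le` with `β = 1 - δ`, `rankin`. -/
theorem sm_rg_kap {δ : ℝ} (h0 : 0 < δ) (h1 : δ ≤ 1 / 4) : ∃ C : ℝ, 0 ≤ C ∧
    ∀ (k : O) (w Y t : ℝ), k ≠ 0 → ¬ IsCube k → 1 ≤ w → 0 < Y →
    ‖sm 4 (fun n => rg w n * kap n k) Y t‖ ≤
      C * (1 + |t|) ^ C * Nr k * Y ^ (1 - δ) * Real.exp (C * w ^ δ) := by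
  classical
  obtain ⟨C, D, hC, hD, h⟩ := da4_cop h0 (by linarith)
  have hsum := summable_Nr_rpow (σ := 2 * (1 - δ)) (by linarith)
  set S := ∑' x : O, Nr x ^ (-(2 * (1 - δ))) with hS
  have hg : ∀ x : O, 0 ≤ Nr x ^ (-(2 * (1 - δ))) := fun x => Real.rpow_nonneg (Nr_nonneg x) _
  have hS0 : 0 ≤ S := tsum_nonneg hg
  refine ⟨C * S + C + D, by positivity, fun k w Y t hk hc hw hY => ?_⟩
  have hk0 := Nr_pos hk
  have hT : 1 ≤ 1 + |t| := by linarith [abs_nonneg t]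
  have hb : ∀ n : O, ‖if IsCoprime n (pw w) then kap n k else 0‖ ≤ 1 := fun n => by
    split_ifs
    · exact norm_kap_le n k
    · simp
  have h2 := sm_sqf (a := 4) (by norm_num) hY
    (c := fun n => if IsCoprime n (pw w) then kap n k else 0) (K := 1) (A := 0)
    (fun n _ => by simpa only [Real.rpow_zero, mul_one] using hb n) t
  have e : sm 4 (fun n => rg w n * kap n k) Y t = sm 4 (fun n => if Squarefree n then
      (if IsCoprime n (pw w) then kap n k else 0) else 0) Y t := by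
    refine sv_congr fun n hn => ?_
    unfold rg
    rw [rough_iff hn]
    by_cases a : Squarefree n <;> by_cases b : IsCoprime n (pw w) <;> simp [a, b]
  rw [e]
  set Q := C * (1 + |t|) ^ C * Nr k * Y ^ (1 - δ) * Real.exp (D * w ^ δ) with hQ
  have hQ0 : 0 ≤ Q := by positivity
  refine (sv_norm_le (B := Q * S) h2 fun s => ?_).trans ?_
  · refine le_trans ?_ (mul_le_mul_of_nonneg_left (hsum.sum_le_tsum s fun x _ => hg x) hQ0)
    rw [Finset.mul_sum]
    refine Finset.sum_le_sum fun j _ => ?_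
    split_ifs with hj
    · have j0 := Nr_pos hj.ne_zero
      have j2 := (hj.pow 2).ne_zero
      rw [sv_congr (c' := fun n => (if IsCoprime (j ^ 2) (pw w) then kap (j ^ 2) k else 0) *
          (if IsCoprime n (pw w) then kap n k else 0)) (fun n hn => by
            simp only [IsCoprime.mul_left_iff, kap_mul_left j2 hn.ne_zero]
            by_cases a : IsCoprime (j ^ 2) (pw w) <;> by_cases b : IsCoprime n (pw w) <;>
              simp [a, b]),
        sv_mul, norm_mul, norm_mul, norm_mul, sv_norm_cpow j2, mul_one]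
      refine (mul_le_of_le_one_left (by positivity) (norm_mu_le j)).trans
        ((mul_le_of_le_one_left (norm_nonneg _) (hb _)).trans
          ((h k w _ t hk hc hw (div_pos hY (Nr_pos j2))).trans (le_of_eq ?_)))
      rw [hQ, Real.div_rpow hY.le (Nr_nonneg _), div_eq_mul_inv, ← Real.rpow_neg (Nr_nonneg _),
        Nr_pow, ← Real.rpow_two, ← Real.rpow_mul j0.le, mul_neg]
      ring
    · rw [norm_zero]
      exact mul_nonneg hQ0 (hg j)
  · have hCS := mul_nonneg hC hS0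
    have h3 : (1 + |t|) ^ C ≤ (1 + |t|) ^ (C * S + C + D) :=
      Real.rpow_le_rpow_of_exponent_le hT (by linarith)
    calc Q * S = C * S * (1 + |t|) ^ C * Nr k * Y ^ (1 - δ) * Real.exp (D * w ^ δ) := by
          rw [hQ]; ring
      _ ≤ _ := by gcongr <;> linarith

end Crest.Agent.R012.D

end
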