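import Crest.Agent.R012.DA4

/-! # Row 12, dispersion: the comparison sequence is good -/

set_option autoImplicit false

noncomputable section

open scoped BigOperators ComplexConjugate Topology
open Complex MeasureTheory Filter Set Crest.Agent.R017

namespace Crest.Agent.R012.D

theorem supp_bp (w B : ℝ) : Supp 1 (bp w B) := by
  refine supp_iff.2 fun n hn => ?_
  unfold bp rg at hn
  split_ifs at hn with h1 h2
  · exact ⟨h1, h2.1⟩
  · simp at hn
  · simp at hn

theorem rough_bp {w B : ℝ} {n : O} (h : bp w B n ≠ 0) : Rough w n := by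
  unfold bp rg at h
  split_ifs at h with h1 h2
  · exact h2.2
  · simp at h
  · simp at h

theorem EV_bp (w B : ℝ) : EV 1 B (bp w B) := by
  intro n
  have := (W_pos 4 (Nr n / B)).le
  unfold bp rg
  split_ifs <;> simp [abs_of_nonneg this, this]

/-- `sm_rpow`. -/
theorem XX_bp {B : ℝ} (hB : 0 < B) (w σ t : ℝ) (k : O) :
    ‖XX (fun n => bp w B n * kap n k) (σ + t * I)‖ =
      B ^ (σ - 1 / 2) * Real.exp (4 * (σ - 1 / 2) ^ 2) *
        ‖sm 4 (fun n => rg w n * kap n k) (B * Real.exp (8 * (σ - 1 / 2))) (-t)‖ := by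
  have h1 : XX (fun n => bp w B n * kap n k) (σ + t * I) =
      sm 4 (fun n => (rg w n * kap n k) * (Nr n : ℂ) ^ (((σ - 1 / 2 : ℝ) : ℂ) + t * I)) B 0 := by
    unfold XX sm bp
    refine tsum_congr fun n => ?_
    have e : (σ : ℂ) + t * I - 1 / 2 = ((σ - 1 / 2 : ℝ) : ℂ) + t * I := by push_cast; ring
    rw [e]
    by_cases h : Prim n
    · simp only [h, if_true, ofReal_zero, zero_mul, neg_zero, cpow_zero, mul_one]
      ring
    · simp [h]
  rw [h1, sm_rpow (by norm_num) hB, norm_mul, Complex.norm_real, Real.norm_of_nonneg (by positivity),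
    zero_sub, show (2 : ℝ) * 4 * (σ - 1 / 2) = 8 * (σ - 1 / 2) by ring]

/-- `sm_rg_kap` with `δ = 1 / (4 (K + 1))`, so that `w^δ ≤ √(log A)`; `ev_log_le`. -/
theorem good_bp {K : ℝ} (hK : 0 ≤ K) : ∃ A₀ : ℝ, ∀ A : ℝ, A₀ ≤ A →
    Good 1 (A ^ (9 / 10 : ℝ)) (Real.log A ^ K) (bp (Real.log A ^ K) (A ^ (9 / 10 : ℝ))) := by
  set δ : ℝ := 1 / (4 * (K + 1)) with hδ
  have hδ0 : 0 < δ := by positivity
  have hδ1 : δ ≤ 1 / 4 := by
    rw [hδ]
    exact one_div_le_one_div_of_le (by norm_num) (by linarith)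
  have hKδ : K * δ ≤ 1 / 2 := by
    rw [hδ, mul_one_div, div_le_iff₀ (by positivity)]
    linarith
  obtain ⟨C, hC, H⟩ := sm_rg_kap hδ0 hδ1
  obtain ⟨A₀, hA₀, H2⟩ := ev_log_le (K := K * (C + 2)) (c := 9 / 10 * δ)
    (C := C + C * 2 ^ C * Real.exp 32) (by positivity)
  refine ⟨A₀, fun A hA => ⟨supp_bp _ _, fun n => rough_bp, EV_bp _ _, fun k hk hkw hc σ t hσ ht => ?_⟩⟩
  have hA3 : 3 ≤ A := hA₀.trans hA
  have hA0 : 0 < A := by linarith
  have hL : 1 ≤ Real.log A := by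
    rw [Real.le_log_iff_exp_le hA0]
    exact Real.exp_one_lt_three.le.trans hA3
  have h3 := H2 A hA
  set L := Real.log A with hLdef
  set w := L ^ K with hw
  set B := A ^ (9 / 10 : ℝ) with hB
  have hB0 : 0 < B := by positivity
  have hw1 : 1 ≤ w := Real.one_le_rpow hL hK
  have hw0 : 0 < w := by linarith
  have hσ1 : -(1 / 4) ≤ σ - 1 / 2 ∧ σ - 1 / 2 ≤ 2 := by
    rcases hσ with rfl | rfl <;> norm_num
  have h4 := H k w (B * Real.exp (8 * (σ - 1 / 2))) (-t) hk hc hw1 (by positivity)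
  have h5 : (1 + |-t|) ^ C ≤ 2 ^ C * w ^ C := by
    rw [← Real.mul_rpow (by norm_num) hw0.le, abs_neg]
    exact Real.rpow_le_rpow (by positivity) (by linarith) hC
  have h6 : w ^ δ ≤ Real.sqrt L := by
    rw [hw, ← Real.rpow_mul (by linarith), Real.sqrt_eq_rpow]
    exact Real.rpow_le_rpow_of_exponent_le hL hKδ
  have h7 : (B * Real.exp (8 * (σ - 1 / 2))) ^ (1 - δ) ≤ B ^ (1 - δ) * Real.exp 16 := by
    rw [Real.mul_rpow hB0.le (by positivity), ← Real.exp_mul]
    refine mul_le_mul_of_nonneg_left (Real.exp_le_exp.2 ?_) (by positivity)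
    nlinarith [hσ1.1, hσ1.2]
  have h8 : Real.exp (4 * (σ - 1 / 2) ^ 2) ≤ Real.exp 16 :=
    Real.exp_le_exp.2 (by nlinarith [hσ1.1, hσ1.2])
  have h9 : Real.exp (C * w ^ δ) ≤ Real.exp ((C + C * 2 ^ C * Real.exp 32) * Real.sqrt L) := by
    refine Real.exp_le_exp.2 (mul_le_mul (le_add_of_nonneg_right (by positivity)) h6
      (by positivity) (by positivity))
  have h10 : w ^ C * w * w = L ^ (K * (C + 2)) := by
    rw [Real.rpow_mul (by linarith), ← hw, Real.rpow_add hw0, Real.rpow_two]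
    ring
  have h11 : A ^ (9 / 10 * δ) = B ^ δ := by rw [hB, ← Real.rpow_mul hA0.le]
  have h12 : B ^ (σ + 1 / 2) = B ^ (σ - 1 / 2) * B ^ (1 - δ) * B ^ δ := by
    rw [← Real.rpow_add hB0, ← Real.rpow_add hB0]
    congr 1
    ring
  have h13 : Real.exp 32 = Real.exp 16 * Real.exp 16 := by rw [← Real.exp_add]; norm_num
  rw [XX_bp hB0, le_div_iff₀ hw0, one_mul, h12, ← h11]
  calc B ^ (σ - 1 / 2) * Real.exp (4 * (σ - 1 / 2) ^ 2) *
        ‖sm 4 (fun n => rg w n * kap n k) (B * Real.exp (8 * (σ - 1 / 2))) (-t)‖ * w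
      ≤ B ^ (σ - 1 / 2) * Real.exp 16 * (C * (2 ^ C * w ^ C) * w * (B ^ (1 - δ) * Real.exp 16) *
          Real.exp ((C + C * 2 ^ C * Real.exp 32) * Real.sqrt L)) * w := by
        have := Nr_nonneg k
        refine mul_le_mul_of_nonneg_right (mul_le_mul (by gcongr) (h4.trans ?_) (norm_nonneg _)
          (by positivity)) hw0.le
        gcongr
    _ = B ^ (σ - 1 / 2) * B ^ (1 - δ) * ((C * 2 ^ C * Real.exp 32) * (w ^ C * w * w) *
          Real.exp ((C + C * 2 ^ C * Real.exp 32) * Real.sqrt L)) := by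
        rw [h13]; ring
    _ ≤ B ^ (σ - 1 / 2) * B ^ (1 - δ) * A ^ (9 / 10 * δ) := by
        refine mul_le_mul_of_nonneg_left (le_trans ?_ h3) (by positivity)
        rw [h10]
        gcongr
        · exact le_add_of_nonneg_left hC
        · exact le_add_of_nonneg_left zero_le_one

theorem da4b_norm_le (u : O → ℂ) (n : O) : ‖u n * md n‖ ≤ ‖u n‖ * Nr n ^ (-(1 / 6) : ℝ) := by
  have h := Real.rpow_nonneg (Nr_nonneg n) (-(1 / 6))
  rw [norm_mul]
  refine mul_le_mul_of_nonneg_left ?_ (norm_nonneg _)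
  unfold md
  split_ifs
  · rw [Complex.norm_real, Real.norm_of_nonneg h]
  · rwa [norm_zero]

/-- All terms are non-negative; keep primes of prime norm in `(H, 2 H]`, `H = ⌈B⌉₊`
(`a4_primes_count`, `a4_split`). -/
theorem mm_bp_ge : ∃ c : ℝ, 0 < c ∧ ∃ B₀ : ℝ, ∀ B w : ℝ, B₀ ≤ B → w ≤ B →
    c * B ^ (5 / 6 : ℝ) / Real.log B ≤ ‖mm (bp w B)‖ := by
  classical
  obtain ⟨H₀, hH₀⟩ := a4_primes_count
  refine ⟨Real.exp (-1) / 24, by positivity, max H₀ 2, fun B w hB hw => ?_⟩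
  have hB2 : 2 ≤ B := (le_max_right _ _).trans hB
  have hB0 : 0 < B := by linarith
  set H := ⌈B⌉₊ with hH
  have hH1 : B ≤ H := Nat.le_ceil B
  have hH2 : (H : ℝ) < B + 1 := Nat.ceil_lt_add_one hB0.le
  have hc := hH₀ H (by exact_mod_cast ((le_max_left _ _).trans hB).trans hH1)
  set P := (Finset.Ioc H (2 * H)).filter (fun p => p.Prime ∧ p % 3 = 1) with hP
  have hex : ∀ l : ℕ, ∃ p : O, l ∈ P → Prime p ∧ Prim p ∧ nm p = l := fun l => by
    by_cases hl : l ∈ P
    · obtain ⟨-, h2, h3⟩ := Finset.mem_filter.1 hl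
      obtain ⟨p, hp⟩ := a4_split h2 h3
      exact ⟨p, fun _ => hp⟩
    · exact ⟨0, fun h => absurd h hl⟩
  choose g hg using hex
  have hs : Summable fun n => bp w B n * md n :=
    ((EV_bp w B).rap hB0 (supp_zero (supp_bp w B)) (-(1 / 6))).of_norm_bounded (da4b_norm_le _)
  have hpos : ∀ n, 0 ≤ (bp w B n * md n).re := fun n => by
    have h1 := (W_pos 4 (Nr n / B)).le
    have h2 := Real.rpow_nonneg (Nr_nonneg n) (-(1 / 6))
    unfold bp rg md
    split_ifs <;> simp only [one_mul, zero_mul, mul_zero, zero_re, le_refl, ← ofReal_mul, ofReal_re]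
    positivity
  have hterm : ∀ l ∈ P, Real.exp (-1) * (B ^ (-(1 / 6) : ℝ) / 3) ≤ (bp w B (g l) * md (g l)).re := by
    intro l hl
    obtain ⟨hp, hpr, hn⟩ := hg l hl
    obtain ⟨hl4, hl5⟩ := Finset.mem_Ioc.1 (Finset.mem_filter.1 hl).1
    have hNr : Nr (g l) = l := by rw [Nr, hn]
    have h4 : (H : ℝ) < l := by exact_mod_cast hl4
    have h5 : (l : ℝ) ≤ 2 * H := by exact_mod_cast hl5
    have hsq : Squarefree (g l) := hp.irreducible.squarefree
    have hro : Rough w (g l) := fun q hq hd => by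
      rw [Nr_eq_of_associated (hq.associated_of_dvd hp hd), hNr]
      linarith
    unfold bp rg md
    rw [if_pos hpr, if_pos ⟨hsq, hro⟩, if_pos hsq, one_mul, ← ofReal_mul, ofReal_re, hNr]
    have h6 : 1 ≤ (l : ℝ) / B := (one_le_div hB0).2 (by linarith)
    have h7 : (l : ℝ) / B ≤ 3 := (div_le_iff₀ hB0).2 (by linarith)
    have h8 := Real.log_nonneg h6
    have h9 := Real.log_le_sub_one_of_pos (zero_lt_one.trans_le h6)
    refine mul_le_mul (Real.exp_le_exp.2 ?_) ?_ (by positivity) (W_pos _ _).le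
    · rw [le_div_iff₀ (by norm_num)]
      nlinarith
    · have h10 : (3 * B) ^ (-(1 / 6) : ℝ) ≤ (l : ℝ) ^ (-(1 / 6) : ℝ) :=
        Real.rpow_le_rpow_of_nonpos (by linarith) (by linarith) (by norm_num)
      have h11 : (3 : ℝ) ^ (-1 : ℝ) ≤ 3 ^ (-(1 / 6) : ℝ) :=
        Real.rpow_le_rpow_of_exponent_le (by norm_num) (by norm_num)
      rw [Real.mul_rpow (by norm_num) hB0.le] at h10
      rw [Real.rpow_neg_one] at h11
      refine le_trans ?_ h10
      rw [div_eq_inv_mul]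
      exact mul_le_mul_of_nonneg_right h11 (by positivity)
  have hinj : Set.InjOn g P := fun a ha b hb hab => by
    rw [← (hg a ha).2.2, ← (hg b hb).2.2, hab]
  have h1 : (P.card : ℝ) * (Real.exp (-1) * (B ^ (-(1 / 6) : ℝ) / 3)) ≤ ‖mm (bp w B)‖ := by
    refine le_trans ?_ (re_le_norm _)
    unfold mm
    rw [re_tsum hs]
    refine le_trans ?_ ((Complex.hasSum_re hs.hasSum).summable.sum_le_tsum (P.image g)
      fun n _ => hpos n)
    rw [Finset.sum_image hinj, ← nsmul_eq_mul]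
    exact Finset.card_nsmul_le_sum _ _ _ hterm
  have hL : 0 < Real.log B := Real.log_pos (by linarith)
  have h2 : Real.log H ≤ 2 * Real.log B := by
    have : Real.log H ≤ Real.log (B ^ 2) := Real.log_le_log (by linarith) (by nlinarith)
    rwa [Real.log_pow, Nat.cast_ofNat] at this
  have h3 : B ≤ 8 * Real.log B * P.card := by
    have : 4 * Real.log H * P.card ≤ 8 * Real.log B * P.card :=
      mul_le_mul_of_nonneg_right (by linarith) (Nat.cast_nonneg _)
    linarith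
  have h4 : B ^ (5 / 6 : ℝ) = B ^ (-(1 / 6) : ℝ) * B := by
    rw [← Real.rpow_add_one hB0.ne']
    norm_num
  refine le_trans ?_ h1
  rw [div_le_iff₀ hL, h4]
  have h5 : 0 ≤ Real.exp (-1) / 24 * B ^ (-(1 / 6) : ℝ) := by positivity
  calc _ = Real.exp (-1) / 24 * B ^ (-(1 / 6) : ℝ) * B := by ring
    _ ≤ Real.exp (-1) / 24 * B ^ (-(1 / 6) : ℝ) * (8 * Real.log B * P.card) :=
        mul_le_mul_of_nonneg_left h3 h5
    _ = _ := by ring

theorem norm_mm_le : ∃ C : ℝ, 0 ≤ C ∧ ∀ (M B : ℝ) (u : O → ℂ), 0 < B → u 0 = 0 → EV M B u →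
    ‖mm u‖ ≤ C * M * B ^ (5 / 6 : ℝ) := by
  obtain ⟨C, hC, H⟩ := EV_sum_le (x := -(1 / 6)) (by norm_num)
  refine ⟨C, hC, fun M B u hB h0 hu => ?_⟩
  have h1 := H M B u hB h0 hu
  rw [show (1 : ℝ) + -(1 / 6) = 5 / 6 by norm_num] at h1
  exact (tsum_of_norm_bounded (hu.rap hB h0 (-(1 / 6))).hasSum (da4b_norm_le u)).trans h1

theorem mm_smul (z : ℂ) (u : O → ℂ) : mm (fun n => z * u n) = z * mm u := by
  unfold mm
  rw [← tsum_mul_left]
  exact tsum_congr fun n => by ring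

theorem Good.smul {M B w : ℝ} {u : O → ℂ} (h : Good M B w u) (z : ℂ) :
    Good (‖z‖ * M) B w (fun n => z * u n) := by
  refine ⟨fun n hn => h.supp n (right_ne_zero_of_mul hn),
    fun n hn => h.rough n (right_ne_zero_of_mul hn), fun n => ?_, fun k hk hkw hc σ t hσ ht => ?_⟩
  · rw [norm_mul, mul_assoc]
    exact mul_le_mul_of_nonneg_left (h.ev n) (norm_nonneg _)
  · have h1 : XX (fun n => z * u n * kap n k) (σ + t * I) =
        z * XX (fun n => u n * kap n k) (σ + t * I) := by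
      unfold XX
      rw [← tsum_mul_left]
      exact tsum_congr fun n => by ring
    rw [h1, norm_mul, mul_assoc, mul_div_assoc]
    exact mul_le_mul_of_nonneg_left (h.sw k hk hkw hc σ t hσ ht) (norm_nonneg _)

/-- `m d = B / N d` (and `B` for `d = 0`); the term vanishes unless `N d > w`; `EV.dil`,
`EV_nrm_le`, `tsum_tail_rpow_le`. -/
theorem DE_rough : ∃ C : ℝ, 0 ≤ C ∧ ∀ (M B w T : ℝ) (u : O → ℂ), 0 < B → B ≤ T → 0 < w →
    Supp 1 u → (∀ n, u n ≠ 0 → Rough w n) → EV M B u →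
    DE T u (C * M ^ 2 * B ^ (5 / 3 : ℝ) * w ^ (-(2 / 3) : ℝ)) := by
  obtain ⟨C₁, hC₁, H₁⟩ := EV_nrm_le
  obtain ⟨C₂, H₂⟩ := tsum_tail_rpow_le (σ := 5 / 3) (by norm_num)
  refine ⟨C₁ * max C₂ 0, by positivity, fun M B w T u hB hT hw hs hr hu => ?_⟩
  set m : O → ℝ := fun d => if d = 0 then B else B / Nr d with hm
  have hm0 : ∀ d, 0 < m d := fun d => by
    simp only [hm]
    split_ifs with h
    · exact hB
    · exact div_pos hB (Nr_pos h)
  have hS : Summable fun d : O => if w < Nr d then Nr d ^ (-(5 / 3) : ℝ) else 0 := by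
    refine (summable_Nr_rpow (σ := 5 / 3) (by norm_num)).of_nonneg_of_le (fun d => ?_) fun d => ?_
    · split_ifs
      · exact Real.rpow_nonneg (Nr_nonneg d) _
      · exact le_rfl
    · split_ifs
      · exact le_rfl
      · exact Real.rpow_nonneg (Nr_nonneg d) _
  have h0 : ∀ d, 0 ≤ de m u d := fun d => by
    unfold de
    split_ifs
    · exact mul_nonneg (Real.rpow_nonneg (hm0 d).le _) (nrm_nonneg (hm0 d) _)
    · exact le_rfl
  have hle : ∀ d, de m u d ≤ C₁ * M ^ 2 * B ^ (5 / 3 : ℝ) *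
      (if w < Nr d then Nr d ^ (-(5 / 3) : ℝ) else 0) := fun d => by
    have hN := Nr_nonneg d
    unfold de
    by_cases hd : Prim d ∧ d ≠ 1
    · rw [if_pos hd]
      have hd0 := hd.1.ne_zero
      have hN0 := Nr_pos hd0
      have hmd : m d = B / Nr d := if_neg hd0
      by_cases hwd : w < Nr d
      · rw [if_pos hwd, hmd]
        have h1 := H₁ M (B / Nr d) (fun n => u (d * n)) (by positivity)
          (by simpa using supp_zero hs) (hu.dil hd0)
        refine (mul_le_mul_of_nonneg_left h1 (by positivity)).trans (le_of_eq ?_)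
        have h2 : (B / Nr d) ^ (2 / 3 : ℝ) * (B / Nr d) = B ^ (5 / 3 : ℝ) * Nr d ^ (-(5 / 3) : ℝ) := by
          rw [← Real.rpow_add_one (by positivity), Real.div_rpow hB.le hN, Real.rpow_neg hN,
            div_eq_mul_inv]
          norm_num
        linear_combination C₁ * M ^ 2 * h2
      · have h1 : ∀ n, u (d * n) = 0 := fun n => by
          by_contra hn
          obtain ⟨p, q, hp, -, -, hpq, -⟩ := b1_factor hd.1 hd.2
          have hpd : p ∣ d := ⟨q, hpq⟩
          exact hwd ((hr _ hn p hp (hpd.mul_right n)).trans_le (Nr_le_of_dvd hd0 hpd))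
        rw [if_neg hwd]
        simp [nrm, h1]
    · rw [if_neg hd]
      split_ifs <;> positivity
  have hS' := (hS.mul_left (C₁ * M ^ 2 * B ^ (5 / 3 : ℝ)))
  have hsum := hS'.of_nonneg_of_le h0 hle
  refine ⟨m, fun d => ⟨hm0 d, ?_⟩, hsum, (hsum.tsum_le_tsum hle hS').trans ?_⟩
  · simp only [hm]
    split_ifs with h
    · exact hT
    · exact (div_le_self hB.le (one_le_Nr h)).trans hT
  · rw [tsum_mul_left]
    have h1 := H₂ w hw
    rw [show (1 : ℝ) - 5 / 3 = -(2 / 3) by norm_num] at h1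
    have h2 : C₂ * w ^ (-(2 / 3) : ℝ) ≤ max C₂ 0 * w ^ (-(2 / 3) : ℝ) :=
      mul_le_mul_of_nonneg_right (le_max_left _ _) (by positivity)
    refine (mul_le_mul_of_nonneg_left (h1.trans h2) (by positivity)).trans (le_of_eq ?_)
    ring

/-- `XX_co`, `sm_rpow` with `a = 2` (`u = 4 (σ - 1/2) ∈ {-1, 8}`), `sv_congr`, `EV_co`. -/
theorem good_co : ∃ C : ℝ, 0 ≤ C ∧ ∀ (M B τ w : ℝ) (β : O → ℂ), 0 < B → 0 < w → Env M B β →
    (∀ b, Prim b → β b ≠ 0 → Squarefree b ∧ Rough w b) → SWH M w B τ β →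
    Good (C * M) B w (co 1 B τ β) := by
  classical
  obtain ⟨C, hC, H⟩ := EV_co
  refine ⟨C + Real.exp 16, by positivity, fun M B τ w β hB hw hE hβ hS => ?_⟩
  have hev := H 1 M B τ β one_pos le_rfl hB hE
  have hM : 0 ≤ M := by
    have h1 := (norm_nonneg _).trans (hE 1 prim_one)
    have h2 : 0 < 1 + Nr 1 / B := by rw [Nr_one]; positivity
    exact nonneg_of_mul_nonneg_left h1 h2
  refine ⟨supp_co _ _ _ _, fun n hn => ?_,
    hev.mono (mul_le_mul_of_nonneg_right (le_add_of_nonneg_right (by positivity)) hM),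
    fun k hk hkw hc σ t hσ ht => ?_⟩
  · unfold co at hn
    split_ifs at hn with h
    · exact (hβ n h.1 (left_ne_zero_of_mul (left_ne_zero_of_mul hn))).2
    · exact absurd rfl hn
  · have hσ1 : -(1 / 4) ≤ σ - 1 / 2 ∧ σ - 1 / 2 ≤ 2 := by
      rcases hσ with rfl | rfl <;> norm_num
    have h1 : sm 2 (fun n => (if Squarefree n then β n else 0) * kap n k)
        (B * Real.exp (2 * 2 * (σ - 1 / 2))) (τ - t) =
        sm 2 (fun n => β n * kap n k) (B * Real.exp (2 * 2 * (σ - 1 / 2))) (τ + -t) := by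
      rw [sub_eq_add_neg τ t]
      refine sv_congr fun n hn => ?_
      split_ifs with h
      · rfl
      · have : β n = 0 := by
          by_contra h0
          exact h (hβ n hn h0).1
        rw [this]
    have h2 := hS k hk hkw hc (2 * 2 * (σ - 1 / 2)) (-t)
      (abs_le.2 ⟨by linarith [hσ1.1], by linarith [hσ1.2]⟩) (by rwa [abs_neg])
    have h3 : Real.exp (2 * (σ - 1 / 2) ^ 2) ≤ C + Real.exp 16 :=
      (Real.exp_le_exp.2 (by nlinarith [hσ1.1, hσ1.2])).trans (le_add_of_nonneg_left hC)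
    have h4 : B ^ (σ + 1 / 2) = B ^ (σ - 1 / 2) * B := by
      rw [← Real.rpow_add_one hB.ne']
      congr 1
      ring
    rw [XX_co, mul_one, sm_rpow (by norm_num) hB, h1, norm_mul, Complex.norm_real,
      Real.norm_of_nonneg (by positivity), h4]
    calc _ ≤ B ^ (σ - 1 / 2) * (C + Real.exp 16) * (M * B / w) := by gcongr
      _ = _ := by ring

end Crest.Agent.R012.D

end
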