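import Crest.Agent.R012.TDefs
import Crest.Agent.R012.Ang
import Crest.Agent.R017.Sieve

/-! # Row 12: the model sum -/

set_option autoImplicit false

noncomputable section

open scoped BigOperators ComplexConjugate Topology
open Complex MeasureTheory Filter Set Crest.Agent.R017 Crest.Agent.R017.Theta

namespace Crest.Agent.R012

theorem tm_rpow_exp {x : ℝ} (hx : 0 < x) (σ : ℝ) :
    ((x ^ σ : ℝ) : ℂ) = Complex.exp ((Real.log x : ℝ) * (σ : ℂ)) := by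
  rw [Real.rpow_def_of_pos hx, Complex.ofReal_exp]; push_cast; rfl

theorem tm_id {x X : ℝ} (hx : 0 < x) (hX : 0 < X) (τ : ℝ) :
    (x : ℂ) ^ (-(τ * I)) * ((x ^ (-(1 / 6) : ℝ) : ℝ) : ℂ) * ((X / x : ℝ) : ℂ) ^ (5 / 6 - τ * I) =
      (X : ℂ) ^ (5 / 6 - τ * I) / (x : ℂ) := by
  rw [w2_cpow hx, tm_rpow_exp hx, w2_cpow (div_pos hX hx), w2_cpow hX, Real.log_div hX.ne' hx.ne']
  have hx' : (x : ℂ) = Complex.exp ((Real.log x : ℝ) : ℂ) := by
    rw [← Complex.ofReal_exp, Real.exp_log hx]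
  rw [hx', ← Complex.exp_sub, ← Complex.exp_add, ← Complex.exp_add]
  congr 1
  push_cast
  ring

theorem tm_norm_rpow {n : O} (σ : ℝ) : ‖((Nr n ^ σ : ℝ) : ℂ)‖ = Nr n ^ σ := by
  rw [Complex.norm_real, Real.norm_of_nonneg (Real.rpow_nonneg (Nr_nonneg n) _)]

theorem tm_rpow_le_one {n : O} (hn : n ≠ 0) : Nr n ^ (-(1 / 6) : ℝ) ≤ 1 :=
  Real.rpow_le_one_of_one_le_of_nonpos (one_le_Nr hn) (by norm_num)

theorem tm_norm_c (l : ℤ) {n : O} (hn : n ≠ 0) :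
    ‖az l n * ((Nr n ^ (-(1 / 6) : ℝ) : ℝ) : ℂ)‖ = Nr n ^ (-(1 / 6) : ℝ) := by
  rw [norm_mul, norm_az l hn, one_mul, tm_norm_rpow]

theorem tm_norm_Wh {a : ℝ} (ha : 0 < a) (τ : ℝ) :
    ‖Wh a (5 / 6 - τ * I)‖ ≤ Real.sqrt (4 * Real.pi * a) * Real.exp a := by
  have e : (5 / 6 - τ * I : ℂ) = ((5 / 6 : ℝ) : ℂ) + ((-τ : ℝ) : ℂ) * I := by push_cast; ring
  rw [e, norm_Wh ha]
  gcongr
  nlinarith [sq_nonneg τ]

theorem tm_norm_cpow {X : ℝ} (hX : 0 < X) (τ : ℝ) :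
    ‖(X : ℂ) ^ (5 / 6 - τ * I)‖ = X ^ (5 / 6 : ℝ) := by
  rw [Complex.norm_cpow_eq_rpow_re_of_pos hX]
  congr 1
  simp

/-- The trivial bound. -/
theorem tm_triv {a : ℝ} (ha : 0 < a) (A : ℝ) (hA : -1 < A) : ∃ C : ℝ, 0 ≤ C ∧
    ∀ (c : O → ℂ) (X τ : ℝ), 0 < X → (∀ n, Prim n → ‖c n‖ ≤ 1 * Nr n ^ A) →
      ‖sm a c X τ‖ ≤ C * X ^ (1 + A) := by
  obtain ⟨C, hC⟩ := tsum_W_le ha A hA
  refine ⟨max C 0, le_max_right _ _, fun c X τ hX hc => ?_⟩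
  have h1 := tsum_of_norm_bounded (summable_W ha hX A).hasSum
    (fun n => (w2_term_le (a := a) (X := X) hc τ n).trans (le_of_eq (by rw [abs_one, one_mul])))
  refine h1.trans ((hC X hX).trans ?_)
  gcongr
  exact le_max_left _ _

/-- `sm_rpow` and `sm_az` for `X ≥ 1`; trivial for `X ≤ 1`. -/
theorem sm_az_md {a : ℝ} (ha : 0 < a) (l : ℤ) : ∃ C : ℝ, 0 ≤ C ∧ ∀ X τ : ℝ, 0 < X →
    ‖sm a (fun n => az l n * ((Nr n ^ (-(1 / 6) : ℝ) : ℝ) : ℂ)) X τ -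
      (if l = 0 then ((c0 / 9 : ℝ) : ℂ) * (X : ℂ) ^ (5 / 6 - τ * I) * Wh a (5 / 6 - τ * I) else 0)‖ ≤
      C * (1 + |τ|) ^ 2 := by
  obtain ⟨C₁, hC₁, H₁⟩ := sm_az ha l
  obtain ⟨C₂, hC₂, H₂⟩ := tm_triv ha (-(1 / 6)) (by norm_num)
  have hc0 := c0_pos
  set C₃ : ℝ := c0 / 9 * (Real.sqrt (4 * Real.pi * a) * Real.exp a) with hC₃
  have hC₃0 : 0 ≤ C₃ := by positivity
  refine ⟨Real.exp (a * (-(1 / 6)) ^ 2) * C₁ + C₂ + C₃, by positivity, fun X τ hX => ?_⟩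
  have hτ : 1 ≤ (1 + |τ|) ^ 2 := one_le_pow₀ (by linarith [abs_nonneg τ])
  rcases le_total 1 X with h1 | h1
  · have e1 : sm a (fun n => az l n * ((Nr n ^ (-(1 / 6) : ℝ) : ℝ) : ℂ)) X τ =
        sm a (fun n => az l n * (Nr n : ℂ) ^ (((-(1 / 6) : ℝ) : ℂ) + (0 : ℝ) * I)) X τ := by
      refine sv_congr fun n hn => ?_
      rw [Complex.ofReal_cpow (Nr_nonneg n)]
      simp
    rw [e1, sm_rpow ha hX, sub_zero]
    have hX' : 0 < X * Real.exp (2 * a * (-(1 / 6))) := by positivity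
    have e2 : (if l = 0 then ((c0 / 9 : ℝ) : ℂ) * (X : ℂ) ^ (5 / 6 - τ * I) * Wh a (5 / 6 - τ * I)
        else 0) = ((X ^ (-(1 / 6) : ℝ) * Real.exp (a * (-(1 / 6)) ^ 2) : ℝ) : ℂ) *
        (if l = 0 then ((c0 / 9 : ℝ) : ℂ) * ((X * Real.exp (2 * a * (-(1 / 6))) : ℝ) : ℂ) ^ (1 - τ * I) *
          Wh a (1 - τ * I) else 0) := by
      split_ifs
      · rw [w2_cpow hX, w2_cpow hX', Real.log_mul hX.ne' (Real.exp_pos _).ne', Real.log_exp,
          Complex.ofReal_mul, tm_rpow_exp hX, Complex.ofReal_exp]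
        unfold Wh
        have key : Complex.exp ((Real.log X : ℝ) * (5 / 6 - τ * I)) *
            Complex.exp (a * (5 / 6 - τ * I) ^ 2) =
            Complex.exp ((Real.log X : ℝ) * ((-(1 / 6) : ℝ) : ℂ)) *
            Complex.exp ((a * (-(1 / 6)) ^ 2 : ℝ) : ℂ) *
            Complex.exp (((Real.log X + 2 * a * (-(1 / 6)) : ℝ) : ℂ) * (1 - τ * I)) *
            Complex.exp (a * (1 - τ * I) ^ 2) := by
          simp only [← Complex.exp_add]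
          congr 1
          push_cast
          ring
        linear_combination ((c0 / 9 : ℝ) : ℂ) * ((Real.sqrt (4 * Real.pi * a) : ℝ) : ℂ) * key
      · simp
    rw [e2, ← mul_sub, norm_mul, Complex.norm_real, Real.norm_of_nonneg (by positivity)]
    have h2 := H₁ _ τ hX'
    have h3 : X ^ (-(1 / 6) : ℝ) ≤ 1 := Real.rpow_le_one_of_one_le_of_nonpos h1 (by norm_num)
    calc _ ≤ (1 * Real.exp (a * (-(1 / 6)) ^ 2)) * (C₁ * (1 + |τ|) ^ 2) := by gcongr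
      _ ≤ _ := by nlinarith [mul_nonneg (add_nonneg hC₂ hC₃0) (zero_le_one.trans hτ)]
  · have h2 := H₂ (fun n => az l n * ((Nr n ^ (-(1 / 6) : ℝ) : ℝ) : ℂ)) X τ hX
      (fun n hn => by rw [tm_norm_c l hn.ne_zero, one_mul])
    have h3 : X ^ (1 + -(1 / 6) : ℝ) ≤ 1 := Real.rpow_le_one hX.le h1 (by norm_num)
    have h4 : ‖(if l = 0 then ((c0 / 9 : ℝ) : ℂ) * (X : ℂ) ^ (5 / 6 - τ * I) * Wh a (5 / 6 - τ * I)
        else 0)‖ ≤ C₃ := by
      split_ifs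
      · rw [norm_mul, norm_mul, tm_norm_cpow hX, Complex.norm_real, Real.norm_of_nonneg (by positivity)]
        have h5 : X ^ (5 / 6 : ℝ) ≤ 1 := Real.rpow_le_one hX.le h1 (by norm_num)
        calc _ ≤ c0 / 9 * 1 * (Real.sqrt (4 * Real.pi * a) * Real.exp a) := by
              gcongr
              exact tm_norm_Wh ha τ
          _ = C₃ := by rw [hC₃]; ring
      · simpa using hC₃0
    refine (norm_sub_le _ _).trans ?_
    have h6 : 0 ≤ Real.exp (a * (-(1 / 6)) ^ 2) * C₁ := by positivity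
    nlinarith [mul_le_mul_of_nonneg_left h3 hC₂, mul_le_mul_of_nonneg_left hτ (add_nonneg (add_nonneg h6 hC₂) hC₃0)]

theorem tm_c_mul (l : ℤ) (d n : O) :
    az l (d * n) * ((Nr (d * n) ^ (-(1 / 6) : ℝ) : ℝ) : ℂ) =
      (az l d * ((Nr d ^ (-(1 / 6) : ℝ) : ℝ) : ℂ)) * (az l n * ((Nr n ^ (-(1 / 6) : ℝ) : ℝ) : ℂ)) := by
  rw [az_mul, Nr_mul, Real.mul_rpow (Nr_nonneg d) (Nr_nonneg n)]
  push_cast
  ring

open Classical in
/-- Coprimality to `r` by `sum_pdiv_mu_dvd`, `sm_dvd`. -/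
theorem sm_az_md_cop {a : ℝ} (ha : 0 < a) (l : ℤ) : ∃ C : ℝ, 0 ≤ C ∧ ∀ (r : O) (X τ : ℝ), Prim r → 0 < X →
    ‖sm a (fun n => if IsCoprime r n then az l n * ((Nr n ^ (-(1 / 6) : ℝ) : ℝ) : ℂ) else 0) X τ -
      (if l = 0 then ((c0 / 9 : ℝ) : ℂ) * ph r * (X : ℂ) ^ (5 / 6 - τ * I) * Wh a (5 / 6 - τ * I)
        else 0)‖ ≤ C * dv r * (1 + |τ|) ^ 2 := by
  obtain ⟨C, hC, H⟩ := sm_az_md ha l
  refine ⟨C, hC, fun r X τ hr hX => ?_⟩
  have e1 : sm a (fun n => if IsCoprime r n then az l n * ((Nr n ^ (-(1 / 6) : ℝ) : ℝ) : ℂ) else 0) X τ =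
      sm a (fun n => if IsCoprime n r then az l n * ((Nr n ^ (-(1 / 6) : ℝ) : ℝ) : ℂ) else 0) X τ := by
    refine sv_congr fun n _ => ?_
    simp only [isCoprime_comm (x := r)]
  have e2 := sm_coprime ha hX (c := fun n => az l n * ((Nr n ^ (-(1 / 6) : ℝ) : ℝ) : ℂ)) (K := 1)
    (A := -(1 / 6)) (fun n hn => by rw [tm_norm_c l hn.ne_zero, one_mul]) hr.ne_zero τ
  have e3 : (if l = 0 then ((c0 / 9 : ℝ) : ℂ) * ph r * (X : ℂ) ^ (5 / 6 - τ * I) * Wh a (5 / 6 - τ * I)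
        else 0) = ∑ d ∈ pdiv r, mu d * (Nr d : ℂ) ^ (-(τ * I)) *
          ((az l d * ((Nr d ^ (-(1 / 6) : ℝ) : ℝ) : ℂ)) *
            (if l = 0 then ((c0 / 9 : ℝ) : ℂ) * ((X / Nr d : ℝ) : ℂ) ^ (5 / 6 - τ * I) *
              Wh a (5 / 6 - τ * I) else 0)) := by
    split_ifs with hl
    · subst hl
      unfold ph
      rw [Finset.mul_sum, Finset.sum_mul, Finset.sum_mul]
      refine Finset.sum_congr rfl fun d hd => ?_
      have hd0 : d ≠ 0 := ((mem_pdiv hr.ne_zero).1 hd).1.ne_zero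
      have := tm_id (Nr_pos hd0) hX τ
      rw [az_zero]
      linear_combination (-(mu d * ((c0 / 9 : ℝ) : ℂ) * Wh a (5 / 6 - τ * I))) * this
    · simp
  rw [e1]
  erw [e2]
  rw [e3, ← Finset.sum_sub_distrib]
  refine (norm_sum_le _ _).trans ?_
  have : ∀ d ∈ pdiv r, ‖mu d * (Nr d : ℂ) ^ (-(τ * I)) *
      sm a (fun n => az l (d * n) * ((Nr (d * n) ^ (-(1 / 6) : ℝ) : ℝ) : ℂ)) (X / Nr d) τ -
      mu d * (Nr d : ℂ) ^ (-(τ * I)) *
          ((az l d * ((Nr d ^ (-(1 / 6) : ℝ) : ℝ) : ℂ)) *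
            (if l = 0 then ((c0 / 9 : ℝ) : ℂ) * ((X / Nr d : ℝ) : ℂ) ^ (5 / 6 - τ * I) *
              Wh a (5 / 6 - τ * I) else 0))‖ ≤ C * (1 + |τ|) ^ 2 := by
    intro d hd
    have hd0 : d ≠ 0 := ((mem_pdiv hr.ne_zero).1 hd).1.ne_zero
    simp only [tm_c_mul]
    rw [sv_mul, ← mul_sub, ← mul_sub, norm_mul, norm_mul, norm_mul, sv_norm_cpow hd0, tm_norm_c l hd0]
    have h1 := H (X / Nr d) τ (div_pos hX (Nr_pos hd0))
    have h2 := tm_rpow_le_one hd0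
    have h3 := norm_mu_le d
    have h4 := Nr_pos hd0
    calc _ ≤ 1 * 1 * (1 * (C * (1 + |τ|) ^ 2)) := by gcongr
      _ = _ := by ring
  refine (Finset.sum_le_card_nsmul _ _ _ this).trans (le_of_eq ?_)
  rw [nsmul_eq_mul]
  unfold dv
  ring

theorem tm_mem_sbox {J : ℝ} {n : O} : n ∈ sbox J ↔ (n ≠ 0 ∧ Nr n ≤ J) ∧ Prim n ∧ Squarefree n := by
  classical
  unfold sbox
  rw [Finset.mem_filter, mem_box]

/-- `μ²(c) = ∑_{e² ∣ c} μ(e)`; `N e ≤ J` by `sm_az_md_cop`, `N e > J` trivially (`tsum_W_le`). -/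
theorem model (l : ℤ) {a : ℝ} (ha : 0 < a) : ∃ C : ℝ, 0 ≤ C ∧ ∀ (r : O) (Y J τ : ℝ), Prim r →
    Squarefree r → 0 < Y → 1 ≤ J →
    ‖sm a (fun c => az l c * md (r * c)) Y τ -
      (if l = 0 then ((c0 / 9 : ℝ) : ℂ) * ph r * ((Nr r ^ (-(1 / 6) : ℝ) : ℝ) : ℂ) * Zr r J *
        (Y : ℂ) ^ (5 / 6 - τ * I) * Wh a (5 / 6 - τ * I) else 0)‖ ≤
      C * Nr r ^ (-(1 / 6) : ℝ) * (dv r * J ^ (2 / 3 : ℝ) * (1 + |τ|) ^ 2 + Y ^ (5 / 6 : ℝ) / J) := by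
  classical
  obtain ⟨C₁, hC₁, H₁⟩ := sm_az_md_cop ha l
  obtain ⟨C₂, hC₂, H₂⟩ := tm_triv ha (-(1 / 6)) (by norm_num)
  obtain ⟨C₃, H₃⟩ := sum_box_rpow_le (σ := 1 / 3) (by norm_num)
  obtain ⟨C₄, hC₄, H₄⟩ := b2_tail (σ := 2) (by norm_num)
  refine ⟨C₁ * max C₃ 0 + C₂ * C₄, by positivity, fun r Y J τ hr hs hY hJ => ?_⟩
  have hJ0 : 0 < J := by linarith
  set c : O → ℂ := fun n => if IsCoprime r n then az l n * ((Nr n ^ (-(1 / 6) : ℝ) : ℝ) : ℂ) else 0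
    with hc
  have hcb : ∀ n, Prim n → ‖c n‖ ≤ 1 * Nr n ^ (-(1 / 6) : ℝ) := by
    intro n hn
    simp only [hc]
    split_ifs
    · rw [tm_norm_c l hn.ne_zero, one_mul]
    · rw [norm_zero, one_mul]; exact Real.rpow_nonneg (Nr_nonneg n) _
  have e1 : sm a (fun c => az l c * md (r * c)) Y τ = ((Nr r ^ (-(1 / 6) : ℝ) : ℝ) : ℂ) *
      sm a (fun n => if Squarefree n then c n else 0) Y τ := by
    rw [← sv_mul]
    refine sv_congr fun n hn => ?_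
    rw [md_mul hr hn]
    simp only [hc, md, hs, if_true]
    split_ifs <;> ring
  have hF := sm_sqf ha hY hcb τ
  set M : ℂ := if l = 0 then ((c0 / 9 : ℝ) : ℂ) * ph r * (Y : ℂ) ^ (5 / 6 - τ * I) *
    Wh a (5 / 6 - τ * I) else 0 with hM
  have hG : HasSum (fun j : O => if j ∈ sbox J then
      (if IsCoprime j r then mu j / (Nr j : ℂ) ^ 2 else 0) * M else 0) (Zr r J * M) := by
    unfold Zr
    rw [Finset.sum_mul]
    have := hasSum_sum_of_ne_finset_zero (L := SummationFilter.unconditional O) (s := sbox J)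
      (f := fun j : O => if j ∈ sbox J then
        (if IsCoprime j r then mu j / (Nr j : ℂ) ^ 2 else 0) * M else 0)
      (fun j hj => if_neg hj)
    convert this using 1
    exact Finset.sum_congr rfl fun j hj => by rw [if_pos hj]
  have e2 : (if l = 0 then ((c0 / 9 : ℝ) : ℂ) * ph r * ((Nr r ^ (-(1 / 6) : ℝ) : ℝ) : ℂ) * Zr r J *
        (Y : ℂ) ^ (5 / 6 - τ * I) * Wh a (5 / 6 - τ * I) else 0) =
      ((Nr r ^ (-(1 / 6) : ℝ) : ℝ) : ℂ) * (Zr r J * M) := by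
    rw [hM]
    split_ifs <;> ring
  have hdv : 0 ≤ dv r := Nat.cast_nonneg _
  have hterm : ∀ j : O, ‖(if Prim j then mu j * (Nr (j ^ 2) : ℂ) ^ (-(τ * I)) *
        sm a (fun n => c (j ^ 2 * n)) (Y / Nr (j ^ 2)) τ else 0) -
      (if j ∈ sbox J then (if IsCoprime j r then mu j / (Nr j : ℂ) ^ 2 else 0) * M else 0)‖ ≤
      C₁ * dv r * (1 + |τ|) ^ 2 * (if j ∈ box J then Nr j ^ (-(1 / 3) : ℝ) else 0) +
      C₂ * Y ^ (5 / 6 : ℝ) * (if J < Nr j then Nr j ^ (-(2 : ℝ)) else 0) := by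
    intro j
    have hN := Nr_nonneg j
    have p1 : 0 ≤ C₁ * dv r * (1 + |τ|) ^ 2 * (if j ∈ box J then Nr j ^ (-(1 / 3) : ℝ) else 0) := by
      split_ifs <;> positivity
    have p2 : 0 ≤ C₂ * Y ^ (5 / 6 : ℝ) * (if J < Nr j then Nr j ^ (-(2 : ℝ)) else 0) := by
      split_ifs <;> positivity
    by_cases hj : Prim j
    swap
    · rw [if_neg hj, if_neg (fun h => hj (tm_mem_sbox.1 h).2.1), sub_zero, norm_zero]
      exact add_nonneg p1 p2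
    rw [if_pos hj]
    by_cases hsq : Squarefree j
    swap
    · rw [if_neg (fun h => hsq (tm_mem_sbox.1 h).2.2), mu_eq_zero.2 hsq, zero_mul, zero_mul, sub_zero,
        norm_zero]
      exact add_nonneg p1 p2
    by_cases hco : IsCoprime j r
    swap
    · have : sm a (fun n => c (j ^ 2 * n)) (Y / Nr (j ^ 2)) τ = 0 := by
        rw [← sv_zero a (Y / Nr (j ^ 2)) τ]
        refine sv_congr fun n _ => ?_
        simp only [hc]
        rw [if_neg]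
        intro h
        exact hco (IsCoprime.of_isCoprime_of_dvd_right h (Dvd.dvd.mul_right (dvd_pow_self j two_ne_zero) n)).symm
      rw [this, if_neg hco, mul_zero, zero_mul, ite_self, sub_zero, norm_zero]
      exact add_nonneg p1 p2
    have hj0 := hj.ne_zero
    have hj2 : j ^ 2 ≠ 0 := pow_ne_zero 2 hj0
    have hN2 := Nr_pos hj2
    have hNp := Nr_pos hj0
    have e3 : sm a (fun n => c (j ^ 2 * n)) (Y / Nr (j ^ 2)) τ =
        (az l (j ^ 2) * ((Nr (j ^ 2) ^ (-(1 / 6) : ℝ) : ℝ) : ℂ)) * sm a c (Y / Nr (j ^ 2)) τ := by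
      rw [← sv_mul]
      refine sv_congr fun n _ => ?_
      simp only [hc]
      have : IsCoprime r (j ^ 2 * n) ↔ IsCoprime r n := by
        rw [IsCoprime.mul_right_iff]
        exact ⟨fun h => h.2, fun h => ⟨hco.symm.pow_right, h⟩⟩
      by_cases h : IsCoprime r n
      · rw [if_pos (this.2 h), if_pos h, tm_c_mul]
      · rw [if_neg (fun h' => h (this.1 h')), if_neg h, mul_zero]
    have h3 := norm_mu_le j
    rw [e3, if_pos hco]
    by_cases hJ' : Nr j ≤ J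
    · have hm : j ∈ sbox J := tm_mem_sbox.2 ⟨⟨hj0, hJ'⟩, hj, hsq⟩
      have e4 : mu j / (Nr j : ℂ) ^ 2 * M = mu j * (Nr (j ^ 2) : ℂ) ^ (-(τ * I)) *
          ((az l (j ^ 2) * ((Nr (j ^ 2) ^ (-(1 / 6) : ℝ) : ℝ) : ℂ)) *
            (if l = 0 then ((c0 / 9 : ℝ) : ℂ) * ph r * ((Y / Nr (j ^ 2) : ℝ) : ℂ) ^ (5 / 6 - τ * I) *
              Wh a (5 / 6 - τ * I) else 0)) := by
        rw [hM]
        split_ifs with hl
        · subst hl
          have := tm_id hN2 hY τ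
          have e5 : ((Nr (j ^ 2) : ℝ) : ℂ) = (Nr j : ℂ) ^ 2 := by rw [Nr_pow]; push_cast; rfl
          rw [az_zero, ← e5]
          linear_combination (-(mu j * ((c0 / 9 : ℝ) : ℂ) * ph r * Wh a (5 / 6 - τ * I))) * this
        · simp
      rw [if_pos hm, e4, ← mul_sub, ← mul_sub, norm_mul, norm_mul, norm_mul, sv_norm_cpow hj2,
        tm_norm_c l hj2, if_pos (mem_box.2 ⟨hj0, hJ'⟩)]
      have h1 := H₁ r (Y / Nr (j ^ 2)) τ hr (div_pos hY hN2)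
      have e6 : Nr (j ^ 2) ^ (-(1 / 6) : ℝ) = Nr j ^ (-(1 / 3) : ℝ) := by
        rw [Nr_pow, ← Real.rpow_natCast, ← Real.rpow_mul hN]; norm_num
      rw [e6]
      refine le_add_of_le_of_nonneg ?_ p2
      calc _ ≤ 1 * 1 * (Nr j ^ (-(1 / 3) : ℝ) * (C₁ * dv r * (1 + |τ|) ^ 2)) := by gcongr
        _ = _ := by ring
    · have hm : j ∉ sbox J := fun h => hJ' (tm_mem_sbox.1 h).1.2
      rw [if_neg hm, sub_zero, norm_mul, norm_mul, norm_mul, sv_norm_cpow hj2, tm_norm_c l hj2,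
        if_pos (not_le.1 hJ')]
      have h1 := H₂ c (Y / Nr (j ^ 2)) τ (div_pos hY hN2) hcb
      refine le_add_of_nonneg_of_le p1 ?_
      have e6 : Nr (j ^ 2) ^ (-(1 / 6) : ℝ) * (Y / Nr (j ^ 2)) ^ (1 + -(1 / 6) : ℝ) =
          Y ^ (5 / 6 : ℝ) * Nr j ^ (-(2 : ℝ)) := by
        rw [Real.div_rpow hY.le hN2.le, show (1 + -(1 / 6) : ℝ) = 5 / 6 by norm_num, div_eq_mul_inv (Y ^ _),
          ← Real.rpow_neg hN2.le, mul_left_comm, ← Real.rpow_add hN2, Nr_pow, ← Real.rpow_natCast,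
          ← Real.rpow_mul hN]
        norm_num
      calc _ ≤ 1 * 1 * (Nr (j ^ 2) ^ (-(1 / 6) : ℝ) * (C₂ * (Y / Nr (j ^ 2)) ^ (1 + -(1 / 6) : ℝ))) := by
            gcongr
        _ = C₂ * (Nr (j ^ 2) ^ (-(1 / 6) : ℝ) * (Y / Nr (j ^ 2)) ^ (1 + -(1 / 6) : ℝ)) := by ring
        _ = _ := by rw [e6]; ring
  have hB := sv_norm_le (hF.sub hG) (B := C₁ * dv r * (1 + |τ|) ^ 2 * (max C₃ 0 * J ^ (2 / 3 : ℝ)) +
      C₂ * Y ^ (5 / 6 : ℝ) * (C₄ * J⁻¹)) (fun s => by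
    refine (Finset.sum_le_sum fun j _ => hterm j).trans ?_
    rw [Finset.sum_add_distrib, ← Finset.mul_sum, ← Finset.mul_sum]
    gcongr
    · rw [← Finset.sum_filter]
      have h1 := H₃ J hJ
      rw [show (1 - 1 / 3 : ℝ) = 2 / 3 by norm_num] at h1
      refine (Finset.sum_le_sum_of_subset_of_nonneg (fun x hx => (Finset.mem_filter.1 hx).2)
        (fun x _ _ => Real.rpow_nonneg (Nr_nonneg x) _)).trans (h1.trans ?_)
      gcongr
      exact le_max_left _ _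
    · have h1 := H₄ J hJ0 s
      rwa [show (1 - 2 : ℝ) = -1 by norm_num, Real.rpow_neg_one] at h1)
  rw [e1, e2, ← mul_sub, norm_mul, tm_norm_rpow]
  have hR : 0 ≤ Nr r ^ (-(1 / 6) : ℝ) := Real.rpow_nonneg (Nr_nonneg r) _
  refine (mul_le_mul_of_nonneg_left hB hR).trans ?_
  rw [mul_comm (C₁ * max C₃ 0 + C₂ * C₄), mul_assoc (Nr r ^ _)]
  refine mul_le_mul_of_nonneg_left ?_ hR
  have q1 : 0 ≤ dv r * J ^ (2 / 3 : ℝ) * (1 + |τ|) ^ 2 := by positivity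
  have q2 : 0 ≤ Y ^ (5 / 6 : ℝ) / J := by positivity
  have q3 : 0 ≤ C₁ * max C₃ 0 := by positivity
  have q4 : 0 ≤ C₂ * C₄ := by positivity
  rw [div_eq_mul_inv (Y ^ _)] at q2 ⊢
  nlinarith [mul_nonneg q3 q2, mul_nonneg q4 q1]

end Crest.Agent.R012

end
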