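import Crest.Agent.R012.TI1
import Crest.Agent.R012.TM
import Crest.Agent.R012.Cs

/-! # Row 12: type I sums -/

set_option autoImplicit false

noncomputable section

open scoped BigOperators ComplexConjugate Topology
open Complex MeasureTheory Filter Set Crest.Agent.R017 Crest.Agent.R017.Theta

namespace Crest.Agent.R012

theorem TI_conj_md (n : O) : conj (md n) = md n := by
  unfold md
  split_ifs
  · exact Complex.conj_ofReal _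
  · simp

theorem TI_conj_sm (l : ℤ) {r : O} (hr : Prim r) {Y : ℝ} (hY : 0 < Y) (τ : ℝ) :
    conj (sm 4 (fun c => az l c * FF (r * c)) Y τ) =
      conj (gt r) * sm 4 (fun c => conj (gt c) * az (-l) c * kap r c) Y (-τ) -
        (cst : ℂ) * sm 4 (fun c => az (-l) c * md (r * c)) Y (-τ) := by
  have h4 : (0 : ℝ) < 4 := by norm_num
  have s1 := summable_sm h4 hY (c := fun c => conj (gt c) * az (-l) c * kap r c) (K := 1) (A := 0)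
    (fun n hn => by
      rw [norm_mul, norm_mul, Complex.norm_conj, norm_az _ hn.ne_zero, Real.rpow_zero, mul_one,
        mul_one]
      exact mul_le_one₀ (norm_gt_le hn) (norm_nonneg _) (norm_kap_le _ _)) (-τ)
  have s2 := summable_sm h4 hY (c := fun c => az (-l) c * md (r * c)) (K := 1) (A := 0)
    (fun n hn => by
      rw [norm_mul, norm_az _ hn.ne_zero, Real.rpow_zero, mul_one, one_mul]
      exact norm_md_le_one (mul_ne_zero hr.ne_zero hn.ne_zero)) (-τ)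
  rw [sm_conj]
  unfold sm
  rw [← tsum_mul_left, ← tsum_mul_left, ← (s1.mul_left _).tsum_sub (s2.mul_left _)]
  refine tsum_congr fun n => ?_
  split_ifs with hn
  · simp only [FF, gt_mul hr hn, map_mul, map_sub, conj_az, Complex.conj_conj, TI_conj_md,
      Complex.conj_ofReal]
    ring
  · simp

theorem TI_pt (l : ℤ) {r : O} (hr : Prim r) (hs : Squarefree r) {Y : ℝ} (hY : 0 < Y) (J τ : ℝ) :
    ‖sm 4 (fun c => az l c * FF (r * c)) Y τ‖ ^ 2 ≤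
      2 / ‖T0‖ ^ 2 * ‖T0 * sm 4 (fun c => conj (gt c) * az (-l) c * kap r c) Y (-τ) -
        (if -l = 0 then gt r * mT * ph r * ((Nr r ^ (-(1 / 6) : ℝ) : ℝ) : ℂ) * Zr r J *
          (Y : ℂ) ^ (5 / 6 - (-τ : ℝ) * I) * Wh 4 (5 / 6 - (-τ : ℝ) * I) else 0)‖ ^ 2 +
      2 * cst ^ 2 * ‖sm 4 (fun c => az (-l) c * md (r * c)) Y (-τ) -
        (if -l = 0 then ((c0 / 9 : ℝ) : ℂ) * ph r * ((Nr r ^ (-(1 / 6) : ℝ) : ℝ) : ℂ) * Zr r J *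
          (Y : ℂ) ^ (5 / 6 - (-τ : ℝ) * I) * Wh 4 (5 / 6 - (-τ : ℝ) * I) else 0)‖ ^ 2 := by
  rw [← Complex.norm_conj (sm 4 _ Y τ), TI_conj_sm l hr hY τ]
  set A := sm 4 (fun c => conj (gt c) * az (-l) c * kap r c) Y (-τ)
  set B := sm 4 (fun c => az (-l) c * md (r * c)) Y (-τ)
  set M₁ : ℂ := (if -l = 0 then gt r * mT * ph r * ((Nr r ^ (-(1 / 6) : ℝ) : ℝ) : ℂ) * Zr r J *
          (Y : ℂ) ^ (5 / 6 - (-τ : ℝ) * I) * Wh 4 (5 / 6 - (-τ : ℝ) * I) else 0) with hM₁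
  set M₂ : ℂ := (if -l = 0 then ((c0 / 9 : ℝ) : ℂ) * ph r * ((Nr r ^ (-(1 / 6) : ℝ) : ℝ) : ℂ) *
          Zr r J * (Y : ℂ) ^ (5 / 6 - (-τ : ℝ) * I) * Wh 4 (5 / 6 - (-τ : ℝ) * I) else 0) with hM₂
  have hg : conj (gt r) * gt r = 1 := g1_conj_mul (norm_gt hr hs)
  have hM : conj (gt r) * M₁ = T0 * cst * M₂ := by
    rw [hM₁, hM₂]
    split_ifs
    · rw [mT_val, Complex.ofReal_mul]
      linear_combination (T0 * (((c0 / 9 : ℝ) : ℂ) * cst) * ph r *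
        ((Nr r ^ (-(1 / 6) : ℝ) : ℝ) : ℂ) * Zr r J * (Y : ℂ) ^ (5 / 6 - (-τ : ℝ) * I) *
          Wh 4 (5 / 6 - (-τ : ℝ) * I)) * hg
    · simp
  have hT := T0_ne
  have e : conj (gt r) * A - cst * B = conj (gt r) * (T0 * A - M₁) / T0 - cst * (B - M₂) := by
    field_simp
    linear_combination hM
  have hTp : 0 < ‖T0‖ := norm_pos_iff.2 hT
  have h1 : ‖conj (gt r) * A - cst * B‖ ≤ ‖T0 * A - M₁‖ / ‖T0‖ + cst * ‖B - M₂‖ := by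
    rw [e]
    refine (norm_sub_le _ _).trans (le_of_eq ?_)
    rw [norm_div, norm_mul, norm_mul, Complex.norm_conj, norm_gt hr hs, one_mul, Complex.norm_real,
      Real.norm_of_nonneg cst_pos.le]
  calc _ ≤ (‖T0 * A - M₁‖ / ‖T0‖ + cst * ‖B - M₂‖) ^ 2 := pow_le_pow_left₀ (norm_nonneg _) h1 2
    _ ≤ 2 * (‖T0 * A - M₁‖ / ‖T0‖) ^ 2 + 2 * (cst * ‖B - M₂‖) ^ 2 := by
        nlinarith [sq_nonneg (‖T0 * A - M₁‖ / ‖T0‖ - cst * ‖B - M₂‖)]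
    _ = _ := by ring

theorem TI_model (l : ℤ) : ∃ C : ℝ, 0 ≤ C ∧ ∀ R Y J τ : ℝ, 1 ≤ R → 1 ≤ Y → 1 ≤ J →
    ∑ r ∈ sbox R, ‖sm 4 (fun c => az l c * md (r * c)) Y τ -
      (if l = 0 then ((c0 / 9 : ℝ) : ℂ) * ph r * ((Nr r ^ (-(1 / 6) : ℝ) : ℝ) : ℂ) * Zr r J *
        (Y : ℂ) ^ (5 / 6 - τ * I) * Wh 4 (5 / 6 - τ * I) else 0)‖ ^ 2 ≤
      C * (R ^ 2 * J ^ 3 * (1 + |τ|) ^ 4 + R ^ (2 / 3 : ℝ) * Y ^ (5 / 3 : ℝ) * J ^ (-2 : ℝ)) := by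
  obtain ⟨C₁, hC₁, h₁⟩ := model l (a := 4) (by norm_num)
  obtain ⟨C₂, hC₂, h₂⟩ := dv_le (ε := 1 / 2) (by norm_num)
  obtain ⟨C₃, h₃⟩ := sum_box_rpow_le (σ := 1 / 3) (by norm_num)
  refine ⟨2 * C₁ ^ 2 * (25 * C₂ ^ 2 + |C₃|), by positivity, fun R Y J τ hR hY hJ => ?_⟩
  have hR0 : 0 ≤ R := by linarith
  have hY0 : 0 < Y := by linarith
  have hJ0 : 0 < J := by linarith
  have hP : 0 ≤ J ^ 3 * (1 + |τ|) ^ 4 := by positivity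
  have hQ : 0 ≤ Y ^ (5 / 3 : ℝ) * J ^ (-2 : ℝ) := by positivity
  have key : ∀ r ∈ sbox R, ‖sm 4 (fun c => az l c * md (r * c)) Y τ -
      (if l = 0 then ((c0 / 9 : ℝ) : ℂ) * ph r * ((Nr r ^ (-(1 / 6) : ℝ) : ℝ) : ℂ) * Zr r J *
        (Y : ℂ) ^ (5 / 6 - τ * I) * Wh 4 (5 / 6 - τ * I) else 0)‖ ^ 2 ≤
      2 * C₁ ^ 2 * (C₂ ^ 2 * R * (J ^ 3 * (1 + |τ|) ^ 4)) +
        2 * C₁ ^ 2 * (Y ^ (5 / 3 : ℝ) * J ^ (-2 : ℝ)) * Nr r ^ (-(1 / 3 : ℝ)) := by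
    intro r hr
    obtain ⟨hp, hs, hN⟩ := q_mem_sbox.1 hr
    have hN0 := Nr_pos hp.ne_zero
    have hN1 := one_le_Nr hp.ne_zero
    have h4 := h₁ r Y J τ hp hs hY0 hJ
    have e1 : (Nr r ^ (-(1 / 6) : ℝ)) ^ 2 = Nr r ^ (-(1 / 3 : ℝ)) := by
      rw [← Real.rpow_natCast, ← Real.rpow_mul hN0.le]; norm_num
    have e2 : (Y ^ (5 / 6 : ℝ) / J) ^ 2 = Y ^ (5 / 3 : ℝ) * J ^ (-2 : ℝ) := by
      rw [div_pow, ← Real.rpow_natCast, ← Real.rpow_mul hY0.le, Real.rpow_neg hJ0.le,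
        div_eq_mul_inv]
      norm_num
    have e3 : (J ^ (2 / 3 : ℝ)) ^ 2 ≤ J ^ 3 := by
      rw [← Real.rpow_natCast, ← Real.rpow_mul hJ0.le, ← Real.rpow_natCast]
      exact Real.rpow_le_rpow_of_exponent_le hJ (by norm_num)
    have e4 : dv r ^ 2 ≤ C₂ ^ 2 * R := by
      calc dv r ^ 2 ≤ (C₂ * Nr r ^ (1 / 2 : ℝ)) ^ 2 :=
            pow_le_pow_left₀ (dv_nonneg r) (h₂ r hp.ne_zero) 2
        _ = C₂ ^ 2 * Nr r := by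
            rw [mul_pow, ← Real.rpow_natCast (Nr r ^ (1 / 2 : ℝ)), ← Real.rpow_mul hN0.le]
            norm_num
        _ ≤ _ := mul_le_mul_of_nonneg_left hN (by positivity)
    have e5 : Nr r ^ (-(1 / 3 : ℝ)) ≤ 1 := Real.rpow_le_one_of_one_le_of_nonpos hN1 (by norm_num)
    have e6 : 0 ≤ Nr r ^ (-(1 / 3 : ℝ)) := by positivity
    have e7 : (dv r * J ^ (2 / 3 : ℝ) * (1 + |τ|) ^ 2) ^ 2 ≤ C₂ ^ 2 * R * (J ^ 3 * (1 + |τ|) ^ 4) := by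
      calc _ = dv r ^ 2 * ((J ^ (2 / 3 : ℝ)) ^ 2 * (1 + |τ|) ^ 4) := by ring
        _ ≤ _ := mul_le_mul e4 (mul_le_mul_of_nonneg_right e3 (by positivity)) (by positivity)
            (by positivity)
    set u := dv r * J ^ (2 / 3 : ℝ) * (1 + |τ|) ^ 2
    set v := Y ^ (5 / 6 : ℝ) / J
    calc _ ≤ (C₁ * Nr r ^ (-(1 / 6) : ℝ) * (u + v)) ^ 2 := pow_le_pow_left₀ (norm_nonneg _) h4 2
      _ = C₁ ^ 2 * Nr r ^ (-(1 / 3 : ℝ)) * (u + v) ^ 2 := by rw [mul_pow, mul_pow, e1]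
      _ ≤ C₁ ^ 2 * Nr r ^ (-(1 / 3 : ℝ)) * (2 * u ^ 2 + 2 * v ^ 2) :=
          mul_le_mul_of_nonneg_left (by nlinarith [sq_nonneg (u - v)]) (by positivity)
      _ = 2 * C₁ ^ 2 * (Nr r ^ (-(1 / 3 : ℝ)) * u ^ 2) +
          2 * C₁ ^ 2 * v ^ 2 * Nr r ^ (-(1 / 3 : ℝ)) := by ring
      _ ≤ _ := by
          rw [e2]
          refine add_le_add (mul_le_mul_of_nonneg_left ?_ (by positivity)) le_rfl
          exact (mul_le_of_le_one_left (by positivity) e5).trans e7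
  have h5 : ∑ r ∈ sbox R, Nr r ^ (-(1 / 3 : ℝ)) ≤ |C₃| * R ^ (2 / 3 : ℝ) := by
    calc _ ≤ ∑ r ∈ box R, Nr r ^ (-(1 / 3 : ℝ)) :=
          Finset.sum_le_sum_of_subset_of_nonneg
            (fun r hr => mem_box.2 ⟨(q_mem_sbox.1 hr).1.ne_zero, (q_mem_sbox.1 hr).2.2⟩)
            fun r _ _ => Real.rpow_nonneg (Nr_nonneg r) _
      _ ≤ C₃ * R ^ (1 - 1 / 3 : ℝ) := h₃ R hR
      _ ≤ _ := by
          rw [show (1 - 1 / 3 : ℝ) = 2 / 3 by norm_num]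
          exact mul_le_mul_of_nonneg_right (le_abs_self _) (by positivity)
  have h6 := card_sbox_le hR0
  have hA : 0 ≤ R ^ 2 * J ^ 3 * (1 + |τ|) ^ 4 := by positivity
  have hB : 0 ≤ R ^ (2 / 3 : ℝ) * Y ^ (5 / 3 : ℝ) * J ^ (-2 : ℝ) := by positivity
  calc _ ≤ ∑ r ∈ sbox R, (2 * C₁ ^ 2 * (C₂ ^ 2 * R * (J ^ 3 * (1 + |τ|) ^ 4)) +
        2 * C₁ ^ 2 * (Y ^ (5 / 3 : ℝ) * J ^ (-2 : ℝ)) * Nr r ^ (-(1 / 3 : ℝ))) :=
        Finset.sum_le_sum key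
    _ = (sbox R).card * (2 * C₁ ^ 2 * (C₂ ^ 2 * R * (J ^ 3 * (1 + |τ|) ^ 4))) +
        2 * C₁ ^ 2 * (Y ^ (5 / 3 : ℝ) * J ^ (-2 : ℝ)) * ∑ r ∈ sbox R, Nr r ^ (-(1 / 3 : ℝ)) := by
        rw [Finset.sum_add_distrib, Finset.sum_const, nsmul_eq_mul, Finset.mul_sum]
    _ ≤ 25 * R * (2 * C₁ ^ 2 * (C₂ ^ 2 * R * (J ^ 3 * (1 + |τ|) ^ 4))) +
        2 * C₁ ^ 2 * (Y ^ (5 / 3 : ℝ) * J ^ (-2 : ℝ)) * (|C₃| * R ^ (2 / 3 : ℝ)) :=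
        add_le_add (mul_le_mul_of_nonneg_right h6 (by positivity))
          (mul_le_mul_of_nonneg_left h5 (by positivity))
    _ = 2 * C₁ ^ 2 * (25 * C₂ ^ 2 * (R ^ 2 * J ^ 3 * (1 + |τ|) ^ 4) +
        |C₃| * (R ^ (2 / 3 : ℝ) * Y ^ (5 / 3 : ℝ) * J ^ (-2 : ℝ))) := by ring
    _ ≤ _ := by
        rw [mul_assoc (2 * C₁ ^ 2)]
        refine mul_le_mul_of_nonneg_left ?_ (by positivity)
        nlinarith [mul_nonneg (abs_nonneg C₃) hA, mul_nonneg (sq_nonneg C₂) hB]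

/-- Conjugate (`sm_conj`, `gt_mul`, `conj_az`), then `typeI_gt` and `model` for `-l`, `-τ`,
`mT_val`, `T0_ne`. -/
theorem typeI (l : ℤ) {ε : ℝ} (hε : 0 < ε) : ∃ C : ℝ, 0 ≤ C ∧ ∀ R Y J τ : ℝ, 1 ≤ R → 1 ≤ Y → 1 ≤ J →
    ∑ r ∈ sbox R, ‖sm 4 (fun c => az l c * FF (r * c)) Y τ‖ ^ 2 ≤
      C * (R * Y * J * (1 + |τ|)) ^ ε * (R ^ 2 * J ^ 3 * (1 + |τ|) ^ 4 + R * Y +
        Y ^ 2 * J ^ (-3 : ℝ) + R ^ (2 / 3 : ℝ) * Y ^ (5 / 3 : ℝ) * J ^ (-2 : ℝ)) := by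
  obtain ⟨C₁, hC₁, h₁⟩ := typeI_gt (-l) (a := 4) (by norm_num) hε
  obtain ⟨C₂, hC₂, h₂⟩ := TI_model (-l)
  refine ⟨2 / ‖T0‖ ^ 2 * C₁ + 2 * cst ^ 2 * C₂, by positivity, fun R Y J τ hR hY hJ => ?_⟩
  have h3 := h₁ R Y J (-τ) hR hY hJ
  have h4 := h₂ R Y J (-τ) hR hY hJ
  rw [abs_neg] at h3 h4
  have hY0 : 0 < Y := by linarith
  have hE : 1 ≤ (R * Y * J * (1 + |τ|)) ^ ε := by
    refine Real.one_le_rpow ?_ hε.le
    have := abs_nonneg τ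
    exact one_le_mul_of_one_le_of_one_le (one_le_mul_of_one_le_of_one_le
      (one_le_mul_of_one_le_of_one_le hR hY) hJ) (by linarith)
  set E := (R * Y * J * (1 + |τ|)) ^ ε
  have hA : 0 ≤ R ^ 2 * J ^ 3 * (1 + |τ|) ^ 4 := by positivity
  have hB : 0 ≤ R ^ (2 / 3 : ℝ) * Y ^ (5 / 3 : ℝ) * J ^ (-2 : ℝ) := by positivity
  have hD : 0 ≤ R * Y + Y ^ 2 * J ^ (-3 : ℝ) := by positivity
  have h5 : C₂ * (R ^ 2 * J ^ 3 * (1 + |τ|) ^ 4 + R ^ (2 / 3 : ℝ) * Y ^ (5 / 3 : ℝ) * J ^ (-2 : ℝ)) ≤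
      C₂ * E * (R ^ 2 * J ^ 3 * (1 + |τ|) ^ 4 + R * Y +
        Y ^ 2 * J ^ (-3 : ℝ) + R ^ (2 / 3 : ℝ) * Y ^ (5 / 3 : ℝ) * J ^ (-2 : ℝ)) :=
    mul_le_mul (le_mul_of_one_le_right hC₂ hE) (by linarith) (by positivity) (by positivity)
  refine (Finset.sum_le_sum fun r hr =>
    TI_pt l (q_mem_sbox.1 hr).1 (q_mem_sbox.1 hr).2.1 hY0 J τ).trans ?_
  rw [Finset.sum_add_distrib, ← Finset.mul_sum, ← Finset.mul_sum]
  refine (add_le_add (mul_le_mul_of_nonneg_left h3 (by positivity))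
    (mul_le_mul_of_nonneg_left (h4.trans h5) (by positivity))).trans (le_of_eq ?_)
  ring

end Crest.Agent.R012

end
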