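import Crest.Agent.R012.DA4b
import Crest.Agent.R012.DT1
import Crest.Agent.R012.TI

/-! # Row 12, dispersion: type I information for the comparison sequence -/

set_option autoImplicit false

noncomputable section

open scoped BigOperators ComplexConjugate Topology
open Complex MeasureTheory Filter Set Crest.Agent.R017

namespace Crest.Agent.R012.D

theorem supp_hd (w D B : ℝ) : Supp 1 (hd w D B) := by
  intro n hn
  unfold hd at hn
  split_ifs at hn with h
  · exact ⟨h.1, h.2, isCoprime_one_right⟩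
  · exact absurd rfl hn

theorem norm_hd_le (w D B : ℝ) (n : O) : ‖hd w D B n‖ ≤ dv n * W 4 (Nr n / B) := by
  unfold hd
  split_ifs with h
  · rw [norm_mul, norm_real, Real.norm_of_nonneg (W_pos _ _).le]
    refine mul_le_mul_of_nonneg_right ((norm_sum_le _ _).trans
      ((Finset.sum_le_card_nsmul _ _ 1 fun d _ => ?_).trans (by simp [dv]))) (W_pos _ _).le
    split_ifs
    · exact norm_mu_le d
    · simp
  · rw [norm_zero]
    exact mul_nonneg (dv_nonneg n) (W_pos _ _).le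

theorem rap_hd (w D : ℝ) {B : ℝ} (hB : 0 < B) : Rap (hd w D B) := by
  intro A
  obtain ⟨C, hC, h⟩ := dv_le one_pos
  refine Summable.of_nonneg_of_le
    (fun n => mul_nonneg (norm_nonneg _) (Real.rpow_nonneg (Nr_nonneg n) _)) (fun n => ?_)
    ((summable_W (a := 4) (by norm_num) hB (1 + A)).mul_left C)
  split_ifs with hn
  · have : hd w D B n = 0 := by
      by_contra h'
      exact (supp_hd w D B n h').1.ne_zero hn
    simp [this]
  · refine (mul_le_mul_of_nonneg_right ((norm_hd_le w D B n).trans (mul_le_mul_of_nonneg_right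
      (h n hn) (W_pos _ _).le)) (Real.rpow_nonneg (Nr_nonneg n) _)).trans (le_of_eq ?_)
    rw [Real.rpow_add (Nr_pos hn)]
    ring

theorem da5_sm_sum {a X K : ℝ} (ha : 0 < a) (hX : 0 < X) (S : Finset O) (c : O → O → ℂ)
    (hc : ∀ i ∈ S, ∀ n, Prim n → ‖c i n‖ ≤ K) (τ : ℝ) :
    sm a (fun n => ∑ i ∈ S, c i n) X τ = ∑ i ∈ S, sm a (c i) X τ := by
  unfold sm
  rw [← Summable.tsum_finsetSum fun i hi =>
    summable_sm (K := K) (A := 0) ha hX (fun n hn => by simpa using hc i hi n hn) τ]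
  refine tsum_congr fun n => ?_
  split_ifs
  · rw [Finset.sum_mul, Finset.sum_mul]
  · simp

theorem da5_real {A R : ℝ} (hA : 1 ≤ A) (hR : A ≤ R) :
    A ^ (1 / 100 : ℝ) * A ^ (1 / 100 : ℝ) *
      ((R * A ^ (1 / 100 : ℝ) * A ^ (9 / 10 : ℝ) * A ^ (3 / 100 : ℝ)) ^ (1 / 200 : ℝ) *
      ((R * A ^ (1 / 100 : ℝ)) ^ 2 * (A ^ (3 / 100 : ℝ)) ^ 3 +
        R * A ^ (1 / 100 : ℝ) * A ^ (9 / 10 : ℝ) +
        (A ^ (9 / 10 : ℝ)) ^ 2 * (A ^ (3 / 100 : ℝ)) ^ (-3 : ℝ) +
        (R * A ^ (1 / 100 : ℝ)) ^ (2 / 3 : ℝ) * (A ^ (9 / 10 : ℝ)) ^ (5 / 3 : ℝ) *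
          (A ^ (3 / 100 : ℝ)) ^ (-2 : ℝ))) ≤ 4 * (A ^ (13 / 6 - 1 / 50 : ℝ) * (R / A) ^ 3) := by
  obtain ⟨r, rfl⟩ : ∃ a, R = Real.exp a := ⟨_, (Real.exp_log (by linarith)).symm⟩
  obtain ⟨a, rfl⟩ : ∃ a, A = Real.exp a := ⟨_, (Real.exp_log (by linarith)).symm⟩
  simp only [mul_add, ← Real.exp_nat_mul, ← Real.exp_mul, ← Real.exp_add,
    ← Real.exp_sub, Real.exp_le_exp, Real.one_le_exp_iff, Nat.cast_ofNat] at *
  set T := Real.exp (a * (13 / 6 - 1 / 50) + 3 * (r - a)) with e1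
  refine le_trans (add_le_add (add_le_add (add_le_add (b := T) (d := T) ?_ ?_) (d := T) ?_)
    (d := T) ?_) (by linarith) <;>
    exact Real.exp_le_exp.2 (by linarith)

open Classical in
/-- `FF` vanishes off squarefree elements; `gn_sm_sum` / `sv_swap`, `sm_dvd`. -/
theorem hd_expand (w D : ℝ) {B : ℝ} (hB : 0 < B) {x : O} (hx : Prim x) :
    ∑' b : O, hd w D B b * FF (x * b) = ∑ d ∈ sbox D,
      if Smth w d then mu d * sm 4 (fun c => az 0 c * FF (x * d * c)) (B / Nr d) 0 else 0 := by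
  have h1 : ∑' b : O, hd w D B b * FF (x * b) = sm 4 (fun b => ∑ d ∈ sbox D,
      if d ∣ b then (if Smth w d then mu d else 0) * FF (x * b) else 0) B 0 := by
    unfold sm
    refine tsum_congr fun b => ?_
    unfold hd
    by_cases hb : Prim b
    · by_cases hs : Squarefree b
      · rw [if_pos ⟨hb, hs⟩, if_pos hb]
        have : (∑ d ∈ pdiv b, if Smth w d ∧ Nr d ≤ D then mu d else 0) =
            ∑ d ∈ sbox D, if d ∣ b then (if Smth w d then mu d else 0) else 0 := by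
          simp only [← ite_and]
          rw [← Finset.sum_filter, ← Finset.sum_filter]
          refine Finset.sum_congr ?_ fun _ _ => rfl
          ext d
          simp only [Finset.mem_filter, mem_pdiv hb.ne_zero, q_mem_sbox]
          exact ⟨fun h => ⟨⟨h.1.1, hs.squarefree_of_dvd h.1.2, h.2.2⟩, h.1.2, h.2.1⟩,
            fun h => ⟨⟨h.1.1, h.2.1⟩, h.2.2, h.1.2.2⟩⟩
        rw [this, mul_right_comm, Finset.sum_mul]
        simp
      · have h0 : FF (x * b) = 0 := FF_of_not fun h => hs (h.squarefree_of_dvd (dvd_mul_left b x))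
        simp [h0]
    · simp [hb]
  rw [h1, da5_sm_sum (K := 1 + cst) (by norm_num) hB]
  · refine Finset.sum_congr rfl fun d hd => ?_
    rw [sm_dvd (q_mem_sbox.1 hd).1, sv_mul]
    simp [az_zero, mul_assoc]
  · intro d _ n hn
    have := norm_FF_le (hx.mul hn)
    split_ifs
    · rw [norm_mul]
      exact (mul_le_of_le_one_left (norm_nonneg _) (norm_mu_le d)).trans this
    · simpa using (norm_nonneg _).trans this
    · simpa using (norm_nonneg _).trans this

open Classical in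
/-- Cauchy–Schwarz over `d ∈ sbox D`, `x ↦ x d` is injective into `sbox (R D)` (the term vanishes
unless `x d` is squarefree), `typeI` with `l = 0`, `τ = 0`, `J = A^{3/100}`, `ε = 1/200`. -/
theorem cmp_box : ∃ C : ℝ, 0 ≤ C ∧ ∀ A w R : ℝ, 1 ≤ A → A ≤ R →
    ∑ x ∈ box R, (if Prim x then
      ‖∑' b : O, hd w (A ^ (1 / 100 : ℝ)) (A ^ (9 / 10 : ℝ)) b * FF (x * b)‖ ^ 2 else 0) ≤
      C * A ^ (13 / 6 - 1 / 50 : ℝ) * (R / A) ^ 3 := by
  obtain ⟨C, hC, h⟩ := typeI 0 (ε := 1 / 200) (by norm_num)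
  refine ⟨25 * 25 * C * 4, by positivity, fun A w R hA hR => ?_⟩
  have hr := da5_real hA hR
  have hD : 1 ≤ A ^ (1 / 100 : ℝ) := Real.one_le_rpow hA (by norm_num)
  have hJ : 1 ≤ A ^ (3 / 100 : ℝ) := Real.one_le_rpow hA (by norm_num)
  have hDB : A ^ (1 / 100 : ℝ) ≤ A ^ (9 / 10 : ℝ) :=
    Real.rpow_le_rpow_of_exponent_le hA (by norm_num)
  have hR1 : 1 ≤ R := hA.trans hR
  generalize A ^ (1 / 100 : ℝ) = D at *
  generalize A ^ (3 / 100 : ℝ) = J at *
  generalize A ^ (9 / 10 : ℝ) = B at *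
  have hB : 0 < B := by linarith
  set E := (R * D * B * J) ^ (1 / 200 : ℝ) * ((R * D) ^ 2 * J ^ 3 + R * D * B +
    B ^ 2 * J ^ (-3 : ℝ) + (R * D) ^ (2 / 3 : ℝ) * B ^ (5 / 3 : ℝ) * J ^ (-2 : ℝ)) with hE
  let F : O → O → ℝ := fun d r => ‖sm 4 (fun c => az 0 c * FF (r * c)) (B / Nr d) 0‖ ^ 2
  have h1 : ∀ x, Prim x → ‖∑' b : O, hd w D B b * FF (x * b)‖ ^ 2 ≤
      25 * D * ∑ d ∈ sbox D, F d (x * d) := by
    intro x hx
    rw [hd_expand w D hB hx]
    refine (pow_le_pow_left₀ (norm_nonneg _) (norm_sum_le _ _) 2).trans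
      (sq_sum_le_card_mul_sum_sq.trans (mul_le_mul (card_sbox_le (by linarith))
        (Finset.sum_le_sum fun d _ => ?_) (Finset.sum_nonneg fun _ _ => sq_nonneg _)
        (by positivity)))
    refine pow_le_pow_left₀ (norm_nonneg _) ?_ 2
    split_ifs
    · rw [norm_mul]
      exact mul_le_of_le_one_left (norm_nonneg _) (norm_mu_le d)
    · simp
  have h2 : ∀ d ∈ sbox D, ∑ x ∈ (box R).filter Prim, F d (x * d) ≤ C * E := by
    intro d hd
    obtain ⟨d1, -, d3⟩ := q_mem_sbox.1 hd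
    have d4 := one_le_Nr d1.ne_zero
    have y1 : 1 ≤ B / Nr d := by
      rw [le_div_iff₀ (by linarith)]
      linarith
    have y2 : B / Nr d ≤ B := div_le_self hB.le d4
    have h3 := h (R * D) (B / Nr d) J 0 (by nlinarith) y1 hJ
    simp only [abs_zero, add_zero, mul_one, one_pow] at h3
    refine le_trans ?_ (h3.trans ?_)
    · rw [← Finset.sum_image (s := (box R).filter Prim) (g := fun x => x * d) (f := F d)
        fun a _ b _ e => mul_right_cancel₀ d1.ne_zero e]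
      rw [← Finset.sum_filter_ne_zero]
      refine Finset.sum_le_sum_of_subset_of_nonneg (fun r hr => ?_) fun _ _ _ => sq_nonneg _
      obtain ⟨hr, hr0⟩ := Finset.mem_filter.1 hr
      obtain ⟨x, hx, rfl⟩ := Finset.mem_image.1 hr
      obtain ⟨hx, hx'⟩ := Finset.mem_filter.1 hx
      refine q_mem_sbox.2 ⟨hx'.mul d1, by_contra fun hs => hr0 ?_, ?_⟩
      · have h0 : ∀ c, FF (x * d * c) = 0 := fun c =>
          FF_of_not fun h => hs (h.squarefree_of_dvd (dvd_mul_right _ c))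
        simp [F, h0, sv_zero]
      · rw [Nr_mul]
        exact mul_le_mul (mem_box.1 hx).2 d3 (Nr_nonneg d) (by linarith)
    · rw [hE, ← mul_assoc]
      gcongr
  calc _ = ∑ x ∈ (box R).filter Prim, ‖∑' b : O, hd w D B b * FF (x * b)‖ ^ 2 := by
        rw [Finset.sum_filter]
    _ ≤ ∑ x ∈ (box R).filter Prim, 25 * D * ∑ d ∈ sbox D, F d (x * d) :=
        Finset.sum_le_sum fun x hx => h1 x (Finset.mem_filter.1 hx).2
    _ = 25 * D * ∑ d ∈ sbox D, ∑ x ∈ (box R).filter Prim, F d (x * d) := by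
        rw [← Finset.mul_sum, Finset.sum_comm]
    _ ≤ 25 * D * (25 * D * (C * E)) := by
        refine mul_le_mul_of_nonneg_left ((Finset.sum_le_card_nsmul _ _ _ h2).trans ?_)
          (by positivity)
        rw [nsmul_eq_mul]
        exact mul_le_mul_of_nonneg_right (card_sbox_le (by linarith)) (by positivity)
    _ = 25 * 25 * C * (D * D * E) := by ring
    _ ≤ _ := (mul_le_mul_of_nonneg_left hr (by positivity)).trans (le_of_eq (by ring))

/-- `W_dyad`. -/
theorem cmp_head : ∃ C : ℝ, 0 ≤ C ∧ ∀ A w : ℝ, 1 ≤ A →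
    QQ FF 4 A (hd w (A ^ (1 / 100 : ℝ)) (A ^ (9 / 10 : ℝ))) ≤
      C * A ^ (13 / 6 - 1 / 50 : ℝ) := by
  classical
  obtain ⟨C, hC, h⟩ := cmp_box
  obtain ⟨C', hC', h'⟩ := W_dyad
  refine ⟨C' * C, by positivity, fun A w hA => ?_⟩
  have := (h' A (C * A ^ (13 / 6 - 1 / 50 : ℝ)) _ (by linarith) (by positivity)
    (fun x => by split_ifs <;> positivity) fun R hR => h A w R hA hR).2
  rw [mul_assoc]
  refine le_trans (le_of_eq (tsum_congr fun x => ?_)) this
  by_cases hx : Prim x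
  · simp [hx, hx.ne_zero]
  · simp [hx]

end Crest.Agent.R012.D

end
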