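import Crest.Agent.R012.DA5

/-! # Row 12, dispersion: the sparse tail of the comparison sequence -/

set_option autoImplicit false

noncomputable section

open scoped BigOperators ComplexConjugate Topology
open Complex MeasureTheory Filter Set Crest.Agent.R017

namespace Crest.Agent.R012.D

open Classical in
/-- On primary squarefree `n`: `rg w n = ∑_{d ∣ n, Smth w d} mu d` (`rough_iff`, `sum_pdiv_mu_dvd`,
`mem_pdiv_pw`), so the difference only involves the smooth divisors of norm `> D`. -/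
theorem norm_bp_sub_hd (w D B : ℝ) (n : O) : ‖bp w B n - hd w D B n‖ ≤
    (∑ d ∈ pdiv (pw w), if D < Nr d ∧ n ≠ 0 ∧ d ∣ n then (1 : ℝ) else 0) * W 4 (Nr n / B) ∧
    ‖bp w B n - hd w D B n‖ ≤ dv n * W 4 (Nr n / B) := by
  have hW := (W_pos 4 (Nr n / B)).le
  have hS0 : 0 ≤ ∑ d ∈ pdiv (pw w), if D < Nr d ∧ n ≠ 0 ∧ d ∣ n then (1 : ℝ) else 0 :=
    Finset.sum_nonneg fun d _ => by split_ifs <;> norm_num
  have hS1 : (∑ d ∈ pdiv (pw w), if D < Nr d ∧ n ≠ 0 ∧ d ∣ n then (1 : ℝ) else 0) ≤ dv n := by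
    rw [← Finset.sum_filter, Finset.sum_const, nsmul_eq_mul, mul_one, dv, Nat.cast_le]
    refine Finset.card_le_card fun d hd => ?_
    rw [Finset.mem_filter] at hd
    exact (mem_pdiv hd.2.2.1).2 ⟨(mem_pdiv_pw.1 hd.1).1, hd.2.2.2⟩
  suffices h : ‖bp w B n - hd w D B n‖ ≤
      (∑ d ∈ pdiv (pw w), if D < Nr d ∧ n ≠ 0 ∧ d ∣ n then (1 : ℝ) else 0) * W 4 (Nr n / B) from
    ⟨h, h.trans (mul_le_mul_of_nonneg_right hS1 hW)⟩
  by_cases hp : Prim n
  swap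
  · simp only [bp, hd, hp, false_and, if_false, sub_zero, norm_zero]
    exact mul_nonneg hS0 hW
  by_cases hs : Squarefree n
  swap
  · simp only [bp, hd, rg, hp, hs, false_and, and_false, if_false, if_true, zero_mul, sub_zero,
      norm_zero]
    exact mul_nonneg hS0 hW
  have hn := hp.ne_zero
  have h1 : rg w n = ∑ d ∈ pdiv (pw w), (if d ∣ n then mu d else 0) := by
    rw [sum_pdiv_mu_dvd (prim_pw w), rg]
    simp only [hs, true_and, rough_iff hp, isCoprime_comm (x := n)]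
  have h2 : (∑ d ∈ pdiv n, if Smth w d ∧ Nr d ≤ D then mu d else 0) =
      ∑ d ∈ pdiv (pw w), (if d ∣ n ∧ Nr d ≤ D then mu d else 0) := by
    rw [← Finset.sum_filter, ← Finset.sum_filter]
    refine Finset.sum_congr ?_ fun _ _ => rfl
    ext d
    rw [Finset.mem_filter, Finset.mem_filter, mem_pdiv hn, mem_pdiv_pw]
    exact ⟨fun h => ⟨⟨h.1.1, hs.squarefree_of_dvd h.1.2, h.2.1⟩, h.1.2, h.2.2⟩,
      fun h => ⟨⟨h.1.1, h.2.1⟩, h.1.2.2, h.2.2⟩⟩
  simp only [bp, hd, hp, hs, and_self, if_true]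
  rw [← sub_mul, norm_mul, Complex.norm_real, Real.norm_of_nonneg hW, h1, h2,
    ← Finset.sum_sub_distrib]
  refine mul_le_mul_of_nonneg_right ((norm_sum_le _ _).trans (Finset.sum_le_sum fun d _ => ?_)) hW
  by_cases h3 : d ∣ n
  · by_cases h4 : Nr d ≤ D
    · simp [h3, h4, not_lt.2 h4]
    · simp only [h3, h4, not_le.1 h4, hn, and_false, if_false, if_true, sub_zero, ne_eq,
        not_false_eq_true, and_self]
      exact norm_mu_le d
  · simp [h3]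

/-- Use both bounds of `norm_bp_sub_hd` once; `dv² psi W 4 ≤ C B^ε`, `tsum_W_dvd`,
`N(d)⁻¹ ≤ D^{-δ} N(d)^{δ-1}`, `rankin`. -/
theorem cmp_sparse {δ ε : ℝ} (h0 : 0 < δ) (h1 : δ ≤ 1) (hε : 0 < ε) : ∃ C : ℝ, 0 ≤ C ∧
    ∀ w D B : ℝ, 1 ≤ w → 1 ≤ D → 1 ≤ B → nrmd B (fun n => bp w B n - hd w D B n) ≤
      C * B ^ (1 + ε) * D ^ (-δ) * Real.exp (C * w ^ δ) := by
  classical
  obtain ⟨C₁, hC₁, h₁⟩ := dv_le (half_pos hε)
  obtain ⟨C₂, hC₂, h₂⟩ := psi_pow_W 1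
  obtain ⟨C₃, hC₃, h₃⟩ := tsum_W_dvd (a := 4) (x := ε) (by norm_num) (by linarith)
  obtain ⟨C₄, hC₄, h₄⟩ := rankin h0 h1
  refine ⟨C₁ ^ 2 * C₂ * C₃ + C₄, by positivity, fun w D B hw hD hB => ?_⟩
  have hB0 : 0 < B := by linarith
  have hD0 : 0 < D := by linarith
  set g : O → O → ℝ := fun d n => if D < Nr d then
    (if n ≠ 0 ∧ d ∣ n then Nr n ^ ε * W 4 (Nr n / B) else 0) else 0 with hg
  have hd0 : ∀ d ∈ pdiv (pw w), d ≠ 0 := fun d hd => (mem_pdiv_pw.1 hd).1.ne_zero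
  have hgs : ∀ d ∈ pdiv (pw w), Summable (g d) := fun d hd => by
    by_cases h : D < Nr d
    · simpa only [hg, h, if_true] using (h₃ B d hB0 (hd0 d hd)).1
    · simpa only [hg, h, if_false] using summable_zero
  have hgt : ∀ d ∈ pdiv (pw w), ∑' n, g d n ≤ C₃ * B ^ (1 + ε) * D ^ (-δ) * Nr d ^ (δ - 1) := by
    intro d hd
    have hN := Nr_pos (hd0 d hd)
    by_cases h : D < Nr d
    · simp only [hg, h, if_true]
      refine (h₃ B d hB0 (hd0 d hd)).2.trans ?_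
      rw [div_eq_mul_inv, mul_assoc (C₃ * B ^ (1 + ε))]
      refine mul_le_mul_of_nonneg_left ?_ (by positivity)
      have e : (Nr d)⁻¹ = Nr d ^ (-δ) * Nr d ^ (δ - 1) := by
        rw [← Real.rpow_add hN, ← Real.rpow_neg_one]; congr 1; ring
      rw [e]
      exact mul_le_mul_of_nonneg_right
        (Real.rpow_le_rpow_of_nonpos hD0 h.le (by linarith)) (by positivity)
    · simp only [hg, h, if_false, tsum_zero]
      positivity
  have hterm : ∀ n : O, ‖bp w B n - hd w D B n‖ ^ 2 * (dv n * psi (Nr n / B)) ≤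
      C₁ ^ 2 * C₂ * ∑ d ∈ pdiv (pw w), g d n := by
    intro n
    by_cases hn : n = 0
    · have hb : bp w B n - hd w D B n = 0 := by
        rw [hn, supp_zero (supp_bp w B), supp_zero (supp_hd w D B), sub_zero]
      rw [hb]
      simp [hg, hn]
    have hN := Nr_pos hn
    have hy : 0 < Nr n / B := div_pos hN hB0
    have hW := (W_pos 4 (Nr n / B)).le
    obtain ⟨ha, hb⟩ := norm_bp_sub_hd w D B n
    set S := ∑ d ∈ pdiv (pw w), if D < Nr d ∧ n ≠ 0 ∧ d ∣ n then (1 : ℝ) else 0 with hS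
    have hS0 : 0 ≤ S := Finset.sum_nonneg fun d _ => by split_ifs <;> norm_num
    have e : ∑ d ∈ pdiv (pw w), g d n = S * (Nr n ^ ε * W 4 (Nr n / B)) := by
      rw [hS, Finset.sum_mul]
      refine Finset.sum_congr rfl fun d _ => ?_
      by_cases h3 : D < Nr d <;> by_cases h4 : n ≠ 0 ∧ d ∣ n <;> simp [hg, h3, h4]
    have hdv := dv_nonneg n
    have hps := psi_nonneg hy.le
    have hpw : psi (Nr n / B) * W 4 (Nr n / B) ≤ C₂ := by
      have := h₂ _ hy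
      rw [pow_one] at this
      exact (mul_le_mul_of_nonneg_left (W_mono (by norm_num) (by norm_num) _) hps).trans this
    have hdd : dv n * dv n ≤ C₁ ^ 2 * Nr n ^ ε := by
      have e2 : C₁ ^ 2 * Nr n ^ ε = (C₁ * Nr n ^ (ε / 2)) * (C₁ * Nr n ^ (ε / 2)) := by
        rw [mul_mul_mul_comm, ← Real.rpow_add hN, add_halves, sq]
      rw [e2]
      exact mul_le_mul (h₁ n hn) (h₁ n hn) hdv (by positivity)
    rw [e]
    calc ‖bp w B n - hd w D B n‖ ^ 2 * (dv n * psi (Nr n / B))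
        ≤ (S * W 4 (Nr n / B)) * (dv n * W 4 (Nr n / B)) * (dv n * psi (Nr n / B)) := by
          refine mul_le_mul_of_nonneg_right ?_ (by positivity)
          rw [sq]
          exact mul_le_mul ha hb (norm_nonneg _) (by positivity)
      _ = S * W 4 (Nr n / B) * ((dv n * dv n) * (psi (Nr n / B) * W 4 (Nr n / B))) := by ring
      _ ≤ S * W 4 (Nr n / B) * ((C₁ ^ 2 * Nr n ^ ε) * C₂) :=
          mul_le_mul_of_nonneg_left (mul_le_mul hdd hpw (by positivity) (by positivity))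
            (by positivity)
      _ = _ := by ring
  have hsum : Summable (fun n => C₁ ^ 2 * C₂ * ∑ d ∈ pdiv (pw w), g d n) :=
    (summable_sum hgs).mul_left _
  have hnn : ∀ n : O, 0 ≤ ‖bp w B n - hd w D B n‖ ^ 2 * (dv n * psi (Nr n / B)) := fun n =>
    mul_nonneg (sq_nonneg _) (mul_nonneg (dv_nonneg n) (psi_nonneg (div_nonneg (Nr_nonneg n) hB0.le)))
  have hE : Real.exp (C₄ * w ^ δ) ≤ Real.exp ((C₁ ^ 2 * C₂ * C₃ + C₄) * w ^ δ) := by
    refine Real.exp_le_exp.2 (mul_le_mul_of_nonneg_right ?_ (by positivity))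
    exact le_add_of_nonneg_left (by positivity)
  calc nrmd B (fun n => bp w B n - hd w D B n)
      ≤ ∑' n, C₁ ^ 2 * C₂ * ∑ d ∈ pdiv (pw w), g d n :=
        (Summable.of_nonneg_of_le hnn hterm hsum).tsum_le_tsum hterm hsum
    _ = C₁ ^ 2 * C₂ * ∑ d ∈ pdiv (pw w), ∑' n, g d n := by
        rw [tsum_mul_left, Summable.tsum_finsetSum hgs]
    _ ≤ C₁ ^ 2 * C₂ * ∑ d ∈ pdiv (pw w), C₃ * B ^ (1 + ε) * D ^ (-δ) * Nr d ^ (δ - 1) :=
        mul_le_mul_of_nonneg_left (Finset.sum_le_sum hgt) (by positivity)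
    _ = C₁ ^ 2 * C₂ * C₃ * B ^ (1 + ε) * D ^ (-δ) * ∑ d ∈ pdiv (pw w), Nr d ^ (δ - 1) := by
        rw [← Finset.mul_sum]; ring
    _ ≤ _ := by
        refine mul_le_mul ?_ ((h₄ w hw).trans hE)
          (Finset.sum_nonneg fun d _ => Real.rpow_nonneg (Nr_nonneg d) _) (by positivity)
        refine mul_le_mul_of_nonneg_right (mul_le_mul_of_nonneg_right ?_ (by positivity))
          (by positivity)
        exact le_add_of_nonneg_right hC₄

/-- `QQ_FF_split`, `QQ_gt_le`, `T1U` with `κ = 21/20`, `QQ_md_le`. -/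
theorem QQ_FF_le : ∃ C : ℝ, 0 ≤ C ∧ ∀ (A B : ℝ) (u : O → ℂ), 1 ≤ A → 0 < B →
    B ≤ A ^ (9 / 10 : ℝ) → Supp 1 u → Rap u →
    QQ FF 4 A u ≤ C * (A + (A * B) ^ (2 / 3 : ℝ)) * nrmd B u := by
  obtain ⟨C₁, hC₁, h₁⟩ := T1U (κ := 21 / 20) (by norm_num) (by norm_num)
  obtain ⟨C₂, hC₂, h₂⟩ := QQ_md_le
  refine ⟨8 * C₁ + 2 * cst ^ 2 * C₂, by positivity, fun A B u hA hB hBA hs hr => ?_⟩
  have hA0 : 0 < A := by linarith
  have hn : ∀ n, ‖u n * gt n‖ ≤ 1 * ‖u n‖ := fun n => by rw [norm_mul_gt hs, one_mul]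
  have hs' : Supp 1 (fun b => u b * gt b) := supp_of_le hs hn
  have hr' : Rap (fun b => u b * gt b) := rap_of_le hr hn
  have hcond : B ^ (2 * (21 / 20 : ℝ) - 1) ≤ (A * 4) ^ (21 / 20 : ℝ) := by
    calc B ^ (2 * (21 / 20 : ℝ) - 1) ≤ (A ^ (9 / 10 : ℝ)) ^ (2 * (21 / 20 : ℝ) - 1) :=
          Real.rpow_le_rpow hB.le hBA (by norm_num)
      _ = A ^ ((9 / 10 : ℝ) * (2 * (21 / 20 : ℝ) - 1)) := by rw [← Real.rpow_mul hA0.le]
      _ ≤ A ^ (21 / 20 : ℝ) := Real.rpow_le_rpow_of_exponent_le hA (by norm_num)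
      _ ≤ (A * 4) ^ (21 / 20 : ℝ) := Real.rpow_le_rpow hA0.le (by linarith) (by norm_num)
  have h3 := h₁ 4 A B _ (by norm_num) le_rfl hA0 hB hcond hs' hr'
  have e : nrmd B (fun b => u b * gt b) = nrmd B u := by
    simp only [nrmd, norm_mul_gt hs]
  rw [e] at h3
  have h4 := (h₂ A B u hA0 hB hs hr).trans (mul_le_mul_of_nonneg_left
    (nrm_le_nrmd hB hr (supp_zero hs)) (by positivity))
  have h5 := QQ_FF_split (a := 4) (by norm_num) hA0 hs hr
  have h6 := QQ_gt_le (a := 4) (by norm_num) hA0 hs hr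
  have hN := nrmd_nonneg hB u
  have hP : 0 ≤ (A * B) ^ (2 / 3 : ℝ) := by positivity
  have h7 : Real.sqrt 4 ≤ 4 := Real.sqrt_le_iff.2 ⟨by norm_num, by norm_num⟩
  have h8 : (4 : ℝ) ^ (1 / 6 : ℝ) ≤ 4 := by
    calc (4 : ℝ) ^ (1 / 6 : ℝ) ≤ 4 ^ (1 : ℝ) :=
          Real.rpow_le_rpow_of_exponent_le (by norm_num) (by norm_num)
      _ = 4 := Real.rpow_one _
  have h9 : C₁ * (A * Real.sqrt 4 + (A * B) ^ (2 / 3 : ℝ) * 4 ^ (1 / 6 : ℝ)) * nrmd B u ≤
      C₁ * (4 * (A + (A * B) ^ (2 / 3 : ℝ))) * nrmd B u := by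
    refine mul_le_mul_of_nonneg_right (mul_le_mul_of_nonneg_left ?_ hC₁) hN
    nlinarith [mul_le_mul_of_nonneg_left h7 hA0.le, mul_le_mul_of_nonneg_left h8 hP]
  have h10 : C₂ * (A * B) ^ (2 / 3 : ℝ) * nrmd B u ≤
      C₂ * (A + (A * B) ^ (2 / 3 : ℝ)) * nrmd B u :=
    mul_le_mul_of_nonneg_right (mul_le_mul_of_nonneg_left (by linarith) hC₂) hN
  have h11 := mul_le_mul_of_nonneg_left (h4.trans h10) (by positivity : 0 ≤ 2 * cst ^ 2)
  nlinarith [h6.trans (h3.trans h9)]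

/-- `QQ_le_two`, `cmp_head`, `QQ_FF_le`, `cmp_sparse` with `δ = 1 / (2 (K + 1))`, `ε = δ / 400`,
`ev_log_le`; `c = min (1/50) (δ / 200)`. -/
theorem cmp {K : ℝ} (hK : 0 ≤ K) : ∃ c : ℝ, 0 < c ∧ ∃ C A₀ : ℝ, 0 ≤ C ∧ ∀ A : ℝ, A₀ ≤ A →
    QQ FF 4 A (bp (Real.log A ^ K) (A ^ (9 / 10 : ℝ))) ≤ C * A ^ (13 / 6 - c) := by
  set δ : ℝ := 1 / (2 * (K + 1)) with hδ
  have hδ0 : 0 < δ := by positivity
  have hδ1 : δ ≤ 1 := by
    rw [hδ, div_le_one (by positivity)]; linarith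
  have hKδ : K * δ ≤ 1 / 2 := by
    rw [hδ, mul_one_div, div_le_iff₀ (by positivity)]; linarith
  obtain ⟨C₁, hC₁, h₁⟩ := cmp_head
  obtain ⟨C₂, hC₂, h₂⟩ := QQ_FF_le
  obtain ⟨C₃, hC₃, h₃⟩ := cmp_sparse hδ0 hδ1 (ε := δ / 400) (by positivity)
  obtain ⟨A₀, hA₀, h₄⟩ := ev_log_le (K := 0) (c := δ / 400) (C := C₃ + 1) (by positivity)
  refine ⟨min (1 / 50) (δ / 200), lt_min (by norm_num) (by positivity),
    2 * C₁ + 4 * C₂ * C₃, A₀, by positivity, fun A hA => ?_⟩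
  have hA3 : 3 ≤ A := hA₀.trans hA
  have hA1 : 1 ≤ A := by linarith
  have hA0 : 0 < A := by linarith
  have hL : 1 ≤ Real.log A := by
    rw [Real.le_log_iff_exp_le hA0]
    exact (Real.exp_one_lt_three.le).trans hA3
  set w := Real.log A ^ K with hw
  set B := A ^ (9 / 10 : ℝ) with hB
  set D := A ^ (1 / 100 : ℝ) with hD
  have hw1 : 1 ≤ w := Real.one_le_rpow hL hK
  have hB1 : 1 ≤ B := Real.one_le_rpow hA1 (by norm_num)
  have hD1 : 1 ≤ D := Real.one_le_rpow hA1 (by norm_num)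
  have hB0 : 0 < B := by linarith
  have hrb : Rap (bp w B) := (EV_bp w B).rap hB0 (supp_zero (supp_bp w B))
  have h5 := QQ_le_two (G := FF) (fun n hn => norm_FF_le hn) (a := 4) (by norm_num) hA0
    (supp_bp w B) hrb (supp_hd w D B) (rap_hd w D hB0)
  have h6 := h₁ A w hA1
  have h7 := h₂ A B _ hA1 hB0 le_rfl (supp_sub (supp_bp w B) (supp_hd w D B))
    (rap_sub hrb (rap_hd w D hB0))
  have h8 := h₃ w D B hw1 hD1 hB1
  have hwδ : w ^ δ ≤ Real.sqrt (Real.log A) := by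
    rw [hw, ← Real.rpow_mul (by linarith), Real.sqrt_eq_rpow]
    exact Real.rpow_le_rpow_of_exponent_le hL hKδ
  have hE : Real.exp (C₃ * w ^ δ) ≤ A ^ (δ / 400) := by
    refine le_trans ?_ (h₄ A hA)
    have h9 : Real.exp (C₃ * w ^ δ) ≤ Real.exp ((C₃ + 1) * Real.sqrt (Real.log A)) :=
      Real.exp_le_exp.2 (mul_le_mul (by linarith) hwδ (by positivity) (by positivity))
    refine h9.trans (le_mul_of_one_le_left (Real.exp_pos _).le ?_)
    rw [Real.rpow_zero]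
    nlinarith
  have hAB : (A * B) ^ (2 / 3 : ℝ) = A ^ (19 / 15 : ℝ) := by
    rw [hB, Real.mul_rpow hA0.le (by positivity), ← Real.rpow_mul hA0.le, ← Real.rpow_add hA0]
    norm_num
  have hA' : A ≤ A ^ (19 / 15 : ℝ) := by
    calc A = A ^ (1 : ℝ) := (Real.rpow_one A).symm
      _ ≤ _ := Real.rpow_le_rpow_of_exponent_le hA1 (by norm_num)
  have hpow : A ^ (19 / 15 : ℝ) * (B ^ (1 + δ / 400) * D ^ (-δ) * A ^ (δ / 400)) ≤
      A ^ (13 / 6 - min (1 / 50) (δ / 200)) := by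
    rw [hB, hD, ← Real.rpow_mul hA0.le, ← Real.rpow_mul hA0.le, ← Real.rpow_add hA0,
      ← Real.rpow_add hA0, ← Real.rpow_add hA0]
    refine Real.rpow_le_rpow_of_exponent_le hA1 ?_
    have := min_le_right (1 / 50 : ℝ) (δ / 200)
    linarith
  have hpow' : A ^ (13 / 6 - 1 / 50 : ℝ) ≤ A ^ (13 / 6 - min (1 / 50) (δ / 200)) := by
    refine Real.rpow_le_rpow_of_exponent_le hA1 ?_
    have := min_le_left (1 / 50 : ℝ) (δ / 200)
    linarith
  have h10 : nrmd B (fun n => bp w B n - hd w D B n) ≤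
      C₃ * (B ^ (1 + δ / 400) * D ^ (-δ) * A ^ (δ / 400)) := by
    refine h8.trans ?_
    rw [← mul_assoc, ← mul_assoc]
    exact mul_le_mul_of_nonneg_left hE (by positivity)
  have h11 : QQ FF 4 A (fun n => bp w B n - hd w D B n) ≤
      2 * C₂ * C₃ * A ^ (13 / 6 - min (1 / 50) (δ / 200)) := by
    refine h7.trans ?_
    calc C₂ * (A + (A * B) ^ (2 / 3 : ℝ)) * nrmd B (fun n => bp w B n - hd w D B n)
        ≤ C₂ * (2 * A ^ (19 / 15 : ℝ)) *
            (C₃ * (B ^ (1 + δ / 400) * D ^ (-δ) * A ^ (δ / 400))) := by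
          refine mul_le_mul (mul_le_mul_of_nonneg_left ?_ hC₂) h10 (nrmd_nonneg hB0 _)
            (by positivity)
          rw [hAB]; linarith
      _ = 2 * C₂ * C₃ * (A ^ (19 / 15 : ℝ) * (B ^ (1 + δ / 400) * D ^ (-δ) * A ^ (δ / 400))) := by
          ring
      _ ≤ _ := mul_le_mul_of_nonneg_left hpow (by positivity)
  have h12 := h6.trans (mul_le_mul_of_nonneg_left hpow' hC₁)
  nlinarith

end Crest.Agent.R012.D

end
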