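import Crest.Agent.R012.DF3

/-! # Row 12, dispersion: the balanced upper bound -/

set_option autoImplicit false

noncomputable section

open scoped BigOperators ComplexConjugate Topology
open Complex MeasureTheory Filter Set Crest.Agent.R017

namespace Crest.Agent.R012.D

theorem df4_id {a A B : ℝ} (ha : 0 < a) (hA : 0 < A) (hB : 0 < B) :
    A * Real.sqrt a * (B ^ 2 / (A * a)) ^ (1 / 3 : ℝ) = (A * B) ^ (2 / 3 : ℝ) * a ^ (1 / 6 : ℝ) := by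
  obtain ⟨x, rfl⟩ : ∃ x, a = Real.exp x := ⟨_, (Real.exp_log ha).symm⟩
  obtain ⟨y, rfl⟩ : ∃ y, A = Real.exp y := ⟨_, (Real.exp_log hA).symm⟩
  obtain ⟨z, rfl⟩ : ∃ z, B = Real.exp z := ⟨_, (Real.exp_log hB).symm⟩
  rw [Real.sqrt_eq_rpow, ← Real.exp_nat_mul]
  simp only [← Real.exp_mul, ← Real.exp_add, ← Real.exp_sub]
  congr 1
  push_cast
  ring

theorem df4_four {θ : ℝ} (hθ : 0 < θ) : (4 * θ) ^ (1 / 6 : ℝ) ≤ 2 * θ ^ (1 / 6 : ℝ) := by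
  rw [Real.mul_rpow (by norm_num) hθ.le]
  have h : (4 : ℝ) ^ (1 / 6 : ℝ) ≤ 2 := by
    have h1 : (4 : ℝ) ^ (1 / 6 : ℝ) ≤ (4 : ℝ) ^ (1 / 2 : ℝ) :=
      Real.rpow_le_rpow_of_exponent_le (by norm_num) (by norm_num)
    have h2 : (4 : ℝ) ^ (1 / 2 : ℝ) = 2 := by
      rw [← Real.sqrt_eq_rpow, show (4 : ℝ) = 2 ^ 2 by norm_num, Real.sqrt_sq (by norm_num)]
    linarith
  have := Real.rpow_nonneg hθ.le (1 / 6 : ℝ)
  gcongr

theorem df4_diag {A B θ : ℝ} (hA : 1 ≤ A) (hB : A ^ (1 / 2 : ℝ) ≤ B) (h0 : 0 < θ) (h1 : θ ≤ 1) :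
    A * Real.sqrt (4 * θ) ≤ 2 * ((A * B) ^ (2 / 3 : ℝ) * θ ^ (1 / 6 : ℝ)) := by
  have hA0 : 0 < A := by linarith
  have e1 : Real.sqrt (4 * θ) = 2 * θ ^ (1 / 2 : ℝ) := by
    rw [Real.sqrt_mul (by norm_num), show (4 : ℝ) = 2 ^ 2 by norm_num, Real.sqrt_sq (by norm_num),
      Real.sqrt_eq_rpow]
  have e2 : θ ^ (1 / 2 : ℝ) ≤ θ ^ (1 / 6 : ℝ) :=
    Real.rpow_le_rpow_of_exponent_ge h0 h1 (by norm_num)
  have e3 : A ≤ (A * B) ^ (2 / 3 : ℝ) := by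
    have h2 : A = (A * A ^ (1 / 2 : ℝ)) ^ (2 / 3 : ℝ) := by
      rw [← Real.rpow_one_add' hA0.le (by norm_num), ← Real.rpow_mul hA0.le]
      norm_num
    calc A = (A * A ^ (1 / 2 : ℝ)) ^ (2 / 3 : ℝ) := h2
      _ ≤ (A * B) ^ (2 / 3 : ℝ) := by gcongr
  rw [e1]
  have := Real.rpow_nonneg h0.le (1 / 2 : ℝ)
  have e4 : 0 ≤ (A * B) ^ (2 / 3 : ℝ) := hA0.le.trans e3
  calc A * (2 * θ ^ (1 / 2 : ℝ)) ≤ (A * B) ^ (2 / 3 : ℝ) * (2 * θ ^ (1 / 6 : ℝ)) := by gcongr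
    _ = _ := by ring

/-- On primes only `n = 1` survives for `d ≠ 1`. -/
theorem nrm_dil_prime {u : O → ℂ} (hs : Supp 1 u) (hp : ∀ n, u n ≠ 0 → Prime n) {d : O}
    (hd : Prim d) (h1 : d ≠ 1) : nrm 1 (fun n => u (d * n)) = 2 * ‖u d‖ ^ 2 := by
  unfold nrm
  rw [tsum_eq_single 1]
  · simp only [mul_one, Nr_one, div_one, psi, inv_one, one_pow]
    ring
  · intro n hn
    have h0 : u (d * n) = 0 := by
      by_contra h
      have hpr := hp _ h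
      have hprim := (supp_iff.1 hs _ h).1
      rcases hpr.irreducible.isUnit_or_isUnit rfl with hu | hu
      · exact h1 (hd.eq_one_of_isUnit hu)
      · exact hn ((hd.of_mul hprim).eq_one_of_isUnit hu)
    simp [h0]

/-- Near rows: `DS_congr` (`not_near_half`), `RH_mid` with `Z₀ = 1/2`, `T2d`. -/
theorem DS_near : ∃ C : ℝ, 0 ≤ C ∧ ∀ (a A B Z : ℝ) (u : O → ℂ), 0 < a → a ≤ 4 → 0 < A → 0 < B →
    1 ≤ Z → Z ^ 2 ≤ B → Supp 1 u → Rap u →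
    ‖DS a A (RW (Near Z) u) (RW (Near Z) u)‖ ≤
      C * ((A * B) ^ (2 / 3 : ℝ) * a ^ (1 / 6 : ℝ)) * nrm B u := by
  obtain ⟨C₁, hC₁, h₁⟩ := RH_mid
  obtain ⟨C₂, hC₂, h₂⟩ := T2d (σ₁ := 1 / 4) (α := 1 / 3) (by norm_num) (by norm_num) (by norm_num)
  refine ⟨C₂ * C₁ * 3, by positivity, fun a A B Z u ha ha4 hA hB hZ hZB hs hr => ?_⟩
  have hRs : 0 < B ^ 2 / (A * a) := by positivity
  have hn := nrm_nonneg hB u
  have hz : (0 : ℝ) ≤ (1 / 2 : ℝ) ^ (-(1 / 3) : ℝ) := Real.rpow_nonneg (by norm_num) _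
  have hz2 : (1 / 2 : ℝ) ^ (-(1 / 3) : ℝ) ≤ 2 := by
    have h3 : (1 / 2 : ℝ) ^ (-(1 / 3) : ℝ) ≤ (1 / 2 : ℝ) ^ (-1 : ℝ) :=
      Real.rpow_le_rpow_of_exponent_ge (by norm_num) (by norm_num) (by norm_num)
    rw [Real.rpow_neg_one] at h3
    norm_num at h3 ⊢
    exact h3
  have hR3 : 0 ≤ (B ^ 2 / (A * a)) ^ (1 / 3 : ℝ) := Real.rpow_nonneg hRs.le _
  have hRH := h₁ a B (B ^ 2 / (A * a)) (1 / 2) Z u ha.le hB hRs (by norm_num) hZ hs hr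
  have hb := h₂ a A B _ _ ha ha4 hA hB (by positivity) (dom_RW _ hr (supp_zero hs)) hRH
  rw [DS_congr a A (S := Near Z) (T := fun r => Near Z r ∧ ¬ Near (1 / 2) r)
    (fun r hr0 => ⟨fun h => ⟨h, not_near_half hr0⟩, fun h => h.1⟩)]
  refine hb.trans ?_
  have hk : B * (1 / 2 : ℝ) ^ (-(1 / 3) : ℝ) + Z ^ 2 ≤ 3 * B := by nlinarith
  have he : A * Real.sqrt a * (B ^ 2 / (A * a)) ^ (1 / 3 : ℝ) =
      (A * B) ^ (2 / 3 : ℝ) * a ^ (1 / 6 : ℝ) := df4_id ha hA hB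
  calc C₂ * (A * Real.sqrt a) * B⁻¹ * (C₁ * (B ^ 2 / (A * a)) ^ (1 / 3 : ℝ) *
        (B * (1 / 2 : ℝ) ^ (-(1 / 3) : ℝ) + Z ^ 2) * nrm B u)
      ≤ C₂ * (A * Real.sqrt a) * B⁻¹ * (C₁ * (B ^ 2 / (A * a)) ^ (1 / 3 : ℝ) *
        (3 * B) * nrm B u) := by gcongr
    _ = C₂ * C₁ * 3 * (A * Real.sqrt a * (B ^ 2 / (A * a)) ^ (1 / 3 : ℝ)) * nrm B u := by
        field_simp
    _ = _ := by rw [he]

/-- `DD_gt_le`, `T0`. For `d = 1`: `ud_gt_one`, `DS_split` into `Near Z` and `Far Z`,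
`Z = A^{1/10}`, `DS_near`, `DS_farP`. For `d ≠ 1`: `DS_free` with `m₁ = m₂ = 1`, `nrm_dil_prime`.
The diagonal `A √θ` is `≤ (A B)^{2/3} θ^{1/6}`. -/
theorem disp_UB_P (l : ℤ) : ∃ η : ℝ, 0 < η ∧ ∃ C : ℝ, 0 ≤ C ∧
    ∀ θ A B τ V : ℝ, 1 ≤ A → A ^ (1 - η) ≤ B → B ≤ A ^ (1 + η) → A ^ (-η) ≤ θ → θ ≤ 1 → |τ| ≤ A ^ η →
    V ≤ B ^ (9 / 10 : ℝ) →
    DD gt θ A B τ (LpV l V) ≤ C * ((A * B) ^ (2 / 3 : ℝ) * θ ^ (1 / 6 : ℝ) * cn2 (2 * θ) B (LpV l V) +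
      A ^ (2 / 3 - η) * B ^ (5 / 3 : ℝ)) := by
  classical
  obtain ⟨η, hη, hη1, Cf, hCf, hf⟩ := DS_farP l (δ := 1 / 10) (by norm_num)
  obtain ⟨Cn, hCn, hn⟩ := DS_near
  obtain ⟨C0, hC0, h0⟩ := T0
  obtain ⟨Cr, hCr, hr⟩ := DS_free (κ := 3 / 2) (by norm_num) (by norm_num)
  obtain ⟨Cc, hCc, hc⟩ := nrmd_co_le
  refine ⟨η, hη, (C0 * 2 + Cn * 2 + Cr * 4) * Cc + Cf, by positivity,
    fun θ A B τ V hA hAB hBA hθ hθ1 hτ hV => ?_⟩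
  have hA0 : 0 < A := by linarith
  have hAh : A ^ (1 / 2 : ℝ) ≤ B :=
    (Real.rpow_le_rpow_of_exponent_le hA (by linarith)).trans hAB
  have hB : 1 ≤ B := (Real.one_le_rpow hA (by norm_num)).trans hAh
  have hB0 : 0 < B := by linarith
  have hθ0 : 0 < θ := lt_of_lt_of_le (Real.rpow_pos_of_pos hA0 _) hθ
  have hAθ : 1 ≤ A * (4 * θ) := by
    have h1 : A ^ (-1 : ℝ) ≤ θ := (Real.rpow_le_rpow_of_exponent_le hA (by linarith)).trans hθ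
    rw [Real.rpow_neg_one] at h1
    have h2 : 1 ≤ A * θ := by
      calc (1 : ℝ) = A * A⁻¹ := by field_simp
        _ ≤ A * θ := by gcongr
    nlinarith
  have henv := env_LpV l V hB
  set u : O → ℂ := co θ B τ (LpV l V) with hu
  have hus : Supp 1 u := supp_co θ B τ _
  have hur : Rap u := rap_co hθ0 hθ1 hB0 henv τ
  have hu0 : u 0 = 0 := supp_zero hus
  set γ : O → ℂ := fun b => u b * gt b with hγ
  have hγn : ∀ n, ‖γ n‖ = ‖u n‖ := fun n => norm_mul_gt hus n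
  have hγs : Supp 1 γ := supp_of_le hus (K := 1) (fun n => by rw [hγn, one_mul])
  have hγr : Rap γ := rap_of_le hur (K := 1) (fun n => by rw [hγn, one_mul])
  have hγp : ∀ n, γ n ≠ 0 → Prime n := by
    intro n hn0
    have h1 : u n ≠ 0 := fun h => hn0 (by simp [hγ, h])
    have h2 : LpV l V n ≠ 0 := by
      intro h
      apply h1
      simp [hu, co, h]
    exact (LpV_ne h2).1
  have hsq : Summable (fun n => ‖u n‖ ^ 2) := by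
    have := rap_sq hur 0
    simpa using this
  -- the sizes
  set X : ℝ := (A * B) ^ (2 / 3 : ℝ) * θ ^ (1 / 6 : ℝ) with hX
  set N : ℝ := cn2 (2 * θ) B (LpV l V) with hN
  set Y : ℝ := A ^ (2 / 3 - η) * B ^ (5 / 3 : ℝ) with hY
  have hX0 : 0 ≤ X := by positivity
  have hY0 : 0 ≤ Y := by positivity
  have hnrm0 := nrm_nonneg hB0 u
  have hnrm : nrm B u ≤ Cc * N :=
    (nrm_le_nrmd hB0 hur hu0).trans (hc θ _ B τ _ hθ0 hθ1 hB0 henv)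
  have hl2 : ∑' n : O, ‖u n‖ ^ 2 ≤ Cc * N := (l2_le_nrm hB0 hur hu0).trans hnrm
  have hl20 : 0 ≤ ∑' n : O, ‖u n‖ ^ 2 := tsum_nonneg (fun n => by positivity)
  have hN0 : 0 ≤ Cc * N := hnrm0.trans hnrm
  have h46 : (4 * θ) ^ (1 / 6 : ℝ) ≤ 2 * θ ^ (1 / 6 : ℝ) := df4_four hθ0
  have hdiag : A * Real.sqrt (4 * θ) ≤ 2 * X := df4_diag hA hAh hθ0 hθ1
  have hAX : A ^ (2 / 3 : ℝ) * (4 * θ) ^ (1 / 6 : ℝ) ≤ 2 * X := by
    have h1 : A ^ (2 / 3 : ℝ) ≤ (A * B) ^ (2 / 3 : ℝ) :=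
      Real.rpow_le_rpow hA0.le (by nlinarith) (by norm_num)
    calc A ^ (2 / 3 : ℝ) * (4 * θ) ^ (1 / 6 : ℝ) ≤ (A * B) ^ (2 / 3 : ℝ) * (2 * θ ^ (1 / 6 : ℝ)) := by
          gcongr
      _ = 2 * X := by rw [hX]; ring
  have hABX : (A * B) ^ (2 / 3 : ℝ) * (4 * θ) ^ (1 / 6 : ℝ) ≤ 2 * X := by
    calc (A * B) ^ (2 / 3 : ℝ) * (4 * θ) ^ (1 / 6 : ℝ)
        ≤ (A * B) ^ (2 / 3 : ℝ) * (2 * θ ^ (1 / 6 : ℝ)) := by gcongr
      _ = 2 * X := by rw [hX]; ring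
  -- the term `d = 1`
  set b₁ : ℝ := Cn * (2 * X) * (Cc * N) + Cf * Y with hb₁
  have hb₁0 : 0 ≤ b₁ := by positivity
  have hone : ‖DS (4 * θ) A (RW All u) (RW All u)‖ ≤ b₁ := by
    have hZ : 1 ≤ A ^ (1 / 10 : ℝ) := Real.one_le_rpow hA (by norm_num)
    have hZB : (A ^ (1 / 10 : ℝ)) ^ 2 ≤ B := by
      rw [← Real.rpow_natCast, ← Real.rpow_mul hA0.le]
      exact (Real.rpow_le_rpow_of_exponent_le hA (by norm_num)).trans hAh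
    rw [DS_split (by positivity) hA0 (S := All) (S₁ := Near (A ^ (1 / 10 : ℝ)))
      (S₂ := Far (A ^ (1 / 10 : ℝ))) (fun r _ => ⟨fun _ => em _, fun _ => trivial⟩)
      (fun r _ h h' => h' h) hur hu0 hur hu0]
    refine (norm_add_le _ _).trans (add_le_add ?_ ?_)
    · refine (hn (4 * θ) A B _ u (by positivity) (by linarith) hA0 hB0 hZ hZB hus hur).trans ?_
      gcongr
    · refine (hf θ A B τ V _ hA hAB hBA hθ hθ1 hτ hV le_rfl).trans (le_of_eq ?_)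
      rw [hY]; ring
  set K : ℝ := Cr * (2 * X) * 2 with hK
  have hK0 : 0 ≤ K := by positivity
  let b : O → ℝ := fun d => (if d = 1 then b₁ else 0) + K * ‖u d‖ ^ 2
  have hs1 : HasSum (fun d : O => if d = 1 then b₁ else 0) b₁ := hasSum_ite_eq 1 b₁
  have hbs : HasSum b (b₁ + K * ∑' n : O, ‖u n‖ ^ 2) := hs1.add (hsq.hasSum.mul_left K)
  have hb0 : ∀ d, 0 ≤ b d := by
    intro d
    have : 0 ≤ (if d = 1 then b₁ else 0) := by split_ifs <;> simp [hb₁0]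
    positivity
  have hbd : ∀ d, Prim d → Squarefree d →
      ‖DS (4 * θ) A (RW All (ud γ d)) (RW All (ud γ d))‖ ≤ b d := by
    intro d hd _
    by_cases h1 : d = 1
    · subst h1
      rw [hγ, ud_gt_one hus]
      refine hone.trans ?_
      simp only [b, if_true]
      have : 0 ≤ K * ‖u 1‖ ^ 2 := by positivity
      linarith
    · have hk : (1 * 1 / (A * (4 * θ))) ^ (3 / 2 : ℝ) ≤ 1 := by
        refine Real.rpow_le_one (by positivity) ?_ (by norm_num)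
        rw [one_mul, div_le_one (by positivity)]
        exact hAθ
      have h2 := hr All (4 * θ) A 1 1 (ud γ d) (ud γ d) (by positivity) (by linarith) hA0 one_pos
        one_pos hk hk (supp_ud hγs hd) (rap_ud hγs hγr hd) (supp_ud hγs hd) (rap_ud hγs hγr hd)
      have h3 : nrm 1 (ud γ d) = 2 * ‖u d‖ ^ 2 := by
        rw [← hγn, ← nrm_dil_prime hγs hγp hd h1]
        unfold nrm
        simp only [norm_ud hγs hd]
      rw [h3, Real.sqrt_mul_self (by positivity), one_mul, Real.one_rpow, mul_one] at h2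
      refine h2.trans ?_
      simp only [b, if_neg h1, zero_add]
      calc Cr * (A ^ (2 / 3 : ℝ) * (4 * θ) ^ (1 / 6 : ℝ)) * (2 * ‖u d‖ ^ 2)
          ≤ Cr * (2 * X) * (2 * ‖u d‖ ^ 2) := by gcongr
        _ = K * ‖u d‖ ^ 2 := by rw [hK]; ring
  have hT := h0 (4 * θ) A γ b (by positivity) (by linarith) hA0 hγs hγr hbs.summable hb0 hbd
  rw [hbs.tsum_eq] at hT
  simp only [hγn] at hT
  refine ((DD_gt_le hθ0 hθ1 hA0 hB0 henv τ).trans hT).trans ?_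
  have e1 : C0 * (A * Real.sqrt (4 * θ)) * ∑' n : O, ‖u n‖ ^ 2 ≤ C0 * (2 * X) * (Cc * N) := by
    gcongr
  have e2 : K * ∑' n : O, ‖u n‖ ^ 2 ≤ K * (Cc * N) := by gcongr
  have hN1 : 0 ≤ N := tsum_nonneg (fun b => by
    split_ifs
    · have := W_pos (2 * θ) (Nr b / B)
      unfold dv
      positivity
    · exact le_rfl)
  have e3 : 0 ≤ Cf * (X * N) := by positivity
  have e4 : 0 ≤ (C0 * 2 + Cn * 2 + Cr * 4) * Cc * Y := by positivity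
  rw [hK] at e2
  rw [hb₁]
  nlinarith

end Crest.Agent.R012.D

end
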