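import Crest.Agent.R012.DA3
import Crest.Agent.R012.DA5b
import Crest.Agent.R012.DF4

/-! # Row 12, dispersion: the corrected dispersion -/

set_option autoImplicit false

noncomputable section

open scoped BigOperators ComplexConjugate Topology
open Complex MeasureTheory Filter Set Crest.Agent.R017

namespace Crest.Agent.R012.D

theorem da6_log {K c : ℝ} (hc : 0 < c) (D : ℝ) : ∃ A₀ : ℝ, 3 ≤ A₀ ∧ ∀ A : ℝ, A₀ ≤ A →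
    Real.log A ^ K ≤ A ^ c ∧ D ≤ A ^ c := by
  obtain ⟨A₀, h3, h⟩ := ev_log_le (K := K) (C := |D| + 1) hc
  refine ⟨A₀, h3, fun A hA => ?_⟩
  have h1 := h A hA
  have hL : 0 ≤ Real.log A := Real.log_nonneg (by linarith)
  have h2 : 0 ≤ Real.log A ^ K := Real.rpow_nonneg hL K
  have h4 : 1 ≤ Real.exp ((|D| + 1) * Real.sqrt (Real.log A)) := Real.one_le_exp (by positivity)
  have h5 : (|D| + 1) * (1 + Real.log A ^ K) ≤ A ^ c :=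
    (le_mul_of_one_le_right (by positivity) h4).trans h1
  have h6 := abs_nonneg D
  have h7 := le_abs_self D
  constructor <;> nlinarith [mul_nonneg h6 h2]

theorem da6_one_le_log {A : ℝ} (hA : 3 ≤ A) : 1 ≤ Real.log A := by
  rw [Real.le_log_iff_exp_le (by linarith)]
  have := Real.exp_one_lt_d9
  linarith

theorem da6_DE_nonneg {T E : ℝ} {u : O → ℂ} (h : DE T u E) : 0 ≤ E := by
  obtain ⟨m, hm, -, h⟩ := h
  refine le_trans (tsum_nonneg fun d => ?_) h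
  unfold de
  split_ifs
  · exact mul_nonneg (Real.rpow_nonneg (hm d).1.le _) (nrm_nonneg (hm d).1 _)
  · exact le_rfl

theorem da6_pow34 {A : ℝ} (hA : 0 < A) : (A ^ (9 / 10 : ℝ)) ^ (5 / 6 : ℝ) = A ^ (3 / 4 : ℝ) := by
  rw [← Real.rpow_mul hA.le]
  norm_num

theorem da6_pow32 {A : ℝ} (hA : 0 < A) :
    (A ^ (9 / 10 : ℝ)) ^ (5 / 3 : ℝ) = (A ^ (3 / 4 : ℝ)) ^ 2 := by
  rw [← Real.rpow_mul hA.le, ← Real.rpow_natCast, ← Real.rpow_mul hA.le]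
  norm_num

theorem da6_small {L K : ℝ} (hL : 1 ≤ L) (hK : 0 ≤ K) :
    (2 * L) ^ 2 * (L ^ (3 * (K + 2))) ^ (2 / 3 : ℝ) / L ^ (4 * K + 10) ≤ 4 * L ^ (-(K + 2)) ∧
    (L ^ (3 * (K + 2))) ^ (-(1 / 3) : ℝ) ≤ L ^ (-(K + 2)) ∧
    (L ^ (4 * K + 10)) ^ (-(2 / 3) : ℝ) ≤ L ^ (-(K + 2)) ∧
    (2 * L) ^ 2 / (L ^ (4 * K + 10)) ^ 2 ≤ 4 * L ^ (-(K + 2)) := by
  have h0 : 0 < L := by linarith
  have h2 : L ^ 2 = L ^ (2 : ℝ) := by rw [← Real.rpow_natCast]; norm_num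
  refine ⟨?_, ?_, ?_, ?_⟩
  · rw [mul_pow, h2, ← Real.rpow_mul h0.le, mul_assoc, ← Real.rpow_add h0, mul_div_assoc,
      ← Real.rpow_sub h0]
    have := Real.rpow_le_rpow_of_exponent_le hL
      (show 2 + 3 * (K + 2) * (2 / 3) - (4 * K + 10) ≤ -(K + 2) by linarith)
    linarith
  · rw [← Real.rpow_mul h0.le]
    exact Real.rpow_le_rpow_of_exponent_le hL (by linarith)
  · rw [← Real.rpow_mul h0.le]
    exact Real.rpow_le_rpow_of_exponent_le hL (by linarith)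
  · rw [mul_pow, h2, ← Real.rpow_natCast (L ^ (4 * K + 10)), ← Real.rpow_mul h0.le, mul_div_assoc,
      ← Real.rpow_sub h0]
    have := Real.rpow_le_rpow_of_exponent_le hL
      (show 2 - (4 * K + 10) * ((2 : ℕ) : ℝ) ≤ -(K + 2) by push_cast; linarith)
    linarith

theorem da6_fin {q qv qd qg qm N E Ef X Y CI CD Cc CII c S : ℝ} (hCI : 0 ≤ CI) (hCD : 0 ≤ CD)
    (hCc : 0 ≤ Cc) (hCII : 0 ≤ CII) (hc : 0 ≤ c) (hS : 0 ≤ S) (hN : 0 ≤ N) (hE : 0 ≤ E)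
    (hf : 0 ≤ Ef) (hX : 0 ≤ X) (hY : Y = S * X) (e3 : q ≤ 2 * qv + 2 * qd)
    (e4 : qd ≤ 2 * qg + 2 * c * qm) (f1 : qg ≤ CI * (N + 6 * Y + (E + CD * Y) + Ef))
    (f2 : qm ≤ CII * (4 * Y)) (f5 : qv ≤ Cc * Y) :
    q ≤ (4 * CI + S * (2 * Cc + 4 * CI * (6 + CD) + 16 * c * CII)) * (N + X + E + Ef) := by
  subst hY
  have f2' := mul_le_mul_of_nonneg_left f2 hc
  obtain ⟨T, hT⟩ : ∃ T, T = S * (2 * Cc + 4 * CI * (6 + CD) + 16 * c * CII) := ⟨_, rfl⟩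
  have hT0 : 0 ≤ T := by rw [hT]; positivity
  have g1 : q ≤ 4 * CI * (N + E + Ef) + T * X := by
    rw [hT]
    linarith
  rw [← hT]
  nlinarith [mul_nonneg hT0 hN, mul_nonneg hT0 hE, mul_nonneg hT0 hf, mul_nonneg hCI hX]

theorem da6_neg {A L K c : ℝ} (hA : 0 < A) (hL : 0 < L) (h : L ^ (K + 2) ≤ A ^ c) :
    A ^ (-c) ≤ L ^ (-(K + 2)) := by
  rw [Real.rpow_neg hA.le, Real.rpow_neg hL.le]
  exact inv_anti₀ (Real.rpow_pos_of_pos hL _) h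


/-- The multiplier: `λ = mm u / mm (bp w B')`, `mm_bp_ge`, `norm_mm_le`, `ev_log_le` (for
`w ≤ B'`). -/
theorem exists_lam : ∃ C : ℝ, 0 ≤ C ∧ ∀ K : ℝ, ∃ A₀ : ℝ, ∀ (A M B : ℝ) (u : O → ℂ), A₀ ≤ A → 0 < B →
    u 0 = 0 → EV M B u → ∃ z : ℂ,
      mm u = mm (fun n => z * bp (Real.log A ^ K) (A ^ (9 / 10 : ℝ)) n) ∧
      ‖z‖ * A ^ (3 / 4 : ℝ) ≤ C * M * B ^ (5 / 6 : ℝ) * Real.log A := by
  obtain ⟨c, hc, B₀, h1⟩ := mm_bp_ge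
  obtain ⟨C, hC, h2⟩ := norm_mm_le
  refine ⟨C / c, by positivity, fun K => ?_⟩
  obtain ⟨A₀, h3, h4⟩ := da6_log (K := K) (c := 9 / 10) (by norm_num) B₀
  refine ⟨A₀, fun A M B u hA hB h0 hu => ?_⟩
  have hA0 : 0 < A := by linarith
  have hL := da6_one_le_log (h3.trans hA)
  have h5 := h1 _ _ (h4 A hA).2 (h4 A hA).1
  rw [da6_pow34 hA0, Real.log_rpow hA0] at h5
  set m := mm (bp (Real.log A ^ K) (A ^ (9 / 10 : ℝ))) with hm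
  have hp : 0 < A ^ (3 / 4 : ℝ) := Real.rpow_pos_of_pos hA0 _
  have h6 : 0 < ‖m‖ := lt_of_lt_of_le (by positivity) h5
  have h7 : m ≠ 0 := norm_pos_iff.1 h6
  refine ⟨mm u / m, by rw [mm_smul, ← hm, div_mul_cancel₀ _ h7], ?_⟩
  have h8 := h2 M B u hB h0 hu
  rw [div_le_iff₀ (by positivity)] at h5
  rw [norm_div, div_mul_eq_mul_div, div_le_iff₀ h6]
  have h9 : A ^ (3 / 4 : ℝ) ≤ ‖m‖ * Real.log A / c := by
    rw [le_div_iff₀ hc]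
    nlinarith [mul_nonneg h6.le (show 0 ≤ Real.log A by linarith)]
  calc ‖mm u‖ * A ^ (3 / 4 : ℝ) ≤ (C * M * B ^ (5 / 6 : ℝ)) * (‖m‖ * Real.log A / c) :=
        mul_le_mul h8 h9 hp.le ((norm_nonneg _).trans h8)
    _ = _ := by ring

/-- Large `A`. With `L = log A`, `K₀ = 3 (K + 2)`, `K' = 4 K + 10`, `Z₀ = L^{K₀}`, `w = L^{K'}`,
`Λ = 2 L`, `P = (C + 1) M B^{5/6} L`, `v = z · bp`: `QQ_le_two`, `QQ_FF_split`, `AS_I`, `AS_II`,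
`QQ_smul`, `cmp`, `good_bp`, `Good.smul`, `DE_rough` for `v`, `ev_log_le`. -/
theorem AScore₀ : ∃ η₁ : ℝ, 0 < η₁ ∧ η₁ ≤ 1 / 10 ∧ ∀ η₀ : ℝ, 0 < η₀ → η₀ ≤ 1 / 10 → ∀ K : ℝ, 0 ≤ K →
    ∃ C A₀ : ℝ, 0 ≤ C ∧ ∀ (A B M E₁ Ef : ℝ) (u : O → ℂ), A₀ ≤ A → A ^ (2 / 5 : ℝ) ≤ B →
    B ≤ A ^ (1 + η₁) → Good M B (Real.log A ^ (4 * K + 10)) u → DE (A ^ (1 - η₀)) u E₁ →
    ‖DS 4 A (RW (Far (A ^ (1 / 20 : ℝ))) u) (RW (Far (A ^ (1 / 20 : ℝ))) u)‖ ≤ Ef →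
    QQ FF 4 A u ≤ C * ((A + A ^ (3 / 4 : ℝ) * B ^ (1 / 2 : ℝ)) * nrm B u +
      M ^ 2 * A ^ (2 / 3 : ℝ) * B ^ (5 / 3 : ℝ) / Real.log A ^ K + A ^ (2 / 3 : ℝ) * E₁ + Ef) := by
  obtain ⟨η₁, hη₁, hη₁', c₁, hc₁, hI⟩ := AS_I
  obtain ⟨CII, hCII, hII⟩ := AS_II
  obtain ⟨CD, hCD, hD⟩ := DE_rough
  obtain ⟨Cl, hCl, hl⟩ := exists_lam
  refine ⟨η₁, hη₁, hη₁', fun η₀ hη₀ hη₀' K hK => ?_⟩
  obtain ⟨CI, hCI, hI⟩ := hI η₀ hη₀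
  have hK' : 0 ≤ 4 * K + 10 := by linarith
  obtain ⟨c₂, hc₂, Cc, A₁, hCc, hcmp⟩ := cmp hK'
  obtain ⟨A₂, hgood⟩ := good_bp hK'
  obtain ⟨A₃, hl⟩ := hl (4 * K + 10)
  obtain ⟨A₄, hA₄, h4⟩ := da6_log (K := K + 2) hc₁ 0
  obtain ⟨A₅, -, h5⟩ := da6_log (K := K + 2) hc₂ 0
  obtain ⟨A₆, -, h6⟩ := da6_log (K := 3 * (K + 2)) (c := 1 / 20) (by norm_num) 0
  refine ⟨4 * CI + (Cl + 1) ^ 2 * (2 * Cc + 4 * CI * (6 + CD) + 16 * cst ^ 2 * CII),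
    max (max (max A₁ A₂) (max A₃ A₄)) (max A₅ A₆), by positivity,
    fun A B M E₁ Ef u hA hB1 hB2 hu hE hf => ?_⟩
  simp only [max_le_iff] at hA
  obtain ⟨⟨⟨hA1, hA2⟩, hA3, hA4⟩, hA5, hA6⟩ := hA
  have hA3' : 3 ≤ A := hA₄.trans hA4
  have hA0 : 0 < A := by linarith
  have hA1' : 1 ≤ A := by linarith
  have hL := da6_one_le_log hA3'
  have hB0 : 0 < B := lt_of_lt_of_le (Real.rpow_pos_of_pos hA0 _) hB1
  have hB' : 0 < A ^ (9 / 10 : ℝ) := Real.rpow_pos_of_pos hA0 _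
  have hM := hu.ev.nonneg
  have hu0 := supp_zero hu.supp
  obtain ⟨z, hz1, hz2⟩ := hl A M B u hA3 hB0 hu0 hu.ev
  have hv := (hgood A hA2).smul z
  rw [mul_one] at hv
  set L := Real.log A with hLdef
  have hL0 : 0 < L := by linarith
  set v : O → ℂ := fun n => z * bp (L ^ (4 * K + 10)) (A ^ (9 / 10 : ℝ)) n with hvdef
  set P := (Cl + 1) * M * B ^ (5 / 6 : ℝ) * L with hP
  have hB56 : 0 < B ^ (5 / 6 : ℝ) := Real.rpow_pos_of_pos hB0 _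
  have hP1 : M * B ^ (5 / 6 : ℝ) ≤ P := by
    have h1 : 1 ≤ (Cl + 1) * L := by nlinarith
    calc M * B ^ (5 / 6 : ℝ) ≤ M * B ^ (5 / 6 : ℝ) * ((Cl + 1) * L) :=
          le_mul_of_one_le_right (by positivity) h1
      _ = P := by rw [hP]; ring
  have hP2 : ‖z‖ * A ^ (3 / 4 : ℝ) ≤ P := by
    refine hz2.trans ?_
    rw [hP]
    gcongr
    linarith
  have hw0 : 0 < L ^ (4 * K + 10) := Real.rpow_pos_of_pos hL0 _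
  have hexp : A ^ 2 ≤ Real.exp (2 * L) := by
    rw [two_mul, Real.exp_add, hLdef, Real.exp_log hA0, sq]
  have hexp' : A ≤ Real.exp (2 * L) := le_trans (by nlinarith) hexp
  have hDv := hD ‖z‖ _ _ (A ^ (1 - η₀)) v hB'
    (Real.rpow_le_rpow_of_exponent_le hA1' (by linarith)) hw0 hv.supp hv.rough hv.ev
  have e1 := hI A B M ‖z‖ P _ (L ^ (3 * (K + 2))) (2 * L) E₁ _ Ef u v hA1' hB1 hB2
    (Real.one_le_rpow hL (by linarith)) (Real.rpow_le_rpow_of_exponent_le hL (by linarith))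
    (h6 A hA6).1 (by linarith) hexp hu hv hz1 hP1 hP2 hE hDv hf
  have e2 := hII A B _ M ‖z‖ P _ (2 * L) u v hA0 hB0 hB' hw0 (by linarith) hexp' hu hv hz1 hP1
    (by rw [da6_pow34 hA0]; exact hP2)
  have hur := hu.ev.rap hB0 hu0
  have hvr := hv.ev.rap hB' (supp_zero hv.supp)
  have e3 := QQ_le_two (G := FF) (fun n hn => norm_FF_le hn) (a := 4) (by norm_num) hA0 hu.supp hur
    hv.supp hvr
  have e4 := QQ_FF_split (a := 4) (by norm_num) hA0 (supp_sub hu.supp hv.supp) (rap_sub hur hvr)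
  have e5 : QQ FF 4 A v ≤ ‖z‖ ^ 2 * (Cc * A ^ (13 / 6 - c₂)) := by
    rw [hvdef, QQ_smul]
    exact mul_le_mul_of_nonneg_left (hcmp A hA1) (by positivity)
  obtain ⟨s1, s2, s3, s4⟩ := da6_small hL hK
  have s5 := da6_neg hA0 hL0 (h4 A hA4).1
  have s6 := da6_neg hA0 hL0 (h5 A hA5).1
  set δ := L ^ (-(K + 2)) with hδ
  set X := M ^ 2 * A ^ (2 / 3 : ℝ) * B ^ (5 / 3 : ℝ) / L ^ K with hX
  have hA23 : 0 < A ^ (2 / 3 : ℝ) := Real.rpow_pos_of_pos hA0 _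
  have hLK : 0 < L ^ K := Real.rpow_pos_of_pos hL0 _
  have hX0 : 0 ≤ X := by positivity
  set Q := A ^ (2 / 3 : ℝ) * P ^ 2 with hQ
  have hQ0 : 0 ≤ Q := by positivity
  have hY : Q * δ = (Cl + 1) ^ 2 * X := by
    have h1 : B ^ (5 / 3 : ℝ) = (B ^ (5 / 6 : ℝ)) ^ 2 := by
      rw [← Real.rpow_natCast, ← Real.rpow_mul hB0.le]
      norm_num
    have h2 : δ = (L ^ K * L ^ 2)⁻¹ := by
      rw [hδ, Real.rpow_neg hL0.le, Real.rpow_add hL0, ← Real.rpow_natCast L 2]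
      norm_num
    rw [hQ, hX, hP, h1, h2]
    field_simp
  have hz3 : (‖z‖ * A ^ (3 / 4 : ℝ)) ^ 2 ≤ P ^ 2 := pow_le_pow_left₀ (by positivity) hP2 2
  have f5 : QQ FF 4 A v ≤ Cc * (Q * δ) := by
    refine e5.trans ?_
    have h1 : A ^ (13 / 6 - c₂) = (A ^ (3 / 4 : ℝ)) ^ 2 * A ^ (2 / 3 : ℝ) * A ^ (-c₂) := by
      rw [← Real.rpow_natCast, ← Real.rpow_mul hA0.le, ← Real.rpow_add hA0, ← Real.rpow_add hA0]
      congr 1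
      push_cast
      ring
    calc ‖z‖ ^ 2 * (Cc * A ^ (13 / 6 - c₂))
        = Cc * (A ^ (2 / 3 : ℝ) * (‖z‖ * A ^ (3 / 4 : ℝ)) ^ 2 * A ^ (-c₂)) := by rw [h1]; ring
      _ ≤ Cc * (A ^ (2 / 3 : ℝ) * P ^ 2 * δ) := by gcongr
  have f2 : QQ md 4 A (fun n => u n - v n) ≤ CII * (4 * (Q * δ)) := by
    refine e2.trans ?_
    calc CII * A ^ (2 / 3 : ℝ) * P ^ 2 * ((2 * L) ^ 2 / (L ^ (4 * K + 10)) ^ 2)
        ≤ CII * A ^ (2 / 3 : ℝ) * P ^ 2 * (4 * δ) := by gcongr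
      _ = _ := by rw [hQ]; ring
  have f6 : A ^ (2 / 3 : ℝ) * (CD * ‖z‖ ^ 2 * (A ^ (9 / 10 : ℝ)) ^ (5 / 3 : ℝ) *
      (L ^ (4 * K + 10)) ^ (-(2 / 3) : ℝ)) ≤ CD * (Q * δ) := by
    rw [da6_pow32 hA0]
    calc _ = CD * (A ^ (2 / 3 : ℝ) * (‖z‖ * A ^ (3 / 4 : ℝ)) ^ 2 *
          (L ^ (4 * K + 10)) ^ (-(2 / 3) : ℝ)) := by ring
      _ ≤ CD * (A ^ (2 / 3 : ℝ) * P ^ 2 * δ) := by gcongr
  have f7 : Q * ((2 * L) ^ 2 * (L ^ (3 * (K + 2))) ^ (2 / 3 : ℝ) / L ^ (4 * K + 10) +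
      (L ^ (3 * (K + 2))) ^ (-(1 / 3) : ℝ) + A ^ (-c₁)) ≤ 6 * (Q * δ) := by
    calc _ ≤ Q * (4 * δ + δ + δ) := by gcongr
      _ = _ := by ring
  set N := (A + A ^ (3 / 4 : ℝ) * B ^ (1 / 2 : ℝ)) * nrm B u with hN
  have hN0 : 0 ≤ N := mul_nonneg (by positivity) (nrm_nonneg hB0 u)
  have hE0 : 0 ≤ A ^ (2 / 3 : ℝ) * E₁ := mul_nonneg hA23.le (da6_DE_nonneg hE)
  have hf0 : 0 ≤ Ef := (norm_nonneg _).trans hf
  have f1 : QQ gt 4 A (fun n => u n - v n) ≤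
      CI * (N + 6 * (Q * δ) + (A ^ (2 / 3 : ℝ) * E₁ + CD * (Q * δ)) + Ef) := by
    refine e1.trans (mul_le_mul_of_nonneg_left ?_ hCI)
    rw [mul_add (A ^ (2 / 3 : ℝ)) E₁]
    linarith
  exact da6_fin hCI hCD hCc hCII (sq_nonneg cst) (sq_nonneg (Cl + 1)) hN0 hE0 hf0 hX0 hY e3 e4 f1 f2 f5

/-- For `3 ≤ A ≤ A₀` use `QQ_FF_triv`. -/
theorem AScore : ∃ η₁ : ℝ, 0 < η₁ ∧ η₁ ≤ 1 / 10 ∧ ∀ η₀ : ℝ, 0 < η₀ → η₀ ≤ 1 / 10 → ∀ K : ℝ, 0 ≤ K →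
    ∃ C : ℝ, 0 ≤ C ∧ ∀ (A B M E₁ Ef : ℝ) (u : O → ℂ), 3 ≤ A → A ^ (2 / 5 : ℝ) ≤ B →
    B ≤ A ^ (1 + η₁) → Good M B (Real.log A ^ (4 * K + 10)) u → DE (A ^ (1 - η₀)) u E₁ →
    ‖DS 4 A (RW (Far (A ^ (1 / 20 : ℝ))) u) (RW (Far (A ^ (1 / 20 : ℝ))) u)‖ ≤ Ef →
    QQ FF 4 A u ≤ C * ((A + A ^ (3 / 4 : ℝ) * B ^ (1 / 2 : ℝ)) * nrm B u +
      M ^ 2 * A ^ (2 / 3 : ℝ) * B ^ (5 / 3 : ℝ) / Real.log A ^ K + A ^ (2 / 3 : ℝ) * E₁ + Ef) := by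
  obtain ⟨η₁, hη₁, hη₁', h⟩ := AScore₀
  obtain ⟨Ct, hCt, ht⟩ := QQ_FF_triv
  refine ⟨η₁, hη₁, hη₁', fun η₀ hη₀ hη₀' K hK => ?_⟩
  obtain ⟨C, A₀, hC, h⟩ := h η₀ hη₀ hη₀' K hK
  have hA₁ : 3 ≤ max A₀ 3 := le_max_right _ _
  set A₁ := max A₀ 3 with hA₁def
  have hLA := da6_one_le_log hA₁
  have hT0 : 0 ≤ Ct * (A₁ * A₁ * Real.log A₁ ^ K) := by positivity
  refine ⟨C + Ct * (A₁ * A₁ * Real.log A₁ ^ K), by positivity,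
    fun A B M E₁ Ef u hA hB1 hB2 hu hE hf => ?_⟩
  have hA0 : 0 < A := by linarith
  have hA1' : 1 ≤ A := by linarith
  have hL := da6_one_le_log hA
  have hB0 : 0 < B := lt_of_lt_of_le (Real.rpow_pos_of_pos hA0 _) hB1
  have hA23 : 0 < A ^ (2 / 3 : ℝ) := Real.rpow_pos_of_pos hA0 _
  have hLK : 0 < Real.log A ^ K := Real.rpow_pos_of_pos (by linarith) _
  set X := M ^ 2 * A ^ (2 / 3 : ℝ) * B ^ (5 / 3 : ℝ) / Real.log A ^ K with hX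
  have hX0 : 0 ≤ X := by positivity
  set N := (A + A ^ (3 / 4 : ℝ) * B ^ (1 / 2 : ℝ)) * nrm B u with hN
  have hN0 : 0 ≤ N := mul_nonneg (by positivity) (nrm_nonneg hB0 u)
  have hE0 : 0 ≤ A ^ (2 / 3 : ℝ) * E₁ := mul_nonneg hA23.le (da6_DE_nonneg hE)
  have hf0 : 0 ≤ Ef := (norm_nonneg _).trans hf
  rcases le_total A₀ A with hA' | hA'
  · refine (h A B M E₁ Ef u hA' hB1 hB2 hu hE hf).trans ?_
    exact mul_le_mul_of_nonneg_right (by linarith) (by positivity)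
  · have hAA : A ≤ A₁ := hA'.trans (le_max_left _ _)
    have h1 : A ^ (1 / 3 : ℝ) ≤ A₁ := by
      refine le_trans ?_ hAA
      simpa using Real.rpow_le_rpow_of_exponent_le hA1' (show (1 / 3 : ℝ) ≤ 1 by norm_num)
    have h2 : B ^ (1 / 3 : ℝ) ≤ A₁ := by
      refine (Real.rpow_le_rpow hB0.le hB2 (by norm_num)).trans (le_trans ?_ hAA)
      rw [← Real.rpow_mul hA0.le]
      simpa using Real.rpow_le_rpow_of_exponent_le hA1' (show (1 + η₁) * (1 / 3 : ℝ) ≤ 1 by linarith)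
    have h3 : Real.log A ^ K ≤ Real.log A₁ ^ K :=
      Real.rpow_le_rpow (by linarith) (Real.log_le_log hA0 hAA) hK
    have h4 : A = A ^ (2 / 3 : ℝ) * A ^ (1 / 3 : ℝ) := by
      rw [← Real.rpow_add hA0]
      norm_num
    have h5 : B ^ 2 = B ^ (5 / 3 : ℝ) * B ^ (1 / 3 : ℝ) := by
      rw [← Real.rpow_add hB0, ← Real.rpow_natCast]
      norm_num
    have h6 : Ct * A * M ^ 2 * B ^ 2 =
        Ct * (A ^ (1 / 3 : ℝ) * B ^ (1 / 3 : ℝ) * Real.log A ^ K) * X := by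
      rw [h5, hX]
      nth_rewrite 1 [h4]
      field_simp
    have h7 : QQ FF 4 A u ≤ Ct * (A₁ * A₁ * Real.log A₁ ^ K) * X := by
      refine (ht A M B u hA0 hB0 hu.supp hu.ev).trans ?_
      rw [h6]
      gcongr
    nlinarith [mul_nonneg hT0 hN0, mul_nonneg hT0 hE0, mul_nonneg hT0 hf0, mul_nonneg hC hX0,
      mul_nonneg hC hN0, mul_nonneg hC hE0, mul_nonneg hC hf0]

end Crest.Agent.R012.D

end
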