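import Crest.Agent.R012.DA6

/-! # Row 12, dispersion: the corrected dispersion, final form -/

set_option autoImplicit false

noncomputable section

open scoped BigOperators ComplexConjugate Topology
open Complex MeasureTheory Filter Set Crest.Agent.R017

namespace Crest.Agent.R012.D

/-- `m = 1`, `nrm_dil_prime`, `l2_le_nrm`, `EV_nrm_le`. -/
theorem DE_prime : ∃ C : ℝ, 0 ≤ C ∧ ∀ (M B T : ℝ) (u : O → ℂ), 0 < B → 1 ≤ T → Supp 1 u →
    (∀ n, u n ≠ 0 → Prime n) → EV M B u → DE T u (C * M ^ 2 * B) := by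
  obtain ⟨C, hC, h⟩ := EV_nrm_le
  refine ⟨2 * C, by positivity, fun M B T u hB hT hs hp he => ?_⟩
  have h0 := supp_zero hs
  have hr := he.rap hB h0
  have h1 : Summable fun n => ‖u n‖ ^ 2 := by
    simpa only [Real.rpow_zero, mul_one] using rap_sq hr 0
  have h2 : ∀ d, 0 ≤ de (fun _ => 1) u d ∧ de (fun _ => 1) u d ≤ 2 * ‖u d‖ ^ 2 := fun d => by
    unfold de
    split_ifs with hd
    · rw [Real.one_rpow, one_mul, nrm_dil_prime hs hp hd.1 hd.2]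
      exact ⟨by positivity, le_rfl⟩
    · exact ⟨le_rfl, by positivity⟩
  have h3 := Summable.of_nonneg_of_le (fun d => (h2 d).1) (fun d => (h2 d).2) (h1.mul_left 2)
  refine ⟨fun _ => 1, fun _ => ⟨one_pos, hT⟩, h3, ?_⟩
  refine (h3.tsum_le_tsum (fun d => (h2 d).2) (h1.mul_left 2)).trans ?_
  rw [tsum_mul_left, mul_assoc, mul_assoc, ← mul_assoc C]
  exact mul_le_mul_of_nonneg_left ((l2_le_nrm hB hr h0).trans (h M B u hB h0 he)) zero_le_two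

theorem da7_log {A : ℝ} (hA : 3 ≤ A) : 1 ≤ Real.log A := by
  rw [Real.le_log_iff_exp_le (by linarith)]
  linarith [Real.exp_one_lt_d9]

/-- `A^{-c} ≤ C / (log A)^K` for `A ≥ 3`. -/
theorem rpow_le_div_log {c : ℝ} (hc : 0 < c) (K : ℝ) : ∃ C : ℝ, 0 ≤ C ∧ ∀ A : ℝ, 3 ≤ A →
    A ^ (-c) ≤ C / Real.log A ^ K := by
  set k := max K 1 with hk
  have hk0 : 0 < k := lt_of_lt_of_le one_pos (le_max_right _ _)
  refine ⟨(k / c) ^ k, by positivity, fun A hA => ?_⟩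
  have hL := da7_log hA
  have hA0 : 0 < A := by linarith
  have h1 : Real.log A ^ K ≤ (k / c) ^ k * A ^ c := by
    refine (Real.rpow_le_rpow_of_exponent_le hL (le_max_left K 1)).trans ?_
    refine (Real.rpow_le_rpow (by linarith) (Real.log_le_rpow_div hA0.le
      (show 0 < c / k by positivity)) hk0.le).trans (le_of_eq ?_)
    rw [div_div_eq_mul_div, mul_div_assoc, Real.mul_rpow (by positivity) (by positivity),
      ← Real.rpow_mul hA0.le, div_mul_cancel₀ _ hk0.ne', mul_comm]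
  rw [le_div_iff₀ (by positivity), Real.rpow_neg hA0.le, inv_mul_le_iff₀ (by positivity), mul_comm]
  exact h1

theorem da7_e {A B : ℝ} (hA : 0 < A) (hB : 0 < B) :
    (A * B) ^ (2 / 3 : ℝ) * (A / B ^ 2) ^ (1 / 12 : ℝ) = A ^ (3 / 4 : ℝ) * B ^ (1 / 2 : ℝ) := by
  obtain ⟨a, rfl⟩ : ∃ a, A = Real.exp a := ⟨_, (Real.exp_log hA).symm⟩
  obtain ⟨b, rfl⟩ : ∃ a, B = Real.exp a := ⟨_, (Real.exp_log hB).symm⟩
  simp only [← Real.exp_mul, ← Real.exp_add, ← Real.exp_sub, ← Real.exp_nat_mul]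
  congr 1
  push_cast
  ring

/-- `AScore` with `max K 0`, `η₀ = min η (1/10)`; `DD_eq_QQ`, `good_co`, `DE_rough`, `far_unb`,
`nrm_le_nrmd`, `nrmd_co_le`, `(A B)^{2/3} (A / B²)^{1/12} = A^{3/4} B^{1/2}`. -/
theorem disp_AS {η : ℝ} (hη : 0 < η) (K : ℝ) : ∃ K' C : ℝ, 0 ≤ K' ∧ 0 ≤ C ∧
    ∀ (A B τ M : ℝ) (β : O → ℂ), 3 ≤ A → A ^ (2 / 5 : ℝ) ≤ B → B ≤ A ^ (1 - η) → Env M B β →
    (∀ b, Prim b → β b ≠ 0 → Squarefree b ∧ Rough (Real.log A ^ K') b) →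
    SWH M (Real.log A ^ K') B τ β →
    DD FF 1 A B τ β ≤ C * ((A + (A * B) ^ (2 / 3 : ℝ) * (A / B ^ 2) ^ (1 / 12 : ℝ)) * cn2 2 B β +
      M ^ 2 * A ^ (2 / 3 : ℝ) * B ^ (5 / 3 : ℝ) / Real.log A ^ K) := by
  obtain ⟨η₁, hη₁, -, H⟩ := AScore
  have hK0 : 0 ≤ max K 0 := le_max_right _ _
  obtain ⟨C, hC, H⟩ := H (min η (1 / 10)) (by positivity) (min_le_right _ _) (max K 0) hK0
  obtain ⟨Cg, hCg, hg⟩ := good_co
  obtain ⟨Cd, hCd, hd⟩ := DE_rough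
  obtain ⟨c, hc, Cf, hCf, hf⟩ := far_unb hη
  obtain ⟨Cn, hCn, hn⟩ := nrmd_co_le
  obtain ⟨Cr, hCr, hr⟩ := rpow_le_div_log hc K
  refine ⟨4 * max K 0 + 10, C * (Cn + Cg ^ 2 * (1 + Cd + Cf * Cr)), by positivity, by positivity,
    fun A B τ M β hA hB₁ hB₂ hE hR hS => ?_⟩
  have hA1 : 1 ≤ A := by linarith
  have hA0 : 0 < A := by linarith
  have hB : 0 < B := lt_of_lt_of_le (by positivity) hB₁
  have hL := da7_log hA
  have hL0 : 0 < Real.log A := by linarith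
  have pw : ∀ {u v : ℝ}, u ≤ v → A ^ u ≤ A ^ v := fun h => Real.rpow_le_rpow_of_exponent_le hA1 h
  have pl : ∀ {u v : ℝ}, u ≤ v → Real.log A ^ u ≤ Real.log A ^ v := fun h =>
    Real.rpow_le_rpow_of_exponent_le hL h
  have G := hg M B τ _ β hB (by positivity) hE hR hS
  have h0 := supp_zero G.supp
  have h1 := H A B (Cg * M) _ _ _ hA hB₁ (hB₂.trans (pw (by linarith))) G
    (hd (Cg * M) B _ _ _ hB (hB₂.trans (pw (by linarith [min_le_left η (1 / 10)])))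
      (by positivity) G.supp G.rough G.ev) (hf A (Cg * M) B _ hA1 hB₁ hB₂ G.supp G.ev)
  have h2 : nrm B (co 1 B τ β) ≤ Cn * cn2 2 B β := by
    simpa only [mul_one] using (nrm_le_nrmd hB (G.ev.rap hB h0) h0).trans
      (hn 1 M B τ β one_pos le_rfl hB hE)
  rw [DD_eq_QQ (fun n => FF_of_not), mul_one, da7_e hA0 hB]
  refine h1.trans ?_
  rw [mul_assoc C]
  refine mul_le_mul_of_nonneg_left ?_ hC
  set X := M ^ 2 * A ^ (2 / 3 : ℝ) * B ^ (5 / 3 : ℝ) with hX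
  have hX0 : 0 ≤ X := by positivity
  set Y := (A + A ^ (3 / 4 : ℝ) * B ^ (1 / 2 : ℝ)) with hY
  have hY0 : 0 ≤ Y := by positivity
  have hc2 := cn2_nonneg 2 B β
  have t1 : Y * nrm B (co 1 B τ β) ≤ Cn * (Y * cn2 2 B β) :=
    (mul_le_mul_of_nonneg_left h2 hY0).trans (le_of_eq (by ring))
  have t2 : (Cg * M) ^ 2 * A ^ (2 / 3 : ℝ) * B ^ (5 / 3 : ℝ) / Real.log A ^ max K 0 ≤
      Cg ^ 2 * (X / Real.log A ^ K) := by
    calc _ = Cg ^ 2 * (X / Real.log A ^ max K 0) := by rw [hX]; ring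
      _ ≤ _ := by
        refine mul_le_mul_of_nonneg_left ?_ (by positivity)
        exact div_le_div_of_nonneg_left hX0 (by positivity) (pl (le_max_left _ _))
  have t3 : A ^ (2 / 3 : ℝ) * (Cd * (Cg * M) ^ 2 * B ^ (5 / 3 : ℝ) *
      (Real.log A ^ (4 * max K 0 + 10)) ^ (-(2 / 3) : ℝ)) ≤ Cg ^ 2 * Cd * (X / Real.log A ^ K) := by
    have e : (Real.log A ^ (4 * max K 0 + 10)) ^ (-(2 / 3) : ℝ) ≤ (Real.log A ^ K)⁻¹ := by
      rw [← Real.rpow_mul hL0.le, ← Real.rpow_neg hL0.le]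
      exact pl (by linarith [le_max_left K 0])
    calc _ = Cg ^ 2 * Cd * (X * (Real.log A ^ (4 * max K 0 + 10)) ^ (-(2 / 3) : ℝ)) := by
          rw [hX]; ring
      _ ≤ _ := by
        rw [div_eq_mul_inv X]
        exact mul_le_mul_of_nonneg_left (mul_le_mul_of_nonneg_left e hX0) (by positivity)
  have t4 : Cf * A ^ (2 / 3 - c) * (Cg * M) ^ 2 * B ^ (5 / 3 : ℝ) ≤
      Cg ^ 2 * (Cf * Cr) * (X / Real.log A ^ K) := by
    calc _ = Cg ^ 2 * Cf * (X * A ^ (-c)) := by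
          rw [hX, sub_eq_add_neg, Real.rpow_add hA0]; ring
      _ ≤ Cg ^ 2 * Cf * (X * (Cr / Real.log A ^ K)) :=
        mul_le_mul_of_nonneg_left (mul_le_mul_of_nonneg_left (hr A hA) hX0) (by positivity)
      _ = _ := by ring
  have hZ : 0 ≤ X / Real.log A ^ K := by positivity
  have s1 : 0 ≤ Cn * (X / Real.log A ^ K) := by positivity
  have s2 : 0 ≤ Cg ^ 2 * (1 + Cd + Cf * Cr) * (Y * cn2 2 B β) := by positivity
  nlinarith

theorem da7_pw {A B : ℝ} (hA : 1 ≤ A) (hB : A ^ (9 / 10 : ℝ) ≤ B) :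
    (A + A ^ (3 / 4 : ℝ) * B ^ (1 / 2 : ℝ)) * B ≤
      2 * (A ^ (2 / 3 : ℝ) * B ^ (5 / 3 : ℝ) * A ^ (-(1 / 15) : ℝ)) ∧
    A ^ (2 / 3 : ℝ) * B ≤ A ^ (2 / 3 : ℝ) * B ^ (5 / 3 : ℝ) * A ^ (-(1 / 15) : ℝ) := by
  have hA0 : 0 < A := by linarith
  have hB0 : 0 < B := lt_of_lt_of_le (by positivity) hB
  obtain ⟨a, rfl⟩ : ∃ a, A = Real.exp a := ⟨_, (Real.exp_log hA0).symm⟩
  obtain ⟨b, rfl⟩ : ∃ a, B = Real.exp a := ⟨_, (Real.exp_log hB0).symm⟩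
  rw [Real.one_le_exp_iff] at hA
  rw [add_mul, two_mul]
  simp only [← Real.exp_mul, ← Real.exp_add, Real.exp_le_exp] at hB ⊢
  refine ⟨add_le_add (Real.exp_le_exp.2 ?_) (Real.exp_le_exp.2 ?_), ?_⟩ <;> linarith

/-- `AScore` with `max K 0 + 2`, `η₀ = 1/10`, `M = C (1 + log B) ≤ C' log A` (`env_LpV`,
`SWH.mono`, `good_co`), `DE_prime`, `DS_farP` with `θ = 1`, `δ = 1/20`, `EV_nrm_le`,
`rpow_le_div_log`; `η = min η₁ η_far`. -/
theorem disp_AS_P (l : ℤ) : ∃ η : ℝ, 0 < η ∧ ∀ K : ℝ, ∃ K' C : ℝ, 0 ≤ K' ∧ 0 ≤ C ∧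
    ∀ A B τ V : ℝ, 3 ≤ A → A ^ (1 - η) ≤ B → B ≤ A ^ (1 + η) → |τ| ≤ A ^ η →
    Real.log A ^ K' ≤ V → V ≤ B ^ (9 / 10 : ℝ) → SWH 1 (Real.log A ^ K') B τ (LpV l V) →
    DD FF 1 A B τ (LpV l V) ≤ C * A ^ (2 / 3 : ℝ) * B ^ (5 / 3 : ℝ) / Real.log A ^ K := by
  obtain ⟨η₁, hη₁, hη₁', H⟩ := AScore
  obtain ⟨η₂, hη₂, hη₂', Cf, hCf, hf⟩ := DS_farP l (show (0 : ℝ) < 1 / 20 by norm_num)
  refine ⟨min η₁ η₂, by positivity, fun K => ?_⟩
  have hK0 : 0 ≤ max K 0 := le_max_right _ _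
  obtain ⟨C, hC, H⟩ := H (1 / 10) (by norm_num) le_rfl (max K 0 + 2) (by positivity)
  obtain ⟨Cg, hCg, hg⟩ := good_co
  obtain ⟨Cd, hCd, hd⟩ := DE_prime
  obtain ⟨Ce, hCe, he⟩ := EV_nrm_le
  obtain ⟨Cr, hCr, hr⟩ := rpow_le_div_log (show (0 : ℝ) < 1 / 15 by norm_num) (K + 2)
  obtain ⟨Cs, hCs, hs⟩ := rpow_le_div_log hη₂ K
  refine ⟨4 * (max K 0 + 2) + 10, C * (9 * Cg ^ 2 * ((2 * Ce + Cd) * Cr + 1) + Cf * Cs),
    by positivity, by positivity, fun A B τ V hA hB₁ hB₂ hτ hV₁ hV₂ hS => ?_⟩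
  have m1 := min_le_left η₁ η₂
  have m2 := min_le_right η₁ η₂
  have hA1 : 1 ≤ A := by linarith
  have hA0 : 0 < A := by linarith
  have hL := da7_log hA
  have hL0 : 0 < Real.log A := by linarith
  have pw : ∀ {u v : ℝ}, u ≤ v → A ^ u ≤ A ^ v := fun h => Real.rpow_le_rpow_of_exponent_le hA1 h
  have pl : ∀ {u v : ℝ}, u ≤ v → Real.log A ^ u ≤ Real.log A ^ v := fun h =>
    Real.rpow_le_rpow_of_exponent_le hL h
  have hB9 : A ^ (9 / 10 : ℝ) ≤ B := (pw (by linarith)).trans hB₁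
  have hB1 : 1 ≤ B := (Real.one_le_rpow hA1 (by norm_num)).trans hB9
  have hB : 0 < B := by linarith
  have hlB := Real.log_nonneg hB1
  have hlB' : 1 + Real.log B ≤ 3 * Real.log A := by
    have h := Real.log_le_log hB (hB₂.trans (pw (show 1 + min η₁ η₂ ≤ 2 by linarith)))
    rw [Real.log_rpow hA0] at h
    linarith
  have G := hg (1 + Real.log B) B τ (Real.log A ^ (4 * (max K 0 + 2) + 10)) (LpV l V) hB
    (by positivity) (env_LpV l V hB1) (fun b _ hb => ⟨(LpV_ne hb).1.squarefree, fun q hq hqb => by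
      rw [Nr_eq_of_associated (hq.associated_of_dvd (LpV_ne hb).1 hqb)]
      exact hV₁.trans_lt (LpV_ne hb).2⟩)
    (hS.mono zero_le_one (by linarith) (by positivity) le_rfl hB.le)
  have h0 := supp_zero G.supp
  have hP : ∀ n, co 1 B τ (LpV l V) n ≠ 0 → Prime n := fun n hn => by
    refine (LpV_ne (l := l) (V := V) fun h => hn ?_).1
    unfold co
    split_ifs
    · rw [h, zero_mul, zero_mul]
    · rfl
  have hfar := hf 1 A B τ V _ hA1 ((pw (by linarith)).trans hB₁) (hB₂.trans (pw (by linarith)))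
    (Real.rpow_le_one_of_one_le_of_nonpos hA1 (by linarith)) le_rfl (hτ.trans (pw m2)) hV₂ le_rfl
  rw [mul_one] at hfar
  have h1 := H A B _ _ _ _ hA ((pw (by norm_num)).trans hB9) (hB₂.trans (pw (by linarith))) G
    (hd _ B _ _ hB (Real.one_le_rpow hA1 (by norm_num)) G.supp hP G.ev) hfar
  have h2 := he _ B _ hB h0 G.ev
  rw [DD_eq_QQ (fun n => FF_of_not), mul_one]
  refine h1.trans ?_
  rw [mul_assoc C, mul_assoc C, mul_div_assoc C]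
  refine mul_le_mul_of_nonneg_left ?_ hC
  obtain ⟨p1, p2⟩ := da7_pw hA1 hB9
  set X := A ^ (2 / 3 : ℝ) * B ^ (5 / 3 : ℝ) with hX
  have hX0 : 0 ≤ X := by positivity
  set M := Cg * (1 + Real.log B) with hM
  have hM2 : M ^ 2 ≤ 9 * Cg ^ 2 * Real.log A ^ (2 : ℝ) := by
    rw [Real.rpow_two]
    calc M ^ 2 ≤ (Cg * (3 * Real.log A)) ^ 2 := by rw [hM]; gcongr
      _ = _ := by ring
  have q1 : M ^ 2 * (X * A ^ (-(1 / 15) : ℝ)) ≤ 9 * Cg ^ 2 * Cr * (X / Real.log A ^ K) := by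
    calc _ ≤ 9 * Cg ^ 2 * Real.log A ^ (2 : ℝ) * (X * (Cr / Real.log A ^ (K + 2))) := by
          gcongr
          exact hr A hA
      _ = _ := by rw [Real.rpow_add hL0]; field_simp
  set Y := (A + A ^ (3 / 4 : ℝ) * B ^ (1 / 2 : ℝ)) with hY
  have hY0 : 0 ≤ Y := by positivity
  have t1 : Y * nrm B (co 1 B τ (LpV l V)) ≤ 2 * Ce * (9 * Cg ^ 2 * Cr * (X / Real.log A ^ K)) := by
    calc _ ≤ Y * (Ce * M ^ 2 * B) := mul_le_mul_of_nonneg_left h2 hY0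
      _ = Ce * M ^ 2 * (Y * B) := by ring
      _ ≤ Ce * M ^ 2 * (2 * (X * A ^ (-(1 / 15) : ℝ))) :=
          mul_le_mul_of_nonneg_left p1 (by positivity)
      _ = 2 * Ce * (M ^ 2 * (X * A ^ (-(1 / 15) : ℝ))) := by ring
      _ ≤ _ := mul_le_mul_of_nonneg_left q1 (by positivity)
  have t2 : M ^ 2 * A ^ (2 / 3 : ℝ) * B ^ (5 / 3 : ℝ) / Real.log A ^ (max K 0 + 2) ≤
      9 * Cg ^ 2 * (X / Real.log A ^ K) := by
    calc _ = M ^ 2 * (X / Real.log A ^ (max K 0 + 2)) := by rw [hX]; ring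
      _ ≤ 9 * Cg ^ 2 * Real.log A ^ (2 : ℝ) * (X / Real.log A ^ (K + 2)) := by
          refine mul_le_mul hM2 ?_ (by positivity) (by positivity)
          exact div_le_div_of_nonneg_left hX0 (by positivity)
            (pl (by linarith [le_max_left K 0]))
      _ = _ := by rw [Real.rpow_add hL0]; field_simp
  have t3 : A ^ (2 / 3 : ℝ) * (Cd * M ^ 2 * B) ≤ Cd * (9 * Cg ^ 2 * Cr * (X / Real.log A ^ K)) := by
    calc _ = Cd * M ^ 2 * (A ^ (2 / 3 : ℝ) * B) := by ring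
      _ ≤ Cd * M ^ 2 * (X * A ^ (-(1 / 15) : ℝ)) := mul_le_mul_of_nonneg_left p2 (by positivity)
      _ = Cd * (M ^ 2 * (X * A ^ (-(1 / 15) : ℝ))) := by ring
      _ ≤ _ := mul_le_mul_of_nonneg_left q1 hCd
  have t4 : Cf * A ^ (2 / 3 - η₂) * B ^ (5 / 3 : ℝ) ≤ Cf * Cs * (X / Real.log A ^ K) := by
    calc _ = Cf * (X * A ^ (-η₂)) := by
          rw [hX, sub_eq_add_neg, Real.rpow_add hA0]; ring
      _ ≤ Cf * (X * (Cs / Real.log A ^ K)) :=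
        mul_le_mul_of_nonneg_left (mul_le_mul_of_nonneg_left (hs A hA) hX0) hCf
      _ = _ := by ring
  refine (add_le_add (add_le_add (add_le_add t1 t2) t3) t4).trans (le_of_eq ?_)
  rw [hX]
  ring

end Crest.Agent.R012.D

end
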