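import Crest.Agent.R012.D0

/-! # Row 12, dispersion: elementary inequalities for the weights -/

set_option autoImplicit false

noncomputable section

open scoped BigOperators ComplexConjugate Topology
open Complex MeasureTheory Filter Set Crest.Agent.R017

namespace Crest.Agent.R012.D

theorem phi_pos (α : ℝ) {x : ℝ} (hx : 0 < x) : 0 < phi α x := by
  unfold phi
  split_ifs <;> positivity

theorem rpow_le_phi {α β x : ℝ} (h1 : α ≤ β) (h2 : β ≤ 2) (hx : 0 < x) : x ^ β ≤ phi α x := by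
  unfold phi
  split_ifs with h
  · exact Real.rpow_le_rpow_of_exponent_ge hx h h1
  · rw [← Real.rpow_two]
    exact Real.rpow_le_rpow_of_exponent_le (not_le.1 h).le h2

theorem rpow_le_mul_phi {α β R Rs : ℝ} (h1 : α ≤ β) (h2 : β ≤ 2) (hR : 0 < R) (hRs : 0 < Rs) :
    R ^ β ≤ Rs ^ β * phi α (R / Rs) := by
  have e : R ^ β = Rs ^ β * (R / Rs) ^ β := by
    rw [← Real.mul_rpow hRs.le (by positivity), mul_div_cancel₀ _ hRs.ne']
  rw [e]
  exact mul_le_mul_of_nonneg_left (rpow_le_phi h1 h2 (by positivity)) (by positivity)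

theorem phi_mul_le {α c x : ℝ} (h0 : 0 ≤ α) (h2 : α ≤ 2) (hc : 1 ≤ c) (hx : 0 < x) :
    phi α (c * x) ≤ c ^ 2 * phi α x := by
  have hc0 : 0 < c := by linarith
  have key : ∀ β : ℝ, α ≤ β → β ≤ 2 → (c * x) ^ β ≤ c ^ 2 * phi α x := by
    intro β hb1 hb2
    rw [Real.mul_rpow hc0.le hx.le]
    refine mul_le_mul ?_ (rpow_le_phi hb1 hb2 hx) (by positivity) (by positivity)
    rw [← Real.rpow_two]
    exact Real.rpow_le_rpow_of_exponent_le hc hb2
  by_cases h : c * x ≤ 1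
  · rw [phi, if_pos h]
    exact key α le_rfl h2
  · rw [phi, if_neg h, ← Real.rpow_two (c * x)]
    exact key 2 h2 le_rfl

theorem rpow_le_mul_max {y M M' : ℝ} (h0 : 0 ≤ y) (h2 : y ≤ 2) (hM : 0 < M) (hM' : 0 < M') :
    M' ^ y ≤ M ^ y * max 1 (M' / M) ^ 2 := by
  have e : M' ^ y = M ^ y * (M' / M) ^ y := by
    rw [← Real.mul_rpow hM.le (by positivity), mul_div_cancel₀ _ hM.ne']
  rw [e]
  refine mul_le_mul_of_nonneg_left ?_ (by positivity)
  refine (Real.rpow_le_rpow (by positivity) (le_max_right 1 _) h0).trans ?_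
  rw [← Real.rpow_two]
  exact Real.rpow_le_rpow_of_exponent_le (le_max_left _ _) h2

theorem psi_nonneg {x : ℝ} (hx : 0 ≤ x) : 0 ≤ psi x := by
  unfold psi
  positivity

theorem rpow_le_psi {β x : ℝ} (h1 : -1 ≤ β) (h2 : β ≤ 8) (hx : 0 < x) : x ^ β ≤ psi x := by
  unfold psi
  rcases le_total x 1 with h | h
  · have := Real.rpow_le_rpow_of_exponent_ge hx h h1
    rw [Real.rpow_neg_one] at this
    have h3 : 0 ≤ x ^ 8 := by positivity
    linarith
  · have := Real.rpow_le_rpow_of_exponent_le h h2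
    rw [show (8 : ℝ) = ((8 : ℕ) : ℝ) by norm_num, Real.rpow_natCast] at this
    have h3 : 0 ≤ x⁻¹ := by positivity
    linarith

theorem one_le_psi {x : ℝ} (hx : 0 < x) : 1 ≤ psi x := by
  have := rpow_le_psi (β := 0) (by norm_num) (by norm_num) hx
  rwa [Real.rpow_zero] at this

theorem W_mul_W {a b c : ℝ} (h : a⁻¹ = b⁻¹ + c⁻¹) (x : ℝ) : W a x = W b x * W c x := by
  rw [W, W, W, ← Real.exp_add]
  congr 1
  simp only [div_eq_mul_inv, mul_inv]
  rw [h]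
  ring

theorem W_sq (a x : ℝ) : W a x = W (2 * a) x ^ 2 := by
  rw [sq]
  refine W_mul_W ?_ x
  rw [mul_inv]
  ring

theorem W_mono {a b : ℝ} (ha : 0 < a) (h : a ≤ b) (x : ℝ) : W a x ≤ W b x := by
  rw [W, W, Real.exp_le_exp, neg_div, neg_div, neg_le_neg_iff]
  exact div_le_div_of_nonneg_left (sq_nonneg _) (by positivity) (by linarith)

/-- `W_le_rpow` with the exponents `k` and `-8 k`. -/
theorem psi_pow_W (k : ℕ) : ∃ C : ℝ, 0 ≤ C ∧ ∀ x : ℝ, 0 < x → psi x ^ k * W 16 x ≤ C := by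
  refine ⟨2 ^ k * Real.exp (16 * (8 * (k : ℝ)) ^ 2), by positivity, fun x hx => ?_⟩
  have hW := (W_pos 16 x).le
  rcases le_total x 1 with h | h
  · have h1 : psi x ≤ 2 * x⁻¹ := by
      have h2 : x ^ 8 ≤ 1 := pow_le_one₀ hx.le h
      have h3 : 1 ≤ x⁻¹ := (one_le_inv₀ hx).2 h
      unfold psi
      linarith
    have h2 := W_le_rpow (a := 16) (by norm_num) hx (k : ℝ)
    rw [Real.rpow_natCast] at h2
    have h3 : Real.exp (16 * (k : ℝ) ^ 2) ≤ Real.exp (16 * (8 * (k : ℝ)) ^ 2) := by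
      rw [Real.exp_le_exp]
      nlinarith [sq_nonneg (k : ℝ)]
    calc psi x ^ k * W 16 x ≤ (2 * x⁻¹) ^ k * (Real.exp (16 * (k : ℝ) ^ 2) * x ^ k) :=
          mul_le_mul (pow_le_pow_left₀ (psi_nonneg hx.le) h1 k) h2 hW (by positivity)
      _ = 2 ^ k * Real.exp (16 * (k : ℝ) ^ 2) := by
          rw [mul_pow, inv_pow]
          field_simp
      _ ≤ _ := by gcongr
  · have h1 : psi x ≤ 2 * x ^ 8 := by
      have h2 : 1 ≤ x ^ 8 := one_le_pow₀ h
      have h3 : x⁻¹ ≤ 1 := inv_le_one_of_one_le₀ h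
      unfold psi
      linarith
    have h2 := W_le_rpow (a := 16) (by norm_num) hx (-(8 * (k : ℝ)))
    rw [Real.rpow_neg hx.le, neg_sq] at h2
    have e : x ^ (8 * (k : ℝ)) = (x ^ 8) ^ k := by
      rw [← pow_mul, ← Real.rpow_natCast]
      push_cast
      rfl
    rw [e] at h2
    calc psi x ^ k * W 16 x
        ≤ (2 * x ^ 8) ^ k * (Real.exp (16 * (8 * (k : ℝ)) ^ 2) * ((x ^ 8) ^ k)⁻¹) :=
          mul_le_mul (pow_le_pow_left₀ (psi_nonneg hx.le) h1 k) h2 hW (by positivity)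
      _ = _ := by
          rw [mul_pow]
          field_simp

/-- With `T = max (R ^ κ) (M ^ μ) ≥ 1`: `R ≤ T^{1/κ}`, `M ≤ T^{1/μ}`. -/
theorem young {R M x y κ μ : ℝ} (hR : 1 ≤ R) (hM : 1 ≤ M) (hx : 0 ≤ x) (hy : 0 ≤ y) (hκ : 0 < κ)
    (hμ : 0 < μ) (h : x / κ + y / μ ≤ 1) : R ^ x * M ^ y ≤ R ^ κ + M ^ μ := by
  have hR0 : 0 < R := by linarith
  have hM0 : 0 < M := by linarith
  have h1 : 1 ≤ R ^ κ := Real.one_le_rpow hR hκ.le
  have h2 : 1 ≤ M ^ μ := Real.one_le_rpow hM hμ.le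
  set T := max (R ^ κ) (M ^ μ) with hT
  have hT1 : 1 ≤ T := h1.trans (le_max_left _ _)
  have e1 : R ^ x ≤ T ^ (x / κ) := by
    have e : R ^ x = (R ^ κ) ^ (x / κ) := by
      rw [← Real.rpow_mul hR0.le, mul_div_cancel₀ _ hκ.ne']
    rw [e]
    exact Real.rpow_le_rpow (by positivity) (le_max_left _ _) (by positivity)
  have e2 : M ^ y ≤ T ^ (y / μ) := by
    have e : M ^ y = (M ^ μ) ^ (y / μ) := by
      rw [← Real.rpow_mul hM0.le, mul_div_cancel₀ _ hμ.ne']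
    rw [e]
    exact Real.rpow_le_rpow (by positivity) (le_max_right _ _) (by positivity)
  calc R ^ x * M ^ y ≤ T ^ (x / κ) * T ^ (y / μ) :=
        mul_le_mul e1 e2 (by positivity) (by positivity)
    _ = T ^ (x / κ + y / μ) := (Real.rpow_add (by linarith) _ _).symm
    _ ≤ T ^ (1 : ℝ) := Real.rpow_le_rpow_of_exponent_le hT1 h
    _ = T := Real.rpow_one _
    _ ≤ _ := max_le (by linarith) (by linarith)

/-- `log R ≤ Λ` if `R ≤ Rs`, otherwise `log R ≤ Λ + log (R / Rs) ≤ Λ + 2 √(R / Rs)`. -/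
theorem log_sq_le_phi : ∃ C : ℝ, 0 ≤ C ∧ ∀ R Rs Λ : ℝ, 1 ≤ R → 0 < Rs → 1 ≤ Λ → Rs ≤ Real.exp Λ →
    (1 + Real.log (9 * R)) ^ 2 * R ^ (1 / 3 : ℝ) ≤
      C * Λ ^ 2 * Rs ^ (1 / 3 : ℝ) * phi (1 / 3) (R / Rs) := by
  refine ⟨144, by norm_num, fun R Rs Λ hR hRs hΛ hle => ?_⟩
  have hR0 : 0 < R := by linarith
  set x := R / Rs with hx
  have hx0 : 0 < x := by positivity
  have eR : R = Rs * x := by rw [hx, mul_div_cancel₀ _ hRs.ne']
  have e3 : R ^ (1 / 3 : ℝ) = Rs ^ (1 / 3 : ℝ) * x ^ (1 / 3 : ℝ) := by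
    rw [← Real.mul_rpow hRs.le hx0.le, ← eR]
  have hl9 : Real.log 9 ≤ 8 := by
    have := Real.log_le_sub_one_of_pos (x := 9) (by norm_num)
    linarith
  have hlRs : Real.log Rs ≤ Λ := by
    rw [Real.log_le_iff_le_exp hRs]
    exact hle
  have elog : Real.log (9 * R) = Real.log 9 + Real.log Rs + Real.log x := by
    rw [Real.log_mul (by norm_num) hR0.ne', eR, Real.log_mul hRs.ne' hx0.ne']
    ring
  have hpos : 0 ≤ 1 + Real.log (9 * R) := by
    have := Real.log_nonneg (x := 9 * R) (by linarith)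
    linarith
  have key : (1 + Real.log (9 * R)) ^ 2 * x ^ (1 / 3 : ℝ) ≤ 144 * Λ ^ 2 * phi (1 / 3) x := by
    rcases le_total x 1 with h | h
    · have h1 : Real.log x ≤ 0 := Real.log_nonpos hx0.le h
      have h2 : 1 + Real.log (9 * R) ≤ 12 * Λ := by rw [elog]; linarith
      have h3 : (1 + Real.log (9 * R)) ^ 2 ≤ 144 * Λ ^ 2 := by
        have := pow_le_pow_left₀ hpos h2 2
        linarith
      exact mul_le_mul h3 (rpow_le_phi le_rfl (by norm_num) hx0) (by positivity) (by positivity)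
    · have h1 : Real.log x ≤ x ^ (1 / 2 : ℝ) / (1 / 2) := Real.log_le_rpow_div hx0.le (by norm_num)
      have h4 : 1 ≤ x ^ (1 / 2 : ℝ) := Real.one_le_rpow h (by norm_num)
      have h2 : 1 + Real.log (9 * R) ≤ 12 * Λ * x ^ (1 / 2 : ℝ) := by
        rw [elog]
        nlinarith [mul_le_mul hΛ h4 zero_le_one (by linarith),
          mul_nonneg (sub_nonneg.2 hΛ) (sub_nonneg.2 h4)]
      have h3 : (1 + Real.log (9 * R)) ^ 2 ≤ 144 * Λ ^ 2 * x ^ (1 : ℝ) := by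
        have h5 := pow_le_pow_left₀ hpos h2 2
        have e : (x ^ (1 / 2 : ℝ)) ^ 2 = x ^ (1 : ℝ) := by
          rw [← Real.rpow_natCast, ← Real.rpow_mul hx0.le]
          norm_num
        rw [mul_pow, mul_pow, e] at h5
        linarith
      calc (1 + Real.log (9 * R)) ^ 2 * x ^ (1 / 3 : ℝ)
          ≤ 144 * Λ ^ 2 * x ^ (1 : ℝ) * x ^ (1 / 3 : ℝ) := by gcongr
        _ = 144 * Λ ^ 2 * x ^ (1 + 1 / 3 : ℝ) := by rw [Real.rpow_add hx0]; ring
        _ ≤ _ := mul_le_mul_of_nonneg_left (rpow_le_phi (by norm_num) (by norm_num) hx0)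
            (by positivity)
  rw [e3]
  calc (1 + Real.log (9 * R)) ^ 2 * (Rs ^ (1 / 3 : ℝ) * x ^ (1 / 3 : ℝ))
      = Rs ^ (1 / 3 : ℝ) * ((1 + Real.log (9 * R)) ^ 2 * x ^ (1 / 3 : ℝ)) := by ring
    _ ≤ Rs ^ (1 / 3 : ℝ) * (144 * Λ ^ 2 * phi (1 / 3) x) :=
        mul_le_mul_of_nonneg_left key (by positivity)
    _ = _ := by ring

end Crest.Agent.R012.D

end
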