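import Crest.Agent.R012.DB1

/-! # Row 12, dispersion: shells and weighted lattice sums -/

set_option autoImplicit false

noncomputable section

open scoped BigOperators ComplexConjugate Topology
open Complex MeasureTheory Filter Set Crest.Agent.R017

namespace Crest.Agent.R012.D

theorem mem_shell {R : ℝ} {h : O} : h ∈ shell R ↔ (h ≠ 0 ∧ Nr h ≤ R) ∧ R / 2 < Nr h := by
  rw [shell, Finset.mem_filter, mem_box]

theorem mem_rows {S : O → Prop} {R : ℝ} {r : O} : r ∈ rows S R ↔ (r ≠ 0 ∧ Nr r ≤ R) ∧ S r := by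
  classical
  rw [rows, Finset.mem_filter, mem_box]

theorem rows_All (R : ℝ) : rows All R = box R := by
  ext r
  rw [mem_rows, mem_box]
  exact and_iff_left trivial

theorem Nr_neg_three_mul (h : O) : Nr (-3 * h) = 9 * Nr h := by
  have : Nr (3 : O) = 9 := by
    have := Nr_natCast 3
    norm_num at this
    exact this
  rw [Nr_mul, Nr_neg, this]

theorem db1b_sub {A : ℝ} (hA : 0 < A) (S : Finset O) (hS : ∀ h ∈ S, h ≠ 0) :
    ∃ N : ℕ, S ⊆ box (2 ^ N * A) := by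
  obtain ⟨N, hN⟩ := pow_unbounded_of_one_lt ((∑ h ∈ S, Nr h) / A) (one_lt_two (α := ℝ))
  refine ⟨N, fun h hh => mem_box.2 ⟨hS h hh, ?_⟩⟩
  rw [div_lt_iff₀ hA] at hN
  exact (Finset.single_le_sum (fun x _ => Nr_nonneg x) hh).trans hN.le

/-- Every non-zero element lies in exactly one shell `2^j`; a finite sum over non-zero elements is
bounded by a sum over shells. -/
theorem sum_le_shells (f : O → ℝ) (hf : ∀ h, 0 ≤ f h) (S : Finset O) (hS : ∀ h ∈ S, h ≠ 0) :
    ∃ N : ℕ, ∑ h ∈ S, f h ≤ ∑ j ∈ Finset.range N, ∑ h ∈ shell (2 ^ j), f h := by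
  classical
  obtain ⟨N, hN⟩ := db1b_sub one_pos S hS
  rw [mul_one] at hN
  refine ⟨N + 1, (Finset.sum_le_sum_of_subset_of_nonneg hN fun h _ _ => hf h).trans ?_⟩
  clear hN
  induction N with
  | zero =>
    rw [Finset.sum_range_one]
    refine Finset.sum_le_sum_of_subset_of_nonneg (fun h hh => ?_) fun h _ _ => hf h
    have := one_le_Nr (mem_box.1 hh).1
    exact mem_shell.2 ⟨mem_box.1 hh, by norm_num; linarith⟩
  | succ N ih =>
    rw [Finset.sum_range_succ, ← Finset.sum_filter_add_sum_filter_not (box (2 ^ (N + 1)))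
      (fun h => (2 : ℝ) ^ (N + 1) / 2 < Nr h), add_comm]
    refine add_le_add (le_trans (Finset.sum_le_sum_of_subset_of_nonneg (fun h hh => ?_)
      fun h _ _ => hf h) ih) le_rfl
    obtain ⟨h1, h2⟩ := Finset.mem_filter.1 hh
    refine mem_box.2 ⟨(mem_box.1 h1).1, ?_⟩
    rw [pow_succ] at h2
    linarith

/-- Split into `N x ≤ A` and `2^j A < N x ≤ 2^{j+1} A`, where `W 4 ≤ C 2^{-4 j}` (`W_le_rpow`);
`summable_of_sum_le`, `Real.tsum_le_of_sum_le`. -/
theorem W_dyad : ∃ C : ℝ, 0 ≤ C ∧ ∀ (A Δ : ℝ) (f : O → ℝ), 0 < A → 0 ≤ Δ → (∀ x, 0 ≤ f x) →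
    (∀ R : ℝ, A ≤ R → ∑ x ∈ box R, f x ≤ Δ * (R / A) ^ 3) →
    Summable (fun x : O => if x = 0 then 0 else W 4 (Nr x / A) * f x) ∧
      ∑' x : O, (if x = 0 then 0 else W 4 (Nr x / A) * f x) ≤ C * Δ := by
  classical
  refine ⟨1 + 16 * Real.exp 64, by positivity, fun A Δ f hA hΔ hf h => ?_⟩
  have hW : ∀ x : O, 0 ≤ W 4 (Nr x / A) * f x := fun x => mul_nonneg (W_pos _ _).le (hf x)
  have key : ∀ N : ℕ, ∑ x ∈ box (2 ^ N * A), W 4 (Nr x / A) * f x ≤
      (1 + 16 * Real.exp 64 * (1 - (2 ^ N)⁻¹)) * Δ := by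
    intro N
    induction N with
    | zero =>
      have := h A le_rfl
      rw [div_self hA.ne'] at this
      rw [pow_zero, one_mul]
      refine (Finset.sum_le_sum fun x _ => mul_le_of_le_one_left (hf x)
        (W_le_one (by norm_num) _)).trans (this.trans_eq (by ring))
    | succ N ih =>
      have h2 : (1 : ℝ) ≤ 2 ^ N := one_le_pow₀ one_le_two
      have hsub : box (2 ^ N * A) ⊆ box (2 ^ (N + 1) * A) := box_mono (by rw [pow_succ]; nlinarith)
      rw [← Finset.sum_sdiff hsub]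
      have h3 : ∑ x ∈ box (2 ^ (N + 1) * A) \ box (2 ^ N * A), W 4 (Nr x / A) * f x ≤
          Real.exp 64 * ((2 ^ N) ^ 4)⁻¹ * ∑ x ∈ box (2 ^ (N + 1) * A), f x := by
        rw [Finset.mul_sum]
        refine le_trans (Finset.sum_le_sum fun x hx => ?_) (Finset.sum_le_sum_of_subset_of_nonneg
          Finset.sdiff_subset fun x _ _ => mul_nonneg (by positivity) (hf x))
        obtain ⟨h4, h5⟩ := Finset.mem_sdiff.1 hx
        have h0 := (mem_box.1 h4).1
        have h6 : 2 ^ N ≤ Nr x / A := by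
          rw [le_div_iff₀ hA]
          exact le_of_not_ge fun h7 => h5 (mem_box.2 ⟨h0, h7⟩)
        refine mul_le_mul_of_nonneg_right ?_ (hf x)
        refine (W_le_rpow (by norm_num) (div_pos (Nr_pos h0) hA) (-4)).trans ?_
        rw [show (4 : ℝ) * (-4) ^ 2 = 64 by norm_num, Real.rpow_neg (div_pos (Nr_pos h0) hA).le,
          show (4 : ℝ) = ((4 : ℕ) : ℝ) by norm_num, Real.rpow_natCast]
        gcongr
      have h4 := h (2 ^ (N + 1) * A) (by rw [pow_succ]; nlinarith)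
      rw [mul_div_cancel_right₀ _ hA.ne'] at h4
      have h5 := h3.trans (mul_le_mul_of_nonneg_left h4 (by positivity))
      refine (add_le_add h5 ih).trans_eq ?_
      rw [pow_succ (2 : ℝ) N]
      field_simp
      ring
  have hnn : ∀ x : O, 0 ≤ (if x = 0 then 0 else W 4 (Nr x / A) * f x) := fun x => by
    split_ifs
    · exact le_rfl
    · exact hW x
  have hS : ∀ S : Finset O, ∑ x ∈ S, (if x = 0 then 0 else W 4 (Nr x / A) * f x) ≤
      (1 + 16 * Real.exp 64) * Δ := fun S => by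
    obtain ⟨N, hN⟩ := db1b_sub hA (S.filter (fun x => ¬ x = 0)) fun x hx =>
      (Finset.mem_filter.1 hx).2
    rw [Finset.sum_ite, Finset.sum_const_zero, zero_add]
    refine ((Finset.sum_le_sum_of_subset_of_nonneg hN fun x _ _ => hW x).trans (key N)).trans ?_
    have h1 : (0 : ℝ) < (2 ^ N)⁻¹ := by positivity
    have h2 := Real.exp_pos 64
    exact mul_le_mul_of_nonneg_right (by nlinarith) hΔ
  exact ⟨summable_of_sum_le hnn hS, Real.tsum_le_of_sum_le hnn hS⟩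

open Classical in
/-- Write `n = d m` and use `tsum_W_le` at the scale `B / N d`. -/
theorem tsum_W_dvd {a x : ℝ} (ha : 0 < a) (hx : -1 < x) : ∃ C : ℝ, 0 ≤ C ∧ ∀ (B : ℝ) (d : O),
    0 < B → d ≠ 0 →
    Summable (fun n : O => if n ≠ 0 ∧ d ∣ n then Nr n ^ x * W a (Nr n / B) else 0) ∧
    ∑' n : O, (if n ≠ 0 ∧ d ∣ n then Nr n ^ x * W a (Nr n / B) else 0) ≤
      C * B ^ (1 + x) / Nr d := by
  obtain ⟨C, hC⟩ := tsum_W_le ha x hx
  refine ⟨max C 0, le_max_right _ _, fun B d hB hd => ?_⟩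
  have hN := Nr_pos hd
  have hinj : Function.Injective (fun m : O => d * m) := mul_right_injective₀ hd
  have hsupp : ∀ n ∉ Set.range (fun m : O => d * m),
      (if n ≠ 0 ∧ d ∣ n then Nr n ^ x * W a (Nr n / B) else 0) = 0 := fun n hn =>
    if_neg fun ⟨_, m, hm⟩ => hn ⟨m, hm.symm⟩
  have e : ∀ m : O, (if d * m ≠ 0 ∧ d ∣ d * m then Nr (d * m) ^ x * W a (Nr (d * m) / B) else 0) =
      Nr d ^ x * (if m = 0 then 0 else Nr m ^ x * W a (Nr m / (B / Nr d))) := fun m => by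
    by_cases hm : m = 0
    · rw [if_pos hm, if_neg (by simp [hm]), mul_zero]
    · rw [if_neg hm, if_pos ⟨mul_ne_zero hd hm, dvd_mul_right _ _⟩, Nr_mul,
        Real.mul_rpow hN.le (Nr_nonneg m), div_div_eq_mul_div, mul_comm (Nr m) (Nr d), mul_assoc]
  have hs := (summable_W ha (div_pos hB hN) x).mul_left (Nr d ^ x)
  refine ⟨(hinj.summable_iff hsupp).1 (hs.congr fun m => (e m).symm), ?_⟩
  rw [← hinj.tsum_eq (fun n hn => by_contra fun h => hn (hsupp n h))]
  simp only [e]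
  rw [tsum_mul_left]
  refine (mul_le_mul_of_nonneg_left ((hC _ (div_pos hB hN)).trans (mul_le_mul_of_nonneg_right
    (le_max_left C 0) (by positivity))) (by positivity)).trans_eq ?_
  have h1 : (0 : ℝ) < Nr d ^ x := by positivity
  rw [Real.div_rpow hB.le hN.le, Real.rpow_add hN, Real.rpow_one]
  field_simp

/-- `log N x ≤ Λ + N x / A`, `tsum_W_le`. -/
theorem tsum_W_log : ∃ C : ℝ, 0 ≤ C ∧ ∀ A Λ : ℝ, 0 < A → 1 ≤ Λ → A ≤ Real.exp Λ →
    Summable (fun x : O => if x = 0 then 0 else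
      W 4 (Nr x / A) * (Nr x ^ (-(1 / 3) : ℝ) * Real.log (Nr x) ^ 2)) ∧
    ∑' x : O, (if x = 0 then 0 else
      W 4 (Nr x / A) * (Nr x ^ (-(1 / 3) : ℝ) * Real.log (Nr x) ^ 2)) ≤
      C * A ^ (2 / 3 : ℝ) * Λ ^ 2 := by
  obtain ⟨C₁, h₁⟩ := tsum_W_le (a := 4) (by norm_num) (-(1 / 3)) (by norm_num)
  obtain ⟨C₂, h₂⟩ := tsum_W_le (a := 4) (by norm_num) (5 / 3) (by norm_num)
  refine ⟨2 * max C₁ 0 + 2 * max C₂ 0, by positivity, fun A Λ hA hΛ hAΛ => ?_⟩
  have s1 := (summable_W (a := 4) (by norm_num) hA (-(1 / 3))).mul_left (2 * Λ ^ 2)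
  have s2 := (summable_W (a := 4) (by norm_num) hA (5 / 3)).mul_left (2 * (A ^ 2)⁻¹)
  have hnn : ∀ x : O, 0 ≤ (if x = 0 then 0 else
      W 4 (Nr x / A) * (Nr x ^ (-(1 / 3) : ℝ) * Real.log (Nr x) ^ 2)) := fun x => by
    have := W_pos 4 (Nr x / A)
    have := Nr_nonneg x
    positivity
  have hle : ∀ x : O, (if x = 0 then 0 else
      W 4 (Nr x / A) * (Nr x ^ (-(1 / 3) : ℝ) * Real.log (Nr x) ^ 2)) ≤
      2 * Λ ^ 2 * (if x = 0 then 0 else Nr x ^ (-(1 / 3) : ℝ) * W 4 (Nr x / A)) +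
      2 * (A ^ 2)⁻¹ * (if x = 0 then 0 else Nr x ^ (5 / 3 : ℝ) * W 4 (Nr x / A)) := fun x => by
    split_ifs with h
    · simp
    have h0 := Nr_pos h
    have h1 := Real.log_nonneg (one_le_Nr h)
    have h2 : Real.log (Nr x) ≤ Λ + Nr x / A := by
      have h3 := Real.log_le_sub_one_of_pos (div_pos h0 hA)
      rw [Real.log_div h0.ne' hA.ne'] at h3
      have h4 := (Real.log_le_iff_le_exp hA).2 hAΛ
      linarith
    have h3 : Real.log (Nr x) ^ 2 ≤ 2 * Λ ^ 2 + 2 * (Nr x / A) ^ 2 := by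
      have := pow_le_pow_left₀ h1 h2 2
      nlinarith [sq_nonneg (Λ - Nr x / A)]
    have e : Nr x ^ (5 / 3 : ℝ) = Nr x ^ (-(1 / 3) : ℝ) * Nr x ^ 2 := by
      rw [← Real.rpow_natCast, ← Real.rpow_add h0]
      norm_num
    have h4 := W_pos 4 (Nr x / A)
    refine (mul_le_mul_of_nonneg_left (mul_le_mul_of_nonneg_left h3 (by positivity))
      h4.le).trans_eq ?_
    rw [e, div_pow]
    ring
  refine ⟨.of_nonneg_of_le hnn hle (s1.add s2), ?_⟩
  refine ((Summable.of_nonneg_of_le hnn hle (s1.add s2)).tsum_le_tsum hle (s1.add s2)).trans ?_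
  rw [s1.tsum_add s2, tsum_mul_left, tsum_mul_left]
  have g1 := (h₁ A hA).trans (mul_le_mul_of_nonneg_right (le_max_left C₁ 0) (by positivity))
  have g2 := (h₂ A hA).trans (mul_le_mul_of_nonneg_right (le_max_left C₂ 0) (by positivity))
  have e1 : A ^ (1 + -(1 / 3) : ℝ) = A ^ (2 / 3 : ℝ) := by norm_num
  have e2 : A ^ (1 + 5 / 3 : ℝ) = A ^ (2 / 3 : ℝ) * A ^ 2 := by
    rw [← Real.rpow_natCast, ← Real.rpow_add hA]
    norm_num
  rw [e1] at g1
  rw [e2] at g2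
  have g3 := add_le_add (mul_le_mul_of_nonneg_left g1 (show 0 ≤ 2 * Λ ^ 2 by positivity))
    (mul_le_mul_of_nonneg_left g2 (show 0 ≤ 2 * (A ^ 2)⁻¹ by positivity))
  refine g3.trans ?_
  have e3 : 2 * (A ^ 2)⁻¹ * (max C₂ 0 * (A ^ (2 / 3 : ℝ) * A ^ 2)) =
      2 * max C₂ 0 * A ^ (2 / 3 : ℝ) := by
    field_simp
  have g4 : 2 * max C₂ 0 * A ^ (2 / 3 : ℝ) ≤ 2 * max C₂ 0 * A ^ (2 / 3 : ℝ) * Λ ^ 2 :=
    le_mul_of_one_le_right (by positivity) (one_le_pow₀ hΛ)
  rw [e3]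
  linarith

/-- `1 / psi y ≤ 1` and `≤ y^{-8}`: `sum_box_rpow_le` for `N n ≤ B`, `tsum_tail_rpow_le` beyond. -/
theorem tsum_inv_psi {x : ℝ} (h1 : -1 < x) (h2 : x ≤ 0) : ∃ C : ℝ, 0 ≤ C ∧ ∀ B : ℝ, 0 < B →
    Summable (fun n : O => if n = 0 then 0 else Nr n ^ x / psi (Nr n / B)) ∧
    ∑' n : O, (if n = 0 then 0 else Nr n ^ x / psi (Nr n / B)) ≤ C * B ^ (1 + x) := by
  classical
  obtain ⟨C₁, h₁⟩ := sum_box_rpow_le (σ := -x) (by linarith)
  obtain ⟨C₂, hC₂, h₂⟩ := b2_tail (σ := 8 - x) (by linarith)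
  refine ⟨max C₁ 0 + C₂, by positivity, fun B hB => ?_⟩
  have hnn : ∀ n : O, 0 ≤ (if n = 0 then 0 else Nr n ^ x / psi (Nr n / B)) := fun n => by
    have := Nr_nonneg n
    have := psi_nonneg (div_nonneg this hB.le)
    positivity
  have hle : ∀ n : O, (if n = 0 then 0 else Nr n ^ x / psi (Nr n / B)) ≤
      (if n ∈ box B then Nr n ^ x else 0) +
        B ^ (8 : ℝ) * (if B < Nr n then Nr n ^ (-(8 - x)) else 0) := fun n => by
    by_cases h : n = 0
    · have := Nr_nonneg n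
      rw [if_pos h]
      positivity
    have h0 := Nr_pos h
    rw [if_neg h]
    by_cases hn : B < Nr n
    · rw [if_pos hn, if_neg fun h3 => (mem_box.1 h3).2.not_gt hn, zero_add]
      have h3 := rpow_le_psi (β := 8) (by norm_num) le_rfl (div_pos h0 hB)
      refine (div_le_div_of_nonneg_left (by positivity) (by positivity) h3).trans_eq ?_
      rw [Real.div_rpow h0.le hB.le, neg_sub, Real.rpow_sub h0]
      field_simp
    · rw [if_neg hn, if_pos (mem_box.2 ⟨h, not_lt.1 hn⟩), mul_zero, add_zero]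
      exact div_le_self (by positivity) (one_le_psi (div_pos h0 hB))
  have hS : ∀ S : Finset O, ∑ n ∈ S, (if n = 0 then 0 else Nr n ^ x / psi (Nr n / B)) ≤
      (max C₁ 0 + C₂) * B ^ (1 + x) := fun S => by
    refine (Finset.sum_le_sum fun n _ => hle n).trans ?_
    rw [Finset.sum_add_distrib, ← Finset.mul_sum, add_mul]
    refine add_le_add ?_ ?_
    · rw [← Finset.sum_filter]
      refine (Finset.sum_le_sum_of_subset_of_nonneg (t := box B)
        (fun n hn => (Finset.mem_filter.1 hn).2)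
        fun n _ _ => Real.rpow_nonneg (Nr_nonneg n) _).trans ?_
      rcases lt_or_ge B 1 with hB1 | hB1
      · rw [box_eq_empty hB1, Finset.sum_empty]
        positivity
      · have := h₁ B hB1
        rw [neg_neg, sub_neg_eq_add] at this
        exact this.trans (mul_le_mul_of_nonneg_right (le_max_left _ _) (by positivity))
    · refine (mul_le_mul_of_nonneg_left (h₂ B hB S) (by positivity)).trans_eq ?_
      rw [mul_left_comm, ← Real.rpow_add hB]
      congr 2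
      ring
  exact ⟨summable_of_sum_le hnn hS, Real.tsum_le_of_sum_le hnn hS⟩

/-- `r = k y³`: `∑_{N k ≤ Z} 25 (R / N k)^{1/3}` (`card_box_le`, `sum_box_rpow_le`). -/
theorem card_near_le : ∃ C : ℝ, 0 ≤ C ∧ ∀ R Z : ℝ, 0 < R → 1 ≤ Z →
    ((rows (Near Z) R).card : ℝ) ≤ C * R ^ (1 / 3 : ℝ) * Z ^ (2 / 3 : ℝ) := by
  classical
  obtain ⟨C, hC⟩ := sum_box_rpow_le (σ := 1 / 3) (by norm_num)
  refine ⟨25 * max C 0, by positivity, fun R Z hR hZ => ?_⟩
  have hsub : rows (Near Z) R ⊆ (box Z).biUnion fun k =>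
      (box ((R / Nr k) ^ (1 / 3 : ℝ))).image fun y => k * y ^ 3 := by
    intro r hr
    obtain ⟨⟨h0, h1⟩, k, y, rfl, hk⟩ := mem_rows.1 hr
    have k0 := left_ne_zero_of_mul h0
    have y0 : y ≠ 0 := fun h => h0 (by simp [h])
    refine Finset.mem_biUnion.2 ⟨k, mem_box.2 ⟨k0, hk⟩, Finset.mem_image.2 ⟨y, mem_box.2 ⟨y0, ?_⟩, rfl⟩⟩
    rw [Nr_mul, Nr_pow, ← le_div_iff₀' (Nr_pos k0)] at h1
    have := Real.rpow_le_rpow (pow_nonneg (Nr_nonneg y) 3) h1 (by norm_num : (0 : ℝ) ≤ 1 / 3)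
    rwa [one_div, show (3 : ℝ) = ((3 : ℕ) : ℝ) by norm_num,
      Real.pow_rpow_inv_natCast (Nr_nonneg y) (by norm_num), ← one_div, Nat.cast_ofNat] at this
  have h1 : ((rows (Near Z) R).card : ℝ) ≤
      ∑ k ∈ box Z, 25 * R ^ (1 / 3 : ℝ) * Nr k ^ (-(1 / 3) : ℝ) := by
    have h2 := (Finset.card_le_card hsub).trans Finset.card_biUnion_le
    refine ((Nat.cast_le (α := ℝ)).2 h2).trans ?_
    rw [Nat.cast_sum]
    refine Finset.sum_le_sum fun k hk => ?_
    have k0 := Nr_pos (mem_box.1 hk).1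
    refine (Nat.cast_le.2 Finset.card_image_le).trans ((card_box_le (by positivity)).trans_eq ?_)
    rw [Real.div_rpow hR.le k0.le, Real.rpow_neg k0.le, mul_assoc, div_eq_mul_inv]
  rw [← Finset.mul_sum] at h1
  have h3 := (hC Z hZ).trans (mul_le_mul_of_nonneg_right (le_max_left C 0) (by positivity))
  rw [show (1 - 1 / 3 : ℝ) = 2 / 3 by norm_num] at h3
  exact h1.trans ((mul_le_mul_of_nonneg_left h3 (by positivity)).trans_eq (by ring))

/-- `log` powers and `exp (C √log)` against powers. -/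
theorem ev_log_le {K c C : ℝ} (hc : 0 < c) : ∃ A₀ : ℝ, 3 ≤ A₀ ∧ ∀ A : ℝ, A₀ ≤ A →
    C * (1 + Real.log A ^ K) * Real.exp (C * Real.sqrt (Real.log A)) ≤ A ^ c := by
  have t1 := tendsto_rpow_mul_exp_neg_mul_atTop_nhds_zero 0 (c / 2) (half_pos hc)
  have t2 := tendsto_rpow_mul_exp_neg_mul_atTop_nhds_zero K (c / 2) (half_pos hc)
  have t3 := (t1.add t2).const_mul C
  rw [add_zero, mul_zero] at t3
  have e1 := t3.eventually_le_const one_pos
  have e2 := (Real.tendsto_sqrt_atTop.const_mul_atTop (half_pos hc)).eventually_ge_atTop C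
  obtain ⟨A₀, hA₀⟩ := eventually_atTop.1 (Real.tendsto_log_atTop.eventually (e1.and e2))
  refine ⟨max 3 A₀, le_max_left _ _, fun A hA => ?_⟩
  obtain ⟨g1, g2⟩ := hA₀ A ((le_max_right _ _).trans hA)
  have hA3 : (3 : ℝ) ≤ A := (le_max_left _ _).trans hA
  have hL := Real.log_nonneg (show 1 ≤ A by linarith)
  have g3 : C * √(Real.log A) ≤ c / 2 * Real.log A := by
    have := mul_le_mul_of_nonneg_right g2 (Real.sqrt_nonneg (Real.log A))
    rwa [mul_assoc, Real.mul_self_sqrt hL] at this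
  rw [Real.rpow_zero, ← add_mul, ← mul_assoc, neg_mul, Real.exp_neg, mul_inv_le_iff₀ (Real.exp_pos _),
    one_mul] at g1
  refine (mul_le_mul g1 (Real.exp_le_exp.2 g3) (Real.exp_pos _).le (Real.exp_pos _).le).trans_eq ?_
  rw [← Real.exp_add, Real.rpow_def_of_pos (by linarith)]
  congr 1
  ring

end Crest.Agent.R012.D

end
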