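import Crest.Agent.R012.DB1b

/-! # Row 12, dispersion: sequences, norms and envelopes -/

set_option autoImplicit false

noncomputable section

open scoped BigOperators ComplexConjugate Topology
open Complex MeasureTheory Filter Set Crest.Agent.R017

namespace Crest.Agent.R012.D

theorem supp_iff {u : O → ℂ} : Supp 1 u ↔ ∀ n, u n ≠ 0 → Prim n ∧ Squarefree n := by
  exact ⟨fun h n hn => ⟨(h n hn).1, (h n hn).2.1⟩,
    fun h n hn => ⟨(h n hn).1, (h n hn).2, isCoprime_one_right⟩⟩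

theorem supp_zero {u : O → ℂ} (h : Supp 1 u) : u 0 = 0 := by
  by_contra h0
  exact (h 0 h0).1.ne_zero rfl

theorem supp_of_le {u v : O → ℂ} (h : Supp 1 v) {K : ℝ} (hle : ∀ n, ‖u n‖ ≤ K * ‖v n‖) :
    Supp 1 u := by
  intro n hn
  refine h n fun hv => hn ?_
  have := hle n
  rw [hv, norm_zero, mul_zero] at this
  exact norm_le_zero_iff.1 this

theorem supp_sub {u v : O → ℂ} (hu : Supp 1 u) (hv : Supp 1 v) :
    Supp 1 (fun n => u n - v n) := by
  intro n hn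
  by_cases h : u n = 0
  · exact hv n fun h' => hn (by simp [h, h'])
  · exact hu n h

theorem supp_dil {u : O → ℂ} (h : Supp 1 u) {d : O} (hd : Prim d) :
    Supp 1 (fun n => u (d * n)) := by
  rw [supp_iff] at h ⊢
  intro n hn
  exact ⟨hd.of_mul (h _ hn).1, (h _ hn).2.of_mul_right⟩

theorem rap_of_le {u v : O → ℂ} (h : Rap v) {K : ℝ} (hle : ∀ n, ‖u n‖ ≤ K * ‖v n‖) : Rap u := by
  intro A
  refine Summable.of_nonneg_of_le
    (fun n => mul_nonneg (norm_nonneg _) (Real.rpow_nonneg (Nr_nonneg n) _)) (fun n => ?_)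
    ((h A).mul_left K)
  rw [← mul_assoc]
  exact mul_le_mul_of_nonneg_right (hle n) (Real.rpow_nonneg (Nr_nonneg n) _)

theorem rap_add {u v : O → ℂ} (hu : Rap u) (hv : Rap v) : Rap (fun n => u n + v n) := by
  intro A
  refine Summable.of_nonneg_of_le
    (fun n => mul_nonneg (norm_nonneg _) (Real.rpow_nonneg (Nr_nonneg n) _)) (fun n => ?_)
    ((hu A).add (hv A))
  rw [← add_mul]
  exact mul_le_mul_of_nonneg_right (norm_add_le _ _) (Real.rpow_nonneg (Nr_nonneg n) _)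

theorem rap_sub {u v : O → ℂ} (hu : Rap u) (hv : Rap v) : Rap (fun n => u n - v n) := by
  intro A
  refine Summable.of_nonneg_of_le
    (fun n => mul_nonneg (norm_nonneg _) (Real.rpow_nonneg (Nr_nonneg n) _)) (fun n => ?_)
    ((hu A).add (hv A))
  rw [← add_mul]
  exact mul_le_mul_of_nonneg_right (norm_sub_le _ _) (Real.rpow_nonneg (Nr_nonneg n) _)

theorem rap_dil {u : O → ℂ} (h : Rap u) {d : O} (hd : d ≠ 0) : Rap (fun n => u (d * n)) := by
  intro A
  have h1 := ((h A).comp_injective (mul_right_injective₀ hd)).mul_left (Nr d ^ A)⁻¹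
  refine h1.congr fun n => ?_
  have h2 : Nr d ^ A ≠ 0 := (Real.rpow_pos_of_pos (Nr_pos hd) A).ne'
  simp only [Function.comp]
  rw [Nr_mul, Real.mul_rpow (Nr_nonneg _) (Nr_nonneg _)]
  field_simp

theorem rap_fin (S : Finset O) (c : O → ℂ) : Rap (fun n => if n ∈ S then c n else 0) := by
  intro A
  exact summable_of_ne_finset_zero (s := S) fun n hn => by simp [hn]

theorem rap_summable {u : O → ℂ} (h : Rap u) : Summable (fun n => ‖u n‖) := by
  simpa using h 0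

theorem rap_sq {u : O → ℂ} (h : Rap u) (A : ℝ) : Summable (fun n => ‖u n‖ ^ 2 * Nr n ^ A) := by
  have h1 := rap_summable h
  refine Summable.of_nonneg_of_le
    (fun n => mul_nonneg (sq_nonneg _) (Real.rpow_nonneg (Nr_nonneg n) _)) (fun n => ?_)
    ((h A).mul_left (∑' n, ‖u n‖))
  rw [sq, mul_assoc]
  exact mul_le_mul_of_nonneg_right (h1.le_tsum n fun m _ => norm_nonneg _)
    (mul_nonneg (norm_nonneg _) (Real.rpow_nonneg (Nr_nonneg n) _))

theorem EV.nonneg {M B : ℝ} {u : O → ℂ} (h : EV M B u) : 0 ≤ M := by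
  exact nonneg_of_mul_nonneg_left ((norm_nonneg _).trans (h 0)) (W_pos _ _)

theorem EV.mono {M M' B : ℝ} {u : O → ℂ} (h : EV M B u) (hM : M ≤ M') : EV M' B u := by
  exact fun n => (h n).trans (mul_le_mul_of_nonneg_right hM (W_pos _ _).le)

theorem db2_EV_le {M B : ℝ} {u : O → ℂ} (h : EV M B u) (h0 : u 0 = 0) (A : ℝ) (n : O) :
    ‖u n‖ * Nr n ^ A ≤ M * (if n = 0 then 0 else Nr n ^ A * W 4 (Nr n / B)) := by
  split_ifs with hn
  · simp [hn, h0]
  · rw [mul_comm (Nr n ^ A), ← mul_assoc]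
    exact mul_le_mul_of_nonneg_right (h n) (Real.rpow_nonneg (Nr_nonneg n) _)

theorem EV.rap {M B : ℝ} {u : O → ℂ} (h : EV M B u) (hB : 0 < B) (h0 : u 0 = 0) : Rap u := by
  intro A
  exact Summable.of_nonneg_of_le
    (fun n => mul_nonneg (norm_nonneg _) (Real.rpow_nonneg (Nr_nonneg n) _)) (db2_EV_le h h0 A)
    ((summable_W four_pos hB A).mul_left M)

theorem EV.dil {M B : ℝ} {u : O → ℂ} (h : EV M B u) {d : O} (hd : d ≠ 0) :
    EV M (B / Nr d) (fun n => u (d * n)) := by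
  intro n
  have := h (d * n)
  rwa [Nr_mul, mul_comm (Nr d), ← div_div_eq_mul_div] at this

/-- `tsum_W_le`. -/
theorem EV_sum_le {x : ℝ} (hx : -1 < x) : ∃ C : ℝ, 0 ≤ C ∧ ∀ (M B : ℝ) (u : O → ℂ), 0 < B →
    u 0 = 0 → EV M B u → ∑' n : O, ‖u n‖ * Nr n ^ x ≤ C * M * B ^ (1 + x) := by
  obtain ⟨C, hC⟩ := tsum_W_le four_pos x hx
  refine ⟨max C 0, le_max_right _ _, fun M B u hB h0 h => ?_⟩
  refine ((h.rap hB h0 x).tsum_le_tsum (db2_EV_le h h0 x)
    ((summable_W four_pos hB x).mul_left M)).trans ?_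
  rw [tsum_mul_left, mul_comm (max C 0), mul_assoc]
  exact mul_le_mul_of_nonneg_left ((hC B hB).trans (mul_le_mul_of_nonneg_right (le_max_left _ _)
    (Real.rpow_nonneg hB.le _))) h.nonneg

theorem summable_nrm {u : O → ℂ} (h : Rap u) {M : ℝ} (hM : 0 < M) :
    Summable (fun n => ‖u n‖ ^ 2 * psi (Nr n / M)) := by
  refine (((rap_sq h (-1)).mul_left M).add ((rap_sq h (8 : ℕ)).mul_left (M ^ 8)⁻¹)).congr
    fun n => ?_
  rw [psi, Real.rpow_neg_one, Real.rpow_natCast, inv_div, div_pow]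
  ring

/-- `dv_le` with `ε = 1`. -/
theorem summable_nrmd {u : O → ℂ} (h : Rap u) (h0 : u 0 = 0) {M : ℝ} (hM : 0 < M) :
    Summable (fun n => ‖u n‖ ^ 2 * (dv n * psi (Nr n / M))) := by
  obtain ⟨C, hC0, hC⟩ := dv_le one_pos
  refine Summable.of_nonneg_of_le (fun n => mul_nonneg (sq_nonneg _) (mul_nonneg (dv_nonneg n)
    (psi_nonneg (div_nonneg (Nr_nonneg n) hM.le)))) (fun n => ?_)
    (((rap_sq h (0 : ℕ)).mul_left (C * M)).add ((rap_sq h (9 : ℕ)).mul_left (C * (M ^ 8)⁻¹)))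
  by_cases hn : n = 0
  · simp [hn, h0]
  have h1 := hC n hn
  have h2 := Nr_pos hn
  rw [Real.rpow_one] at h1
  refine (mul_le_mul_of_nonneg_left (mul_le_mul_of_nonneg_right h1
    (psi_nonneg (div_nonneg (Nr_nonneg n) hM.le))) (sq_nonneg _)).trans (le_of_eq ?_)
  rw [psi, Real.rpow_natCast, Real.rpow_natCast]
  field_simp

theorem nrm_nonneg {M : ℝ} (hM : 0 < M) (u : O → ℂ) : 0 ≤ nrm M u := by
  exact tsum_nonneg fun n => mul_nonneg (sq_nonneg _) (psi_nonneg (div_nonneg (Nr_nonneg n) hM.le))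

theorem nrmd_nonneg {M : ℝ} (hM : 0 < M) (u : O → ℂ) : 0 ≤ nrmd M u := by
  exact tsum_nonneg fun n => mul_nonneg (sq_nonneg _) (mul_nonneg (dv_nonneg n)
    (psi_nonneg (div_nonneg (Nr_nonneg n) hM.le)))

theorem nrm_mono {M : ℝ} (hM : 0 < M) {u v : O → ℂ} (h : Rap v) (hle : ∀ n, ‖u n‖ ≤ ‖v n‖) :
    nrm M u ≤ nrm M v := by
  refine (summable_nrm (rap_of_le h (K := 1) (by simpa using hle)) hM).tsum_le_tsum
    (fun n => ?_) (summable_nrm h hM)
  exact mul_le_mul_of_nonneg_right (pow_le_pow_left₀ (norm_nonneg _) (hle n) 2)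
    (psi_nonneg (div_nonneg (Nr_nonneg n) hM.le))

theorem nrmd_mono {M : ℝ} (hM : 0 < M) {u v : O → ℂ} (h : Rap v) (h0 : v 0 = 0)
    (hle : ∀ n, ‖u n‖ ≤ ‖v n‖) : nrmd M u ≤ nrmd M v := by
  have hu : u 0 = 0 := by simpa [h0] using hle 0
  refine (summable_nrmd (rap_of_le h (K := 1) (by simpa using hle)) hu hM).tsum_le_tsum
    (fun n => ?_) (summable_nrmd h h0 hM)
  exact mul_le_mul_of_nonneg_right (pow_le_pow_left₀ (norm_nonneg _) (hle n) 2)
    (mul_nonneg (dv_nonneg n) (psi_nonneg (div_nonneg (Nr_nonneg n) hM.le)))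

theorem l2_le_nrm {M : ℝ} (hM : 0 < M) {u : O → ℂ} (h : Rap u) (h0 : u 0 = 0) :
    ∑' n : O, ‖u n‖ ^ 2 ≤ nrm M u := by
  refine Summable.tsum_le_tsum (fun n => ?_) (by simpa using rap_sq h 0) (summable_nrm h hM)
  by_cases hn : n = 0
  · simp [hn, h0]
  · exact le_mul_of_one_le_right (sq_nonneg _) (one_le_psi (div_pos (Nr_pos hn) hM))

theorem nrm_le_nrmd {M : ℝ} (hM : 0 < M) {u : O → ℂ} (h : Rap u) (h0 : u 0 = 0) :
    nrm M u ≤ nrmd M u := by
  refine (summable_nrm h hM).tsum_le_tsum (fun n => ?_) (summable_nrmd h h0 hM)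
  by_cases hn : n = 0
  · simp [hn, h0]
  · exact mul_le_mul_of_nonneg_left (le_mul_of_one_le_left
      (psi_nonneg (div_nonneg (Nr_nonneg n) hM.le)) (one_le_dv hn)) (sq_nonneg _)

/-- `psi · W 4 ≤ C` (`psi_pow_W`, `W_mono`), `tsum_W_le`. -/
theorem EV_nrm_le : ∃ C : ℝ, 0 ≤ C ∧ ∀ (M B : ℝ) (u : O → ℂ), 0 < B → u 0 = 0 → EV M B u →
    nrm B u ≤ C * M ^ 2 * B := by
  obtain ⟨C, hC⟩ := tsum_W_le four_pos 0 (by norm_num)
  obtain ⟨K, hK0, hK⟩ := psi_pow_W 1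
  refine ⟨K * max C 0, mul_nonneg hK0 (le_max_right _ _), fun M B u hB h0 h => ?_⟩
  have hle : ∀ n : O, ‖u n‖ ^ 2 * psi (Nr n / B) ≤
      K * M ^ 2 * (if n = 0 then 0 else Nr n ^ (0 : ℝ) * W 4 (Nr n / B)) := by
    intro n
    split_ifs with hn
    · simp [hn, h0]
    have hx := div_pos (Nr_pos hn) hB
    have h1 := hK _ hx
    have h2 := W_mono four_pos (by norm_num : (4 : ℝ) ≤ 16) (Nr n / B)
    have h3 := psi_nonneg hx.le
    have h4 := W_pos 4 (Nr n / B)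
    rw [pow_one] at h1
    have h5 : psi (Nr n / B) * W 4 (Nr n / B) ≤ K := (mul_le_mul_of_nonneg_left h2 h3).trans h1
    rw [Real.rpow_zero, one_mul]
    calc ‖u n‖ ^ 2 * psi (Nr n / B) ≤ (M * W 4 (Nr n / B)) ^ 2 * psi (Nr n / B) :=
          mul_le_mul_of_nonneg_right (pow_le_pow_left₀ (norm_nonneg _) (h n) 2) h3
      _ = (psi (Nr n / B) * W 4 (Nr n / B)) * (M ^ 2 * W 4 (Nr n / B)) := by ring
      _ ≤ K * (M ^ 2 * W 4 (Nr n / B)) := mul_le_mul_of_nonneg_right h5 (by positivity)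
      _ = _ := by ring
  refine ((summable_nrm (h.rap hB h0) hB).tsum_le_tsum hle
    ((summable_W four_pos hB 0).mul_left _)).trans ?_
  rw [tsum_mul_left]
  have h1 := hC B hB
  rw [add_zero, Real.rpow_one] at h1
  refine (mul_le_mul_of_nonneg_left (h1.trans (mul_le_mul_of_nonneg_right (le_max_left C 0)
    hB.le)) (by positivity)).trans (le_of_eq ?_)
  ring

/-- Cauchy–Schwarz against `tsum_inv_psi`. -/
theorem l1_sq_le_nrm {y : ℝ} (h1 : -(1 / 2) < y) (h2 : y ≤ 0) : ∃ C : ℝ, 0 ≤ C ∧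
    ∀ (B : ℝ) (u : O → ℂ), 0 < B → Rap u → u 0 = 0 →
    (∑' n : O, ‖u n‖ * Nr n ^ y) ^ 2 ≤ C * B ^ (1 + 2 * y) * nrm B u := by
  obtain ⟨C, hC0, hC⟩ := tsum_inv_psi (x := 2 * y) (by linarith) (by linarith)
  refine ⟨C, hC0, fun B u hB h h0 => ?_⟩
  obtain ⟨hs, hle⟩ := hC B hB
  have hf : ∀ n : O, 0 ≤ (if n = 0 then 0 else Nr n ^ (2 * y) / psi (Nr n / B)) := fun n => by
    split_ifs
    · exact le_rfl
    · exact div_nonneg (Real.rpow_nonneg (Nr_nonneg n) _)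
        (psi_nonneg (div_nonneg (Nr_nonneg n) hB.le))
  have hg : ∀ n : O, 0 ≤ ‖u n‖ ^ 2 * psi (Nr n / B) := fun n =>
    mul_nonneg (sq_nonneg _) (psi_nonneg (div_nonneg (Nr_nonneg n) hB.le))
  refine le_of_tendsto' ((h y).hasSum.pow 2) fun s => ?_
  refine (Finset.sum_sq_le_sum_mul_sum_of_sq_le_mul s (fun n _ => hf n) (fun n _ => hg n)
    (fun n _ => le_of_eq ?_)).trans ?_
  · split_ifs with hn
    · simp [hn, h0]
    · have h3 : 0 < psi (Nr n / B) := one_pos.trans_le (one_le_psi (div_pos (Nr_pos hn) hB))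
      rw [mul_comm 2 y, Real.rpow_mul (Nr_nonneg n), Real.rpow_two]
      field_simp
  · exact mul_le_mul ((hs.sum_le_tsum s fun n _ => hf n).trans hle)
      ((summable_nrm h hB).sum_le_tsum s fun n _ => hg n) (Finset.sum_nonneg fun n _ => hg n)
      (mul_nonneg hC0 (Real.rpow_nonneg hB.le _))

end Crest.Agent.R012.D

end
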