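import Crest.Agent.R012.DB3

/-! # Row 12, dispersion: thin norms -/

set_option autoImplicit false

noncomputable section

open scoped BigOperators ComplexConjugate Topology
open Complex MeasureTheory Filter Set Crest.Agent.R017

namespace Crest.Agent.R012.D

theorem tt_nonneg (k : ℕ) (a : ℝ) {M : ℝ} (hM : 0 < M) (u : O → ℂ) (n : O) : 0 ≤ tt k a M u n := div_nonneg (mul_nonneg (sq_nonneg _) (pow_nonneg (mul_nonneg (dv_nonneg n)
    (psi_nonneg (div_nonneg (Nr_nonneg n) hM.le))) k)) (W_pos _ _).le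

theorem tn_nonneg (k : ℕ) (a : ℝ) {M : ℝ} (hM : 0 < M) (u : O → ℂ) : 0 ≤ tn k a M u := tsum_nonneg (tt_nonneg k a hM u)

theorem db4_one_le {M : ℝ} (hM : 0 < M) {n : O} (hn : n ≠ 0) : 1 ≤ dv n * psi (Nr n / M) :=
  one_le_mul_of_one_le_of_one_le (one_le_dv hn) (one_le_psi (div_pos (Nr_pos hn) hM))

theorem db4_nonneg {M : ℝ} (hM : 0 < M) (n : O) : 0 ≤ dv n * psi (Nr n / M) :=
  mul_nonneg (dv_nonneg n) (psi_nonneg (div_nonneg (Nr_nonneg n) hM.le))

theorem db4_zero (k : ℕ) (a M : ℝ) {u : O → ℂ} {n : O} (h : u n = 0) : tt k a M u n = 0 := by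
  simp [tt, h]

theorem db4_succ (k : ℕ) (a M : ℝ) (u : O → ℂ) (n : O) :
    tt (k + 1) a M u n = dv n * psi (Nr n / M) * tt k a M u n := by
  unfold tt
  ring

theorem db4_dil (k : ℕ) (a : ℝ) {M : ℝ} (hM : 0 < M) {u : O → ℂ} (h0 : u 0 = 0) {d : O}
    (hd : Prim d) (n : O) : tt k a (M / Nr d) (fun n => u (d * n)) n ≤ tt k a M u (d * n) := by
  by_cases hn : n = 0
  · rw [db4_zero k a _ (by simp [hn, h0])]
    exact tt_nonneg k a hM u _
  have e : Nr n / (M / Nr d) = Nr (d * n) / M := by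
    rw [Nr_mul, div_div_eq_mul_div, mul_comm]
  have h1 : dv n ≤ dv (d * n) := by
    refine Nat.cast_le.2 (Finset.card_le_card fun x hx => ?_)
    rw [mem_pdiv hn] at hx
    exact (mem_pdiv (mul_ne_zero hd.ne_zero hn)).2 ⟨hx.1, hx.2.mul_left d⟩
  have h2 := dv_nonneg n
  have h3 := psi_nonneg (div_nonneg (Nr_nonneg (d * n)) hM.le)
  have h4 := W_pos a (Nr (d * n) / M)
  unfold tt
  rw [e]
  gcongr

/-- From `k = 0`: `‖u n‖² ≤ K W a`, so `‖u n‖ ≤ √K W (2 a)` (`W_sq`, `summable_W`). -/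
theorem TS.rap {a M : ℝ} {u : O → ℂ} (h : TS a M u) (ha : 0 < a) (hM : 0 < M) (h0 : u 0 = 0) :
    Rap u := by
  intro A
  refine Summable.of_nonneg_of_le
    (fun n => mul_nonneg (norm_nonneg _) (Real.rpow_nonneg (Nr_nonneg n) _)) (fun n => ?_)
    ((summable_W (a := 2 * a) (by linarith) hM A).mul_left (Real.sqrt (tn 0 a M u)))
  split_ifs with hn
  · simp [hn, h0]
  have h1 : tt 0 a M u n ≤ tn 0 a M u := (h 0).le_tsum n fun m _ => tt_nonneg 0 a hM u m
  have h2 := W_pos (2 * a) (Nr n / M)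
  rw [tt, pow_zero, mul_one, W_sq a, ← div_pow] at h1
  have h3 := Real.le_sqrt_of_sq_le h1
  rw [div_le_iff₀ h2] at h3
  exact (mul_le_mul_of_nonneg_right h3 (Real.rpow_nonneg (Nr_nonneg n) _)).trans (le_of_eq (by ring))

theorem TS.of_le {a M : ℝ} {u v : O → ℂ} (h : TS a M u) (hM : 0 < M) (hle : ∀ n, ‖v n‖ ≤ ‖u n‖) :
    TS a M v ∧ ∀ k, tn k a M v ≤ tn k a M u := by
  have key : ∀ k n, tt k a M v n ≤ tt k a M u n := fun k n => by
    have h1 := db4_nonneg hM n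
    have h2 := W_pos a (Nr n / M)
    have h3 := hle n
    unfold tt
    gcongr
  have hv : TS a M v := fun k => Summable.of_nonneg_of_le (tt_nonneg k a hM v) (key k) (h k)
  exact ⟨hv, fun k => (hv k).tsum_le_tsum (key k) (h k)⟩

theorem tn_mono_k {a M : ℝ} {u : O → ℂ} (h : TS a M u) (hM : 0 < M) (h0 : u 0 = 0) {j k : ℕ}
    (hjk : j ≤ k) : tn j a M u ≤ tn k a M u := by
  refine (h j).tsum_le_tsum (fun n => ?_) (h k)
  by_cases hn : n = 0
  · rw [db4_zero j a M (hn ▸ h0)]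
    exact tt_nonneg k a hM u n
  · exact div_le_div_of_nonneg_right (mul_le_mul_of_nonneg_left
      (pow_le_pow_right₀ (db4_one_le hM hn) hjk) (sq_nonneg _)) (W_pos _ _).le

theorem l2_le_tn {a M : ℝ} {u : O → ℂ} (h : TS a M u) (ha : 0 < a) (hM : 0 < M) (h0 : u 0 = 0)
    (k : ℕ) : ∑' n : O, ‖u n‖ ^ 2 ≤ tn k a M u := by
  have key : ∀ n, ‖u n‖ ^ 2 ≤ tt k a M u n := fun n => by
    by_cases hn : n = 0
    · rw [hn, h0, norm_zero, zero_pow two_ne_zero]
      exact tt_nonneg k a hM u _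
    · rw [tt, le_div_iff₀ (W_pos _ _)]
      exact mul_le_mul_of_nonneg_left ((W_le_one ha _).trans (one_le_pow₀ (db4_one_le hM hn)))
        (sq_nonneg _)
  exact (Summable.of_nonneg_of_le (fun n => sq_nonneg _) key (h k)).tsum_le_tsum key (h k)

/-- `(N n / M)^{2 σ - 1} ≤ psi ≤ dv · psi`. -/
theorem TS.cpow {a M : ℝ} {u : O → ℂ} (h : TS a M u) (hM : 0 < M) (h0 : u 0 = 0) {σ : ℝ}
    (h1 : 0 ≤ σ) (h2 : σ ≤ 5 / 2) (t : ℝ) :
    TS a M (fun n => u n * (Nr n : ℂ) ^ ((σ : ℂ) + t * I - 1 / 2)) ∧ ∀ k,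
      tn k a M (fun n => u n * (Nr n : ℂ) ^ ((σ : ℂ) + t * I - 1 / 2)) ≤
        M ^ (2 * σ - 1) * tn (k + 1) a M u := by
  have key : ∀ k n, tt k a M (fun n => u n * (Nr n : ℂ) ^ ((σ : ℂ) + t * I - 1 / 2)) n ≤
      M ^ (2 * σ - 1) * tt (k + 1) a M u n := fun k n => by
    by_cases hn : n = 0
    · rw [db4_zero k a M (by simp [hn, h0])]
      exact mul_nonneg (by positivity) (tt_nonneg _ a hM u n)
    have hy : 0 < Nr n / M := div_pos (Nr_pos hn) hM
    have e1 : (Nr n ^ (σ - 1 / 2)) ^ 2 = M ^ (2 * σ - 1) * (Nr n / M) ^ (2 * σ - 1) := by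
      rw [← Real.mul_rpow hM.le hy.le, mul_div_cancel₀ _ hM.ne', ← Real.rpow_natCast,
        ← Real.rpow_mul (Nr_nonneg n)]
      congr 1
      push_cast
      ring
    have e2 : (Nr n / M) ^ (2 * σ - 1) ≤ dv n * psi (Nr n / M) :=
      (rpow_le_psi (by linarith) (by linarith) hy).trans
        (le_mul_of_one_le_left (psi_nonneg hy.le) (one_le_dv hn))
    have e3 : tt k a M (fun n => u n * (Nr n : ℂ) ^ ((σ : ℂ) + t * I - 1 / 2)) n =
        M ^ (2 * σ - 1) * ((Nr n / M) ^ (2 * σ - 1) * tt k a M u n) := by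
      unfold tt
      rw [norm_XX_term h0, mul_pow, e1]
      ring
    rw [e3, db4_succ]
    exact mul_le_mul_of_nonneg_left (mul_le_mul_of_nonneg_right e2 (tt_nonneg k a hM u n))
      (by positivity)
  have hv : TS a M (fun n => u n * (Nr n : ℂ) ^ ((σ : ℂ) + t * I - 1 / 2)) := fun k =>
    Summable.of_nonneg_of_le (tt_nonneg k a hM _) (key k) ((h (k + 1)).mul_left _)
  refine ⟨hv, fun k => ?_⟩
  rw [tn, tn, ← tsum_mul_left]
  exact (hv k).tsum_le_tsum (key k) ((h (k + 1)).mul_left _)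

/-- `dv n ≤ dv (d n)`. -/
theorem TS.dil {a M : ℝ} {u : O → ℂ} (h : TS a M u) (hM : 0 < M) (h0 : u 0 = 0) {d : O}
    (hd : Prim d) : TS a (M / Nr d) (fun n => u (d * n)) := fun k =>
  Summable.of_nonneg_of_le (tt_nonneg k a (div_pos hM (Nr_pos hd.ne_zero)) _) (db4_dil k a hM h0 hd)
    ((h k).comp_injective (mul_right_injective₀ hd.ne_zero))

open Classical in
/-- `sum_dil` with `F = tt k a M u`, `dv ≤ dv · psi`. -/
theorem sum_tn_dil {a M : ℝ} {u : O → ℂ} (h : TS a M u) (hM : 0 < M) (h0 : u 0 = 0) (k : ℕ) :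
    Summable (fun d : O => if Prim d then tn k a (M / Nr d) (fun n => u (d * n)) else 0) ∧
    ∑' d : O, (if Prim d then tn k a (M / Nr d) (fun n => u (d * n)) else 0) ≤
      tn (k + 1) a M u := by
  have k1 : ∀ n, dv n * tt k a M u n ≤ tt (k + 1) a M u n := fun n => by
    by_cases hn : n = 0
    · rw [db4_zero k a M (hn ▸ h0), mul_zero]
      exact tt_nonneg _ a hM u n
    · rw [db4_succ]
      exact mul_le_mul_of_nonneg_right (le_mul_of_one_le_right (dv_nonneg n)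
        (one_le_psi (div_pos (Nr_pos hn) hM))) (tt_nonneg k a hM u n)
  have hs : Summable (fun n => dv n * tt k a M u n) :=
    Summable.of_nonneg_of_le (fun n => mul_nonneg (dv_nonneg n) (tt_nonneg k a hM u n)) k1 (h (k + 1))
  obtain ⟨s1, s2, s3⟩ := sum_dil (tt_nonneg k a hM u) (db4_zero k a M h0) hs
  have k2 : ∀ d : O, (if Prim d then tn k a (M / Nr d) (fun n => u (d * n)) else 0) ≤
      (if Prim d then ∑' n : O, tt k a M u (d * n) else 0) := fun d => by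
    split_ifs with hd
    · exact (h.dil hM h0 hd k).tsum_le_tsum (db4_dil k a hM h0 hd) (s1 d hd)
    · exact le_rfl
  have s4 : Summable (fun d : O => if Prim d then tn k a (M / Nr d) (fun n => u (d * n)) else 0) := by
    refine Summable.of_nonneg_of_le (fun d => ?_) k2 s2
    split_ifs with hd
    · exact tn_nonneg k a (div_pos hM (Nr_pos hd.ne_zero)) _
    · exact le_rfl
  exact ⟨s4, (s4.tsum_le_tsum k2 s2).trans (s3.le.trans (hs.tsum_le_tsum k1 (h (k + 1))))⟩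

/-- `W (2 θ)² / W (4 θ) = W (2 θ) W (4 θ)`; `(dv psi)^k W (4 θ) ≤ C B^ε` for `B ≥ 1`. -/
theorem tn_co_le {ε : ℝ} (hε : 0 < ε) (k : ℕ) : ∃ C : ℝ, 0 ≤ C ∧ ∀ (θ M B τ : ℝ) (β : O → ℂ), 0 < θ →
    θ ≤ 1 → 1 ≤ B → Env M B β →
    Summable (tt k (4 * θ) B (co θ B τ β)) ∧
      tn k (4 * θ) B (co θ B τ β) ≤ C * B ^ ε * cn (2 * θ) B β := by
  classical
  obtain ⟨C, hC, h⟩ := psi_pow_W (2 * k)
  obtain ⟨C', hC', h'⟩ := db3_dv_le (ε := ε / (k + 1)) (by positivity)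
  refine ⟨C' ^ k * C, by positivity, fun θ M B τ β h0 h1 hB hE => ?_⟩
  have hB0 : 0 < B := by linarith
  have hBk : (B ^ (ε / (k + 1))) ^ k ≤ B ^ ε := by
    rw [← Real.rpow_natCast, ← Real.rpow_mul hB0.le]
    refine Real.rpow_le_rpow_of_exponent_le hB ?_
    rw [div_mul_eq_mul_div, div_le_iff₀ (by positivity)]
    nlinarith
  have key : ∀ n, tt k (4 * θ) B (co θ B τ β) n ≤ C' ^ k * C * B ^ ε *
      (if Prim n ∧ Squarefree n then ‖β n‖ ^ 2 * W (2 * θ) (Nr n / B) else 0) := fun n => by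
    split_ifs with hn
    · have hy : 0 < Nr n / B := div_pos (Nr_pos hn.1.ne_zero) hB0
      have a1 := W_sq (2 * θ) (Nr n / B)
      rw [show 2 * (2 * θ) = 4 * θ by ring] at a1
      have a2 := W_pos (4 * θ) (Nr n / B)
      have a3 : psi (Nr n / B) ^ (2 * k) * W (4 * θ) (Nr n / B) ≤ C :=
        (mul_le_mul_of_nonneg_left (W_mono (by linarith) (by linarith) _)
          (pow_nonneg (psi_nonneg hy.le) _)).trans (h _ hy)
      have a4 := psi_nonneg hy.le
      have a5 := h' B n hB hn.1.ne_zero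
      have a6 := dv_nonneg n
      have e : tt k (4 * θ) B (co θ B τ β) n = (dv n * psi (Nr n / B)) ^ k * W (4 * θ) (Nr n / B) *
          (‖β n‖ ^ 2 * W (2 * θ) (Nr n / B)) := by
        rw [tt, norm_co hn.1 hn.2, a1]
        field_simp
      rw [e]
      refine mul_le_mul_of_nonneg_right ?_ (mul_nonneg (sq_nonneg _) (W_pos _ _).le)
      calc (dv n * psi (Nr n / B)) ^ k * W (4 * θ) (Nr n / B)
          ≤ (C' * B ^ (ε / (k + 1)) * psi (Nr n / B) * psi (Nr n / B)) ^ k *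
            W (4 * θ) (Nr n / B) := by gcongr
        _ = C' ^ k * (psi (Nr n / B) ^ (2 * k) * W (4 * θ) (Nr n / B)) *
            (B ^ (ε / (k + 1))) ^ k := by ring
        _ ≤ _ := by gcongr
    · rw [db4_zero k _ _ (db3_co_of_not hn), mul_zero]
  have hs := (summable_cn (a := 2 * θ) (by linarith) hB0 hE).mul_left (C' ^ k * C * B ^ ε)
  have hs' := Summable.of_nonneg_of_le (tt_nonneg k _ hB0 _) key hs
  refine ⟨hs', ?_⟩
  rw [tn, cn, ← tsum_mul_left]
  exact hs'.tsum_le_tsum key hs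

theorem TS_co {θ M B : ℝ} {β : O → ℂ} (h0 : 0 < θ) (h1 : θ ≤ 1) (hB : 1 ≤ B) (h : Env M B β)
    (τ : ℝ) : TS (4 * θ) B (co θ B τ β) := fun k =>
  ((tn_co_le one_pos k).choose_spec.2 θ M B τ β h0 h1 hB h).1

end Crest.Agent.R012.D

end
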