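import Crest.Agent.R012.DB3

/-! # Row 12, dispersion: narrow weights as averages of wide ones -/

set_option autoImplicit false

noncomputable section

open scoped BigOperators ComplexConjugate Topology
open Complex MeasureTheory Filter Set Crest.Agent.R017

namespace Crest.Agent.R012.D

/-- `W a = W b · W c` (`W_mul_W`), `W_mellin` for `W c` on `σ = 0`,
`hasSum_integral_of_summable_integral_norm`. -/
theorem sm_narrow {a b c X : ℝ} (hb : 0 < b) (hc : 0 < c) (h : a⁻¹ = b⁻¹ + c⁻¹) (hX : 0 < X)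
    {g : O → ℂ} {K A : ℝ} (hg : ∀ n, Prim n → ‖g n‖ ≤ K * Nr n ^ A) (τ : ℝ) :
    sm a g X τ = (1 / (2 * Real.pi) : ℂ) *
      ∫ t : ℝ, Wh c (t * I) * (X : ℂ) ^ ((t : ℂ) * I) * sm b g X (τ + t) := by
  set F : O → ℝ → ℂ := fun n t => Wh c (t * I) * (X : ℂ) ^ ((t : ℂ) * I) *
    (if Prim n then g n * (Nr n : ℂ) ^ (-(((τ + t : ℝ) : ℂ) * I)) * (W b (Nr n / X) : ℂ) else 0)
    with hF
  have hG : Integrable fun t : ℝ => ‖Wh c (t * I)‖ := by
    simpa using w2_integrable_Wh hc 0
  have hbd : ∀ n t, ‖F n t‖ ≤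
      |K| * (if n = 0 then 0 else Nr n ^ A * W b (Nr n / X)) * ‖Wh c (t * I)‖ := by
    intro n t
    simp only [hF]
    rw [norm_mul, norm_mul, Complex.norm_cpow_eq_rpow_re_of_pos hX]
    have e2 : ((t : ℂ) * I).re = 0 := by simp
    rw [e2, Real.rpow_zero, mul_one, mul_comm]
    exact mul_le_mul_of_nonneg_right (w2_term_le hg (τ + t) n) (norm_nonneg _)
  have hint : ∀ n, Integrable (F n) := by
    intro n
    refine (hG.const_mul _).mono' (Continuous.aestronglyMeasurable ?_)
      (Filter.Eventually.of_forall (hbd n))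
    simp only [hF, Wh, w2_cpow hX]
    split_ifs with hn
    · simp only [w2_cpow (Nr_pos hn.ne_zero)]
      fun_prop
    · fun_prop
  have hsum : Summable fun n => ∫ t, ‖F n t‖ := by
    refine Summable.of_nonneg_of_le (fun n => integral_nonneg fun t => norm_nonneg _) (fun n => ?_)
      (((summable_W hb hX A).mul_left |K|).mul_right (∫ t : ℝ, ‖Wh c (t * I)‖))
    rw [← integral_const_mul]
    exact integral_mono (hint n).norm (hG.const_mul _) (hbd n)
  have h1 : ∀ t : ℝ, Wh c (t * I) * (X : ℂ) ^ ((t : ℂ) * I) * sm b g X (τ + t) =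
      ∑' n, F n t := fun t => by
    simp only [hF, sm, tsum_mul_left]
  simp only [h1]
  rw [← integral_tsum_of_summable_integral_norm hint hsum, ← tsum_mul_left]
  refine tsum_congr fun n => ?_
  simp only [hF]
  split_ifs with hn
  · have hN := Nr_pos hn.ne_zero
    have hm := W_mellin hc (div_pos hN hX) 0
    simp only [Complex.ofReal_zero, zero_add] at hm
    rw [W_mul_W h, Complex.ofReal_mul, hm, ← mul_assoc, mul_left_comm, ← integral_const_mul]
    congr 1
    refine integral_congr_ae (Filter.Eventually.of_forall fun t => ?_)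
    simp only [w2_cpow hN, w2_cpow hX, w2_cpow (div_pos hN hX), Real.log_div hN.ne' hX.ne']
    have : Complex.exp ((Real.log (Nr n) : ℝ) * -((τ : ℂ) * I)) *
        Complex.exp ((Real.log (Nr n) - Real.log X : ℝ) * -((t : ℂ) * I)) =
        Complex.exp ((Real.log (Nr n) : ℝ) * -(((τ + t : ℝ) : ℂ) * I)) *
        Complex.exp ((Real.log X : ℝ) * ((t : ℂ) * I)) := by
      rw [← Complex.exp_add, ← Complex.exp_add]
      congr 1
      rw [Complex.ofReal_sub, Complex.ofReal_add]
      ring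
    linear_combination
      g n * (W b (Nr n / X) : ℂ) * Wh c (t * I) * this
  · simp

/-- The probability density `‖Wh c (i t)‖ / (2 π)`. -/
def pd (c t : ℝ) : ℝ := Real.sqrt (4 * Real.pi * c) * Real.exp (-(c * t ^ 2)) / (2 * Real.pi)

theorem pd_nonneg (c t : ℝ) : 0 ≤ pd c t := by
  unfold pd
  have := Real.pi_pos
  positivity

theorem integrable_pd {c : ℝ} (hc : 0 < c) : Integrable (pd c) := by
  have h := ((integrable_exp_neg_mul_sq hc).const_mul (Real.sqrt (4 * Real.pi * c))).div_const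
    (2 * Real.pi)
  refine h.congr (Filter.Eventually.of_forall fun t => ?_)
  simp only [pd, neg_mul]

/-- `integral_gaussian`. -/
theorem integral_pd {c : ℝ} (hc : 0 < c) : ∫ t, pd c t = 1 := by
  have hπ := Real.pi_pos
  simp only [pd, ← neg_mul]
  rw [integral_div, integral_const_mul, integral_gaussian, ← Real.sqrt_mul (by positivity),
    show 4 * Real.pi * c * (Real.pi / c) = (2 * Real.pi) ^ 2 by field_simp; ring,
    Real.sqrt_sq (by positivity), div_self (by positivity)]

theorem df1_continuous_pd (c : ℝ) : Continuous (pd c) := by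
  unfold pd
  fun_prop

theorem df1_norm_Wh {c : ℝ} (hc : 0 < c) (t : ℝ) :
    ‖Wh c (t * I)‖ = 2 * Real.pi * pd c t := by
  have h := norm_Wh hc 0 t
  simp only [Complex.ofReal_zero, zero_add] at h
  have hπ := Real.pi_pos
  rw [h, pd, show c * (0 ^ 2 - t ^ 2) = -(c * t ^ 2) by ring]
  field_simp

theorem df1_integrable_tail {c : ℝ} (hc : 0 < c) (T : ℝ) :
    Integrable fun t => (if T < |t| then pd c t else 0) := by
  have hm : MeasurableSet {t : ℝ | T < |t|} :=
    (isOpen_lt continuous_const continuous_abs).measurableSet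
  refine ((integrable_pd hc).indicator hm).congr (Filter.Eventually.of_forall fun t => ?_)
  simp only [Set.indicator_apply, Set.mem_ofPred_eq]

theorem df1_integrable_mul {c K : ℝ} (hc : 0 < c) {f : ℝ → ℝ} (hf : Continuous f)
    (hK : ∀ t, |f t| ≤ K) : Integrable fun t => pd c t * f t :=
  (integrable_pd hc).mul_bdd hf.aestronglyMeasurable (Filter.Eventually.of_forall hK)

theorem df1_integrable_mul_sq {c K : ℝ} (hc : 0 < c) {f : ℝ → ℝ} (hf : Continuous f)
    (hK : ∀ t, |f t| ≤ K) : Integrable fun t => pd c t * f t ^ 2 :=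
  df1_integrable_mul (K := K ^ 2) hc (hf.pow 2) fun t => by
    rw [abs_pow]
    exact pow_le_pow_left₀ (abs_nonneg _) (hK t) 2

/-- For `|t| > T`: `pd c t ≤ exp (-c T² / 2) √2 pd (c / 2) t`. -/
theorem pd_tail {c T : ℝ} (hc : 0 < c) (hT : 0 ≤ T) :
    ∫ t, (if T < |t| then pd c t else 0) ≤ 2 * Real.exp (-(c * T ^ 2 / 2)) := by
  have hπ := Real.pi_pos
  have hc2 : 0 < c / 2 := by positivity
  have h1 : ∫ t, 2 * Real.exp (-(c * T ^ 2 / 2)) * pd (c / 2) t =
      2 * Real.exp (-(c * T ^ 2 / 2)) := by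
    rw [integral_const_mul, integral_pd hc2, mul_one]
  rw [← h1]
  refine integral_mono (df1_integrable_tail hc T) ((integrable_pd hc2).const_mul _) fun t => ?_
  have h0 := pd_nonneg (c / 2) t
  show (if T < |t| then pd c t else 0) ≤ 2 * Real.exp (-(c * T ^ 2 / 2)) * pd (c / 2) t
  split_ifs with ht
  · have h2 : T ^ 2 ≤ t ^ 2 := by
      rw [← sq_abs t]
      exact pow_le_pow_left₀ hT ht.le 2
    have h3 : Real.exp (-(c * t ^ 2)) ≤
        Real.exp (-(c * T ^ 2 / 2)) * Real.exp (-(c / 2 * t ^ 2)) := by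
      rw [← Real.exp_add, Real.exp_le_exp]
      nlinarith
    have h4 : Real.sqrt (4 * Real.pi * c) ≤ 2 * Real.sqrt (4 * Real.pi * (c / 2)) := by
      rw [Real.sqrt_le_left (by positivity), mul_pow, Real.sq_sqrt (by positivity)]
      nlinarith [mul_pos hπ hc]
    unfold pd
    rw [← mul_div_assoc]
    refine div_le_div_of_nonneg_right ?_ (by positivity)
    calc _ ≤ (2 * Real.sqrt (4 * Real.pi * (c / 2))) *
          (Real.exp (-(c * T ^ 2 / 2)) * Real.exp (-(c / 2 * t ^ 2))) := by gcongr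
      _ = _ := by ring
  · positivity

/-- Jensen: expand `∫ pd (f - m)² ≥ 0`. -/
theorem pd_jensen {c K : ℝ} (hc : 0 < c) {f : ℝ → ℝ} (hf : Continuous f) (hK : ∀ t, |f t| ≤ K) :
    (∫ t, pd c t * f t) ^ 2 ≤ ∫ t, pd c t * f t ^ 2 := by
  set m := ∫ t, pd c t * f t with hm
  have i1 := df1_integrable_mul hc hf hK
  have i2 := df1_integrable_mul_sq hc hf hK
  have i0 := integrable_pd hc
  have h1 : 0 ≤ ∫ t, (pd c t * f t ^ 2 - 2 * m * (pd c t * f t) + m ^ 2 * pd c t) :=
    integral_nonneg fun t => by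
      have := mul_nonneg (pd_nonneg c t) (sq_nonneg (f t - m))
      show 0 ≤ pd c t * f t ^ 2 - 2 * m * (pd c t * f t) + m ^ 2 * pd c t
      nlinarith
  have i3 : Integrable fun t => pd c t * f t ^ 2 - 2 * m * (pd c t * f t) :=
    i2.sub (i1.const_mul _)
  rw [integral_add i3 (i0.const_mul _), integral_sub i2 (i1.const_mul _),
    integral_const_mul, integral_const_mul, integral_pd hc, ← hm] at h1
  nlinarith

/-- `sm_narrow`, `pd_jensen` (`continuous_sm`, `w2_term_le`), `pd_tail`. -/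
theorem sm_narrow_l2 {a b c X T E₁ E₂ : ℝ} (hb : 0 < b) (hc : 0 < c) (h : a⁻¹ = b⁻¹ + c⁻¹)
    (hX : 0 < X) (hT : 0 ≤ T) (S : Finset O) {g : O → O → ℂ} {K A : ℝ}
    (hg : ∀ r n, Prim n → ‖g r n‖ ≤ K * Nr n ^ A) (τ : ℝ)
    (h₁ : ∀ t : ℝ, |t| ≤ T → ∑ r ∈ S, ‖sm b (g r) X (τ + t)‖ ^ 2 ≤ E₁)
    (h₂ : ∀ t : ℝ, ∑ r ∈ S, ‖sm b (g r) X (τ + t)‖ ^ 2 ≤ E₂) :
    ∑ r ∈ S, ‖sm a (g r) X τ‖ ^ 2 ≤ E₁ + 2 * Real.exp (-(c * T ^ 2 / 2)) * E₂ := by
  have hπ := Real.pi_pos
  have hE₁ : 0 ≤ E₁ := le_trans (Finset.sum_nonneg fun _ _ => sq_nonneg _) (h₁ 0 (by simpa using hT))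
  have hE₂ : 0 ≤ E₂ := le_trans (Finset.sum_nonneg fun _ _ => sq_nonneg _) (h₂ 0)
  have hcont : ∀ r, Continuous fun t : ℝ => ‖sm b (g r) X (τ + t)‖ := by
    intro r
    have h1 := (continuous_sm hb (hg r)).comp
      (show Continuous fun t : ℝ => (Real.log X, τ + t) by fun_prop)
    have h2 : (fun t : ℝ => sm b (g r) X (τ + t)) =
        (fun p : ℝ × ℝ => sm b (g r) (Real.exp p.1) p.2) ∘ fun t : ℝ => (Real.log X, τ + t) := by
      funext t
      simp only [Function.comp_apply, Real.exp_log hX]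
    exact (h2 ▸ h1).norm
  have hbd : ∀ r t, |‖sm b (g r) X (τ + t)‖| ≤
      ∑' n : O, |K| * (if n = 0 then 0 else Nr n ^ A * W b (Nr n / X)) := by
    intro r t
    rw [abs_norm]
    exact tsum_of_norm_bounded ((summable_W hb hX A).mul_left |K|).hasSum
      (w2_term_le (hg r) (τ + t))
  have hone : ∀ r, ‖sm a (g r) X τ‖ ^ 2 ≤ ∫ t, pd c t * ‖sm b (g r) X (τ + t)‖ ^ 2 := by
    intro r
    refine le_trans (pow_le_pow_left₀ (norm_nonneg _) ?_ 2) (pd_jensen hc (hcont r) (hbd r))
    rw [sm_narrow hb hc h hX (hg r) τ, norm_mul]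
    have e1 : ‖(1 / (2 * Real.pi) : ℂ)‖ = 1 / (2 * Real.pi) := by
      rw [norm_div, norm_mul, norm_one, Complex.norm_real, Real.norm_of_nonneg hπ.le]
      simp
    rw [e1]
    refine (mul_le_mul_of_nonneg_left (norm_integral_le_integral_norm _) (by positivity)).trans ?_
    rw [← integral_const_mul]
    refine le_of_eq (integral_congr_ae (Filter.Eventually.of_forall fun t => ?_))
    have e2 : ((t : ℂ) * I).re = 0 := by simp
    simp only
    rw [norm_mul, norm_mul, Complex.norm_cpow_eq_rpow_re_of_pos hX, e2, Real.rpow_zero,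
      df1_norm_Wh hc]
    field_simp
  have hI : ∀ r ∈ S, Integrable fun t => pd c t * ‖sm b (g r) X (τ + t)‖ ^ 2 :=
    fun r _ => df1_integrable_mul_sq hc (hcont r) (hbd r)
  refine (Finset.sum_le_sum fun r _ => hone r).trans ?_
  rw [← integral_finsetSum S hI]
  have h3 : ∫ t, (pd c t * E₁ + (if T < |t| then pd c t else 0) * E₂) ≤
      E₁ + 2 * Real.exp (-(c * T ^ 2 / 2)) * E₂ := by
    rw [integral_add ((integrable_pd hc).mul_const _) ((df1_integrable_tail hc T).mul_const _),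
      integral_mul_const, integral_mul_const, integral_pd hc, one_mul]
    have := mul_le_mul_of_nonneg_right (pd_tail hc hT) hE₂
    linarith
  refine le_trans (integral_mono (integrable_finsetSum S hI)
    (((integrable_pd hc).mul_const _).add ((df1_integrable_tail hc T).mul_const _)) fun t => ?_) h3
  have h0 := pd_nonneg c t
  show ∑ r ∈ S, pd c t * ‖sm b (g r) X (τ + t)‖ ^ 2 ≤
    pd c t * E₁ + (if T < |t| then pd c t else 0) * E₂
  rw [← Finset.mul_sum]
  split_ifs with ht
  · have := mul_le_mul_of_nonneg_left (h₂ t) h0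
    have := mul_nonneg h0 hE₁
    linarith
  · have := mul_le_mul_of_nonneg_left (h₁ t (not_lt.1 ht)) h0
    linarith

end Crest.Agent.R012.D

end
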