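import Crest.Agent.R012.FL

/-! # Row 12: the trichotomy of blocks -/

set_option autoImplicit false

noncomputable section

open scoped BigOperators ComplexConjugate Topology
open Complex MeasureTheory Filter Crest.Agent.R017

namespace Crest.Agent.R012.Far

/-- Large conductor. With `R = x^{1+s}`, `y = x^{10⁻¹⁰}`: `Y ≤ 8 x^s y`, `J³ ≤ 8 x^s y`, `X ≤ x^s x`;
`blk_ls₁`, `cls'` (`ε = 10⁻¹⁰`). -/
theorem bk_A {s : ℝ} (hs : 0 < s) (hs1 : s ≤ 1 / 10 ^ 12) : ∀ᶠ x : ℝ in atTop, ∀ X Y : ℝ,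
    1 ≤ X → 1 ≤ Y → X ≤ x ^ (1 + s) → X * Y ^ 2 ≤ 8 * x ^ (1 + s) →
    x ^ (1 - 1 / 10 ^ 10 : ℝ) ≤ X * Y → LSA (bk (x ^ (1 + s)) X Y) x := by
  obtain ⟨C, hC, H⟩ := cls' (ε := 1 / 10 ^ 10) (by norm_num)
  filter_upwards [eventually_ge_atTop (1 : ℝ), (tendsto_rpow_atTop
    (show (0 : ℝ) < 1 / 10 ^ 10 by norm_num)).eventually_ge_atTop (225 * 625 * 64 * C)]
    with x hx hCx X Y hX hY h1 h2 h3 L hL hLx
  have x0 : 0 < x := by linarith
  have hs2 : s ≤ 1 / 10 ^ 10 := hs1.trans (by norm_num)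
  set u : ℝ := x ^ (1 / 10 ^ 10 : ℝ) with hu
  have u1 : 1 ≤ u := Real.one_le_rpow hx (by norm_num)
  have u0 : 0 < u := by linarith
  have hR : x ^ (1 + s) ≤ x * u := by
    rw [Real.rpow_add x0, Real.rpow_one]
    exact mul_le_mul_of_nonneg_left (Real.rpow_le_rpow_of_exponent_le hx hs2) x0.le
  have hXY : x ≤ X * Y * u := by
    rw [Real.rpow_sub x0, Real.rpow_one, div_le_iff₀ u0] at h3
    exact h3
  have R0 : 0 < x ^ (1 + s) := by positivity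
  have hYu : Y ≤ 8 * u ^ 2 := by
    have e1 : Y * x ≤ Y * (X * Y * u) := by gcongr
    have e2 : Y * (X * Y * u) = X * Y ^ 2 * u := by ring
    have e3 : X * Y ^ 2 * u ≤ 8 * (x * u) * u :=
      mul_le_mul_of_nonneg_right (by linarith) u0.le
    have e4 : Y * x ≤ 8 * u ^ 2 * x := by nlinarith
    exact le_of_mul_le_mul_right e4 x0
  have hT : 8 * x ^ (1 + s) / (X * Y ^ 2) ≤ 8 * u ^ 2 := by
    rw [div_le_iff₀ (by positivity)]
    have e1 : X * Y ≤ X * Y ^ 2 := by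
      have : Y ≤ Y ^ 2 := by nlinarith
      gcongr
    calc 8 * x ^ (1 + s) ≤ 8 * (X * Y * u * u) := by
          refine mul_le_mul_of_nonneg_left (hR.trans ?_) (by norm_num)
          gcongr
      _ ≤ 8 * (X * Y ^ 2 * u * u) := by gcongr
      _ = 8 * u ^ 2 * (X * Y ^ 2) := by ring
  have hJ : (8 * x ^ (1 + s) / (X * Y ^ 2)) ^ (1 / 3 : ℝ) ≤ 8 * u ^ 2 := by
    refine (Real.rpow_le_rpow (by positivity) hT (by norm_num)).trans ?_
    have e1 : (1 : ℝ) ≤ 8 * u ^ 2 := by nlinarith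
    simpa using Real.rpow_le_rpow_of_exponent_le e1 (show (1 / 3 : ℝ) ≤ 1 by norm_num)
  have hXx : X ≤ x * u := h1.trans hR
  have hE : (X * L) ^ (1 / 10 ^ 10 : ℝ) ≤ u ^ 5 := by
    have e1 : u ≤ x := by
      have := Real.rpow_le_rpow_of_exponent_le hx (show (1 / 10 ^ 10 : ℝ) ≤ 1 by norm_num)
      rwa [Real.rpow_one] at this
    have e2 : X * L ≤ x ^ 5 := by
      calc X * L ≤ x * x * x ^ 3 := by gcongr; exact hXx.trans (by gcongr)
        _ = x ^ 5 := by ring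
    refine (Real.rpow_le_rpow (by positivity) e2 (by norm_num)).trans (le_of_eq ?_)
    rw [hu, ← Real.rpow_natCast_mul x0.le, ← Real.rpow_mul_natCast x0.le, mul_comm]
  have hS : X + L + (X * L) ^ (2 / 3 : ℝ) ≤ u * (x + L + (x * L) ^ (2 / 3 : ℝ)) := by
    have e1 : (X * L) ^ (2 / 3 : ℝ) ≤ u * (x * L) ^ (2 / 3 : ℝ) := by
      calc (X * L) ^ (2 / 3 : ℝ) ≤ (u * (x * L)) ^ (2 / 3 : ℝ) := by
            refine Real.rpow_le_rpow (by positivity) ?_ (by norm_num)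
            calc X * L ≤ x * u * L := by gcongr
              _ = u * (x * L) := by ring
        _ = u ^ (2 / 3 : ℝ) * (x * L) ^ (2 / 3 : ℝ) := Real.mul_rpow u0.le (by positivity)
        _ ≤ u * (x * L) ^ (2 / 3 : ℝ) := by
            refine mul_le_mul_of_nonneg_right ?_ (by positivity)
            simpa using Real.rpow_le_rpow_of_exponent_le u1 (show (2 / 3 : ℝ) ≤ 1 by norm_num)
    have e2 : L ≤ u * L := le_mul_of_one_le_left (by linarith) u1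
    nlinarith
  have hF : u ^ 11 ≤ x ^ (1 / 10 ^ 8 : ℝ) := by
    rw [hu, ← Real.rpow_natCast, ← Real.rpow_mul x0.le]
    exact Real.rpow_le_rpow_of_exponent_le hx (by norm_num)
  refine (blk_ls₁ (Y := Y) (J := (8 * x ^ (1 + s) / (X * Y ^ 2)) ^ (1 / 3 : ℝ)) (by linarith)
    (by positivity) (by positivity) (H X L hX hL)).mono subset_rfl ?_
  have S0 : 0 ≤ x + L + (x * L) ^ (2 / 3 : ℝ) := by positivity
  calc _ ≤ 225 * 625 * (8 * u ^ 2) * (8 * u ^ 2) *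
        (C * u ^ 5 * (u * (x + L + (x * L) ^ (2 / 3 : ℝ)))) := by gcongr
    _ = 225 * 625 * 64 * C * u ^ 10 * (x + L + (x * L) ^ (2 / 3 : ℝ)) := by ring
    _ ≤ u * u ^ 10 * (x + L + (x * L) ^ (2 / 3 : ℝ)) := by gcongr
    _ = u ^ 11 * (x + L + (x * L) ^ (2 / 3 : ℝ)) := by ring
    _ ≤ _ := by gcongr

/-- `blk_ls₁`, `cls'` (`ε = s / 10`): `Y J = 2 R^{1/3} (Y / X)^{1/3}`, `Y J X ≤ 2 R^{1/3} X Y`,
`Y J X^{2/3} = 2 R^{1/3} (X Y)^{1/3}`. -/
theorem bk_E₁ {s : ℝ} (hs : 0 < s) (hs1 : s ≤ 1 / 10 ^ 12) : ∀ᶠ x : ℝ in atTop, ∀ X Y : ℝ,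
    1 ≤ X → 1 ≤ Y → X * Y ≤ x ^ (1 - 1 / 10 ^ 10 : ℝ) → x ^ (1 / 10 ^ 10 : ℝ) * Y ≤ X →
    LSb (bk (x ^ (1 + s)) X Y) (x ^ (1 + s)) (x ^ (4 / 3 - 7 * s)) := by
  obtain ⟨C, hC, H⟩ := cls' (ε := s / 10) (by positivity)
  filter_upwards [eventually_ge_atTop (1 : ℝ), (tendsto_rpow_atTop
    (show (0 : ℝ) < 1 / 10 ^ 11 by norm_num)).eventually_ge_atTop (225 * 625 * 6 * C)]
    with x hx hCx X Y hX hY h1 h2
  have x0 : 0 < x := by linarith
  have hR1 : 1 ≤ x ^ (1 + s) := Real.one_le_rpow hx (by linarith)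
  have hE : (X * x ^ (1 + s)) ^ (s / 10) ≤ x ^ s := by
    have e1 : X ≤ x ^ (1 : ℝ) := by
      refine (le_mul_of_one_le_right (by linarith) hY).trans (h1.trans ?_)
      exact Real.rpow_le_rpow_of_exponent_le hx (by norm_num)
    calc (X * x ^ (1 + s)) ^ (s / 10) ≤ (x ^ (1 : ℝ) * x ^ (1 + s)) ^ (s / 10) := by gcongr
      _ = x ^ ((1 + (1 + s)) * (s / 10)) := by
          rw [← Real.rpow_add x0, ← Real.rpow_mul x0.le]
      _ ≤ x ^ s := by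
          refine Real.rpow_le_rpow_of_exponent_le hx ?_
          have : s ≤ 1 := hs1.trans (by norm_num)
          nlinarith
  have G := blk_ls₁ (Y := Y) (J := (8 * x ^ (1 + s) / (X * Y ^ 2)) ^ (1 / 3 : ℝ)) (by linarith)
    (by positivity) (by positivity) (H X _ hX hR1)
  refine G.mono subset_rfl ?_
  have hw : x ^ (1 / 10 ^ 10 : ℝ) = (x ^ (1 / 10 ^ 10 / 3 : ℝ)) ^ 3 := by
    rw [← Real.rpow_mul_natCast x0.le]; norm_num
  have hr : x ^ (1 + s) = (x ^ ((1 + s) / 3)) ^ 3 := by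
    rw [← Real.rpow_natCast, ← Real.rpow_mul x0.le]; congr 1; push_cast; ring
  have h1' : X * Y * x ^ (1 / 10 ^ 10 : ℝ) ≤ x ^ (1 + s) := by
    rw [Real.rpow_sub x0, le_div_iff₀ (by positivity)] at h1
    exact h1.trans (Real.rpow_le_rpow_of_exponent_le hx (by linarith))
  have hfin : x ^ (1 / 10 ^ 11 : ℝ) * x ^ s * ((x ^ ((1 + s) / 3)) ^ 4 / x ^ (1 / 10 ^ 10 / 3 : ℝ)) ≤
      x ^ (4 / 3 - 7 * s) := by
    rw [← Real.rpow_mul_natCast x0.le, ← Real.rpow_sub x0, ← Real.rpow_add x0,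
      ← Real.rpow_add x0]
    refine Real.rpow_le_rpow_of_exponent_le hx ?_
    push_cast
    norm_num at hs1 ⊢
    linarith
  have w1 : 1 ≤ x ^ (1 / 10 ^ 10 / 3 : ℝ) := Real.one_le_rpow hx (by norm_num)
  have r0 : 0 < x ^ ((1 + s) / 3) := by positivity
  have E0 : 0 ≤ (X * x ^ (1 + s)) ^ (s / 10) := by positivity
  have F0 : 0 ≤ x ^ s := by positivity
  generalize (X * x ^ (1 + s)) ^ (s / 10) = E at *
  rw [hw] at h1' h2
  rw [hr] at h1' ⊢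
  generalize x ^ ((1 + s) / 3) = r at *
  generalize x ^ (1 / 10 ^ 10 / 3 : ℝ) = w at *
  generalize x ^ (1 / 10 ^ 11 : ℝ) = c at *
  generalize x ^ (4 / 3 - 7 * s) = T at *
  generalize x ^ s = F at *
  obtain ⟨a, ha, rfl⟩ := cg_cube (show 0 < X by linarith)
  obtain ⟨b, hb, rfl⟩ := cg_cube (show 0 < Y by linarith)
  have w0 : 0 < w := by linarith
  have eJ : (8 * r ^ 3 / (a ^ 3 * (b ^ 3) ^ 2)) ^ (1 / 3 : ℝ) = 2 * r / (a * b ^ 2) := by
    rw [← cg_rp1 (u := 2 * r / (a * b ^ 2)) (by positivity)]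
    congr 1
    ring
  rw [eJ, ← mul_pow a r, cg_rp (by positivity) 2 (by norm_num)]
  have a1 : 1 ≤ a := cg_le ha.le (by simpa using hX)
  have b1 : 1 ≤ b := cg_le hb.le (by simpa using hY)
  have hwb : w * b ≤ a := cg_le ha.le (by rw [mul_pow]; exact h2)
  have hab : a * b * w ≤ r := cg_le r0.le (by rw [mul_pow, mul_pow]; exact h1')
  have e1 : b ^ 3 * (2 * r / (a * b ^ 2)) * (a ^ 3 + r ^ 3 + (a * r) ^ 2) =
      2 * r * (a ^ 2 * b) + 2 * r ^ 4 * (b / a) + 2 * r ^ 3 * (a * b) := by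
    field_simp
  have c1 : a * b ≤ r / w := by rwa [le_div_iff₀ w0]
  have c2 : b / a ≤ 1 / w := by
    rw [div_le_div_iff₀ ha w0]; linarith
  have c3 : a ^ 2 * b ≤ r ^ 2 * (r / w) := by
    have d1 : a ≤ r := by
      calc a = a * 1 * 1 := by ring
        _ ≤ a * b * w := by gcongr
        _ ≤ r := hab
    have d2 : r ≤ r ^ 2 := by nlinarith
    calc a ^ 2 * b = a * (a * b) := by ring
      _ ≤ r ^ 2 * (r / w) := by gcongr; linarith
  have c4 : b ^ 3 * (2 * r / (a * b ^ 2)) * (a ^ 3 + r ^ 3 + (a * r) ^ 2) ≤ 6 * (r ^ 4 / w) := by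
    rw [e1]
    calc _ ≤ 2 * r * (r ^ 2 * (r / w)) + 2 * r ^ 4 * (1 / w) + 2 * r ^ 3 * (r / w) := by gcongr
      _ = 6 * (r ^ 4 / w) := by ring
  have c0 : 0 ≤ c := le_trans (by positivity) hCx
  calc _ = 225 * 625 * C * E * (b ^ 3 * (2 * r / (a * b ^ 2)) * (a ^ 3 + r ^ 3 + (a * r) ^ 2)) := by
        ring
    _ ≤ 225 * 625 * C * F * (6 * (r ^ 4 / w)) := by gcongr
    _ = 225 * 625 * 6 * C * F * (r ^ 4 / w) := by ring
    _ ≤ c * F * (r ^ 4 / w) := by gcongr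
    _ ≤ T := hfin

end Crest.Agent.R012.Far

end
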