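import Crest.Agent.R012.FL

/-! # Row 12: the trichotomy of blocks -/

set_option autoImplicit false

noncomputable section

open scoped BigOperators ComplexConjugate Topology
open Complex MeasureTheory Filter Crest.Agent.R017

namespace Crest.Agent.R012.Far

theorem fl2_cube {u v : ℝ} (hv : 0 ≤ v) (h : u ^ 3 ≤ v ^ 3) : u ≤ v :=
  le_of_pow_le_pow_left₀ (by norm_num) hv h

theorem fl2_pow {x : ℝ} (hx : 0 ≤ x) (a : ℝ) (n : ℕ) : (x ^ a) ^ n = x ^ (n * a) := by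
  rw [← Real.rpow_natCast, ← Real.rpow_mul hx, mul_comm]

theorem fl2_J {u : ℝ} (hu : 0 ≤ u) : (u ^ (1 / 3 : ℝ)) ^ 3 = u := by
  rw [fl2_pow hu]; norm_num

/-- `blk_ls₃` (`ε = s / 10`; `X Y ≤ X⁵ Y⁴ ≤ x³`): `J ≤ 5 R^{1/3} x^{-δ/3}` and
`J (X Y)² = 2 R^{1/3} (X⁵ Y⁴)^{1/3}`. -/
theorem bk_E₃ {s δ : ℝ} (hs : 0 < s) (hs1 : s ≤ 1 / 10 ^ 12) (hsδ : s ≤ δ / 100) :
    ∀ᶠ x : ℝ in atTop, ∀ X Y : ℝ, 1 ≤ X → 1 ≤ Y → x ^ δ < 9 * (X * Y ^ 2) →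
    X ^ 5 * Y ^ 4 ≤ x ^ (3 - 3 / 10 ^ 10 : ℝ) →
    LSb (bk (x ^ (1 + s)) X Y) (x ^ (1 + s)) (x ^ (4 / 3 - 7 * s)) := by
  obtain ⟨C, hC, H⟩ := blk_ls₃ (show 0 < s / 10 by positivity)
  filter_upwards [ev_log (7 * C) hs] with x ⟨hx, e1⟩ X Y hX hY hZ h3
  have hx0 : 0 < x := by linarith
  have hl := Real.log_nonneg hx
  have pw : ∀ {u v : ℝ}, u ≤ v → x ^ u ≤ x ^ v := fun h => Real.rpow_le_rpow_of_exponent_le hx h
  have ad : ∀ u v : ℝ, x ^ u * x ^ v = x ^ (u + v) := fun u v => (Real.rpow_add hx0 _ _).symm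
  have hXY : 0 < X * Y ^ 2 := by positivity
  have hJ := fl2_J (u := 8 * x ^ (1 + s) / (X * Y ^ 2)) (by positivity)
  refine (H X Y _ _ hX hY (by positivity) (Real.one_le_rpow hx (by linarith))).mono le_rfl ?_
  have hJ0 : 0 ≤ (8 * x ^ (1 + s) / (X * Y ^ 2)) ^ (1 / 3 : ℝ) := by positivity
  generalize (8 * x ^ (1 + s) / (X * Y ^ 2)) ^ (1 / 3 : ℝ) = J at *
  have a1 : J ≤ 5 * x ^ ((1 + s - δ) / 3) := by
    refine fl2_cube (by positivity) ?_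
    rw [hJ, mul_pow, fl2_pow hx0.le, div_le_iff₀ hXY]
    have : x ^ (1 + s) = x ^ (((3 : ℕ) : ℝ) * ((1 + s - δ) / 3)) * x ^ δ := by
      rw [ad]; congr 1; push_cast; ring
    rw [this]
    have : 0 ≤ x ^ (((3 : ℕ) : ℝ) * ((1 + s - δ) / 3)) := by positivity
    nlinarith [mul_le_mul_of_nonneg_left hZ.le this, mul_nonneg this hXY.le]
  have a2 : J * (X * Y) ^ 2 ≤ 2 * x ^ ((4 + s - 3 / 10 ^ 10) / 3) := by
    refine fl2_cube (by positivity) ?_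
    rw [mul_pow, hJ, mul_pow (2 : ℝ), fl2_pow hx0.le]
    calc _ = 8 * x ^ (1 + s) * (X ^ 5 * Y ^ 4) := by field_simp
      _ ≤ 8 * x ^ (1 + s) * x ^ (3 - 3 / 10 ^ 10 : ℝ) := by gcongr
      _ = _ := by rw [mul_assoc, ad]; congr 2 <;> (push_cast; ring)
  have a3 : (X * Y) ^ (s / 10) ≤ x ^ (3 * (s / 10)) := by
    rw [Real.rpow_mul hx0.le]
    refine Real.rpow_le_rpow (by positivity) (le_trans ?_ (h3.trans (pw (by norm_num)))) (by positivity)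
    exact mul_le_mul (le_self_pow₀ hX (by norm_num)) (le_self_pow₀ hY (by norm_num)) (by linarith)
      (by positivity)
  have a4 : J * x ^ (1 + s) ≤ 5 * x ^ (4 / 3 - 8 * s) := by
    refine (mul_le_mul_of_nonneg_right a1 (by positivity)).trans ?_
    rw [mul_assoc, ad]
    exact mul_le_mul_of_nonneg_left (pw (by linarith)) (by norm_num)
  have a5 : J * (X * Y) ^ (2 + s / 10) ≤ 2 * x ^ (4 / 3 - 8 * s) := by
    rw [Real.rpow_add (by positivity), ← mul_assoc, Real.rpow_two]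
    refine (mul_le_mul a2 a3 (by positivity) (by positivity)).trans ?_
    rw [mul_assoc, ad]
    exact mul_le_mul_of_nonneg_left (pw (by linarith)) (by norm_num)
  calc _ = C * (J * x ^ (1 + s) + J * (X * Y) ^ (2 + s / 10)) := by ring
    _ ≤ C * (7 * x ^ (4 / 3 - 8 * s)) := by gcongr; linarith
    _ = 7 * C * x ^ (4 / 3 - 8 * s) := by ring
    _ ≤ x ^ s * x ^ (4 / 3 - 8 * s) := by gcongr; nlinarith
    _ = _ := by rw [ad]; congr 1; ring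

/-- Here `X³ ≥ x^{3 - 3·10⁻¹⁰} / (64 R²)`, `X Y² ≥ X³ / y²`, so `J ≤ x^{10⁻⁹}`; `X³ ≤ 8 y² R` and
`Y² ≤ 8 R / X`, so `X Y ≤ x^{2/3 + 10⁻⁹}`; `blk_ls₃` (`ε = 10⁻⁴`), `card_blk_le`, `blk_rad`. -/
theorem bk_B {s : ℝ} (hs : 0 < s) (hs1 : s ≤ 1 / 10 ^ 12) : ∀ᶠ x : ℝ in atTop, ∀ X Y : ℝ,
    1 ≤ X → 1 ≤ Y → X * Y ^ 2 ≤ 8 * x ^ (1 + s) → X ≤ x ^ (1 / 10 ^ 10 : ℝ) * Y →
    x ^ (3 - 3 / 10 ^ 10 : ℝ) ≤ X ^ 5 * Y ^ 4 →
    LSB (bk (x ^ (1 + s)) X Y) x ∧ ((bk (x ^ (1 + s)) X Y).card : ℝ) ≤ x ^ (68 / 100 : ℝ) ∧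
      ∀ r ∈ bk (x ^ (1 + s)) X Y, Nr (rad r) ≤ x ^ (68 / 100 : ℝ) := by
  obtain ⟨C, hC, H⟩ := blk_ls₃ (show (0 : ℝ) < 1 / 10 ^ 4 by norm_num)
  filter_upwards [ev_log (128 * C) (show (0 : ℝ) < 1 / 10 ^ 4 by norm_num),
    ev_log (225 * 15625 * 32) (show (0 : ℝ) < 1 / 10 ^ 4 by norm_num)] with x ⟨hx, e1⟩ ⟨_, e2⟩
    X Y hX hY h1 h2 h3
  have hx0 : 0 < x := by linarith
  have hl := Real.log_nonneg hx
  have pw : ∀ {u v : ℝ}, u ≤ v → x ^ u ≤ x ^ v := fun h => Real.rpow_le_rpow_of_exponent_le hx h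
  have ad : ∀ u v : ℝ, x ^ u * x ^ v = x ^ (u + v) := fun u v => (Real.rpow_add hx0 _ _).symm
  have hXY : 0 < X * Y ^ 2 := by positivity
  have hJ := fl2_J (u := 8 * x ^ (1 + s) / (X * Y ^ 2)) (by positivity)
  have hJ0 : 0 ≤ (8 * x ^ (1 + s) / (X * Y ^ 2)) ^ (1 / 3 : ℝ) := by positivity
  unfold bk
  generalize (8 * x ^ (1 + s) / (X * Y ^ 2)) ^ (1 / 3 : ℝ) = J at *
  have b1 : X ^ 3 ≤ x ^ (2 / 10 ^ 10 : ℝ) * (X * Y ^ 2) := by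
    have := mul_le_mul_of_nonneg_left (pow_le_pow_left₀ (by linarith) h2 2) (show 0 ≤ X by linarith)
    rw [mul_pow, fl2_pow hx0.le] at this
    calc _ = X * X ^ 2 := by ring
      _ ≤ _ := this
      _ = _ := by norm_num; ring
  have b2 : X ≤ 2 * x ^ ((1 + s + 2 / 10 ^ 10) / 3) := by
    refine fl2_cube (by positivity) (b1.trans ((mul_le_mul_of_nonneg_left h1 (by positivity)).trans
      (le_of_eq ?_)))
    rw [mul_pow, fl2_pow hx0.le, mul_left_comm, ad]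
    congr 2 <;> (push_cast; ring)
  have b3 : X * Y ≤ 4 * x ^ (2 / 3 + 1 / 10 ^ 10 : ℝ) := by
    refine le_of_pow_le_pow_left₀ (n := 2) (by norm_num) (by positivity) ?_
    calc _ = X * (X * Y ^ 2) := by ring
      _ ≤ 2 * x ^ ((1 + s + 2 / 10 ^ 10) / 3) * (8 * x ^ (1 + s)) := by gcongr
      _ = 16 * (x ^ ((1 + s + 2 / 10 ^ 10) / 3) * x ^ (1 + s)) := by ring
      _ ≤ _ := by
        rw [ad, mul_pow, fl2_pow hx0.le]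
        exact mul_le_mul (by norm_num) (pw (by push_cast; linarith)) (by positivity) (by norm_num)
  have b4 : J ≤ 8 * x ^ (2 / 10 ^ 10 : ℝ) := by
    refine fl2_cube (by positivity) ?_
    rw [hJ, mul_pow, fl2_pow hx0.le, div_le_iff₀ hXY]
    have c1 : x ^ (3 - 3 / 10 ^ 10 : ℝ) ≤
        x ^ (2 / 10 ^ 10 : ℝ) * (X * Y ^ 2) * (8 * x ^ (1 + s)) ^ 2 := by
      calc _ ≤ X ^ 5 * Y ^ 4 := h3
        _ = X ^ 3 * (X * Y ^ 2) ^ 2 := by ring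
        _ ≤ _ := by gcongr
    refine le_of_mul_le_mul_left (a := x ^ (2 / 10 ^ 10 : ℝ) * (x ^ (1 + s)) ^ 2) ?_ (by positivity)
    calc _ = 8 * (x ^ (2 / 10 ^ 10 : ℝ) * (x ^ (1 + s)) ^ 3) := by ring
      _ ≤ 8 * (x ^ (((3 : ℕ) : ℝ) * (2 / 10 ^ 10)) * x ^ (3 - 3 / 10 ^ 10 : ℝ)) := by
        rw [fl2_pow hx0.le, ad, ad]
        exact mul_le_mul_of_nonneg_left (pw (by push_cast; linarith)) (by norm_num)
      _ ≤ 8 * (x ^ (((3 : ℕ) : ℝ) * (2 / 10 ^ 10)) *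
          (x ^ (2 / 10 ^ 10 : ℝ) * (X * Y ^ 2) * (8 * x ^ (1 + s)) ^ 2)) := by gcongr
      _ = _ := by ring
  have b5 : 225 * 15625 * (X * Y * J) ≤ x ^ (68 / 100 : ℝ) := by
    calc _ ≤ 225 * 15625 * (4 * x ^ (2 / 3 + 1 / 10 ^ 10 : ℝ) * (8 * x ^ (2 / 10 ^ 10 : ℝ))) := by
          gcongr
      _ = 225 * 15625 * 32 * (x ^ (2 / 3 + 1 / 10 ^ 10 : ℝ) * x ^ (2 / 10 ^ 10 : ℝ)) := by ring
      _ ≤ x ^ (1 / 10 ^ 4 : ℝ) * (x ^ (2 / 3 + 1 / 10 ^ 10 : ℝ) * x ^ (2 / 10 ^ 10 : ℝ)) := by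
          gcongr; nlinarith
      _ ≤ _ := by rw [ad, ad]; exact pw (by norm_num)
  have b0 : 0 ≤ X * Y * J := by positivity
  refine ⟨fun L hL _ => (H X Y J L hX hY hJ0 hL).mono le_rfl ?_,
    (card_blk_le (by linarith) (by linarith) hJ0).trans b5, fun r hr => (blk_rad hr).trans (by linarith)⟩
  have b6 : X * Y ≤ x := by
    calc _ ≤ _ := b3
      _ ≤ x ^ (1 / 10 ^ 4 : ℝ) * x ^ (2 / 3 + 1 / 10 ^ 10 : ℝ) := by gcongr; nlinarith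
      _ ≤ x ^ (1 : ℝ) := by rw [ad]; exact pw (by norm_num)
      _ = x := Real.rpow_one x
  have b7 : (X * Y) ^ (2 + 1 / 10 ^ 4 : ℝ) ≤ 16 * x ^ (2 / 10 ^ 4 : ℝ) * x ^ (4 / 3 : ℝ) := by
    rw [Real.rpow_add (by positivity), Real.rpow_two]
    calc _ ≤ (4 * x ^ (2 / 3 + 1 / 10 ^ 10 : ℝ)) ^ 2 * x ^ (1 / 10 ^ 4 : ℝ) := by gcongr
      _ ≤ _ := by
        rw [mul_pow, fl2_pow hx0.le, mul_assoc, mul_assoc, ad, ad]
        exact mul_le_mul (by norm_num) (pw (by norm_num)) (by positivity) (by norm_num)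
  have b8 : 1 ≤ 16 * x ^ (2 / 10 ^ 4 : ℝ) := by
    have := Real.one_le_rpow hx (show (0 : ℝ) ≤ 2 / 10 ^ 4 by norm_num)
    linarith
  calc _ ≤ C * (8 * x ^ (2 / 10 ^ 10 : ℝ)) * (16 * x ^ (2 / 10 ^ 4 : ℝ) * (L + x ^ (4 / 3 : ℝ))) := by
        gcongr; nlinarith
    _ = 128 * C * (x ^ (2 / 10 ^ 10 : ℝ) * x ^ (2 / 10 ^ 4 : ℝ)) * (L + x ^ (4 / 3 : ℝ)) := by ring
    _ ≤ x ^ (1 / 10 ^ 4 : ℝ) * (x ^ (2 / 10 ^ 10 : ℝ) * x ^ (2 / 10 ^ 4 : ℝ)) * (L + x ^ (4 / 3 : ℝ)) := by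
        gcongr; nlinarith
    _ ≤ _ := by
        rw [ad, ad]
        exact mul_le_mul_of_nonneg_right (pw (by norm_num)) (by positivity)

end Crest.Agent.R012.Far

end
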