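import Crest.Agent.R012.FK
import Crest.Agent.R012.FL1
import Crest.Agent.R012.FL2

/-! # Row 12: assembly of the far rows -/

set_option autoImplicit false

noncomputable section

open scoped BigOperators ComplexConjugate Topology
open Complex MeasureTheory Filter Crest.Agent.R017

namespace Crest.Agent.R012.Far

/-- Take `s = min (min s_A s_B) (min 10⁻¹² (δ / 100))`. Four cases: `bk_A` and `famA`; `bk_E₁` or
`bk_E₃` and `easy_LS` (`ε = s`); `bk_B` and `famB`. Use `bk_subset`, `not_cube_of_not_near`,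
`LSb.mono`. -/
theorem blk_fr (l : ℤ) {δ : ℝ} (hδ : 0 < δ) : ∃ s : ℝ, 0 < s ∧ s ≤ 1 ∧ ∀ᶠ x : ℝ in atTop, ∀ τ X Y : ℝ,
    |τ| ≤ x ^ s → 1 ≤ X → 1 ≤ Y → X ≤ x ^ (1 + s) → X * Y ^ 2 ≤ 8 * x ^ (1 + s) →
    x ^ δ < 9 * (X * Y ^ 2) →
    ∑ r ∈ (bk (x ^ (1 + s)) X Y).filter (fun r => ¬ Near (x ^ δ) r), ‖Pr l x τ r‖ ^ 2 ≤
      x ^ (7 / 3 - 2 * s) := by
  obtain ⟨sA, hsA, HA⟩ := famA l
  obtain ⟨sB, hsB, HB⟩ := famB l
  obtain ⟨s, hs, h1, h2, h3, h4⟩ : ∃ s : ℝ, 0 < s ∧ s ≤ sA ∧ s ≤ sB ∧ s ≤ 1 / 10 ^ 12 ∧ s ≤ δ / 100 :=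
    ⟨min (min sA sB) (min (1 / 10 ^ 12) (δ / 100)), by positivity,
      (min_le_left _ _).trans (min_le_left _ _), (min_le_left _ _).trans (min_le_right _ _),
      (min_le_right _ _).trans (min_le_left _ _), (min_le_right _ _).trans (min_le_right _ _)⟩
  obtain ⟨C, hC, HE⟩ := easy_LS hs l
  refine ⟨s, hs, by linarith, ?_⟩
  filter_upwards [HA, HB, bk_A hs h3, bk_E₁ hs h3, bk_E₃ hs h3 h4, bk_B hs h3, ev_log C hs,
    ev_log 1800 (show (0 : ℝ) < 1 / 10 ^ 9 by norm_num)] with x hA hB kA k1 k3 kB ⟨hx, e1⟩ ⟨_, e2⟩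
    τ X Y hτ hX hY hXR hXY hZ
  have hx0 : 0 < x := by linarith
  have hl := Real.log_nonneg hx
  have pw : ∀ {u v : ℝ}, u ≤ v → x ^ u ≤ x ^ v := fun h => Real.rpow_le_rpow_of_exponent_le hx h
  have hR : 0 ≤ x ^ (1 + s) := by positivity
  set S := (bk (x ^ (1 + s)) X Y).filter (fun r => ¬ Near (x ^ δ) r) with hS
  have hsub : S ⊆ bk (x ^ (1 + s)) X Y := Finset.filter_subset _ _
  have hbox : S ⊆ box (72 * x ^ (1 + s)) := hsub.trans (bk_subset hR (by linarith) (by linarith))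
  have h72 : 1800 * x ^ (1 + s) ≤ x ^ (1 + 1 / 10 ^ 8 : ℝ) := by
    calc 1800 * x ^ (1 + s) ≤ x ^ (1 / 10 ^ 9 : ℝ) * x ^ (1 + s) :=
          mul_le_mul_of_nonneg_right (by nlinarith) hR
      _ = x ^ (1 / 10 ^ 9 + (1 + s)) := (Real.rpow_add hx0 _ _).symm
      _ ≤ _ := pw (by linarith)
  have hcube : ∀ r ∈ S, ¬ IsCube r := fun r hr =>
    not_cube_of_not_near (Real.one_le_rpow hx hδ.le) (Finset.mem_filter.1 hr).2
  have easy : LSb (bk (x ^ (1 + s)) X Y) (x ^ (1 + s)) (x ^ (4 / 3 - 7 * s)) →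
      ∑ r ∈ S, ‖Pr l x τ r‖ ^ 2 ≤ x ^ (7 / 3 - 2 * s) := fun h => by
    have hc : (S.card : ℝ) ≤ x ^ 2 := by
      refine le_trans (by exact_mod_cast Finset.card_le_card hbox) ((card_box_le (by positivity)).trans ?_)
      rw [← Real.rpow_natCast]
      refine le_trans (by linarith) (h72.trans (pw (by norm_num)))
    refine (HE S x τ _ hx hc (Real.one_le_rpow hx (by linarith)) (h.mono hsub le_rfl)).trans ?_
    calc _ ≤ x ^ s * x ^ (1 + 3 * s) * x ^ (4 / 3 - 7 * s) := by gcongr; nlinarith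
      _ = x ^ (s + (1 + 3 * s) + (4 / 3 - 7 * s)) := by rw [← Real.rpow_add hx0, ← Real.rpow_add hx0]
      _ ≤ _ := pw (by linarith)
  rcases le_total (x ^ (1 - 1 / 10 ^ 10 : ℝ)) (X * Y) with c1 | c1
  · refine (hA S τ (hτ.trans (pw h1)) (hbox.trans (box_mono (by linarith)))
      (fun L a b => (kA X Y hX hY hXR hXY c1 L a b).mono hsub le_rfl) hcube).trans (pw (by linarith))
  rcases le_total (x ^ (1 / 10 ^ 10 : ℝ) * Y) X with c2 | c2
  · exact easy (k1 X Y hX hY c1 c2)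
  rcases le_total (X ^ 5 * Y ^ 4) (x ^ (3 - 3 / 10 ^ 10 : ℝ)) with c3 | c3
  · exact easy (k3 X Y hX hY hZ c3)
  obtain ⟨b1, b2, b3⟩ := kB X Y hX hY hXY c2 c3
  refine (hB S τ (hτ.trans (pw h2)) (le_trans (by exact_mod_cast Finset.card_le_card hsub) b2)
    (fun L a b => (b1 L a b).mono hsub le_rfl)
    fun r hr => ⟨(mem_box.1 (hbox hr)).1, hcube r hr, b3 r (hsub hr)⟩).trans (pw (by linarith))

/-- `w2_term_le`, `tsum_W_le`. -/
theorem norm_Pr_le (l : ℤ) : ∃ C : ℝ, 0 ≤ C ∧ ∀ (x τ : ℝ) (r : O), 0 < x → ‖Pr l x τ r‖ ≤ C * x ^ 2 := by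
  obtain ⟨C, hC⟩ := tsum_W_le (a := 4) (by norm_num) 1 (by norm_num)
  refine ⟨|C|, abs_nonneg _, fun x τ r hx => ?_⟩
  have hb : ∀ n, Prim n → ‖Lp n * az l n * kap n r‖ ≤ 1 * Nr n ^ (1 : ℝ) := fun n hn => by
    have h1 : ‖Lp n‖ ≤ Nr n := by
      unfold Lp
      split_ifs
      · rw [Complex.norm_real, Real.norm_of_nonneg (Real.log_nonneg (one_le_Nr hn.ne_zero))]
        exact Real.log_le_self (Nr_nonneg n)
      · simpa using Nr_nonneg n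
    rw [norm_mul, norm_mul, one_mul, Real.rpow_one]
    calc _ ≤ Nr n * 1 * 1 := by
          have := Nr_nonneg n
          gcongr
          exacts [norm_az_le _ _, norm_kap_le _ _]
      _ = _ := by ring
  have hs := summable_W (a := 4) (by norm_num) hx 1
  refine (tsum_of_norm_bounded hs.hasSum fun n => ?_).trans ((hC x hx).trans ?_)
  · simpa using w2_term_le (a := 4) (X := x) hb τ n
  · rw [show (1 + 1 : ℝ) = (2 : ℕ) by norm_num, Real.rpow_natCast]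
    exact mul_le_mul_of_nonneg_right (le_abs_self _) (by positivity)

/-- `rows_cover` with `ε = s / 2` and `blk_fr` for large `B`; `norm_Pr_le`, `card_box_le` for
bounded `B`. -/
theorem far_rows' (l : ℤ) {δ : ℝ} (hδ : 0 < δ) : ∃ s : ℝ, 0 < s ∧ ∃ C : ℝ, 0 ≤ C ∧ ∀ B τ : ℝ, 1 ≤ B →
    |τ| ≤ B ^ s →
    ∑ r ∈ (box (B ^ (1 + s))).filter (fun r => ¬ Near (B ^ δ) r), ‖Pr l B τ r‖ ^ 2 ≤
      C * B ^ (7 / 3 - s) := by
  obtain ⟨s, hs, hs1, H⟩ := blk_fr l hδ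
  obtain ⟨x₀, hx₀⟩ := eventually_atTop.1 H
  obtain ⟨C₁, hC₁, H₁⟩ := rows_cover (half_pos hs)
  obtain ⟨C₂, hC₂, H₂⟩ := norm_Pr_le l
  refine ⟨s, hs, C₁ + 25 * C₂ ^ 2 * x₀ ^ 6, by positivity, fun B τ hB hτ => ?_⟩
  have hB0 : 0 < B := by linarith
  have pw : ∀ {u v : ℝ}, u ≤ v → B ^ u ≤ B ^ v := fun h => Real.rpow_le_rpow_of_exponent_le hB h
  have h1 : 1 ≤ B ^ (7 / 3 - s) := Real.one_le_rpow hB (by linarith)
  rcases le_total x₀ B with h | h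
  · refine (H₁ _ _ (B ^ (7 / 3 - 2 * s)) (fun r => ‖Pr l B τ r‖ ^ 2) (Real.one_le_rpow hB (by linarith))
      (by positivity) (fun r => by positivity)
      fun X Y a1 a2 a3 _ a5 a6 => hx₀ B h τ X Y hτ a1 a2 a3 a5 a6).trans ?_
    rw [← Real.rpow_mul hB0.le, mul_assoc, ← Real.rpow_add hB0]
    have : 0 ≤ 25 * C₂ ^ 2 * x₀ ^ 6 := by positivity
    exact mul_le_mul (by linarith) (pw (by nlinarith)) (by positivity) (by positivity)
  · have h2 : B ^ (1 + s) ≤ B ^ 2 := by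
      rw [← Real.rpow_natCast]; exact pw (by push_cast; linarith)
    refine (cb_sum_le _ _ (N := 25 * B ^ 2) (B := (C₂ * B ^ 2) ^ 2) ?_ (by positivity) fun r _ =>
      pow_le_pow_left₀ (norm_nonneg _) (H₂ B τ r hB0) 2).trans ?_
    · refine le_trans (by exact_mod_cast Finset.card_filter_le _ _) ((card_box_le (by positivity)).trans ?_)
      linarith
    · calc _ = 25 * C₂ ^ 2 * B ^ 6 := by ring
        _ ≤ 25 * C₂ ^ 2 * x₀ ^ 6 := by gcongr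
        _ ≤ (C₁ + 25 * C₂ ^ 2 * x₀ ^ 6) * 1 := by linarith
        _ ≤ _ := by gcongr

end Crest.Agent.R012.Far

end
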