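import Crest.Agent.R012.CLS
import Crest.Agent.R012.Ang
import Crest.Agent.R012.FM

/-! # Row 12: far rows for primes in the balanced range (interface) -/

set_option autoImplicit false

noncomputable section

open scoped BigOperators ComplexConjugate Topology
open Complex MeasureTheory Filter Set Crest.Agent.R017

namespace Crest.Agent.R012

theorem far_rows (l : ℤ) {δ : ℝ} (hδ : 0 < δ) : ∃ s : ℝ, 0 < s ∧ ∃ C : ℝ, 0 ≤ C ∧ ∀ B τ : ℝ, 1 ≤ B →
    |τ| ≤ B ^ s →
    ∑ r ∈ (box (B ^ (1 + s))).filter (fun r => ¬ Near (B ^ δ) r),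
      ‖sm 4 (fun b => Lp b * az l b * kap b r) B τ‖ ^ 2 ≤ C * B ^ (7 / 3 - s) := by
  have e : ∀ B τ r, Far.Pr l B τ r = sm 4 (fun b => Lp b * az l b * kap b r) B τ := fun _ _ _ => rfl
  simpa only [e] using Far.far_rows' l hδ

end Crest.Agent.R012

end
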