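import Crest.Agent.R012.DF1
import Crest.Agent.R012.FR

/-! # Row 12, dispersion: far rows for primes, critical range -/

set_option autoImplicit false

noncomputable section

open scoped BigOperators ComplexConjugate Topology
open Complex MeasureTheory Filter Set Crest.Agent.R017

namespace Crest.Agent.R012.D

theorem df2_norm_La (l : ℤ) {b : O} (hb : Prim b) : ‖Lp b * az l b‖ ≤ Nr b := by
  rw [norm_mul, norm_az l hb.ne_zero, mul_one]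
  exact (norm_Lp_le hb.ne_zero).trans
    ((Real.log_le_sub_one_of_pos (Nr_pos hb.ne_zero)).trans (by linarith))

theorem df2_norm_LpV (l : ℤ) (V : ℝ) {b : O} (hb : Prim b) : ‖LpV l V b‖ ≤ Nr b := by
  unfold LpV cut
  split_ifs
  · exact df2_norm_La l hb
  · simpa using Nr_nonneg b

theorem df2_mul_kap {z : ℂ} {x : ℝ} (h : ‖z‖ ≤ x) (b r : O) : ‖z * kap b r‖ ≤ x := by
  rw [norm_mul]
  exact (mul_le_of_le_one_right (norm_nonneg _) (norm_kap_le _ _)).trans h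

/-- Trivial bound: `log N n ≤ N n`, `w2_term_le`, `tsum_W_le`. -/
theorem fp_triv : ∃ C : ℝ, 0 ≤ C ∧ ∀ (l : ℤ) (V Y t : ℝ) (r : O), 0 < Y →
    ‖sm 4 (fun b => LpV l V b * kap b r) Y t‖ ≤ C * Y ^ 2 := by
  obtain ⟨C, hC⟩ := tsum_W_le (a := 4) (by norm_num) 1 (by norm_num)
  refine ⟨max C 0, le_max_right _ _, fun l V Y t r hY => ?_⟩
  have h1 := tsum_of_norm_bounded (summable_W (a := 4) (by norm_num) hY 1).hasSum
    (f := fun n : O => if Prim n then (LpV l V n * kap n r) * (Nr n : ℂ) ^ (-(t * I)) *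
      (W 4 (Nr n / Y) : ℂ) else 0) (fun n => by
      have := w2_term_le (a := 4) (X := Y) (c := fun b => LpV l V b * kap b r) (K := 1) (A := 1)
        (fun n hn => by simpa using df2_mul_kap (df2_norm_LpV l V hn) n r) t n
      simpa using this)
  have h2 := hC Y hY
  rw [show (1 : ℝ) + 1 = (2 : ℕ) by norm_num, Real.rpow_natCast] at h2
  exact h1.trans (h2.trans (mul_le_mul_of_nonneg_right (le_max_left _ _) (by positivity)))

theorem df2_cut_num {x B Y : ℝ} (hx : 1 ≤ x) (hB : 1 ≤ B) (h1 : x ≤ B ^ (9 / 10 : ℝ))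
    (h2 : B * Real.exp (-2) ≤ Y) :
    x * (x / Y) ^ (40 : ℝ) ≤ Real.exp 80 * B⁻¹ * x ^ (-(2 : ℝ)) := by
  have hY : 0 < Y := lt_of_lt_of_le (by positivity) h2
  obtain ⟨u, rfl⟩ : ∃ u, x = Real.exp u := ⟨_, (Real.exp_log (by linarith)).symm⟩
  obtain ⟨β, rfl⟩ : ∃ u, B = Real.exp u := ⟨_, (Real.exp_log (by linarith)).symm⟩
  obtain ⟨y, rfl⟩ : ∃ u, Y = Real.exp u := ⟨_, (Real.exp_log hY).symm⟩
  rw [Real.one_le_exp_iff] at hx hB
  simp only [← Real.exp_mul, ← Real.exp_add, ← Real.exp_sub, ← Real.exp_neg,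
    Real.exp_le_exp] at h1 h2 ⊢
  linarith

/-- Removing the cut: the difference is supported on `N b ≤ B^{9/10}`, where
`W 4 (N b / Y) ≤ C (N b / Y)^{30}` (`W_le_rpow`). -/
theorem fp_cut : ∃ C : ℝ, 0 ≤ C ∧ ∀ (l : ℤ) (B V Y t : ℝ) (r : O), 1 ≤ B → V ≤ B ^ (9 / 10 : ℝ) →
    B * Real.exp (-2) ≤ Y →
    ‖sm 4 (fun b => LpV l V b * kap b r) Y t - sm 4 (fun b => Lp b * az l b * kap b r) Y t‖ ≤
      C * B⁻¹ := by
  have hs := summable_Nr_rpow (σ := 2) (by norm_num)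
  refine ⟨Real.exp (4 * 40 ^ 2) * Real.exp 80 * ∑' x : O, Nr x ^ (-(2 : ℝ)),
    mul_nonneg (by positivity) (tsum_nonneg fun x => Real.rpow_nonneg (Nr_nonneg x) _),
    fun l B V Y t r hB hV hY => ?_⟩
  have hY0 : 0 < Y := lt_of_lt_of_le (by positivity) hY
  have s1 := summable_sm (a := 4) (by norm_num) hY0 (c := fun b => LpV l V b * kap b r) (K := 1)
    (A := 1) (fun n hn => by simpa using df2_mul_kap (df2_norm_LpV l V hn) n r) t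
  have s2 := summable_sm (a := 4) (by norm_num) hY0 (c := fun b => Lp b * az l b * kap b r) (K := 1)
    (A := 1) (fun n hn => by simpa using df2_mul_kap (df2_norm_La l hn) n r) t
  unfold sm
  rw [← s1.tsum_sub s2]
  refine (tsum_of_norm_bounded
    (hs.hasSum.mul_left (Real.exp (4 * 40 ^ 2) * Real.exp 80 * B⁻¹)) fun n => ?_).trans_eq (by ring)
  have hpos : 0 ≤ Real.exp (4 * 40 ^ 2) * Real.exp 80 * B⁻¹ * Nr n ^ (-(2 : ℝ)) :=
    mul_nonneg (by positivity) (Real.rpow_nonneg (Nr_nonneg n) _)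
  by_cases hn : Prim n
  swap
  · simpa [hn] using hpos
  rw [if_pos hn, if_pos hn]
  by_cases hc : Nr n ∈ Ioi V
  · have : LpV l V n = Lp n * az l n := if_pos hc
    rw [this, sub_self, norm_zero]
    exact hpos
  · have : LpV l V n = 0 := if_neg hc
    have hn0 := Nr_pos hn.ne_zero
    rw [this, zero_mul, zero_mul, zero_mul, zero_sub, norm_neg,
      w2_norm_term (c := fun b => Lp b * az l b * kap b r) hn]
    have h1 := df2_mul_kap (df2_norm_La l hn) n r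
    have h2 := W_le_rpow (a := 4) (by norm_num) (div_pos hn0 hY0) 40
    have h3 := df2_cut_num (one_le_Nr hn.ne_zero) hB ((not_lt.1 hc).trans hV) hY
    calc _ ≤ Nr n * (Real.exp (4 * 40 ^ 2) * (Nr n / Y) ^ (40 : ℝ)) :=
          mul_le_mul h1 h2 (W_pos _ _).le hn0.le
      _ = Real.exp (4 * 40 ^ 2) * (Nr n * (Nr n / Y) ^ (40 : ℝ)) := by ring
      _ ≤ Real.exp (4 * 40 ^ 2) * (Real.exp 80 * B⁻¹ * Nr n ^ (-(2 : ℝ))) :=
          mul_le_mul_of_nonneg_left h3 (Real.exp_pos _).le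
      _ = _ := by ring

theorem df2_mem_rows {S : O → Prop} {R : ℝ} {r : O} : r ∈ rows S R ↔ r ∈ box R ∧ S r := by
  classical
  unfold rows
  convert Finset.mem_filter

theorem df2_card (S : O → Prop) {B R s : ℝ} (hB : 1 ≤ B) (hs : s ≤ 1) (hR : R ≤ B ^ (1 + s)) :
    ((rows S R).card : ℝ) ≤ 25 * B ^ 2 := by
  have h1 : R ≤ B ^ 2 := hR.trans (by
    rw [← Real.rpow_natCast]
    exact Real.rpow_le_rpow_of_exponent_le hB (by push_cast; linarith))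
  have h2 : rows S R ⊆ box (B ^ 2) := fun r hr => box_mono h1 (df2_mem_rows.1 hr).1
  exact le_trans (by exact_mod_cast Finset.card_le_card h2) (card_box_le (by positivity))

theorem df2_triv : ∃ C : ℝ, 0 ≤ C ∧ ∀ (S : O → Prop) (l : ℤ) (B V Y R t s : ℝ), 1 ≤ B → 0 < Y →
    Y ≤ B * Real.exp 16 → s ≤ 1 → R ≤ B ^ (1 + s) →
    ∑ r ∈ rows S R, ‖sm 4 (fun b => LpV l V b * kap b r) Y t‖ ^ 2 ≤ C * B ^ 6 := by
  obtain ⟨C, hC, h⟩ := fp_triv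
  refine ⟨25 * (C * Real.exp 16 ^ 2) ^ 2, by positivity, fun S l B V Y R t s hB hY hY' hs hR => ?_⟩
  have h1 : ∀ r ∈ rows S R, ‖sm 4 (fun b => LpV l V b * kap b r) Y t‖ ^ 2 ≤
      (C * (B * Real.exp 16) ^ 2) ^ 2 := fun r _ =>
    pow_le_pow_left₀ (norm_nonneg _) ((h l V Y t r hY).trans
      (mul_le_mul_of_nonneg_left (pow_le_pow_left₀ hY.le hY' 2) hC)) 2
  refine (Finset.sum_le_card_nsmul _ _ _ h1).trans ?_
  rw [nsmul_eq_mul]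
  calc _ ≤ 25 * B ^ 2 * (C * (B * Real.exp 16) ^ 2) ^ 2 :=
        mul_le_mul_of_nonneg_right (df2_card S hB hs hR) (by positivity)
    _ = _ := by ring

theorem df2_wide_num {s s₀ δ B Y : ℝ} (hs : 0 < s) (hs4 : s ≤ 1 / 4) (h0 : 4 * s ≤ s₀)
    (hδ : 0 < δ) (hB : Real.exp (4 / s) ≤ B) (h1 : B * Real.exp (-2) ≤ Y)
    (h2 : Y ≤ B * Real.exp 16) : 1 ≤ Y ∧ Y ^ (δ / 2) ≤ B ^ δ ∧ B ^ (1 + s) ≤ Y ^ (1 + s₀) ∧
      3 * B ^ (2 * s) ≤ Y ^ s₀ ∧ Y ^ (7 / 3 - s₀) ≤ Real.exp 48 * B ^ (7 / 3 - s) := by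
  have hB0 : 0 < B := (Real.exp_pos _).trans_le hB
  have hY : 0 < Y := lt_of_lt_of_le (by positivity) h1
  obtain ⟨β, rfl⟩ : ∃ u, B = Real.exp u := ⟨_, (Real.exp_log hB0).symm⟩
  obtain ⟨y, rfl⟩ : ∃ u, Y = Real.exp u := ⟨_, (Real.exp_log hY).symm⟩
  simp only [← Real.exp_add, Real.exp_le_exp] at hB h1 h2
  have h3 : 4 ≤ β * s := (div_le_iff₀ hs).1 hB
  have h4 : 16 ≤ β := by nlinarith
  have hy : 0 ≤ y := by linarith
  have h5 : y * (4 * s) ≤ y * s₀ := mul_le_mul_of_nonneg_left h0 hy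
  have h6 : (β - 2) * s ≤ y * s := mul_le_mul_of_nonneg_right (by linarith) hs.le
  refine ⟨Real.one_le_exp hy, ?_, ?_, ?_, ?_⟩
  · simp only [← Real.exp_mul, Real.exp_le_exp]
    nlinarith
  · simp only [← Real.exp_mul, Real.exp_le_exp]
    nlinarith
  · have h7 : (3 : ℝ) ≤ Real.exp 2 := by linarith [Real.add_one_le_exp 2]
    refine (mul_le_mul_of_nonneg_right h7 (by positivity)).trans ?_
    simp only [← Real.exp_mul, ← Real.exp_add, Real.exp_le_exp]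
    nlinarith
  · simp only [← Real.exp_mul, ← Real.exp_add, Real.exp_le_exp]
    have h8 : y * (7 / 3 - s) ≤ (β + 16) * (7 / 3 - s) :=
      mul_le_mul_of_nonneg_right h2 (by linarith)
    nlinarith

/-- `far_rows` with `δ / 2` gives `s₀`; take `s = min s₀ 1 / 4`. For `B ≥ B₀`:
`Y^{δ/2} ≤ B^δ`, `B^{1+s} ≤ Y^{1+s₀}`, `3 B^{2 s} ≤ Y^{s₀}`; for `B ≤ B₀` use `fp_triv`. -/
theorem fp_wide (l : ℤ) {δ : ℝ} (hδ : 0 < δ) : ∃ s : ℝ, 0 < s ∧ s ≤ 1 / 4 ∧ ∃ C : ℝ, 0 ≤ C ∧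
    ∀ B V Y R t : ℝ, 1 ≤ B → V ≤ B ^ (9 / 10 : ℝ) → B * Real.exp (-2) ≤ Y → Y ≤ B * Real.exp 16 →
    R ≤ B ^ (1 + s) → |t| ≤ 3 * B ^ (2 * s) →
    ∑ r ∈ rows (Far (B ^ δ)) R, ‖sm 4 (fun b => LpV l V b * kap b r) Y t‖ ^ 2 ≤
      C * B ^ (7 / 3 - s) := by
  obtain ⟨s₀, hs₀, C₀, hC₀, h₀⟩ := far_rows l (half_pos hδ)
  obtain ⟨C₁, hC₁, h₁⟩ := fp_cut
  obtain ⟨C₂, hC₂, h₂⟩ := df2_triv
  have hm : 0 < min s₀ 1 := lt_min hs₀ one_pos
  obtain ⟨s, hs, hs4, h4⟩ : ∃ s : ℝ, 0 < s ∧ s ≤ 1 / 4 ∧ 4 * s ≤ s₀ :=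
    ⟨min s₀ 1 / 4, by linarith, by linarith [min_le_right s₀ 1], by linarith [min_le_left s₀ 1]⟩
  refine ⟨s, hs, hs4, 2 * (C₀ * Real.exp 48) + 50 * C₁ ^ 2 + C₂ * Real.exp (4 / s) ^ 6,
    by positivity, fun B V Y R t hB hV hY1 hY2 hR ht => ?_⟩
  have hQ : 1 ≤ B ^ (7 / 3 - s) := Real.one_le_rpow hB (by linarith)
  have hY : 0 < Y := lt_of_lt_of_le (by positivity) hY1
  have p1 : 0 ≤ 2 * (C₀ * Real.exp 48) * B ^ (7 / 3 - s) := by positivity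
  have p2 : 50 * C₁ ^ 2 ≤ 50 * C₁ ^ 2 * B ^ (7 / 3 - s) :=
    le_mul_of_one_le_right (by positivity) hQ
  have p3 : C₂ * Real.exp (4 / s) ^ 6 ≤ C₂ * Real.exp (4 / s) ^ 6 * B ^ (7 / 3 - s) :=
    le_mul_of_one_le_right (by positivity) hQ
  have p4 : 0 ≤ 50 * C₁ ^ 2 := by positivity
  have p5 : 0 ≤ C₂ * Real.exp (4 / s) ^ 6 := by positivity
  rw [add_mul, add_mul]
  rcases le_total B (Real.exp (4 / s)) with hb | hb
  · have h5 := h₂ (Far (B ^ δ)) l B V Y R t s hB hY hY2 (by linarith) hR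
    have h6 : C₂ * B ^ 6 ≤ C₂ * Real.exp (4 / s) ^ 6 :=
      mul_le_mul_of_nonneg_left (pow_le_pow_left₀ (by linarith) hb 6) hC₂
    linarith
  · obtain ⟨n1, n2, n3, n4, n5⟩ := df2_wide_num hs hs4 h4 hδ hb hY1 hY2
    have h5 := h₀ Y t n1 (ht.trans n4)
    have hsub : rows (Far (B ^ δ)) R ⊆
        (box (Y ^ (1 + s₀))).filter (fun r => ¬ Near (Y ^ (δ / 2)) r) := by
      intro r hr
      rw [df2_mem_rows] at hr
      rw [Finset.mem_filter]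
      exact ⟨box_mono (hR.trans n3) hr.1, fun ⟨k, y, e, hk⟩ => hr.2 ⟨k, y, e, hk.trans n2⟩⟩
    have h6 : ∑ r ∈ rows (Far (B ^ δ)) R, ‖sm 4 (fun b => Lp b * az l b * kap b r) Y t‖ ^ 2 ≤
        C₀ * (Real.exp 48 * B ^ (7 / 3 - s)) :=
      ((Finset.sum_le_sum_of_subset_of_nonneg hsub fun _ _ _ => by positivity).trans h5).trans
        (mul_le_mul_of_nonneg_left n5 hC₀)
    have h7 : ∀ r ∈ rows (Far (B ^ δ)) R, ‖sm 4 (fun b => LpV l V b * kap b r) Y t‖ ^ 2 ≤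
        2 * ‖sm 4 (fun b => Lp b * az l b * kap b r) Y t‖ ^ 2 + 2 * (C₁ * B⁻¹) ^ 2 := by
      intro r _
      have h8 := h₁ l B V Y t r hB hV hY1
      have h9 := (norm_le_insert' (sm 4 (fun b => LpV l V b * kap b r) Y t)
        (sm 4 (fun b => Lp b * az l b * kap b r) Y t)).trans (add_le_add_right h8 _)
      have h10 := pow_le_pow_left₀ (norm_nonneg _) h9 2
      nlinarith [sq_nonneg (‖sm 4 (fun b => Lp b * az l b * kap b r) Y t‖ - C₁ * B⁻¹)]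
    refine (Finset.sum_le_sum h7).trans ?_
    rw [Finset.sum_add_distrib, ← Finset.mul_sum, Finset.sum_const, nsmul_eq_mul]
    have h11 : ((rows (Far (B ^ δ)) R).card : ℝ) * (2 * (C₁ * B⁻¹) ^ 2) ≤ 50 * C₁ ^ 2 := by
      refine (mul_le_mul_of_nonneg_right (df2_card _ hB (by linarith) hR) (by positivity)).trans_eq ?_
      field_simp
      ring
    linarith

theorem df2_pow_exp {s : ℝ} (hs : 0 < s) : ∃ C : ℝ, 0 ≤ C ∧ ∀ B : ℝ, 1 ≤ B →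
    B ^ 6 ≤ C * Real.exp (B ^ (3 * s)) := by
  obtain ⟨k, hk⟩ := exists_nat_ge (2 / s)
  refine ⟨k.factorial, by positivity, fun B hB => ?_⟩
  have h1 : B ^ 6 ≤ (B ^ (3 * s)) ^ k := by
    rw [← Real.rpow_natCast, ← Real.rpow_natCast, ← Real.rpow_mul (by linarith)]
    refine Real.rpow_le_rpow_of_exponent_le hB ?_
    have := (div_le_iff₀ hs).1 hk
    push_cast
    linarith
  have h2 := Real.pow_div_factorial_le_exp (B ^ (3 * s)) (by positivity) k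
  rw [div_le_iff₀ (by positivity)] at h2
  linarith

theorem df2_rpow {B σ' : ℝ} (hB : 0 < B) (hσ : σ' ^ 2 ≤ 4) (S : Finset O) (c : O → O → ℂ)
    (t τ E : ℝ) (h : ∑ r ∈ S, ‖sm 4 (c r) (B * Real.exp (2 * 4 * σ')) (τ - t)‖ ^ 2 ≤ E) :
    ∑ r ∈ S, ‖sm 4 (fun n => c r n * (Nr n : ℂ) ^ ((σ' : ℂ) + t * I)) B τ‖ ^ 2 ≤
      Real.exp 32 * B ^ (2 * σ') * E := by
  simp only [sm_rpow (a := 4) (by norm_num) hB, norm_mul, mul_pow]
  rw [← Finset.mul_sum]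
  have h0 : 0 ≤ ∑ r ∈ S, ‖sm 4 (c r) (B * Real.exp (2 * 4 * σ')) (τ - t)‖ ^ 2 :=
    Finset.sum_nonneg fun _ _ => by positivity
  refine mul_le_mul ?_ h h0 (by positivity)
  rw [Complex.norm_real, Real.norm_eq_abs, sq_abs, mul_pow, mul_comm 2 σ', Real.rpow_mul hB.le,
    Real.rpow_two, mul_comm]
  refine mul_le_mul_of_nonneg_right ?_ (by positivity)
  rw [← Real.exp_nat_mul, Real.exp_le_exp]
  push_cast
  linarith

/-- `XX_co` (primes are squarefree), `sm_narrow_l2` with `b = 4`, `c⁻¹ = (2 θ)⁻¹ - 4⁻¹`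
(so `c ≥ 2 θ ≥ 2 B^{-s}`), `T = B^{2 s}`, `sm_rpow` (`Y = B e^{8 (σ - 1/2)}`), `fp_wide` if
`|t| ≤ B^{2 s}`; otherwise `fp_triv` and `exp (2 θ t²) ≥ exp (2 B^{3 s}) ≥ c B^6`. -/
theorem farP_mid (l : ℤ) {δ : ℝ} (hδ : 0 < δ) : ∃ s : ℝ, 0 < s ∧ s ≤ 1 / 4 ∧ ∃ C : ℝ, 0 ≤ C ∧
    ∀ θ B τ V R σ t : ℝ, 1 ≤ B → B ^ (-s) ≤ θ → θ ≤ 1 → |τ| ≤ B ^ s → V ≤ B ^ (9 / 10 : ℝ) →
    (σ = 1 / 4 ∨ σ = 5 / 2) → R ≤ B ^ (1 + s) →
    ∑ r ∈ rows (Far (B ^ δ)) R, ‖XX (fun n => co θ B τ (LpV l V) n * kap n r) (σ + t * I)‖ ^ 2 ≤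
      C * B ^ (2 * σ - 1) * B ^ (7 / 3 - s) * Real.exp (4 * θ * t ^ 2 / 2) := by
  obtain ⟨s, hs, hs4, C₁, hC₁, h₁⟩ := fp_wide l hδ
  obtain ⟨C₂, hC₂, h₂⟩ := df2_triv
  obtain ⟨C₃, hC₃, h₃⟩ := df2_pow_exp hs
  refine ⟨s, hs, hs4, Real.exp 32 * (C₁ + 3 * (C₂ * C₃)), by positivity,
    fun θ B τ V R σ t hB hθ hθ1 hτ hV hσ hR => ?_⟩
  have hB0 : 0 < B := by linarith
  have hθ0 : 0 < θ := (Real.rpow_pos_of_pos hB0 _).trans_le hθ
  have hQ : 1 ≤ B ^ (7 / 3 - s) := Real.one_le_rpow hB (by linarith)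
  have hX : 1 ≤ Real.exp (4 * θ * t ^ 2 / 2) := Real.one_le_exp (by positivity)
  have hσ2 : (σ - 1 / 2) ^ 2 ≤ 4 := by rcases hσ with rfl | rfl <;> norm_num
  have hY1 : B * Real.exp (-2) ≤ B * Real.exp (2 * 4 * (σ - 1 / 2)) :=
    mul_le_mul_of_nonneg_left (Real.exp_le_exp.2 (by rcases hσ with rfl | rfl <;> norm_num)) hB0.le
  have hY2 : B * Real.exp (2 * 4 * (σ - 1 / 2)) ≤ B * Real.exp 16 :=
    mul_le_mul_of_nonneg_left (Real.exp_le_exp.2 (by rcases hσ with rfl | rfl <;> norm_num)) hB0.le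
  have e : ∀ r : O, XX (fun n => co θ B τ (LpV l V) n * kap n r) (σ + t * I) =
      sm (2 * θ) (fun n => LpV l V n * kap n r *
        (Nr n : ℂ) ^ (((σ - 1 / 2 : ℝ) : ℂ) + t * I)) B τ := by
    intro r
    rw [XX_co]
    congr 1
    funext n
    split_ifs with hn
    · rfl
    · have : LpV l V n = 0 := by
        by_contra h
        exact hn (LpV_ne h).1.squarefree
      rw [this]
  simp only [e]
  have hi : 0 < (2 * θ)⁻¹ - 4⁻¹ := by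
    have : (2 : ℝ)⁻¹ ≤ (2 * θ)⁻¹ := inv_anti₀ (by linarith) (by linarith)
    linarith
  have hc : 2 * θ ≤ ((2 * θ)⁻¹ - 4⁻¹)⁻¹ := by
    rw [le_inv_comm₀ (by linarith) hi]
    linarith
  have hg : ∀ r n : O, Prim n → ‖LpV l V n * kap n r *
      (Nr n : ℂ) ^ (((σ - 1 / 2 : ℝ) : ℂ) + t * I)‖ ≤ 1 * Nr n ^ (1 + (σ - 1 / 2)) := by
    intro r n hn
    have hn0 := Nr_pos hn.ne_zero
    rw [norm_mul, norm_cpow_eq_rpow_re_of_pos hn0, one_mul, Real.rpow_add hn0, Real.rpow_one]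
    have : (((σ - 1 / 2 : ℝ) : ℂ) + t * I).re = σ - 1 / 2 := by simp
    rw [this]
    exact mul_le_mul_of_nonneg_right (df2_mul_kap (df2_norm_LpV l V hn) n r) (by positivity)
  have E2 : ∀ u : ℝ, ∑ r ∈ rows (Far (B ^ δ)) R, ‖sm 4 (fun n => LpV l V n * kap n r *
      (Nr n : ℂ) ^ (((σ - 1 / 2 : ℝ) : ℂ) + t * I)) B (τ + u)‖ ^ 2 ≤
      Real.exp 32 * B ^ (2 * (σ - 1 / 2)) * (C₂ * B ^ 6) := fun u =>
    df2_rpow hB0 hσ2 _ (fun r n => LpV l V n * kap n r) t (τ + u) _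
      (h₂ _ l B V _ R _ s hB (by positivity) hY2 (by linarith) hR)
  have key := fun E₁ E₂ => sm_narrow_l2 (a := 2 * θ) (b := 4) (c := ((2 * θ)⁻¹ - 4⁻¹)⁻¹) (X := B)
    (T := B ^ (2 * s)) (E₁ := E₁) (E₂ := E₂) (by norm_num) (inv_pos.2 hi) (by rw [inv_inv]; ring) hB0
    (by positivity) (rows (Far (B ^ δ)) R) hg τ
  rw [show 2 * (σ - 1 / 2) = 2 * σ - 1 by ring] at E2
  have hP : 0 < Real.exp 32 * B ^ (2 * σ - 1) := by positivity
  have h3s : B ^ (3 * s) ≤ θ * (B ^ (2 * s)) ^ 2 := by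
    refine le_trans (le_of_eq ?_) (mul_le_mul_of_nonneg_right hθ (by positivity))
    rw [← Real.rpow_natCast, ← Real.rpow_mul hB0.le, ← Real.rpow_add hB0]
    congr 1
    push_cast
    ring
  have h6 := h₃ B hB
  have hgoal : Real.exp 32 * (C₁ + 3 * (C₂ * C₃)) * B ^ (2 * σ - 1) * B ^ (7 / 3 - s) *
      Real.exp (4 * θ * t ^ 2 / 2) = Real.exp 32 * B ^ (2 * σ - 1) *
      ((C₁ + 3 * (C₂ * C₃)) * B ^ (7 / 3 - s) * Real.exp (4 * θ * t ^ 2 / 2)) := by ring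
  rw [hgoal]
  have hCC : 0 ≤ C₂ * C₃ := mul_nonneg hC₂ hC₃
  rcases le_total |t| (B ^ (2 * s)) with ht | ht
  · have hs2 : B ^ s ≤ B ^ (2 * s) := Real.rpow_le_rpow_of_exponent_le hB (by linarith)
    have E1 : ∀ u : ℝ, |u| ≤ B ^ (2 * s) → ∑ r ∈ rows (Far (B ^ δ)) R,
        ‖sm 4 (fun n => LpV l V n * kap n r *
          (Nr n : ℂ) ^ (((σ - 1 / 2 : ℝ) : ℂ) + t * I)) B (τ + u)‖ ^ 2 ≤
        Real.exp 32 * B ^ (2 * (σ - 1 / 2)) * (C₁ * B ^ (7 / 3 - s)) := fun u hu =>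
      df2_rpow hB0 hσ2 _ (fun r n => LpV l V n * kap n r) t (τ + u) _
        (h₁ B V _ R _ hB hV hY1 hY2 hR (by
          have := abs_sub (τ + u) t
          have := abs_add_le τ u
          linarith))
    rw [show 2 * (σ - 1 / 2) = 2 * σ - 1 by ring] at E1
    refine (key _ _ E1 E2).trans ?_
    have h7 : Real.exp (-(((2 * θ)⁻¹ - 4⁻¹)⁻¹ * (B ^ (2 * s)) ^ 2 / 2)) * B ^ 6 ≤ C₃ := by
      have h8 : Real.exp (-(((2 * θ)⁻¹ - 4⁻¹)⁻¹ * (B ^ (2 * s)) ^ 2 / 2)) ≤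
          Real.exp (-B ^ (3 * s)) := Real.exp_le_exp.2 (by
        have := mul_le_mul_of_nonneg_right hc (sq_nonneg (B ^ (2 * s)))
        linarith)
      calc _ ≤ Real.exp (-B ^ (3 * s)) * (C₃ * Real.exp (B ^ (3 * s))) :=
            mul_le_mul h8 h6 (by positivity) (by positivity)
        _ = C₃ := by rw [mul_left_comm, ← Real.exp_add, neg_add_cancel, Real.exp_zero, mul_one]
    have h9 := mul_le_mul_of_nonneg_left h7 hC₂
    have h10 : (C₁ + 3 * (C₂ * C₃)) * B ^ (7 / 3 - s) ≤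
        (C₁ + 3 * (C₂ * C₃)) * B ^ (7 / 3 - s) * Real.exp (4 * θ * t ^ 2 / 2) :=
      le_mul_of_one_le_right (by positivity) hX
    have h11 : C₂ * C₃ ≤ C₂ * C₃ * B ^ (7 / 3 - s) := le_mul_of_one_le_right hCC hQ
    calc _ = Real.exp 32 * B ^ (2 * σ - 1) * (C₁ * B ^ (7 / 3 - s) + 2 * (C₂ *
          (Real.exp (-(((2 * θ)⁻¹ - 4⁻¹)⁻¹ * (B ^ (2 * s)) ^ 2 / 2)) * B ^ 6))) := by ring
      _ ≤ _ := mul_le_mul_of_nonneg_left (by linarith) hP.le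
  · refine (key _ _ (fun u _ => E2 u) E2).trans ?_
    have h7 : Real.exp (-(((2 * θ)⁻¹ - 4⁻¹)⁻¹ * (B ^ (2 * s)) ^ 2 / 2)) ≤ 1 :=
      Real.exp_le_one_iff.2 (by
        have := mul_nonneg (inv_pos.2 hi).le (sq_nonneg (B ^ (2 * s)))
        linarith)
    have h8 : Real.exp (B ^ (3 * s)) ≤ Real.exp (4 * θ * t ^ 2 / 2) := Real.exp_le_exp.2 (by
      have h9 : (B ^ (2 * s)) ^ 2 ≤ t ^ 2 := by
        rw [← sq_abs t]
        exact pow_le_pow_left₀ (by positivity) ht 2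
      have := mul_le_mul_of_nonneg_left h9 hθ0.le
      have := mul_nonneg hθ0.le (sq_nonneg t)
      linarith)
    have h9 : C₂ * B ^ 6 ≤ C₂ * (C₃ * Real.exp (4 * θ * t ^ 2 / 2)) :=
      mul_le_mul_of_nonneg_left (h6.trans (mul_le_mul_of_nonneg_left h8 hC₃)) hC₂
    have h10 : Real.exp (-(((2 * θ)⁻¹ - 4⁻¹)⁻¹ * (B ^ (2 * s)) ^ 2 / 2)) * (C₂ * B ^ 6) ≤
        C₂ * B ^ 6 := mul_le_of_le_one_left (by positivity) h7
    have h11 : C₂ * C₃ * Real.exp (4 * θ * t ^ 2 / 2) ≤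
        C₂ * C₃ * Real.exp (4 * θ * t ^ 2 / 2) * B ^ (7 / 3 - s) :=
      le_mul_of_one_le_right (by positivity) hQ
    have h12 : 0 ≤ C₁ * B ^ (7 / 3 - s) * Real.exp (4 * θ * t ^ 2 / 2) := by positivity
    calc _ = Real.exp 32 * B ^ (2 * σ - 1) * (C₂ * B ^ 6 + 2 *
          (Real.exp (-(((2 * θ)⁻¹ - 4⁻¹)⁻¹ * (B ^ (2 * s)) ^ 2 / 2)) * (C₂ * B ^ 6))) := by ring
      _ ≤ _ := mul_le_mul_of_nonneg_left (by linarith) hP.le

end Crest.Agent.R012.D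

end
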