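import Crest.Agent.R012.DF2
import Crest.Agent.R012.DT1

/-! # Row 12, dispersion: far rows for primes and the balanced upper bound -/

set_option autoImplicit false

noncomputable section

open scoped BigOperators ComplexConjugate Topology
open Complex MeasureTheory Filter Set Crest.Agent.R017

namespace Crest.Agent.R012.D

theorem df3_co_zero (θ B τ : ℝ) (β : O → ℂ) : co θ B τ β 0 = 0 := by
  unfold co
  exact if_neg fun h => h.1.ne_zero rfl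

theorem df3_one_le_max (x : ℝ) : (1 : ℝ) ≤ max 1 x ^ 2 := one_le_pow₀ (le_max_left _ _)

/-- `B^x B^y ≤ B^z` -/
theorem df3_mul_le {B x y z : ℝ} (hB : 1 ≤ B) (h : x + y ≤ z) : B ^ x * B ^ y ≤ B ^ z := by
  rw [← Real.rpow_add (by linarith)]
  exact Real.rpow_le_rpow_of_exponent_le hB h

/-- from `A ≤ B^x` to `A^y ≤ B^z` -/
theorem df3_pow_le {A B x y z : ℝ} (hA : 0 ≤ A) (hB : 1 ≤ B) (h : A ≤ B ^ x) (hy : 0 ≤ y)
    (hz : x * y ≤ z) : A ^ y ≤ B ^ z := by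
  refine (Real.rpow_le_rpow hA h hy).trans ?_
  rw [← Real.rpow_mul (by linarith)]
  exact Real.rpow_le_rpow_of_exponent_le hB hz

/-- `EV_co`, `env_LpV`, `EV_nrm_le`, `(1 + log B)² ≤ C B^ε`. -/
theorem nrm_co_LpV {ε : ℝ} (hε : 0 < ε) : ∃ C : ℝ, 0 ≤ C ∧ ∀ (l : ℤ) (θ B τ V : ℝ), 0 < θ → θ ≤ 1 →
    1 ≤ B → nrm B (co θ B τ (LpV l V)) ≤ C * B ^ (1 + ε) := by
  obtain ⟨C₁, hC₁, h₁⟩ := EV_co
  obtain ⟨C₂, hC₂, h₂⟩ := EV_nrm_le
  refine ⟨C₂ * (C₁ * (1 + 2 / ε)) ^ 2, by positivity, fun l θ B τ V h0 h1 hB => ?_⟩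
  have hB0 : 0 < B := by linarith
  refine (h₂ _ B _ hB0 (df3_co_zero _ _ _ _) (h₁ θ _ B τ _ h0 h1 hB0 (env_LpV l V hB))).trans ?_
  have a1 : Real.log B ≤ B ^ (ε / 2) / (ε / 2) := Real.log_le_rpow_div hB0.le (by positivity)
  have a2 : 1 ≤ B ^ (ε / 2) := Real.one_le_rpow hB (by positivity)
  have a3 : 1 + Real.log B ≤ (1 + 2 / ε) * B ^ (ε / 2) := by
    have : B ^ (ε / 2) / (ε / 2) = 2 / ε * B ^ (ε / 2) := by
      field_simp
    rw [this] at a1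
    linarith
  have a4 : 0 ≤ Real.log B := Real.log_nonneg hB
  have a5 : (C₁ * (1 + Real.log B)) ^ 2 ≤ (C₁ * ((1 + 2 / ε) * B ^ (ε / 2))) ^ 2 := by
    gcongr
  have a6 : (B ^ (ε / 2)) ^ 2 * B = B ^ (1 + ε) := by
    rw [← Real.rpow_natCast, ← Real.rpow_mul hB0.le, Real.rpow_add hB0, Real.rpow_one, mul_comm]
    congr 2
    push_cast
    ring
  calc C₂ * (C₁ * (1 + Real.log B)) ^ 2 * B ≤ C₂ * (C₁ * ((1 + 2 / ε) * B ^ (ε / 2))) ^ 2 * B := by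
        gcongr
    _ = C₂ * (C₁ * (1 + 2 / ε)) ^ 2 * ((B ^ (ε / 2)) ^ 2 * B) := by ring
    _ = _ := by rw [a6]

/-- Short rows: `T3` and `LSfar` with `κ = 1 + s / 2`. -/
theorem fp_short {δ s : ℝ} (hδ : 0 < δ) (hs : 0 < s) (hs' : s ≤ 1) : ∃ c : ℝ, 0 < c ∧ ∃ C : ℝ, 0 ≤ C ∧
    ∀ (B R σ t : ℝ) (u : O → ℂ), 1 ≤ B → 1 ≤ R → R ≤ 9 * B ^ (1 - s) → 0 ≤ σ → σ ≤ 5 / 2 →
    Supp 1 u → Rap u →
    ∑ r ∈ rows (Far (B ^ δ)) R, ‖XX (fun n => u n * kap n r) (σ + t * I)‖ ^ 2 ≤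
      C * B ^ (2 * σ - 1) * (R ^ (1 / 3 : ℝ) * B ^ (1 - c)) * nrm B u := by
  obtain ⟨C₁, hC₁, h₁⟩ := T3
  obtain ⟨c₀, hc₀, hc₀', h₂⟩ := LSfar (κ := 1 + s / 2) (by linarith)
  obtain ⟨C₂, hC₂, h₂⟩ := h₂ (min (δ / 6) 1) (lt_min (by positivity) one_pos)
  have hε1 : min (δ / 6) 1 ≤ δ / 6 := min_le_left _ _
  have hε2 : min (δ / 6) 1 ≤ 1 := min_le_right _ _
  have hε0 : 0 < min (δ / 6) 1 := lt_min (by positivity) one_pos
  set ε := min (δ / 6) 1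
  set c := min c₀ (min (δ / 6) (s / 2)) with hc
  have k1 : c ≤ c₀ := min_le_left _ _
  have k2 : c ≤ δ / 6 := (min_le_right _ _).trans (min_le_left _ _)
  have k3 : c ≤ s / 2 := (min_le_right _ _).trans (min_le_right _ _)
  refine ⟨c, lt_min hc₀ (lt_min (by positivity) (by positivity)), C₁ * (C₂ * 83), by positivity, ?_⟩
  intro B R σ t u hB hR hRB h0 h5 hsu hru
  have hB0 : 0 < B := by linarith
  have hR0 : 0 < R := by linarith
  have key := h₁ (rows (Far (B ^ δ)) R) B (C₂ * 83 * (R ^ (1 / 3 : ℝ) * B ^ (1 - c))) σ t u hB0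
    (by positivity) h0 h5 hsu hru fun M' hM' => ?_
  · refine key.trans (le_of_eq ?_)
    ring
  have hM0 : 0 < M' := by linarith
  refine (h₂ R M' (B ^ δ) hR hM' (Real.one_le_rpow hB hδ.le)).mono (Finset.Subset.refl _) ?_
  have m1 := df3_one_le_max (M' / B)
  set X := max 1 (M' / B) ^ 2
  have b0 : 0 < B ^ (1 - c) := by positivity
  have a1 : M' ^ (1 - c₀) ≤ B ^ (1 - c) * X := by
    refine (rpow_le_mul_max (by linarith) (by linarith) hB0 hM0).trans ?_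
    exact mul_le_mul_of_nonneg_right (Real.rpow_le_rpow_of_exponent_le hB (by linarith))
      (by linarith)
  have a2 : M' ^ (1 + ε) * (B ^ δ) ^ (-(1 / 3) : ℝ) ≤ B ^ (1 - c) * X := by
    have e1 := rpow_le_mul_max (y := 1 + ε) (by linarith) (by linarith) hB0 hM0
    rw [← Real.rpow_mul hB0.le]
    have e2 : B ^ (1 + ε) * B ^ (δ * -(1 / 3)) ≤ B ^ (1 - c) := df3_mul_le hB (by linarith)
    calc M' ^ (1 + ε) * B ^ (δ * -(1 / 3)) ≤ B ^ (1 + ε) * X * B ^ (δ * -(1 / 3)) := by gcongr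
      _ = B ^ (1 + ε) * B ^ (δ * -(1 / 3)) * X := by ring
      _ ≤ B ^ (1 - c) * X := by gcongr
  have a3 : R ^ (1 + s / 2) ≤ 81 * (B ^ (1 - c) * X) := by
    refine (Real.rpow_le_rpow hR0.le hRB (by linarith)).trans ?_
    rw [Real.mul_rpow (by norm_num) (by positivity)]
    have e1 : (9 : ℝ) ^ (1 + s / 2) ≤ 81 := by
      calc (9 : ℝ) ^ (1 + s / 2) ≤ 9 ^ (2 : ℝ) :=
            Real.rpow_le_rpow_of_exponent_le (by norm_num) (by linarith)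
        _ = 81 := by norm_num
    have e2 : (B ^ (1 - s)) ^ (1 + s / 2) ≤ B ^ (1 - c) :=
      df3_pow_le (by positivity) hB le_rfl (by linarith) (by nlinarith)
    have e3 : B ^ (1 - c) ≤ B ^ (1 - c) * X := le_mul_of_one_le_right b0.le m1
    exact mul_le_mul e1 (e2.trans e3) (by positivity) (by norm_num)
  calc C₂ * R ^ (1 / 3 : ℝ) * (M' ^ (1 - c₀) + M' ^ (1 + ε) * (B ^ δ) ^ (-(1 / 3) : ℝ) +
        R ^ (1 + s / 2)) ≤ C₂ * R ^ (1 / 3 : ℝ) * (83 * (B ^ (1 - c) * X)) :=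
        mul_le_mul_of_nonneg_left (by linarith) (by positivity)
    _ = _ := by ring

/-- Long rows: `T3` and `LSfree` with `κ = 1 + s / 8`; `B ≤ R` and
`R^{1/3 + κ} ≤ R² B^{(1 + s) (κ - 5/3)}`. -/
theorem fp_long {s : ℝ} (hs : 0 < s) (hs' : s ≤ 1) : ∃ C : ℝ, 0 ≤ C ∧
    ∀ (B R σ t : ℝ) (u : O → ℂ), 1 ≤ B → B ^ (1 + s) ≤ R → 0 ≤ σ → σ ≤ 5 / 2 → Supp 1 u → Rap u →
    ∑ r ∈ box R, ‖XX (fun n => u n * kap n r) (σ + t * I)‖ ^ 2 ≤
      C * B ^ (2 * σ - 1) * (R ^ 2 * B ^ (-(2 / 3) - s / 3)) * nrm B u := by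
  obtain ⟨C₁, hC₁, h₁⟩ := T3
  obtain ⟨C₂, hC₂, h₂⟩ := LSfree (κ := 1 + s / 8) (by linarith)
  refine ⟨C₁ * (C₂ * 2), by positivity, ?_⟩
  intro B R σ t u hB hRB h0 h5 hsu hru
  have hB0 : 0 < B := by linarith
  have hBR : B ≤ R := by
    refine le_trans ?_ hRB
    calc B = B ^ (1 : ℝ) := (Real.rpow_one B).symm
      _ ≤ _ := Real.rpow_le_rpow_of_exponent_le hB (by linarith)
  have hR : 1 ≤ R := hB.trans hBR
  have hR0 : 0 < R := by linarith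
  have key := h₁ (box R) B (C₂ * 2 * (R ^ 2 * B ^ (-(2 / 3) - s / 3))) σ t u hB0
    (by positivity) h0 h5 hsu hru fun M' hM' => ?_
  · refine key.trans (le_of_eq ?_)
    ring
  have hM0 : 0 < M' := by linarith
  refine (h₂ R M' hR hM').mono (Finset.Subset.refl _) ?_
  have m1 := df3_one_le_max (M' / B)
  set X := max 1 (M' / B) ^ 2
  have r0 : 0 < R ^ (1 + s / 8) := by positivity
  have a0 : R ≤ R ^ (1 + s / 8) := by
    calc R = R ^ (1 : ℝ) := (Real.rpow_one R).symm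
      _ ≤ _ := Real.rpow_le_rpow_of_exponent_le hR (by linarith)
  have a1 : M' ≤ R ^ (1 + s / 8) * X := by
    have e1 := rpow_le_mul_max (y := 1) (by norm_num) (by norm_num) hB0 hM0
    rw [Real.rpow_one, Real.rpow_one] at e1
    exact e1.trans (mul_le_mul_of_nonneg_right (hBR.trans a0) (by linarith))
  have a2 : R ^ (1 + s / 8) ≤ R ^ (1 + s / 8) * X := le_mul_of_one_le_right r0.le m1
  have a3 : R ^ (1 / 3 : ℝ) * R ^ (1 + s / 8) ≤ R ^ 2 * B ^ (-(2 / 3) - s / 3) := by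
    have e1 : R ^ (1 / 3 : ℝ) * R ^ (1 + s / 8) = R ^ 2 * R ^ (s / 8 - 2 / 3) := by
      rw [← Real.rpow_add hR0, ← Real.rpow_two, ← Real.rpow_add hR0]
      congr 1
      ring
    rw [e1]
    refine mul_le_mul_of_nonneg_left ?_ (by positivity)
    refine (Real.rpow_le_rpow_of_nonpos (by positivity) hRB (by linarith)).trans ?_
    rw [← Real.rpow_mul hB0.le]
    exact Real.rpow_le_rpow_of_exponent_le hB (by nlinarith)
  calc C₂ * R ^ (1 / 3 : ℝ) * (M' + R ^ (1 + s / 8))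
      ≤ C₂ * R ^ (1 / 3 : ℝ) * (2 * (R ^ (1 + s / 8) * X)) :=
        mul_le_mul_of_nonneg_left (by linarith) (by positivity)
    _ = C₂ * 2 * (R ^ (1 / 3 : ℝ) * R ^ (1 + s / 8)) * X := by ring
    _ ≤ _ := by gcongr

/-- `shell_RW_le` and three ranges: `R ≤ B^{1-s}` (`fp_short`, `R^{1/3} ≤ Rs^{1/3} phi`),
`9 R ≥ B^{1+s}` (`fp_long`, `R² ≤ Rs² phi`), and in between `farP_mid`
(`phi (1/3) (R / Rs) ≥ B^{-(s + η)/3}`). Take `η = min s c / 12`, `ε = η` in `nrm_co_LpV`. -/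
theorem RH_farP (l : ℤ) {δ : ℝ} (hδ : 0 < δ) : ∃ η : ℝ, 0 < η ∧ η ≤ 1 / 4 ∧ ∃ C : ℝ, 0 ≤ C ∧
    ∀ θ B τ V Rs : ℝ, 1 ≤ B → B ^ (-η) ≤ θ → θ ≤ 1 → |τ| ≤ B ^ η → V ≤ B ^ (9 / 10 : ℝ) → 0 < Rs →
    Rs ≤ B ^ (1 + η) →
    RH (1 / 4) (1 / 3) (4 * θ) (RW (Far (B ^ δ)) (co θ B τ (LpV l V))) B Rs
      (C * B ^ (7 / 3 - η)) := by
  obtain ⟨s, hs, hs4, Cm, hCm, hm⟩ := farP_mid l hδ
  obtain ⟨c, hc, Cs, hCs, hsh⟩ := fp_short hδ hs (by linarith)
  obtain ⟨Cl, hCl, hl⟩ := fp_long hs (by linarith)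
  have hη0 : 0 < min s c / 12 := by have := lt_min hs hc; positivity
  have hηs : min s c / 12 ≤ s / 12 := by have := min_le_left s c; linarith
  have hηc : min s c / 12 ≤ c / 12 := by have := min_le_right s c; linarith
  set η := min s c / 12
  obtain ⟨Cn, hCn, hn⟩ := nrm_co_LpV hη0
  refine ⟨η, hη0, by linarith, 9 * Cs * Cn + 81 * Cl * Cn + Cm, by positivity, ?_⟩
  intro θ B τ V Rs hB hθ hθ1 hτ hV hRs hRsB σ t R hσ hR
  have hB0 : 0 < B := by linarith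
  have hR0 : 0 < R := by linarith
  have hθ0 : 0 < θ := lt_of_lt_of_le (by positivity) hθ
  have h0 : 0 ≤ σ := by rcases hσ with h | h <;> rw [h] <;> norm_num
  have h5 : σ ≤ 5 / 2 := by rcases hσ with h | h <;> rw [h] <;> norm_num
  have hsu := supp_co θ B τ (LpV l V)
  have hru := rap_co hθ0 hθ1 hB0 (env_LpV l V hB) τ
  have hnr := hn l θ B τ V hθ0 hθ1 hB
  have hφ0 : 0 < phi (1 / 3) (R / Rs) := phi_pos _ (by positivity)
  have hφ1 : R ^ (1 / 3 : ℝ) ≤ B ^ ((1 + η) / 3) * phi (1 / 3) (R / Rs) := by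
    refine (rpow_le_mul_phi le_rfl (by norm_num) hR0 hRs).trans ?_
    exact mul_le_mul_of_nonneg_right
      (df3_pow_le hRs.le hB hRsB (by norm_num) (le_of_eq (by ring))) hφ0.le
  have hφ2 : R ^ 2 ≤ B ^ (2 + 2 * η) * phi (1 / 3) (R / Rs) := by
    rw [← Real.rpow_two]
    refine (rpow_le_mul_phi (α := 1 / 3) (β := 2) (by norm_num) le_rfl hR0 hRs).trans ?_
    exact mul_le_mul_of_nonneg_right
      (df3_pow_le hRs.le hB hRsB (by norm_num) (le_of_eq (by ring))) hφ0.le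
  have he : 1 ≤ Real.exp (4 * θ * t ^ 2 / 2) := Real.one_le_exp (by positivity)
  set φ := phi (1 / 3) (R / Rs)
  set e := Real.exp (4 * θ * t ^ 2 / 2)
  set P := B ^ (2 * σ - 1) with hP
  have hP0 : 0 < P := by positivity
  set Q := B ^ (7 / 3 - η) with hQ
  have hQ0 : 0 < Q := by positivity
  have hPQ : 0 < P * Q * φ := by positivity
  have fin : ∀ C₀ x : ℝ, 0 ≤ C₀ → C₀ ≤ 9 * Cs * Cn + 81 * Cl * Cn + Cm → x ≤ C₀ * (P * Q * φ) * e →
      x ≤ P * ((9 * Cs * Cn + 81 * Cl * Cn + Cm) * Q) * φ * e := by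
    intro C₀ x _ h1 h2
    refine h2.trans ?_
    calc C₀ * (P * Q * φ) * e ≤ (9 * Cs * Cn + 81 * Cl * Cn + Cm) * (P * Q * φ) * e := by gcongr
      _ = _ := by ring
  have p1 : 0 ≤ 9 * Cs * Cn := by positivity
  have p2 : 0 ≤ 81 * Cl * Cn := by positivity
  refine (shell_RW_le _ _ R _).trans ?_
  by_cases c1 : R ≤ B ^ (1 - s)
  · refine fin (9 * Cs * Cn) _ p1 (by linarith) ?_
    refine (hsh B (9 * R) σ t _ hB (by linarith) (by linarith) h0 h5 hsu hru).trans ?_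
    refine le_trans ?_ (le_mul_of_one_le_right (by positivity) he)
    have a1 : (9 * R) ^ (1 / 3 : ℝ) ≤ 9 * (B ^ ((1 + η) / 3) * φ) := by
      rw [Real.mul_rpow (by norm_num) hR0.le]
      refine mul_le_mul ?_ hφ1 (by positivity) (by norm_num)
      calc (9 : ℝ) ^ (1 / 3 : ℝ) ≤ 9 ^ (1 : ℝ) :=
            Real.rpow_le_rpow_of_exponent_le (by norm_num) (by norm_num)
        _ = 9 := Real.rpow_one 9
    have a2 : B ^ ((1 + η) / 3) * B ^ (1 - c) * B ^ (1 + η) ≤ Q := by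
      rw [← Real.rpow_add hB0]
      exact df3_mul_le hB (by linarith)
    calc Cs * P * ((9 * R) ^ (1 / 3 : ℝ) * B ^ (1 - c)) * nrm B (co θ B τ (LpV l V))
        ≤ Cs * P * (9 * (B ^ ((1 + η) / 3) * φ) * B ^ (1 - c)) * (Cn * B ^ (1 + η)) := by
          have := nrm_nonneg hB0 (co θ B τ (LpV l V))
          gcongr
      _ = 9 * Cs * Cn * (P * (B ^ ((1 + η) / 3) * B ^ (1 - c) * B ^ (1 + η)) * φ) := by ring
      _ ≤ 9 * Cs * Cn * (P * Q * φ) := by gcongr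
  by_cases c2 : B ^ (1 + s) ≤ 9 * R
  · refine fin (81 * Cl * Cn) _ p2 (by linarith) ?_
    refine (Finset.sum_le_sum_of_subset_of_nonneg (t := box (9 * R))
      (fun r hr => mem_box.2 (mem_rows.1 hr).1) fun _ _ _ => sq_nonneg _).trans ?_
    refine (hl B (9 * R) σ t _ hB c2 h0 h5 hsu hru).trans ?_
    refine le_trans ?_ (le_mul_of_one_le_right (by positivity) he)
    have a1 : (9 * R) ^ 2 ≤ 81 * (B ^ (2 + 2 * η) * φ) := by
      rw [mul_pow]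
      linarith
    have a2 : B ^ (2 + 2 * η) * B ^ (-(2 / 3) - s / 3) * B ^ (1 + η) ≤ Q := by
      rw [← Real.rpow_add hB0]
      exact df3_mul_le hB (by linarith)
    calc Cl * P * ((9 * R) ^ 2 * B ^ (-(2 / 3) - s / 3)) * nrm B (co θ B τ (LpV l V))
        ≤ Cl * P * (81 * (B ^ (2 + 2 * η) * φ) * B ^ (-(2 / 3) - s / 3)) * (Cn * B ^ (1 + η)) := by
          have := nrm_nonneg hB0 (co θ B τ (LpV l V))
          gcongr
      _ = 81 * Cl * Cn * (P * (B ^ (2 + 2 * η) * B ^ (-(2 / 3) - s / 3) * B ^ (1 + η)) * φ) := by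
          ring
      _ ≤ 81 * Cl * Cn * (P * Q * φ) := by gcongr
  · refine fin Cm _ hCm (by linarith) ?_
    refine (hm θ B τ V (9 * R) σ t hB
      ((Real.rpow_le_rpow_of_exponent_le hB (by linarith)).trans hθ) hθ1
      (hτ.trans (Real.rpow_le_rpow_of_exponent_le hB (by linarith))) hV hσ (not_le.1 c2).le).trans ?_
    have a1 : B ^ ((1 - s) / 3) ≤ B ^ ((1 + η) / 3) * φ := by
      refine le_trans ?_ hφ1
      calc B ^ ((1 - s) / 3) = (B ^ (1 - s)) ^ (1 / 3 : ℝ) := by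
            rw [← Real.rpow_mul hB0.le]
            congr 1
            ring
        _ ≤ _ := Real.rpow_le_rpow (by positivity) (not_le.1 c1).le (by norm_num)
    have a2 : B ^ (7 / 3 - s) ≤ Q * φ := by
      calc B ^ (7 / 3 - s) = B ^ (2 - 2 * s / 3) * B ^ ((1 - s) / 3) := by
            rw [← Real.rpow_add hB0]
            congr 1
            ring
        _ ≤ B ^ (2 - 2 * s / 3) * (B ^ ((1 + η) / 3) * φ) := by gcongr
        _ = B ^ (2 - 2 * s / 3) * B ^ ((1 + η) / 3) * φ := by ring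
        _ ≤ Q * φ := mul_le_mul_of_nonneg_right (df3_mul_le hB (by linarith)) hφ0.le
    calc Cm * P * B ^ (7 / 3 - s) * e ≤ Cm * P * (Q * φ) * e := by gcongr
      _ = _ := by ring

/-- `RH_farP` with `δ / 2` gives `η₁`; take `η = η₁ / 4`, so that `A ≤ B^{1 + 2 η}`, `B^{1-η} ≤ A`.
`RH.sub_rows`, `T2d`. -/
theorem DS_farP (l : ℤ) {δ : ℝ} (hδ : 0 < δ) : ∃ η : ℝ, 0 < η ∧ η ≤ 1 / 10 ∧ ∃ C : ℝ, 0 ≤ C ∧
    ∀ θ A B τ V Z : ℝ, 1 ≤ A → A ^ (1 - η) ≤ B → B ≤ A ^ (1 + η) → A ^ (-η) ≤ θ → θ ≤ 1 →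
    |τ| ≤ A ^ η → V ≤ B ^ (9 / 10 : ℝ) → A ^ δ ≤ Z →
    ‖DS (4 * θ) A (RW (Far Z) (co θ B τ (LpV l V))) (RW (Far Z) (co θ B τ (LpV l V)))‖ ≤
      C * A ^ (2 / 3 - η) * B ^ (5 / 3 : ℝ) := by
  obtain ⟨η₁, hη₁, hη₁', C₁, hC₁, h₁⟩ := RH_farP l (half_pos hδ)
  obtain ⟨C₂, hC₂, h₂⟩ := T2d (σ₁ := 1 / 4) (α := 1 / 3) (by norm_num) (by norm_num) (by norm_num)
  obtain ⟨η, rfl⟩ : ∃ η, η₁ = 4 * η := ⟨η₁ / 4, by ring⟩
  have hη : 0 < η := by linarith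
  have hη' : η ≤ 1 / 16 := by linarith
  refine ⟨η, hη, by linarith, C₂ * 2 * C₁, by positivity, ?_⟩
  intro θ A B τ V Z hA hAB hBA hθ hθ1 hτ hV hZ
  have hA0 : 0 < A := by linarith
  have hB : 1 ≤ B := (Real.one_le_rpow hA (by linarith)).trans hAB
  have hB0 : 0 < B := by linarith
  have hθ0 : 0 < θ := lt_of_lt_of_le (by positivity) hθ
  have a1 : A ≤ B ^ (1 + 2 * η) := by
    refine le_trans ?_ (Real.rpow_le_rpow (by positivity) hAB (by linarith))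
    rw [← Real.rpow_mul hA0.le]
    calc A = A ^ (1 : ℝ) := (Real.rpow_one A).symm
      _ ≤ _ := Real.rpow_le_rpow_of_exponent_le hA (by nlinarith)
  have a2 : B ^ (1 - η) ≤ A := by
    have := df3_pow_le (y := 1 - η) (z := 1) hB0.le hA hBA (by linarith) (by nlinarith)
    rwa [Real.rpow_one] at this
  have a3 : A ^ η ≤ B ^ (2 * η) := df3_pow_le hA0.le hB a1 hη.le (by nlinarith)
  have a4 : B ^ (-(2 * η)) ≤ θ := by
    refine le_trans ?_ hθ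
    rw [Real.rpow_neg hB0.le, Real.rpow_neg hA0.le]
    exact inv_anti₀ (by positivity) a3
  have a5 : B ^ 2 / (A * (4 * θ)) ≤ B ^ (1 + 4 * η) := by
    rw [div_le_iff₀ (by positivity)]
    calc B ^ 2 = B ^ (2 : ℝ) := (Real.rpow_two B).symm
      _ ≤ B ^ (1 + 4 * η + (1 - η + -(2 * η))) :=
          Real.rpow_le_rpow_of_exponent_le hB (by linarith)
      _ = B ^ (1 + 4 * η) * (B ^ (1 - η) * B ^ (-(2 * η))) := by
          rw [Real.rpow_add hB0, Real.rpow_add hB0 (1 - η)]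
      _ ≤ B ^ (1 + 4 * η) * (A * (4 * θ)) := by
          gcongr
          linarith
  have a6 : B ^ (δ / 2) ≤ Z :=
    (df3_pow_le hB0.le hA hBA (by positivity) (by nlinarith)).trans hZ
  have hRH := h₁ θ B τ V (B ^ 2 / (A * (4 * θ))) hB
    ((Real.rpow_le_rpow_of_exponent_le hB (by linarith)).trans a4) hθ1
    (hτ.trans (a3.trans (Real.rpow_le_rpow_of_exponent_le hB (by linarith)))) hV (by positivity) a5
  have hRH' := hRH.sub_rows (T := Far Z) fun r _ hr hn => hr (by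
    obtain ⟨k, y, e, hk⟩ := hn
    exact ⟨k, y, e, hk.trans a6⟩)
  have hru := rap_co hθ0 hθ1 hB0 (env_LpV l V hB) τ
  refine (h₂ (4 * θ) A B _ _ (by positivity) (by linarith) hA0 hB0 (by positivity)
    (dom_RW _ hru (df3_co_zero _ _ _ _)) hRH').trans ?_
  have b1 : Real.sqrt (4 * θ) ≤ 2 := by
    rw [Real.sqrt_le_left (by norm_num)]
    linarith
  have b2 : A ^ (1 / 3 + η) ≤ B ^ (1 / 3 + 4 * η) :=
    df3_pow_le hA0.le hB a1 (by linarith) (by nlinarith)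
  have b3 : A = A ^ (2 / 3 - η) * A ^ (1 / 3 + η) := by
    rw [← Real.rpow_add hA0]
    norm_num
  have b4 : B ^ (1 / 3 + 4 * η) * B⁻¹ * B ^ (7 / 3 - 4 * η) = B ^ (5 / 3 : ℝ) := by
    rw [← Real.rpow_neg_one, ← Real.rpow_add hB0, ← Real.rpow_add hB0]
    congr 1
    ring
  calc C₂ * (A * Real.sqrt (4 * θ)) * B⁻¹ * (C₁ * B ^ (7 / 3 - 4 * η))
      ≤ C₂ * (A ^ (2 / 3 - η) * B ^ (1 / 3 + 4 * η) * 2) * B⁻¹ * (C₁ * B ^ (7 / 3 - 4 * η)) := by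
        have : A ≤ A ^ (2 / 3 - η) * B ^ (1 / 3 + 4 * η) := by
          refine (le_of_eq b3).trans ?_
          gcongr
        gcongr
    _ = C₂ * 2 * C₁ * A ^ (2 / 3 - η) * (B ^ (1 / 3 + 4 * η) * B⁻¹ * B ^ (7 / 3 - 4 * η)) := by ring
    _ = _ := by rw [b4]

end Crest.Agent.R012.D

end
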