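import Crest.Agent.R012.D0
import Crest.Agent.R017.ThV1

/-! # Row 12, dispersion: the Gamma quotient -/

set_option autoImplicit false

noncomputable section

open scoped BigOperators ComplexConjugate Topology
open Complex MeasureTheory Filter Set Crest.Agent.R017

namespace Crest.Agent.R012.D

theorem dg_holder {a b δ : ℝ} (ha : 0 ≤ a) (hb : 0 ≤ b) (h0 : 0 ≤ δ) (h1 : δ ≤ 1) :
    1 + a ^ (1 - δ) * b ^ δ ≤ (1 + a) ^ (1 - δ) * (1 + b) ^ δ := by
  have hA : 0 < 1 + a := by linarith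
  have hB : 0 < 1 + b := by linarith
  have hw : 0 ≤ 1 - δ := by linarith
  have e1 := Real.geom_mean_le_arith_mean2_weighted (w₁ := 1 - δ) (w₂ := δ) (p₁ := 1 / (1 + a))
    (p₂ := 1 / (1 + b)) hw h0 (by positivity) (by positivity) (by ring)
  have e2 := Real.geom_mean_le_arith_mean2_weighted (w₁ := 1 - δ) (w₂ := δ) (p₁ := a / (1 + a))
    (p₂ := b / (1 + b)) hw h0 (by positivity) (by positivity) (by ring)
  rw [Real.div_rpow zero_le_one hA.le, Real.div_rpow zero_le_one hB.le, Real.one_rpow,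
    Real.one_rpow] at e1
  rw [Real.div_rpow ha hA.le, Real.div_rpow hb hB.le] at e2
  have hP : 0 < (1 + a) ^ (1 - δ) := Real.rpow_pos_of_pos hA _
  have hQ : 0 < (1 + b) ^ δ := Real.rpow_pos_of_pos hB _
  have e3 : (1 - δ) * (1 / (1 + a)) + δ * (1 / (1 + b)) +
      ((1 - δ) * (a / (1 + a)) + δ * (b / (1 + b))) = 1 := by
    field_simp
    ring
  have e4 : (1 + a ^ (1 - δ) * b ^ δ) / ((1 + a) ^ (1 - δ) * (1 + b) ^ δ) =
      1 / (1 + a) ^ (1 - δ) * (1 / (1 + b) ^ δ) +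
        a ^ (1 - δ) / (1 + a) ^ (1 - δ) * (b ^ δ / (1 + b) ^ δ) := by
    field_simp
  have e5 : (1 + a ^ (1 - δ) * b ^ δ) / ((1 + a) ^ (1 - δ) * (1 + b) ^ δ) ≤ 1 := by
    rw [e4]; linarith
  exact (div_le_one (by positivity)).1 e5

/-- Hölder: `(1 + a)^{1-δ} (1 + b)^δ ≥ 1 + a^{1-δ} b^δ`, and
`y₀^{1-δ} (y₀ + 1)^δ ≤ y₀ + δ` (`Real.geom_mean_le_arith_mean2_weighted`). -/
theorem gr_term {y δ : ℝ} (hy : 0 < y) (h0 : 0 ≤ δ) (h1 : δ ≤ 1) (t : ℝ) :
    1 + t ^ 2 / (y + δ) ^ 2 ≤ (1 + t ^ 2 / y ^ 2) ^ (1 - δ) * (1 + t ^ 2 / (y + 1) ^ 2) ^ δ := by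
  have hw : 0 ≤ 1 - δ := by linarith
  refine le_trans ?_ (dg_holder (by positivity) (by positivity) h0 h1)
  have hy1 : 0 < y + 1 := by linarith
  have e1 := Real.geom_mean_le_arith_mean2_weighted (w₁ := 1 - δ) (w₂ := δ) (p₁ := y)
    (p₂ := y + 1) hw h0 hy.le hy1.le (by ring)
  have e2 : (1 - δ) * y + δ * (y + 1) = y + δ := by ring
  rw [e2] at e1
  have hP : 0 < y ^ (1 - δ) := Real.rpow_pos_of_pos hy _
  have hQ : 0 < (y + 1) ^ δ := Real.rpow_pos_of_pos hy1 _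
  have e3 : (t ^ 2 / y ^ 2) ^ (1 - δ) * (t ^ 2 / (y + 1) ^ 2) ^ δ =
      t ^ 2 / (y ^ (1 - δ) * (y + 1) ^ δ) ^ 2 := by
    rw [Real.div_rpow (sq_nonneg _) (sq_nonneg _), Real.div_rpow (sq_nonneg _) (sq_nonneg _),
      div_mul_div_comm, ← Real.rpow_add' (sq_nonneg _) (by norm_num), sub_add_cancel,
      Real.rpow_one, mul_pow, ← Real.rpow_natCast y, ← Real.rpow_natCast (y + 1),
      ← Real.rpow_natCast (y ^ (1 - δ)), ← Real.rpow_natCast ((y + 1) ^ δ),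
      ← Real.rpow_mul hy.le, ← Real.rpow_mul hy.le, ← Real.rpow_mul hy1.le,
      ← Real.rpow_mul hy1.le, mul_comm (1 - δ), mul_comm δ]
  rw [e3]
  have e4 : (y ^ (1 - δ) * (y + 1) ^ δ) ^ 2 ≤ (y + δ) ^ 2 := pow_le_pow_left₀ (by positivity) e1 2
  have e5 : t ^ 2 / (y + δ) ^ 2 ≤ t ^ 2 / (y ^ (1 - δ) * (y + 1) ^ δ) ^ 2 :=
    div_le_div_of_nonneg_left (sq_nonneg _) (by positivity) e4
  linarith

/-- `‖Γ(x + i t)‖ / Γ(x)` is the limit of `∏_{j ≤ n} (1 + t² / (x + j)²)^{-1/2}`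
(`Complex.GammaSeq_tendsto_Gamma`, `Real.GammaSeq_tendsto_Gamma`). -/
theorem gr_lim {x : ℝ} (hx : 0 < x) (t : ℝ) :
    Tendsto (fun n : ℕ => ∏ j ∈ Finset.range (n + 1), (1 + t ^ 2 / (x + j) ^ 2)⁻¹) atTop
      (𝓝 ((‖Complex.Gamma (x + t * I)‖ / Real.Gamma x) ^ 2)) := by
  have h1 := (Complex.GammaSeq_tendsto_Gamma (x + t * I)).norm
  have h2 := Real.GammaSeq_tendsto_Gamma x
  have h3 := (h1.div h2 (Real.Gamma_pos_of_pos hx).ne').pow 2
  refine h3.congr' ?_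
  filter_upwards [eventually_gt_atTop 0] with n hn
  have hn' : (0 : ℝ) < n := by exact_mod_cast hn
  have e1 : ‖(n : ℂ) ^ ((x : ℂ) + t * I)‖ = (n : ℝ) ^ x := by
    rw [Complex.norm_natCast_cpow_of_pos hn]
    simp
  have hxj : ∀ j : ℕ, 0 < x + j := fun j => by positivity
  have e2 : ∀ j : ℕ, ‖(x : ℂ) + t * I + j‖ ^ 2 = (x + j) ^ 2 + t ^ 2 := by
    intro j
    rw [Complex.sq_norm, Complex.normSq_apply]
    simp
    ring
  have hf : (0 : ℝ) < (n : ℝ) ^ x * (n.factorial : ℝ) := by positivity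
  simp only [Pi.div_apply, Complex.GammaSeq, Real.GammaSeq, norm_div, norm_mul, e1,
    Complex.norm_natCast, norm_prod]
  rw [div_div_div_cancel_left' _ _ hf.ne', div_pow, ← Finset.prod_pow, ← Finset.prod_pow,
    ← Finset.prod_div_distrib]
  refine Finset.prod_congr rfl (fun j _ => ?_)
  rw [e2]
  have := hxj j
  field_simp

/-- Log-concavity of `x ↦ ‖Γ(x + i t)‖ / Γ(x)` between `x` and `x + 1`. -/
theorem gr_concave {x δ : ℝ} (hx : 0 < x) (h0 : 0 ≤ δ) (h1 : δ ≤ 1) (t : ℝ) :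
    (‖Complex.Gamma (x + t * I)‖ / Real.Gamma x) ^ (1 - δ) *
      (‖Complex.Gamma ((x + 1 : ℝ) + t * I)‖ / Real.Gamma (x + 1)) ^ δ ≤
      ‖Complex.Gamma ((x + δ : ℝ) + t * I)‖ / Real.Gamma (x + δ) := by
  have hw : 0 ≤ 1 - δ := by linarith
  have hx1 : 0 < x + 1 := by linarith
  have hxd : 0 < x + δ := by linarith
  have l1 := (gr_lim hx t).rpow_const (p := 1 - δ) (Or.inr hw)
  have l2 := (gr_lim hx1 t).rpow_const (p := δ) (Or.inr h0)
  have l3 := gr_lim hxd t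
  have key := le_of_tendsto_of_tendsto' (l1.mul l2) l3 (fun n => by
    rw [← Real.finsetProd_rpow _ _ (fun j _ => by positivity),
      ← Real.finsetProd_rpow _ _ (fun j _ => by positivity), ← Finset.prod_mul_distrib]
    refine Finset.prod_le_prod (fun j _ => by positivity) (fun j _ => ?_)
    have hj : 0 < x + j := by positivity
    have h := gr_term hj h0 h1 t
    rw [Real.inv_rpow (by positivity), Real.inv_rpow (by positivity), ← mul_inv,
      show x + 1 + (j : ℝ) = x + j + 1 by ring, show x + δ + (j : ℝ) = x + j + δ by ring]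
    exact inv_anti₀ (by positivity) h)
  set R1 := ‖Complex.Gamma (x + t * I)‖ / Real.Gamma x
  set R2 := ‖Complex.Gamma ((x + 1 : ℝ) + t * I)‖ / Real.Gamma (x + 1)
  set R3 := ‖Complex.Gamma ((x + δ : ℝ) + t * I)‖ / Real.Gamma (x + δ)
  have p1 : 0 ≤ R1 := div_nonneg (norm_nonneg _) (Real.Gamma_pos_of_pos hx).le
  have p2 : 0 ≤ R2 := div_nonneg (norm_nonneg _) (Real.Gamma_pos_of_pos hx1).le
  have p3 : 0 ≤ R3 := div_nonneg (norm_nonneg _) (Real.Gamma_pos_of_pos hxd).le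
  have e1 : (R1 ^ 2) ^ (1 - δ) * (R2 ^ 2) ^ δ = (R1 ^ (1 - δ) * R2 ^ δ) ^ 2 := by
    rw [mul_pow, ← Real.rpow_natCast R1, ← Real.rpow_natCast R2,
      ← Real.rpow_natCast (R1 ^ (1 - δ)), ← Real.rpow_natCast (R2 ^ δ),
      ← Real.rpow_mul p1, ← Real.rpow_mul p1, ← Real.rpow_mul p2, ← Real.rpow_mul p2,
      mul_comm (1 - δ), mul_comm δ]
  rw [e1] at key
  exact (pow_le_pow_iff_left₀ (by positivity) p3 two_ne_zero).1 key

/-- `gr_concave` with `x = σ`, `δ = 1 - 2 σ`; `Γ(s + 1) = s Γ(s)`, `Complex.Gamma_conj`,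
`‖σ + i t‖ ≥ σ (1 + |t|) / 2`. -/
theorem gamma_ratio {σ : ℝ} (h0 : 0 < σ) (h1 : σ ≤ 1 / 2) : ∃ C : ℝ, 0 ≤ C ∧ ∀ t : ℝ,
    ‖Complex.Gamma (σ + t * I) * (Complex.Gamma (1 - (σ + t * I)))⁻¹‖ ≤
      C * (1 + |t|) ^ (2 * σ - 1) := by
  have g1 : 0 < Real.Gamma σ := Real.Gamma_pos_of_pos h0
  have g2 : 0 < Real.Gamma (1 - σ) := Real.Gamma_pos_of_pos (by linarith)
  refine ⟨Real.Gamma σ / Real.Gamma (1 - σ) * 2 ^ (1 - 2 * σ), by positivity, fun t => ?_⟩
  have h := gr_concave (x := σ) (δ := 1 - 2 * σ) h0 (by linarith) (by linarith) t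
  rw [show σ + (1 - 2 * σ) = 1 - σ by ring] at h
  have hs : ((σ : ℂ) + t * I) ≠ 0 := by
    intro h2
    have := congrArg Complex.re h2
    simp at this
    linarith
  have e1 : Complex.Gamma ((σ + 1 : ℝ) + t * I) = (σ + t * I) * Complex.Gamma (σ + t * I) := by
    rw [← Complex.Gamma_add_one _ hs]
    congr 1
    push_cast
    ring
  have e2 : ‖Complex.Gamma (1 - (σ + t * I))‖ = ‖Complex.Gamma ((1 - σ : ℝ) + t * I)‖ := by
    rw [← Complex.norm_conj (Complex.Gamma ((1 - σ : ℝ) + t * I)), ← Complex.Gamma_conj]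
    congr 2
    simp
    ring
  have n1 : 0 < ‖Complex.Gamma (σ + t * I)‖ :=
    norm_pos_iff.2 (Complex.Gamma_ne_zero_of_re_pos (by simpa using h0))
  have n2 : 0 < ‖Complex.Gamma ((1 - σ : ℝ) + t * I)‖ :=
    norm_pos_iff.2 (Complex.Gamma_ne_zero_of_re_pos (by simp; linarith))
  rw [e1, Real.Gamma_add_one h0.ne', norm_mul] at h
  rw [norm_mul, norm_inv, e2]
  set A := ‖Complex.Gamma (σ + t * I)‖
  set B := ‖Complex.Gamma ((1 - σ : ℝ) + t * I)‖
  set r := ‖(σ : ℂ) + t * I‖ with hr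
  have r1 : σ ≤ r := by
    have := Complex.re_le_norm ((σ : ℂ) + t * I)
    simpa using this
  have r2 : |t| ≤ r := by
    have := Complex.abs_im_le_norm ((σ : ℂ) + t * I)
    simpa using this
  have ht := abs_nonneg t
  have r3 : (1 + |t|) / 2 ≤ r / σ := by
    rw [div_le_div_iff₀ two_pos h0]
    nlinarith
  have e3 : r * A / (σ * Real.Gamma σ) = r / σ * (A / Real.Gamma σ) := by field_simp
  have hA : 0 < A / Real.Gamma σ := by positivity
  have hrσ : 0 ≤ r / σ := le_trans (by positivity) r3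
  rw [e3, Real.mul_rpow hrσ hA.le, mul_left_comm, ← Real.rpow_add hA, sub_add_cancel,
    Real.rpow_one] at h
  have r4 : ((1 + |t|) / 2) ^ (1 - 2 * σ) ≤ (r / σ) ^ (1 - 2 * σ) :=
    Real.rpow_le_rpow (by positivity) r3 (by linarith)
  have h5 : ((1 + |t|) / 2) ^ (1 - 2 * σ) * (A / Real.Gamma σ) ≤ B / Real.Gamma (1 - σ) :=
    (mul_le_mul_of_nonneg_right r4 hA.le).trans h
  rw [Real.div_rpow (by positivity) two_pos.le] at h5
  have e4 : (1 + |t|) ^ (2 * σ - 1) = ((1 + |t|) ^ (1 - 2 * σ))⁻¹ := by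
    rw [← Real.rpow_neg (by positivity)]
    congr 1
    ring
  rw [e4]
  have q1 : 0 < (1 + |t|) ^ (1 - 2 * σ) := by positivity
  have q2 : 0 < (2 : ℝ) ^ (1 - 2 * σ) := by positivity
  set P := (1 + |t|) ^ (1 - 2 * σ)
  set Q := (2 : ℝ) ^ (1 - 2 * σ)
  rw [div_mul_div_comm, div_le_div_iff₀ (by positivity) g2] at h5
  rw [← div_eq_mul_inv, ← div_eq_mul_inv, div_mul_eq_mul_div, div_div,
    div_le_div_iff₀ n2 (by positivity)]
  linarith

/-- `Theta.v1t_ratio` with `n = 4`. -/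
theorem gamma_ratio5 : ∃ C : ℝ, 0 ≤ C ∧ ∀ t : ℝ,
    ‖Complex.Gamma (((5 / 2 : ℝ) : ℂ) + t * I) *
      (Complex.Gamma (1 - (((5 / 2 : ℝ) : ℂ) + t * I)))⁻¹‖ ≤ C * (1 + |t|) ^ (4 : ℝ) := by
  refine ⟨6 ^ 4, by positivity, fun t => ?_⟩
  have h := Theta.v1t_ratio (((5 / 2 : ℝ) : ℂ) + t * I) (1 - (((5 / 2 : ℝ) : ℂ) + t * I)) 4 (by
    rw [map_add, map_mul, Complex.conj_ofReal, Complex.conj_ofReal, Complex.conj_I]
    push_cast
    ring)
  rw [norm_mul]
  refine h.trans ?_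
  have e1 : ‖1 - (((5 / 2 : ℝ) : ℂ) + t * I)‖ ≤ 3 / 2 + |t| := by
    refine (Complex.norm_le_abs_re_add_abs_im _).trans (le_of_eq ?_)
    simp
    norm_num
  have ht := abs_nonneg t
  rw [show (4 : ℝ) = ((4 : ℕ) : ℝ) by norm_num, Real.rpow_natCast, ← mul_pow]
  refine pow_le_pow_left₀ (by positivity) ?_ 4
  rw [Nat.cast_ofNat]
  linarith

theorem dg_int (y : ℝ) {a : ℝ} (ha : 0 < a) :
    Integrable (fun t : ℝ => (1 + |t|) ^ y * Real.exp (-(a * t ^ 2 / 2))) := by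
  have hc : Continuous (fun t : ℝ => (1 + |t|) ^ y * Real.exp (-(a * t ^ 2 / 2))) := by
    refine Continuous.mul (Continuous.rpow_const (by fun_prop) (fun t => Or.inl ?_)) (by fun_prop)
    positivity
  have h2 : 0 < a / 2 := by positivity
  refine Integrable.mono' ((integrable_exp_neg_mul_sq (b := a / 2 / 2) (by positivity)).const_mul
    (Real.exp (|y| ^ 2 / (2 * (a / 2))))) hc.aestronglyMeasurable (Eventually.of_forall fun t => ?_)
  rw [Real.norm_of_nonneg (by positivity)]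
  refine le_trans ?_ (rd_gauss_le h2 |y| t)
  have ht := abs_nonneg t
  have e1 : (1 + |t|) ^ y ≤ Real.exp (|y| * |t|) := by
    calc (1 + |t|) ^ y ≤ (1 + |t|) ^ |y| :=
          Real.rpow_le_rpow_of_exponent_le (by linarith) (le_abs_self y)
      _ ≤ (Real.exp |t|) ^ |y| := by
          refine Real.rpow_le_rpow (by positivity) ?_ (abs_nonneg y)
          have := Real.add_one_le_exp |t|
          linarith
      _ = _ := by rw [← Real.exp_mul, mul_comm]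
  rw [show a / 2 * t ^ 2 = a * t ^ 2 / 2 by ring]
  exact mul_le_mul_of_nonneg_right e1 (Real.exp_pos _).le

theorem dg_half {q : ℝ} (hq : -1 < q) {a : ℝ} (ha : 0 < a) :
    IntegrableOn (fun x : ℝ => x ^ q * Real.exp (-(a * x ^ 2 / 2))) (Ioi 0) ∧
    ∫ x in Ioi (0 : ℝ), x ^ q * Real.exp (-(a * x ^ 2 / 2)) =
      2 ^ ((1 + q) / 2) * (1 / 2) * Real.Gamma ((q + 1) / 2) * a ^ (-((1 + q) / 2)) := by
  have h2 : 0 < a / 2 := by positivity
  have e : ∀ x : ℝ, -(a * x ^ 2 / 2) = -(a / 2) * x ^ 2 := fun x => by ring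
  simp only [e]
  refine ⟨integrableOn_rpow_mul_exp_neg_mul_sq h2 hq, ?_⟩
  have h := integral_rpow_mul_exp_neg_mul_rpow (p := 2) (q := q) (b := a / 2) two_pos hq h2
  simp only [Real.rpow_two] at h
  rw [h, Real.div_rpow ha.le two_pos.le, show -(q + 1) / 2 = -((1 + q) / 2) by ring,
    Real.rpow_neg two_pos.le]
  field_simp

/-- For `y ≤ 0` bound `(1 + |t|)^y ≤ |t|^y`, for `y ≥ 0` use `(1 + |t|)^y ≤ 2^y (1 + |t|^y)`;
`integral_rpow_mul_exp_neg_mul_rpow` or the substitution `t = u / √a`. -/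
theorem gauss_rpow {y : ℝ} (hy : -1 < y) : ∃ C : ℝ, 0 ≤ C ∧ ∀ a : ℝ, 0 < a → a ≤ 4 →
    Integrable (fun t : ℝ => (1 + |t|) ^ y * Real.exp (-(a * t ^ 2 / 2))) ∧
    ∫ t : ℝ, (1 + |t|) ^ y * Real.exp (-(a * t ^ 2 / 2)) ≤ C * a ^ (-((1 + y) / 2)) := by
  have hred : ∀ a : ℝ, ∫ t : ℝ, (1 + |t|) ^ y * Real.exp (-(a * t ^ 2 / 2)) =
      2 * ∫ x in Ioi (0 : ℝ), (1 + x) ^ y * Real.exp (-(a * x ^ 2 / 2)) := by
    intro a
    rw [← integral_comp_abs (f := fun x => (1 + x) ^ y * Real.exp (-(a * x ^ 2 / 2)))]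
    simp only [sq_abs]
  have hon : ∀ a : ℝ, 0 < a →
      IntegrableOn (fun x : ℝ => (1 + x) ^ y * Real.exp (-(a * x ^ 2 / 2))) (Ioi 0) := by
    intro a ha
    refine (dg_int y ha).integrableOn.congr_fun (fun x hx => ?_) measurableSet_Ioi
    simp only [abs_of_pos (show 0 < x from hx)]
  set c : ℝ → ℝ := fun q => 2 ^ ((1 + q) / 2) * (1 / 2) * Real.Gamma ((q + 1) / 2) with hc
  have c0 : ∀ q : ℝ, -1 < q → 0 ≤ c q := fun q hq => by
    have := Real.Gamma_pos_of_pos (s := (q + 1) / 2) (by linarith)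
    simp only [hc]
    positivity
  rcases le_total y 0 with hy0 | hy0
  · refine ⟨2 * c y, by linarith [c0 y hy], fun a ha _ => ⟨dg_int y ha, ?_⟩⟩
    obtain ⟨i1, i2⟩ := dg_half hy ha
    rw [hred]
    have h1 := setIntegral_mono_on (hon a ha) i1 measurableSet_Ioi (fun x hx => by
      have hx' : 0 < x := hx
      exact mul_le_mul_of_nonneg_right
        (Real.rpow_le_rpow_of_nonpos hx' (by linarith) hy0) (Real.exp_pos _).le)
    rw [i2] at h1
    simp only [hc]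
    linarith
  · refine ⟨2 * (2 ^ y * (c y + c 0 * 4 ^ (y / 2))), by
      have := c0 y hy
      have := c0 0 (by norm_num)
      positivity, fun a ha ha4 => ⟨dg_int y ha, ?_⟩⟩
    obtain ⟨i1, i2⟩ := dg_half hy ha
    obtain ⟨j1, j2⟩ := dg_half (q := 0) (by norm_num) ha
    rw [hred]
    have h1 := setIntegral_mono_on (hon a ha) ((i1.add j1).const_mul (2 ^ y)) measurableSet_Ioi
      (fun x hx => by
        have hx' : 0 < x := hx
        have e1 : (1 + x) ^ y ≤ 2 ^ y * (x ^ y + 1) := by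
          have p1 : 0 ≤ x ^ y := by positivity
          have p2 : (0 : ℝ) ≤ 2 ^ y := by positivity
          rcases le_total x 1 with h | h
          · have : (1 + x) ^ y ≤ 2 ^ y := Real.rpow_le_rpow (by positivity) (by linarith) hy0
            nlinarith
          · have : (1 + x) ^ y ≤ (2 * x) ^ y := Real.rpow_le_rpow (by positivity) (by linarith) hy0
            rw [Real.mul_rpow two_pos.le hx'.le] at this
            nlinarith
        simp only [Pi.add_apply, Real.rpow_zero]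
        calc (1 + x) ^ y * Real.exp (-(a * x ^ 2 / 2))
            ≤ 2 ^ y * (x ^ y + 1) * Real.exp (-(a * x ^ 2 / 2)) :=
              mul_le_mul_of_nonneg_right e1 (Real.exp_pos _).le
          _ = _ := by ring)
    rw [integral_const_mul, integral_add' i1 j1, i2, j2] at h1
    have e2 : a ^ (-((1 + 0) / 2) : ℝ) ≤ 4 ^ (y / 2) * a ^ (-((1 + y) / 2)) := by
      rw [show (-((1 + 0) / 2) : ℝ) = y / 2 + -((1 + y) / 2) by ring, Real.rpow_add ha]
      exact mul_le_mul_of_nonneg_right (Real.rpow_le_rpow ha.le ha4 (by linarith)) (by positivity)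
    have e3 : c 0 * a ^ (-((1 + 0) / 2) : ℝ) ≤ c 0 * (4 ^ (y / 2) * a ^ (-((1 + y) / 2))) :=
      mul_le_mul_of_nonneg_left e2 (c0 0 (by norm_num))
    have h2 : ∫ x in Ioi (0 : ℝ), (1 + x) ^ y * Real.exp (-(a * x ^ 2 / 2)) ≤
        2 ^ y * (c y * a ^ (-((1 + y) / 2)) + c 0 * a ^ (-((1 + 0) / 2) : ℝ)) := h1
    have h3 : 2 ^ y * (c y * a ^ (-((1 + y) / 2)) + c 0 * a ^ (-((1 + 0) / 2) : ℝ)) ≤
        2 ^ y * (c y * a ^ (-((1 + y) / 2)) + c 0 * (4 ^ (y / 2) * a ^ (-((1 + y) / 2)))) :=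
      mul_le_mul_of_nonneg_left (by linarith) (by positivity)
    calc _ ≤ 2 * (2 ^ y * (c y * a ^ (-((1 + y) / 2)) +
          c 0 * (4 ^ (y / 2) * a ^ (-((1 + y) / 2))))) := by linarith
      _ = _ := by ring

theorem continuous_mK (a : ℝ) {σ : ℝ} (hσ : 0 < σ) :
    Continuous (fun t : ℝ => mK a (σ + t * I)) := by
  have hl : Continuous (fun t : ℝ => (σ : ℂ) + t * I) := by fun_prop
  have h1 : Continuous (fun t : ℝ => Wh a (1 - (σ + t * I))) :=
    (differentiable_Wh a).continuous.comp (continuous_const.sub hl)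
  have h2 : Continuous (fun t : ℝ => (c0 : ℂ) ^ (1 - 2 * ((σ : ℂ) + t * I))) :=
    Continuous.const_cpow (by fun_prop) (Or.inl (by exact_mod_cast c0_pos.ne'))
  have h3 : Continuous (fun t : ℝ => Complex.Gamma (σ + t * I)) := by
    refine continuous_iff_continuousAt.2 (fun t => ?_)
    exact ContinuousAt.comp (f := fun t : ℝ => (σ : ℂ) + t * I)
      (Theta.v1t_diff_Gamma (by simpa using hσ)).continuousAt hl.continuousAt
  have h4 : Continuous (fun t : ℝ => (Complex.Gamma (1 - (σ + t * I)))⁻¹) :=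
    Complex.differentiable_one_div_Gamma.continuous.comp (continuous_const.sub hl)
  exact (h1.mul h2).mul (h3.mul h4)

/-- `norm_Wh`, `gamma_ratio`, `gamma_ratio5`, `gauss_rpow`. -/
theorem mK_int {σ : ℝ} (hσ : (0 < σ ∧ σ ≤ 1 / 2) ∨ σ = 5 / 2) : ∃ C : ℝ, 0 ≤ C ∧
    ∀ a : ℝ, 0 < a → a ≤ 4 →
    Integrable (fun t : ℝ => ‖mK a (σ + t * I)‖ * Real.exp (a * t ^ 2 / 2)) ∧
    ∫ t : ℝ, ‖mK a (σ + t * I)‖ * Real.exp (a * t ^ 2 / 2) ≤ C * a ^ (1 / 2 - σ) := by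
  have hσ0 : 0 < σ := by
    rcases hσ with h | h
    · exact h.1
    · rw [h]; norm_num
  obtain ⟨C1, hC1, h1⟩ : ∃ C : ℝ, 0 ≤ C ∧ ∀ t : ℝ,
      ‖Complex.Gamma (σ + t * I) * (Complex.Gamma (1 - (σ + t * I)))⁻¹‖ ≤
        C * (1 + |t|) ^ (2 * σ - 1) := by
    rcases hσ with h | h
    · exact gamma_ratio h.1 h.2
    · subst h
      rw [show (2 * (5 / 2) - 1 : ℝ) = 4 by norm_num]
      exact gamma_ratio5
  obtain ⟨C2, hC2, h2⟩ := gauss_rpow (y := 2 * σ - 1) (by linarith)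
  have hc := c0_pos
  set D : ℝ := Real.sqrt (4 * Real.pi) * Real.exp (4 * (1 - σ) ^ 2) * c0 ^ (1 - 2 * σ) * C1 with hD
  have hD0 : 0 ≤ D := by positivity
  refine ⟨D * C2, by positivity, fun a ha ha4 => ?_⟩
  obtain ⟨i1, i2⟩ := h2 a ha ha4
  have hb : ∀ t : ℝ, ‖mK a (σ + t * I)‖ * Real.exp (a * t ^ 2 / 2) ≤
      D * Real.sqrt a * ((1 + |t|) ^ (2 * σ - 1) * Real.exp (-(a * t ^ 2 / 2))) := by
    intro t
    have e1 : ‖Wh a (1 - (σ + t * I))‖ =
        Real.sqrt (4 * Real.pi * a) * Real.exp (a * ((1 - σ) ^ 2 - t ^ 2)) := by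
      have := norm_Wh ha (1 - σ) (-t)
      rw [neg_sq] at this
      rw [← this]
      congr 2
      push_cast
      ring
    have e2 : ‖(c0 : ℂ) ^ (1 - 2 * ((σ : ℂ) + t * I))‖ = c0 ^ (1 - 2 * σ) := by
      rw [Complex.norm_cpow_eq_rpow_re_of_pos hc]
      simp
    have e3 : Real.exp (a * ((1 - σ) ^ 2 - t ^ 2)) * Real.exp (a * t ^ 2 / 2) ≤
        Real.exp (4 * (1 - σ) ^ 2) * Real.exp (-(a * t ^ 2 / 2)) := by
      rw [← Real.exp_add, ← Real.exp_add, Real.exp_le_exp]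
      nlinarith [sq_nonneg (1 - σ)]
    rw [mK, norm_mul, norm_mul, e1, e2, Real.sqrt_mul (by positivity)]
    calc _ = Real.sqrt (4 * Real.pi) * Real.sqrt a * c0 ^ (1 - 2 * σ) *
          (Real.exp (a * ((1 - σ) ^ 2 - t ^ 2)) * Real.exp (a * t ^ 2 / 2)) *
          ‖Complex.Gamma (σ + t * I) * (Complex.Gamma (1 - (σ + t * I)))⁻¹‖ := by ring
      _ ≤ Real.sqrt (4 * Real.pi) * Real.sqrt a * c0 ^ (1 - 2 * σ) *
          (Real.exp (4 * (1 - σ) ^ 2) * Real.exp (-(a * t ^ 2 / 2))) *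
          (C1 * (1 + |t|) ^ (2 * σ - 1)) := by
          have := h1 t
          gcongr
      _ = _ := by rw [hD]; ring
  have hm : Continuous (fun t : ℝ => ‖mK a (σ + t * I)‖ * Real.exp (a * t ^ 2 / 2)) :=
    (continuous_mK a hσ0).norm.mul (by fun_prop)
  have hi : Integrable (fun t : ℝ => ‖mK a (σ + t * I)‖ * Real.exp (a * t ^ 2 / 2)) :=
    Integrable.mono' (i1.const_mul (D * Real.sqrt a)) hm.aestronglyMeasurable
      (Eventually.of_forall fun t => by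
        rw [Real.norm_of_nonneg (by positivity)]
        exact hb t)
  refine ⟨hi, (integral_mono hi (i1.const_mul (D * Real.sqrt a)) hb).trans ?_⟩
  rw [integral_const_mul]
  calc _ ≤ D * Real.sqrt a * (C2 * a ^ (-((1 + (2 * σ - 1)) / 2))) :=
        mul_le_mul_of_nonneg_left i2 (by positivity)
    _ = _ := by
        rw [Real.sqrt_eq_rpow, show (1 / 2 - σ : ℝ) = 1 / 2 + -((1 + (2 * σ - 1)) / 2) by ring,
          Real.rpow_add ha]
        ring

end Crest.Agent.R012.D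

end
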