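import Crest.Agent.R012.DT1
import Crest.Agent.R012.DB4

/-! # Row 12, dispersion: thin columns, by duality -/

set_option autoImplicit false

noncomputable section

open scoped BigOperators ComplexConjugate Topology
open Complex MeasureTheory Filter Set Crest.Agent.R017

namespace Crest.Agent.R012.D

theorem dh1_col (K : ℝ) (c : O → ℂ) (x : O) :
    colC (fun k => if k ∈ sbox K then c k else 0) x = ∑ k ∈ sbox K, c k * conj (kap k x) := by
  unfold colC
  rw [tsum_eq_sum (s := sbox K) fun k hk => by simp [hk]]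
  exact Finset.sum_congr rfl fun k hk => by simp [hk]

theorem dh1_supp (K : ℝ) (c : O → ℂ) : Supp 1 (fun k => if k ∈ sbox K then c k else 0) := by
  refine supp_iff.2 fun n hn => ?_
  have h : n ∈ sbox K := by
    by_contra h
    exact hn (if_neg h)
  exact ⟨(q_mem_sbox.1 h).1, (q_mem_sbox.1 h).2.1⟩

theorem dh1_D1_nonneg {a A K : ℝ} (ha : 0 < a) (hA : 0 ≤ A) (hK : 0 ≤ K) : 0 ≤ D1 a A K := by
  unfold D1
  positivity

theorem dh1_D2_nonneg {a A K : ℝ} (ha : 0 < a) (hA : 0 ≤ A) (hK : 0 ≤ K) : 0 ≤ D2 a A K := by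
  unfold D2
  positivity

theorem dh1_D1_mono {a A B K : ℝ} (ha : 0 < a) (hA : 0 ≤ A) (hB : 0 ≤ B) (h : B ≤ K) :
    D1 a A B ≤ D1 a A K := by
  unfold D1
  gcongr

theorem dh1_psi {x : ℝ} (h1 : 1 / 2 < x) (h2 : x ≤ 1) : psi x ≤ 3 := by
  have h0 : 0 < x := by linarith
  have h3 : x⁻¹ ≤ 2 := by
    rw [inv_le_comm₀ h0 two_pos]
    linarith
  have h4 : x ^ 8 ≤ 1 := pow_le_one₀ h0.le h2
  unfold psi
  linarith

theorem dh1_nrmd {K B D : ℝ} (hB : 0 < B) (c : O → ℂ)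
    (h : ∀ k ∈ sbox K, c k ≠ 0 → B / 2 < Nr k ∧ Nr k ≤ B) (hD : ∀ k ∈ sbox K, dv k ≤ D) :
    nrmd B (fun k => if k ∈ sbox K then c k else 0) ≤ 3 * D * cl2 K c := by
  unfold nrmd cl2
  rw [tsum_eq_sum (s := sbox K) fun k hk => by simp [hk], Finset.mul_sum]
  refine Finset.sum_le_sum fun k hk => ?_
  simp only [if_pos hk]
  by_cases hc : c k = 0
  · simp [hc]
  obtain ⟨h1, h2⟩ := h k hk hc
  have h3 : psi (Nr k / B) ≤ 3 := by
    refine dh1_psi ?_ ((div_le_one hB).2 h2)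
    rw [lt_div_iff₀ hB]
    linarith
  have h4 : 0 ≤ dv k := Nat.cast_nonneg _
  have h5 : dv k * psi (Nr k / B) ≤ D * 3 :=
    mul_le_mul (hD k hk) h3 (psi_nonneg (div_nonneg (Nr_nonneg _) hB.le)) (h4.trans (hD k hk))
  nlinarith [sq_nonneg ‖c k‖]

/-- Dyadic pieces of the columns (`q_dyadic`, `q_split`; a non-empty piece has scale
`1 ≤ K / 2^i ≤ K`), `T1H` with `min ε 1 / 8` for each piece, `psi ≤ 3` on `(1/2, 1]`, `dv_le`,
`K³ / (A a) ≤ (K (1 + (A a)⁻¹))³`. -/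
theorem H1core {ε : ℝ} (hε : 0 < ε) : ∃ C : ℝ, 0 ≤ C ∧ ∀ (a A K : ℝ) (c : O → ℂ), 0 < a → a ≤ 4 →
    0 < A → 1 ≤ K →
    SS a A (fun k => if k ∈ sbox K then c k else 0) ≤
      C * (K * (1 + (A * a)⁻¹)) ^ ε * D1 a A K * cl2 K c := by
  classical
  have hδ : 0 < min ε 1 / 8 := by positivity
  have hδ1 : min ε 1 / 8 ≤ 1 := by linarith [min_le_right ε 1]
  have hδε : 5 * (min ε 1 / 8) ≤ ε := by linarith [min_le_left ε 1]
  generalize min ε 1 / 8 = δ at hδ hδ1 hδε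
  obtain ⟨C1, hC1, h1⟩ := q_dyadic hδ
  obtain ⟨C2, hC2, h2⟩ := T1H hδ hδ1
  obtain ⟨C3, hC3, h3⟩ := dv_le hδ
  refine ⟨6 * C1 * C2 * C3, by positivity, fun a A K c ha ha4 hA hK => ?_⟩
  obtain ⟨J, ι, hJ, hι⟩ := h1 K hK
  have hK0 : 0 < K := by linarith
  set T := K * (1 + (A * a)⁻¹) with hT
  have hi : 0 < (A * a)⁻¹ := by positivity
  have hKT : K ≤ T := le_mul_of_one_le_right hK0.le (by linarith)
  have hT1 : 1 ≤ T := hK.trans hKT
  have hb : ∀ b ∈ sbox K, ι (Nr b) < J ∧ K / 2 ^ ι (Nr b) / 2 < Nr b ∧ Nr b ≤ K / 2 ^ ι (Nr b) :=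
    fun b hb => hι _ (one_le_Nr (q_mem_sbox.1 hb).1.ne_zero) (q_mem_sbox.1 hb).2.2
  set ci : ℕ → O → ℂ := fun i b => if ι (Nr b) = i then c b else 0 with hci
  have hD := dh1_D1_nonneg ha hA.le hK0.le
  have k1 : ∀ x, ‖colC (fun k => if k ∈ sbox K then c k else 0) x‖ ^ 2 ≤
      J * ∑ i ∈ Finset.range J, ‖colC (fun k => if k ∈ sbox K then ci i k else 0) x‖ ^ 2 := by
    intro x
    have h4 := q_split (sbox K) (Finset.range J) (fun b => ι (Nr b))
      (fun b h => Finset.mem_range.2 (hb b h).1) fun b => c b * conj (kap b x)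
    rw [Finset.card_range] at h4
    simpa only [dh1_col, hci, ite_mul, zero_mul] using h4
  have k2 : SS a A (fun k => if k ∈ sbox K then c k else 0) ≤
      J * ∑ i ∈ Finset.range J, SS a A (fun k => if k ∈ sbox K then ci i k else 0) := by
    have s1 := fun i => summable_SS ha hA (rap_fin (sbox K) (ci i))
    unfold SS
    rw [← Summable.tsum_finsetSum fun i _ => s1 i, ← tsum_mul_left]
    refine Summable.tsum_le_tsum (fun x => ?_) (summable_SS ha hA (rap_fin (sbox K) c))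
      ((summable_sum fun i _ => s1 i).mul_left _)
    split_ifs with hx
    · simp
    · rw [← Finset.mul_sum, mul_left_comm]
      exact mul_le_mul_of_nonneg_left (k1 x) (W_pos _ _).le
  have k3 : ∀ i, SS a A (fun k => if k ∈ sbox K then ci i k else 0) ≤
      C2 * (2 * T ^ (3 * δ)) * D1 a A K * (3 * (C3 * T ^ δ)) * cl2 K (ci i) := by
    intro i
    have hB : 0 < K / 2 ^ i := by positivity
    have hk : K / 2 ^ i ≤ K := div_le_self hK0.le (one_le_pow₀ one_le_two)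
    have h4 : ∀ b, ci i b ≠ 0 → ι (Nr b) = i := fun b h0 => by_contra fun h1 => h0 (if_neg h1)
    have h5 := dh1_nrmd hB (ci i) (K := K) (D := C3 * T ^ δ)
      (fun b h h0 => h4 b h0 ▸ (hb b h).2) fun b h => by
        refine (h3 b (q_mem_sbox.1 h).1.ne_zero).trans ?_
        have := Nr_nonneg b
        have := (q_mem_sbox.1 h).2.2.trans hKT
        gcongr
    have h6 : (K / 2 ^ i) ^ 3 / (A * a) ≤ T ^ 3 := by
      rw [div_eq_mul_inv, hT, mul_pow]
      have : (A * a)⁻¹ ≤ (1 + (A * a)⁻¹) ^ 3 :=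
        (le_add_of_nonneg_left zero_le_one).trans (le_self_pow₀ (by linarith) three_ne_zero)
      gcongr
    have h7 : 1 + ((K / 2 ^ i) ^ 3 / (A * a)) ^ δ ≤ 2 * T ^ (3 * δ) := by
      have e1 : 1 ≤ T ^ (3 * δ) := Real.one_le_rpow hT1 (by positivity)
      have e2 : ((K / 2 ^ i) ^ 3 / (A * a)) ^ δ ≤ T ^ (3 * δ) := by
        rw [Real.rpow_mul (by linarith), show (3 : ℝ) = (3 : ℕ) by norm_num, Real.rpow_natCast]
        exact Real.rpow_le_rpow (by positivity) h6 hδ.le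
      linarith
    have h8 := dh1_D1_mono ha hA.le hB.le hk
    have h9 := dh1_D1_nonneg ha hA.le hB.le
    have h10 := nrmd_nonneg hB (fun k => if k ∈ sbox K then ci i k else 0)
    calc _ ≤ _ := h2 a A (K / 2 ^ i) _ ha ha4 hA hB (dh1_supp K _) (rap_fin _ _)
      _ ≤ C2 * (2 * T ^ (3 * δ)) * D1 a A K * (3 * (C3 * T ^ δ) * cl2 K (ci i)) := by gcongr
      _ = _ := by ring
  have k4 : ∑ i ∈ Finset.range J, cl2 K (ci i) = cl2 K c := by
    unfold cl2
    rw [Finset.sum_comm]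
    refine Finset.sum_congr rfl fun b h => ?_
    simp only [hci, apply_ite (fun z : ℂ => ‖z‖ ^ 2), norm_zero, ne_eq, OfNat.ofNat_ne_zero,
      not_false_eq_true, zero_pow, Finset.sum_ite_eq, Finset.mem_range, (hb b h).1, if_true]
  have k5 : T ^ δ * T ^ (3 * δ) * T ^ δ ≤ T ^ ε := by
    rw [← Real.rpow_add (by linarith), ← Real.rpow_add (by linarith)]
    exact Real.rpow_le_rpow_of_exponent_le hT1 (by linarith)
  have k6 : (J : ℝ) ≤ C1 * T ^ δ := hJ.trans (by gcongr)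
  have k7 := cl2_nonneg K c
  calc _ ≤ _ := k2
    _ ≤ J * ∑ i ∈ Finset.range J,
        C2 * (2 * T ^ (3 * δ)) * D1 a A K * (3 * (C3 * T ^ δ)) * cl2 K (ci i) :=
      mul_le_mul_of_nonneg_left (Finset.sum_le_sum fun i _ => k3 i) (Nat.cast_nonneg J)
    _ = J * (C2 * (2 * T ^ (3 * δ)) * D1 a A K * (3 * (C3 * T ^ δ)) * cl2 K c) := by
      rw [← Finset.mul_sum, k4]
    _ ≤ (C1 * T ^ δ) * (C2 * (2 * T ^ (3 * δ)) * D1 a A K * (3 * (C3 * T ^ δ)) * cl2 K c) := by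
      gcongr
    _ = 6 * C1 * C2 * C3 * (T ^ δ * T ^ (3 * δ) * T ^ δ) * D1 a A K * cl2 K c := by ring
    _ ≤ _ := by gcongr

/-- Duality. With `S k = rowC u k`: `∑ ‖S k‖² = ∑' u n conj (colC (S on sbox K) n)` by
`cubic_recip`; Cauchy–Schwarz with the weight `W a (N n / M)`. -/
theorem tc_dual {a M K Δ : ℝ} (ha : 0 < a) (hM : 0 < M) (hΔ : 0 ≤ Δ)
    (h : ∀ c : O → ℂ, SS a M (fun k => if k ∈ sbox K then c k else 0) ≤ Δ * cl2 K c)
    {u : O → ℂ} (hs : Supp 1 u) (ht : TS a M u) :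
    ∑ k ∈ sbox K, ‖rowC u k‖ ^ 2 ≤ Δ * tn 0 a M u := by
  classical
  have h0 := supp_zero hs
  have hr := ht.rap ha hM h0
  set X := ∑ k ∈ sbox K, ‖rowC u k‖ ^ 2 with hX
  have hX0 : 0 ≤ X := Finset.sum_nonneg fun _ _ => sq_nonneg _
  have hN := tn_nonneg 0 a hM u
  set γ : O → ℂ := fun k => if k ∈ sbox K then rowC u k else 0 with hγ
  have h1 : SS a M γ ≤ Δ * X := h (rowC u)
  have s0 : ∀ k, Summable fun n => u n * kap n k := fun k => by
    refine Summable.of_norm_bounded (rap_summable hr) fun n => ?_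
    rw [norm_mul]
    exact mul_le_of_le_one_right (norm_nonneg _) (norm_kap_le _ _)
  have h2 : HasSum (fun n => u n * conj (colC γ n)) (X : ℂ) := by
    have e1 : (X : ℂ) = ∑ k ∈ sbox K, conj (rowC u k) * rowC u k := by
      rw [hX]
      push_cast
      exact Finset.sum_congr rfl fun k _ => (Complex.conj_mul' _).symm
    have e2 := hasSum_sum fun k (_ : k ∈ sbox K) => (s0 k).hasSum.mul_left (conj (rowC u k))
    rw [e1]
    refine (congrArg (HasSum · _) (funext fun n => ?_)).mp e2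
    by_cases hn : u n = 0
    · simp [hn]
    rw [hγ, dh1_col, map_sum, Finset.mul_sum]
    refine Finset.sum_congr rfl fun k hk => ?_
    rw [map_mul, Complex.conj_conj, cubic_recip (q_mem_sbox.1 hk).1 (hs n hn).1]
    ring
  have key : ∀ l : ℝ, 0 < l → Δ ≤ l → X ≤ l * tn 0 a M u := by
    intro l hl hΔl
    have s1 := (ht 0).hasSum.mul_left (l / 2)
    have s2 := (summable_SS ha hM (rap_fin (sbox K) (rowC u))).hasSum.mul_left (1 / (2 * l))
    have h3 := h2.norm_le_of_bounded (s1.add s2) fun n => by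
      by_cases hn : n = 0
      · subst hn
        simp [h0, tt]
      rw [if_neg hn, norm_mul, Complex.norm_conj]
      have hW := W_pos a (Nr n / M)
      simp only [tt, pow_zero, mul_one]
      change ‖u n‖ * ‖colC γ n‖ ≤ l / 2 * (‖u n‖ ^ 2 / W a (Nr n / M)) +
        1 / (2 * l) * (W a (Nr n / M) * ‖colC γ n‖ ^ 2)
      generalize W a (Nr n / M) = w at hW
      generalize ‖u n‖ = x
      generalize ‖colC γ n‖ = y
      have e : l / 2 * (x ^ 2 / w) + 1 / (2 * l) * (w * y ^ 2) - x * y =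
          (l * x - w * y) ^ 2 / (2 * l * w) := by
        field_simp
        ring
      have : 0 ≤ (l * x - w * y) ^ 2 / (2 * l * w) := by positivity
      linarith
    rw [Complex.norm_real, Real.norm_of_nonneg hX0] at h3
    change X ≤ l / 2 * tn 0 a M u + 1 / (2 * l) * SS a M γ at h3
    have h4 : 1 / (2 * l) * SS a M γ ≤ X / 2 := by
      calc _ ≤ 1 / (2 * l) * (l * X) := by
            refine mul_le_mul_of_nonneg_left (h1.trans ?_) (by positivity)
            gcongr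
        _ = X / 2 := by field_simp
    linarith
  refine le_of_forall_pos_le_add fun η hη => ?_
  have h5 := key (Δ + η / (tn 0 a M u + 1)) (by positivity) (le_add_of_nonneg_right (by positivity))
  have h6 : η / (tn 0 a M u + 1) * tn 0 a M u ≤ η := by
    rw [div_mul_eq_mul_div, div_le_iff₀ (by positivity)]
    nlinarith
  linarith

theorem TCsq {ε : ℝ} (hε : 0 < ε) : ∃ C : ℝ, 0 ≤ C ∧ ∀ (a M K : ℝ) (u : O → ℂ), 0 < a → a ≤ 4 →
    0 < M → 1 ≤ K → Supp 1 u → TS a M u →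
    ∑ k ∈ sbox K, ‖rowC u k‖ ^ 2 ≤ C * (K * (1 + (M * a)⁻¹)) ^ ε * D1 a M K * tn 0 a M u := by
  obtain ⟨C, hC, h⟩ := H1core hε
  refine ⟨C, hC, fun a M K u ha ha4 hM hK hs ht => ?_⟩
  have h1 := dh1_D1_nonneg ha hM.le (by linarith : 0 ≤ K)
  exact tc_dual ha hM (by positivity) (fun c => h a M K c ha ha4 hM hK) hs ht

theorem rowC_mul (u : O → ℂ) (s r : O) : rowC u (s * r) = rowC (fun n => u n * kap n s) r := by
  simp only [rowC, kap_mul_right, mul_assoc]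

theorem norm_rowC_sq (u : O → ℂ) (r : O) :
    ‖rowC u (r ^ 2)‖ = ‖rowC (fun n => conj (u n)) r‖ := by
  rw [← RCLike.norm_conj (rowC (fun n => conj (u n)) r)]
  simp only [rowC, Complex.conj_tsum, map_mul, Complex.conj_conj, conj_kap,
    kap_pow_right _ _ two_ne_zero]

theorem dh1_cube {x : ℝ} (hx : 0 ≤ x) : (x ^ (1 / 3 : ℝ)) ^ 3 = x := by
  rw [← Real.rpow_natCast, ← Real.rpow_mul hx]
  norm_num

theorem dh1_cube2 {x : ℝ} (hx : 0 ≤ x) : (x ^ (2 / 3 : ℝ)) ^ 3 = x ^ 2 := by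
  rw [← Real.rpow_natCast, ← Real.rpow_mul hx]
  norm_num

theorem dh1_D {a M R P T : ℝ} (ha : 0 < a) (hM : 0 < M) (hR : 0 < R) (hP : 0 ≤ P) (hT : 0 ≤ T)
    (h1 : P ^ 3 ≤ 64 * R) (h2 : P ^ 3 * T ^ 3 ≤ 64 * R ^ 3) (h3 : P ^ 3 * T ^ 2 ≤ 64 * R ^ 2) :
    P * D1 a M T ≤ 4 * D2 a M R := by
  have k1 : P ≤ 4 * R ^ (1 / 3 : ℝ) := by
    refine le_of_pow_le_pow_left₀ three_ne_zero (by positivity) ?_
    rw [mul_pow, dh1_cube hR.le]
    linarith
  have k2 : P * T ≤ 4 * R := by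
    refine le_of_pow_le_pow_left₀ three_ne_zero (by positivity) ?_
    rw [mul_pow, mul_pow]
    linarith
  have k3 : P * T ^ (2 / 3 : ℝ) ≤ 4 * R ^ (2 / 3 : ℝ) := by
    refine le_of_pow_le_pow_left₀ three_ne_zero (by positivity) ?_
    rw [mul_pow, mul_pow, dh1_cube2 hT, dh1_cube2 hR.le]
    linarith
  unfold D1 D2
  rw [Real.mul_rpow hM.le hT, Real.mul_rpow hM.le hR.le]
  have e1 := mul_le_mul_of_nonneg_right k1 (show 0 ≤ M * Real.sqrt a by positivity)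
  have e2 := mul_le_mul_of_nonneg_right k2 (show 0 ≤ (Real.sqrt a)⁻¹ by positivity)
  have e3 := mul_le_mul_of_nonneg_right k3
    (show 0 ≤ M ^ (2 / 3 : ℝ) * a ^ (1 / 6 : ℝ) by positivity)
  have e4 := mul_le_mul_of_nonneg_right k2
    (show 0 ≤ M ^ (1 / 3 : ℝ) * a ^ (-(1 / 6) : ℝ) by positivity)
  rw [div_eq_mul_inv T, div_eq_mul_inv R]
  nlinarith [e1, e2, e3, e4]

theorem dh1_tw {ε : ℝ} (hε : 0 < ε) : ∃ C : ℝ, 0 ≤ C ∧ ∀ (a M R T : ℝ) (u v : O → ℂ), 0 < a →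
    a ≤ 4 → 0 < M → 1 ≤ T → T ≤ R → Supp 1 u → TS a M u → (∀ n, ‖v n‖ ≤ ‖u n‖) →
    ∑ k ∈ sbox T, ‖rowC v k‖ ^ 2 ≤
      C * (R * (1 + (M * a)⁻¹)) ^ ε * tn 0 a M u * D1 a M T := by
  obtain ⟨C, hC, h⟩ := TCsq hε
  refine ⟨C, hC, fun a M R T u v ha ha4 hM hT hTR hs ht hv => ?_⟩
  obtain ⟨h1, h2⟩ := ht.of_le hM hv
  refine (h a M T v ha ha4 hM hT (supp_of_le (K := 1) hs fun n => by simpa using hv n) h1).trans ?_
  have h3 := dh1_D1_nonneg ha hM.le (by linarith : 0 ≤ T)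
  have h4 := tn_nonneg 0 a hM v
  have h5 := h2 0
  have h6 : 0 < R := by linarith
  calc _ ≤ C * (R * (1 + (M * a)⁻¹)) ^ ε * D1 a M T * tn 0 a M u := by gcongr
    _ = _ := by ring

/-- One block (`sum_blk_le`): `TCsq` in `k₁` if `Y ≤ X`, in `k₂` otherwise (`rowC_mul`,
`norm_rowC_sq`, `TS.of_le`). With `J = (8 R / (X Y²))^{1/3}` and `(T, T') = (max X Y, min X Y)`:
`T' J ≤ 2 R^{1/3}`, `T' J T ≤ 8 R`, `T' J T^{2/3} ≤ 4 R^{2/3}`. -/
theorem tc_blk {ε : ℝ} (hε : 0 < ε) : ∃ C : ℝ, 0 ≤ C ∧ ∀ (a M R X Y : ℝ) (u : O → ℂ), 0 < a →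
    a ≤ 4 → 0 < M → 1 ≤ X → 1 ≤ Y → X ≤ R → Y ≤ R → X * Y ^ 2 ≤ 8 * R → Supp 1 u → TS a M u →
    ∑ r ∈ blk X Y ((8 * R / (X * Y ^ 2)) ^ (1 / 3 : ℝ)), ‖rowC u r‖ ^ 2 ≤
      C * (R * (1 + (M * a)⁻¹)) ^ ε * D2 a M R * tn 0 a M u := by
  obtain ⟨C, hC, h⟩ := dh1_tw hε
  refine ⟨225 * 625 * 4 * C, by positivity,
    fun a M R X Y u ha ha4 hM hX hY hXR hYR hXY hs ht => ?_⟩
  have hX0 : 0 < X := by linarith
  have hY0 : 0 < Y := by linarith
  have hR0 : 0 < R := by linarith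
  set J := (8 * R / (X * Y ^ 2)) ^ (1 / 3 : ℝ) with hJ
  have hJ0 : 0 ≤ J := by positivity
  have hJ3 : J ^ 3 = 8 * R / (X * Y ^ 2) := dh1_cube (by positivity)
  set E := C * (R * (1 + (M * a)⁻¹)) ^ ε * tn 0 a M u with hE
  have hE0 : 0 ≤ E := by
    have := tn_nonneg 0 a hM u
    positivity
  have hv : ∀ (s n : O), ‖u n * kap n s‖ ≤ ‖u n‖ := fun s n => by
    rw [norm_mul]
    exact mul_le_of_le_one_right (norm_nonneg _) (norm_kap_le _ _)
  have c9 : ((box 9).card : ℝ) ≤ 225 := (card_box_le (by norm_num)).trans (by norm_num)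
  have hXY' : X * Y ≤ 8 * R := le_trans (by nlinarith [mul_pos hX0 hY0]) hXY
  have hfin : ∀ T T' : ℝ, 0 ≤ T → 0 ≤ T' → (T' * J) * D1 a M T ≤ 4 * D2 a M R →
      225 * (25 * J * (25 * T' * (E * D1 a M T))) ≤
        225 * 625 * 4 * C * (R * (1 + (M * a)⁻¹)) ^ ε * D2 a M R * tn 0 a M u := by
    intro T T' _ _ hle
    calc _ = 225 * 625 * E * ((T' * J) * D1 a M T) := by ring
      _ ≤ 225 * 625 * E * (4 * D2 a M R) := by gcongr
      _ = _ := by rw [hE]; ring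
  refine (sum_blk_le X Y J (fun r => ‖rowC u r‖ ^ 2) fun r => sq_nonneg _).trans ?_
  rcases le_total Y X with hYX | hYX
  · have hD := dh1_D1_nonneg ha hM.le hX0.le
    refine le_trans (cb_sum_le _ _ c9 (by positivity) fun s _ =>
      cb_sum_le _ _ (card_box_le hJ0) (by positivity) fun j _ => ?_) (hfin X Y hX0.le hY0.le ?_)
    · rw [Finset.sum_comm]
      refine cb_sum_le _ _ (card_sbox_le hY0.le) (by positivity) fun k₂ _ => ?_
      refine le_trans (Finset.sum_le_sum fun k₁ _ => ?_)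
        (h a M R X u _ ha ha4 hM hX hXR hs ht (hv (s * j ^ 3 * k₂ ^ 2)))
      split_ifs
      · rw [← rowC_mul, show s * j ^ 3 * (k₁ * k₂ ^ 2) = s * j ^ 3 * k₂ ^ 2 * k₁ by ring]
      · exact sq_nonneg _
    · have e : (Y * J) ^ 3 = 8 * R * Y / X := by
        rw [mul_pow, hJ3]
        field_simp
      refine dh1_D ha hM hR0 (by positivity) hX0.le ?_ ?_ ?_
      · rw [e, div_le_iff₀ hX0]
        nlinarith [mul_le_mul_of_nonneg_left hYX hR0.le, mul_pos hR0 hX0]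
      · rw [e, show 8 * R * Y / X * X ^ 3 = 8 * R * (X * (X * Y)) by field_simp]
        calc _ ≤ 8 * R * (R * (8 * R)) := by gcongr
          _ = _ := by ring
      · rw [e, show 8 * R * Y / X * X ^ 2 = 8 * R * (X * Y) by field_simp]
        calc _ ≤ 8 * R * (8 * R) := by gcongr
          _ = _ := by ring
  · have hD := dh1_D1_nonneg ha hM.le hY0.le
    refine le_trans (cb_sum_le _ _ c9 (by positivity) fun s _ =>
      cb_sum_le _ _ (card_box_le hJ0) (by positivity) fun j _ => ?_) (hfin Y X hY0.le hX0.le ?_)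
    · refine cb_sum_le _ _ (card_sbox_le hX0.le) (by positivity) fun k₁ _ => ?_
      refine le_trans (Finset.sum_le_sum fun k₂ _ => ?_)
        (h a M R Y u (fun n => conj (u n * kap n (s * j ^ 3 * k₁))) ha ha4 hM hY hYR hs ht
          fun n => by rw [Complex.norm_conj]; exact hv _ n)
      split_ifs
      · rw [← norm_rowC_sq (fun n => u n * kap n (s * j ^ 3 * k₁)), ← rowC_mul, ← mul_assoc]
      · exact sq_nonneg _
    · have e : (X * J) ^ 3 = 8 * R * X ^ 2 / Y ^ 2 := by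
        rw [mul_pow, hJ3]
        field_simp
      have hXX : X ^ 2 ≤ Y ^ 2 := by gcongr
      refine dh1_D ha hM hR0 (by positivity) hY0.le ?_ ?_ ?_
      · rw [e, div_le_iff₀ (by positivity)]
        nlinarith [mul_le_mul_of_nonneg_left hXX hR0.le, mul_pos hR0 (pow_pos hY0 2)]
      · rw [e, show 8 * R * X ^ 2 / Y ^ 2 * Y ^ 3 = 8 * R * (X * (X * Y)) by field_simp]
        calc _ ≤ 8 * R * (R * (8 * R)) := by gcongr
          _ = _ := by ring
      · rw [e, show 8 * R * X ^ 2 / Y ^ 2 * Y ^ 2 = 8 * R * (X * X) by field_simp]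
        have : X * X ≤ 8 * R := le_trans (by gcongr) hXY'
        calc _ ≤ 8 * R * (8 * R) := by gcongr
          _ = _ := by ring

/-- `rows_cover` with `Z = 0` (`not_near_zero`). -/
theorem TCall {ε : ℝ} (hε : 0 < ε) : ∃ C : ℝ, 0 ≤ C ∧ ∀ (a M R : ℝ) (u : O → ℂ), 0 < a → a ≤ 4 →
    0 < M → 1 ≤ R → Supp 1 u → TS a M u →
    ∑ r ∈ box R, ‖rowC u r‖ ^ 2 ≤ C * (R * (1 + (M * a)⁻¹)) ^ ε * D2 a M R * tn 0 a M u := by
  have hε2 : 0 < ε / 2 := by positivity
  obtain ⟨C1, hC1, h1⟩ := rows_cover hε2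
  obtain ⟨C2, hC2, h2⟩ := tc_blk hε2
  refine ⟨C1 * C2, by positivity, fun a M R u ha ha4 hM hR hs ht => ?_⟩
  have hR0 : 0 < R := by linarith
  have hD := dh1_D2_nonneg ha hM.le hR0.le
  have hN := tn_nonneg 0 a hM u
  set T := R * (1 + (M * a)⁻¹) with hT
  have hi : 0 < (M * a)⁻¹ := by positivity
  have hRT : R ≤ T := le_mul_of_one_le_right hR0.le (by linarith)
  have hT0 : 0 < T := by linarith
  have h3 := h1 R 0 (C2 * T ^ (ε / 2) * D2 a M R * tn 0 a M u) (fun r => ‖rowC u r‖ ^ 2) hR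
    (by positivity) (fun r => sq_nonneg _) fun X Y hX hY hXR hYR hXY _ =>
      (Finset.sum_le_sum_of_subset_of_nonneg (Finset.filter_subset _ _)
        fun _ _ _ => sq_nonneg _).trans (h2 a M R X Y u ha ha4 hM hX hY hXR hYR hXY hs ht)
  rw [Finset.filter_true_of_mem fun r hr => not_near_zero (mem_box.1 hr).1] at h3
  have h4 : T ^ (ε / 2) * T ^ (ε / 2) = T ^ ε := by
    rw [← Real.rpow_add hT0, add_halves]
  calc _ ≤ _ := h3
    _ ≤ C1 * T ^ (ε / 2) * (C2 * T ^ (ε / 2) * D2 a M R * tn 0 a M u) := by gcongr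
    _ = _ := by rw [← h4]; ring

end Crest.Agent.R012.D

end
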