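import Crest.Agent.R012.DH1

/-! # Row 12, dispersion: two Poisson summations -/

set_option autoImplicit false

noncomputable section

open scoped BigOperators ComplexConjugate Topology
open Complex MeasureTheory Filter Set Crest.Agent.R017

namespace Crest.Agent.R012.D

theorem dh2_D2_nonneg {a M R : ℝ} (ha : 0 < a) (hM : 0 < M) (hR : 0 < R) : 0 ≤ D2 a M R := by
  unfold D2
  positivity

theorem dh2_D3_nonneg {a M R : ℝ} (ha : 0 < a) (hM : 0 < M) (hR : 0 < R) : 0 ≤ D3 a M R := by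
  unfold D3
  positivity

theorem dh2_supp_mul {u : O → ℂ} (hs : Supp 1 u) (c : O → ℂ) : Supp 1 (fun n => u n * c n) :=
  fun n h => hs n (left_ne_zero_of_mul h)

theorem dh2_one_le_exp {a : ℝ} (ha : 0 ≤ a) (t : ℝ) : 1 ≤ Real.exp (a * t ^ 2 / 2) :=
  Real.one_le_exp (by positivity)

theorem dh2_pow1 {ε β R Rs : ℝ} (h0 : 0 < ε) (h1 : ε ≤ 1) (hβ : 1 / 3 ≤ β) (hβ' : β ≤ 1)
    (hR : 0 < R) (hRs : 0 < Rs) :
    (9 * R) ^ ε * (9 * R) ^ β ≤ 81 * phi (1 / 3) (R / Rs) * (Rs ^ ε * Rs ^ β) := by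
  rw [← Real.rpow_add (by positivity), ← Real.rpow_add hRs, Real.mul_rpow (by norm_num) hR.le]
  have h2 : (9 : ℝ) ^ (ε + β) ≤ 81 := by
    calc (9 : ℝ) ^ (ε + β) ≤ 9 ^ (2 : ℝ) :=
          Real.rpow_le_rpow_of_exponent_le (by norm_num) (by linarith)
      _ = 81 := by norm_num
  calc (9 : ℝ) ^ (ε + β) * R ^ (ε + β) ≤ 81 * (Rs ^ (ε + β) * phi (1 / 3) (R / Rs)) :=
        mul_le_mul h2 (rpow_le_mul_phi (by linarith) (by linarith) hR hRs) (by positivity)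
          (by norm_num)
    _ = _ := by ring

theorem dh2_D2_le {ε a M R Rs : ℝ} (h0 : 0 < ε) (h1 : ε ≤ 1) (ha : 0 < a) (hM : 0 < M)
    (hR : 0 < R) (hRs : 0 < Rs) :
    (9 * R) ^ ε * D2 a M (9 * R) ≤ 81 * phi (1 / 3) (R / Rs) * (Rs ^ ε * D2 a M Rs) := by
  have e1 := dh2_pow1 (β := 1 / 3) h0 h1 le_rfl (by norm_num) hR hRs
  have e2 := dh2_pow1 (β := 2 / 3) h0 h1 (by norm_num) (by norm_num) hR hRs
  have e3 := dh2_pow1 (β := 1) h0 h1 (by norm_num) le_rfl hR hRs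
  rw [Real.rpow_one, Real.rpow_one] at e3
  have f1 := mul_le_mul_of_nonneg_right e1 (show 0 ≤ M * Real.sqrt a by positivity)
  have f2 := mul_le_mul_of_nonneg_right e2
    (show 0 ≤ M ^ (2 / 3 : ℝ) * a ^ (1 / 6 : ℝ) by positivity)
  have f3 := mul_le_mul_of_nonneg_right e3
    (show 0 ≤ (Real.sqrt a)⁻¹ + M ^ (1 / 3 : ℝ) * a ^ (-(1 / 6) : ℝ) by positivity)
  simp only [D2, Real.mul_rpow hM.le hRs.le, Real.mul_rpow hM.le (show 0 ≤ 9 * R by positivity),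
    div_eq_mul_inv _ (Real.sqrt a)]
  linarith

/-- `shell_RW_le`, `XX_eq_rowC`, `TCall`, `TS.cpow`, `rpow_le_mul_phi`. -/
theorem RH_thin {ε : ℝ} (h0 : 0 < ε) (h1 : ε ≤ 1) : ∃ C : ℝ, 0 ≤ C ∧
    ∀ (a a' M Rs : ℝ) (u : O → ℂ), 0 < a → a ≤ 4 → 0 ≤ a' → 0 < M → 0 < Rs → Supp 1 u → TS a M u →
    RH (1 / 4) (1 / 3) a' (RW All u) M Rs
      (C * (Rs * (1 + (M * a)⁻¹)) ^ ε * D2 a M Rs * tn 1 a M u) := by
  obtain ⟨C, hC, h⟩ := TCall h0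
  refine ⟨81 * C, by positivity, ?_⟩
  intro a a' M Rs u ha ha4 ha' hM hRs hs ht σ t R hσ hR
  have hR0 : 0 < R := by linarith
  obtain ⟨ht1, ht2⟩ := ht.cpow hM (supp_zero hs) (σ := σ) (by rcases hσ with h | h <;> linarith)
    (by rcases hσ with h | h <;> linarith) t
  have h2 := h a M (9 * R) _ ha ha4 hM (by linarith) (dh2_supp_mul hs _) ht1
  have h3 := shell_RW_le All u R (σ + t * I)
  simp only [rows_All, XX_eq_rowC] at h3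
  have hq : 0 < 1 + (M * a)⁻¹ := by positivity
  have hφ := (phi_pos (1 / 3) (div_pos hR0 hRs)).le
  have hD := dh2_D2_nonneg ha hM hRs
  have htn := tn_nonneg 1 a hM u
  refine (h3.trans h2).trans ?_
  rw [Real.mul_rpow (by positivity) hq.le, Real.mul_rpow hRs.le hq.le]
  calc C * ((9 * R) ^ ε * (1 + (M * a)⁻¹) ^ ε) * D2 a M (9 * R) *
        tn 0 a M (fun n => u n * (Nr n : ℂ) ^ ((σ : ℂ) + t * I - 1 / 2))
      = C * (1 + (M * a)⁻¹) ^ ε * ((9 * R) ^ ε * D2 a M (9 * R)) *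
        tn 0 a M (fun n => u n * (Nr n : ℂ) ^ ((σ : ℂ) + t * I - 1 / 2)) := by ring
    _ ≤ C * (1 + (M * a)⁻¹) ^ ε * (81 * phi (1 / 3) (R / Rs) * (Rs ^ ε * D2 a M Rs)) *
        (M ^ (2 * σ - 1) * tn 1 a M u) :=
        mul_le_mul (mul_le_mul_of_nonneg_left (dh2_D2_le h0 h1 ha hM hR0 hRs) (by positivity))
          (ht2 0) (tn_nonneg 0 a hM _) (by positivity)
    _ = M ^ (2 * σ - 1) * (81 * C * (Rs ^ ε * (1 + (M * a)⁻¹) ^ ε) * D2 a M Rs * tn 1 a M u) *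
        phi (1 / 3) (R / Rs) := by ring
    _ ≤ _ := le_mul_of_one_le_right (by positivity) (dh2_one_le_exp ha' t)

theorem dh2_D2_D3 {a M R : ℝ} (ha : 0 < a) (hM : 0 < M) (hR : 0 < R) :
    R * M⁻¹ * D2 a M (M ^ 2 / R) = D3 a M R := by
  obtain ⟨m, hm, rfl⟩ : ∃ m : ℝ, 0 < m ∧ M = m ^ 3 :=
    ⟨M ^ (1 / 3 : ℝ), by positivity, by
      rw [← Real.rpow_natCast, ← Real.rpow_mul hM.le]; norm_num⟩
  obtain ⟨r, hr, rfl⟩ : ∃ r : ℝ, 0 < r ∧ R = r ^ 3 :=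
    ⟨R ^ (1 / 3 : ℝ), by positivity, by
      rw [← Real.rpow_natCast, ← Real.rpow_mul hR.le]; norm_num⟩
  have key : ∀ {x : ℝ} (k : ℕ), 0 < x → (x ^ 3) ^ ((k : ℝ) / 3) = x ^ k := fun {x} k hx => by
    rw [← Real.rpow_natCast, ← Real.rpow_mul hx.le, ← Real.rpow_natCast]
    congr 1
    push_cast
    ring
  have e1 : ((m ^ 3) ^ 2 / r ^ 3) ^ (1 / 3 : ℝ) = m ^ 2 / r := by
    have := key (x := m ^ 2 / r) 1 (by positivity)
    rw [Nat.cast_one, pow_one] at this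
    rw [← this]
    congr 1
    ring
  have e2 : (m ^ 3 * ((m ^ 3) ^ 2 / r ^ 3)) ^ (2 / 3 : ℝ) = (m ^ 3 / r) ^ 2 := by
    have := key (x := m ^ 3 / r) 2 (by positivity)
    rw [Nat.cast_ofNat] at this
    rw [← this]
    congr 1
    ring
  have e3 : (r ^ 3 * m ^ 3) ^ (2 / 3 : ℝ) = (r * m) ^ 2 := by
    have := key (x := r * m) 2 (by positivity)
    rw [Nat.cast_ofNat] at this
    rw [← this]
    congr 1
    ring
  have e4 : (m ^ 3) ^ (1 / 3 : ℝ) = m := by simpa using key (x := m) 1 hm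
  have e5 : (r ^ 3) ^ (1 / 3 : ℝ) = r := by simpa using key (x := r) 1 hr
  have e6 : (m ^ 3) ^ (4 / 3 : ℝ) = m ^ 4 := by simpa using key (x := m) 4 hm
  have hs : 0 < Real.sqrt a := Real.sqrt_pos.2 ha
  rw [D2, D3, e1, e2, e3, e4, e5, e6]
  field_simp
  ring

theorem dh2_D3_mono {a M M' R : ℝ} (ha : 0 < a) (hM : 0 < M') (h : M' ≤ M) (hR : 0 < R) :
    D3 a M' R ≤ D3 a M R := by
  unfold D3
  gcongr

/-- `T2d` with the weight `W 1` and `RH_thin` at the scale `M' ≤ M`: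
`R M'⁻¹ D2 a M' (M'² / R) = D3 a M' R ≤ D3 a M R`. -/
theorem DS_thin {ε : ℝ} (h0 : 0 < ε) (h1 : ε ≤ 1) : ∃ C : ℝ, 0 ≤ C ∧
    ∀ (a M M' R : ℝ) (u : O → ℂ), 0 < a → a ≤ 4 → 0 < M' → M' ≤ M → 1 ≤ R → Supp 1 u → TS a M' u →
    ‖DS 1 R (RW All u) (RW All u)‖ ≤ C * (M ^ 2 + M / a) ^ ε * D3 a M R * tn 1 a M' u := by
  obtain ⟨C₁, hC₁, k₁⟩ := T2d (σ₁ := 1 / 4) (α := 1 / 3) (by norm_num) (by norm_num) (by norm_num)
  obtain ⟨C₂, hC₂, k₂⟩ := RH_thin h0 h1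
  refine ⟨C₁ * C₂, by positivity, ?_⟩
  intro a M M' R u ha ha4 hM' hM hR hs ht
  have hR0 : 0 < R := by linarith
  have hM0 : 0 < M := hM'.trans_le hM
  have hRs : 0 < M' ^ 2 / (R * 1) := by positivity
  have hD := dh2_D2_nonneg ha hM' hRs
  have htn := tn_nonneg 1 a hM' u
  have h3 := k₁ 1 R M' _ _ one_pos (by norm_num) hR0 hM' (by positivity)
    (dom_RW All (ht.rap ha hM' (supp_zero hs)) (supp_zero hs))
    (k₂ a 1 M' _ u ha ha4 zero_le_one hM' hRs hs ht)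
  refine h3.trans ?_
  have h4 : M' ^ 2 / (R * 1) * (1 + (M' * a)⁻¹) ≤ M ^ 2 + M / a := by
    calc M' ^ 2 / (R * 1) * (1 + (M' * a)⁻¹) = (M' ^ 2 + M' / a) / R := by field_simp
      _ ≤ M' ^ 2 + M' / a := div_le_self (by positivity) hR
      _ ≤ _ := by gcongr
  have h5 := dh2_D3_nonneg ha hM' hR0
  calc C₁ * (R * Real.sqrt 1) * M'⁻¹ * (C₂ * (M' ^ 2 / (R * 1) * (1 + (M' * a)⁻¹)) ^ ε *
        D2 a M' (M' ^ 2 / (R * 1)) * tn 1 a M' u)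
      = C₁ * C₂ * (M' ^ 2 / (R * 1) * (1 + (M' * a)⁻¹)) ^ ε * D3 a M' R * tn 1 a M' u := by
        rw [← dh2_D2_D3 ha hM' hR0, Real.sqrt_one, mul_one]
        ring
    _ ≤ _ := by
        have := dh2_D3_mono ha hM' hM hR0
        gcongr

/-- `T0` for thin norms. -/
theorem dh2_T0 : ∃ C : ℝ, 0 ≤ C ∧ ∀ (k : ℕ) (a₀ A a B Δ : ℝ) (γ : O → ℂ), 0 < a₀ → a₀ ≤ 4 → 0 < A →
    0 < a → 0 < B → 0 ≤ Δ → Supp 1 γ → TS a B γ →
    (∀ (M : ℝ) (u : O → ℂ), 0 < M → M ≤ B → Supp 1 u → TS a M u →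
      ‖DS a₀ A (RW All u) (RW All u)‖ ≤ Δ * tn k a M u) →
    SS a₀ A γ ≤ (C * (A * Real.sqrt a₀) + Δ) * tn (k + 1) a B γ := by
  classical
  obtain ⟨C, hC, h⟩ := T0
  refine ⟨C, hC, ?_⟩
  intro k a₀ A a B Δ γ ha₀ ha4 hA ha hB hΔ hs ht hD
  have h0 := supp_zero hs
  obtain ⟨s1, s2⟩ := sum_tn_dil ht hB h0 k
  have h1 := h a₀ A γ
    (fun d => Δ * if Prim d then tn k a (B / Nr d) (fun n => γ (d * n)) else 0) ha₀ ha4 hA hs
    (ht.rap ha hB h0) (s1.mul_left Δ) (fun d => ?_) (fun d hd _ => ?_)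
  · rw [tsum_mul_left] at h1
    refine h1.trans ?_
    rw [add_mul]
    exact add_le_add (mul_le_mul_of_nonneg_left (l2_le_tn ht ha hB h0 _) (by positivity))
      (mul_le_mul_of_nonneg_left s2 hΔ)
  · refine mul_nonneg hΔ ?_
    split_ifs with hd
    · exact tn_nonneg k a (div_pos hB (Nr_pos hd.ne_zero)) _
    · exact le_rfl
  · have hM : 0 < B / Nr d := div_pos hB (Nr_pos hd.ne_zero)
    obtain ⟨t1, t2⟩ := (ht.dil hB h0 hd).of_le hM (v := ud γ d) fun n => (norm_ud hs hd n).le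
    rw [if_pos hd]
    exact (hD _ _ hM (div_le_self hB.le (one_le_Nr hd.ne_zero)) (supp_ud hs hd) t1).trans
      (mul_le_mul_of_nonneg_left (t2 k) hΔ)

theorem dh2_W {x : ℝ} (h1 : 1 / 2 < x) (h2 : x ≤ 1) : 1 ≤ Real.exp 1 * W 1 x := by
  have hx : 0 < x := by linarith
  have h3 : Real.log x ≤ 0 := Real.log_nonpos hx.le h2
  have h4 : -1 ≤ Real.log x := by
    have h5 := Real.one_sub_inv_le_log_of_pos hx
    have h6 : x⁻¹ ≤ 2 := by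
      rw [inv_le_comm₀ hx two_pos]
      linarith
    linarith
  rw [W, ← Real.exp_add]
  exact Real.one_le_exp (by nlinarith)

theorem dh2_shell_le {R : ℝ} (hR : 0 < R) {u : O → ℂ} (hr : Rap u) :
    ∑ h ∈ shell R, ‖rowC u h‖ ^ 2 ≤ Real.exp 1 * SS 1 R (fun n => conj (u n)) := by
  have h1 := (summable_SS one_pos hR (dt0_rap hr)).sum_le_tsum (shell R) fun x _ => by
    split_ifs
    · exact le_rfl
    · exact mul_nonneg (W_pos _ _).le (sq_nonneg _)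
  refine le_trans ?_ (mul_le_mul_of_nonneg_left h1 (Real.exp_pos 1).le)
  rw [Finset.mul_sum]
  refine Finset.sum_le_sum fun x hx => ?_
  obtain ⟨⟨x0, x1⟩, x2⟩ := mem_shell.1 hx
  rw [if_neg x0, dt0_col, ← mul_assoc]
  simp only [Complex.conj_conj]
  refine le_mul_of_one_le_left (sq_nonneg _) (dh2_W ?_ ((div_le_one hR).2 x1))
  rw [lt_div_iff₀ hR]
  linarith

/-- `W 1 ≥ W 1 (1/2)` on the shell, `‖rowC u h‖ = ‖colC (conj u) h‖`, `T0` with `a = 1`, `A = R`,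
`DS_thin`, `sum_tn_dil`, `l2_le_tn`. -/
theorem TC2 {ε : ℝ} (h0 : 0 < ε) (h1 : ε ≤ 1) : ∃ C : ℝ, 0 ≤ C ∧
    ∀ (a M R : ℝ) (u : O → ℂ), 0 < a → a ≤ 4 → 0 < M → 1 ≤ R → Supp 1 u → TS a M u →
    ∑ h ∈ shell R, ‖rowC u h‖ ^ 2 ≤ C * (R + (M ^ 2 + M / a) ^ ε * D3 a M R) * tn 2 a M u := by
  obtain ⟨C₁, hC₁, k₁⟩ := dh2_T0
  obtain ⟨C₂, hC₂, k₂⟩ := DS_thin h0 h1
  refine ⟨Real.exp 1 * (C₁ + C₂), by positivity, ?_⟩
  intro a M R u ha ha4 hM hR hs ht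
  have hR0 : 0 < R := by linarith
  have hD := dh2_D3_nonneg ha hM hR0
  obtain ⟨t1, t2⟩ := ht.of_le hM (v := fun n => conj (u n)) fun n => (Complex.norm_conj _).le
  have h2 := k₁ 1 1 R a M (C₂ * (M ^ 2 + M / a) ^ ε * D3 a M R) _ one_pos (by norm_num) hR0 ha hM
    (by positivity) (dt0_supp hs) t1 fun M' v hM' hMM hv htv =>
      k₂ a M M' R v ha ha4 hM' hMM hR hv htv
  refine (dh2_shell_le hR0 (ht.rap ha hM (supp_zero hs))).trans ?_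
  rw [mul_assoc (Real.exp 1), mul_assoc (Real.exp 1)]
  refine mul_le_mul_of_nonneg_left (h2.trans ?_) (Real.exp_pos 1).le
  have hP : 0 ≤ (M ^ 2 + M / a) ^ ε * D3 a M R := by positivity
  refine mul_le_mul ?_ (t2 2) (tn_nonneg _ a hM _) (by positivity)
  rw [Real.sqrt_one, mul_one, mul_assoc]
  nlinarith [mul_nonneg hC₁ hP, mul_nonneg hC₂ hR0.le]

theorem dh2_pow2 {α β R Rs : ℝ} (h0 : 0 ≤ α) (hβ : 0 ≤ β) (hβ' : β ≤ 1) (hR : 1 ≤ R)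
    (hRs : 0 < Rs) : (9 * R) ^ β ≤ 9 * (max 1 Rs ^ α * phi α (R / Rs)) * Rs ^ β := by
  have hR0 : 0 < R := by linarith
  have h9 : (9 : ℝ) ^ β ≤ 9 := by
    simpa using Real.rpow_le_rpow_of_exponent_le (x := 9) (by norm_num) hβ'
  rw [Real.mul_rpow (by norm_num) hR0.le, mul_assoc]
  refine mul_le_mul h9 ?_ (by positivity) (by norm_num)
  unfold phi
  split_ifs with h
  · have h1 : 1 ≤ max 1 Rs ^ α * (R / Rs) ^ α := by
      rw [← Real.mul_rpow (by positivity) (by positivity)]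
      refine Real.one_le_rpow ?_ h0
      calc 1 ≤ R := hR
        _ = Rs * (R / Rs) := by field_simp
        _ ≤ _ := mul_le_mul_of_nonneg_right (le_max_right _ _) (by positivity)
    calc R ^ β ≤ Rs ^ β := Real.rpow_le_rpow hR0.le ((div_le_one hRs).1 h) hβ
      _ ≤ _ := le_mul_of_one_le_left (by positivity) h1
  · have h1 : 1 ≤ max 1 Rs ^ α := Real.one_le_rpow (le_max_left _ _) h0
    calc R ^ β = (R / Rs) ^ β * Rs ^ β := by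
          rw [← Real.mul_rpow (by positivity) hRs.le, div_mul_cancel₀ _ hRs.ne']
      _ ≤ (R / Rs) ^ 2 * Rs ^ β := by
          refine mul_le_mul_of_nonneg_right ?_ (by positivity)
          rw [← Real.rpow_two]
          exact Real.rpow_le_rpow_of_exponent_le (not_le.1 h).le (by linarith)
      _ ≤ _ := mul_le_mul_of_nonneg_right (le_mul_of_one_le_left (by positivity) h1)
          (by positivity)

theorem dh2_D3_le {α a M R Rs P : ℝ} (h0 : 0 ≤ α) (ha : 0 < a) (hM : 0 < M) (hR : 1 ≤ R)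
    (hRs : 0 < Rs) (hP : 0 ≤ P) :
    9 * R + P * D3 a M (9 * R) ≤ 9 * (max 1 Rs ^ α * phi α (R / Rs)) * (Rs + P * D3 a M Rs) := by
  have e0 := dh2_pow2 (β := 0) h0 le_rfl (by norm_num) hR hRs
  have e1 := dh2_pow2 (β := 1 / 3) h0 (by norm_num) (by norm_num) hR hRs
  have e2 := dh2_pow2 (β := 2 / 3) h0 (by norm_num) (by norm_num) hR hRs
  have e3 := dh2_pow2 (β := 1) h0 (by norm_num) le_rfl hR hRs
  rw [Real.rpow_one, Real.rpow_one] at e3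
  rw [Real.rpow_zero, Real.rpow_zero] at e0
  have f0 := mul_le_mul_of_nonneg_right e0
    (show 0 ≤ P * (M / Real.sqrt a + M ^ (4 / 3 : ℝ) * a ^ (-(1 / 6) : ℝ)) by positivity)
  have f1 := mul_le_mul_of_nonneg_right e1 (show 0 ≤ P * (M * a ^ (1 / 6 : ℝ)) by positivity)
  have f2 := mul_le_mul_of_nonneg_right e2
    (show 0 ≤ P * (M ^ (2 / 3 : ℝ) * Real.sqrt a) by positivity)
  simp only [D3, Real.mul_rpow hRs.le hM.le,
    Real.mul_rpow (show 0 ≤ 9 * R by positivity) hM.le]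
  linarith

/-- `shell_RW_le'`, `TC2` at `9 R`. For `R ≤ Rs` the bound is monotone in `R` and
`phi (2 ε) (R / Rs) ≥ Rs^{-2 ε}`; for `R > Rs` it grows at most linearly. -/
theorem RH_thin2 {ε : ℝ} (h0 : 0 < ε) (h1 : ε ≤ 1 / 2) : ∃ C : ℝ, 0 ≤ C ∧
    ∀ (a a' M Rs : ℝ) (u : O → ℂ), 0 < a → a ≤ 4 → 0 ≤ a' → 0 < M → 0 < Rs → Supp 1 u → TS a M u →
    RH ε (2 * ε) a' (RW All u) M Rs
      (C * max 1 Rs ^ (2 * ε) * (Rs + (M ^ 2 + M / a) ^ ε * D3 a M Rs) * tn 3 a M u) := by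
  classical
  obtain ⟨C, hC, h⟩ := TC2 h0 (by linarith)
  refine ⟨9 * C, by positivity, ?_⟩
  intro a a' M Rs u ha ha4 ha' hM hRs hs ht σ t R hσ hR
  have hR0 : 0 < R := by linarith
  obtain ⟨ht1, ht2⟩ := ht.cpow hM (supp_zero hs) (σ := σ) (by rcases hσ with h | h <;> linarith)
    (by rcases hσ with h | h <;> linarith) t
  have h2 := h a M (9 * R) _ ha ha4 hM (by linarith) (dh2_supp_mul hs _) ht1
  have h3 := shell_RW_le' All u R (σ + t * I)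
  rw [Finset.filter_true_of_mem (p := All) fun _ _ => trivial] at h3
  simp only [XX_eq_rowC] at h3
  have hφ := (phi_pos (2 * ε) (div_pos hR0 hRs)).le
  have hD := dh2_D3_nonneg ha hM hRs
  have htn := tn_nonneg 3 a hM u
  refine (h3.trans h2).trans ?_
  calc C * (9 * R + (M ^ 2 + M / a) ^ ε * D3 a M (9 * R)) *
        tn 2 a M (fun n => u n * (Nr n : ℂ) ^ ((σ : ℂ) + t * I - 1 / 2))
      ≤ C * (9 * (max 1 Rs ^ (2 * ε) * phi (2 * ε) (R / Rs)) *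
          (Rs + (M ^ 2 + M / a) ^ ε * D3 a M Rs)) * (M ^ (2 * σ - 1) * tn 3 a M u) :=
        mul_le_mul (mul_le_mul_of_nonneg_left
          (dh2_D3_le (by positivity) ha hM hR hRs (by positivity)) hC)
          (ht2 2) (tn_nonneg 2 a hM _) (by positivity)
    _ = M ^ (2 * σ - 1) * (9 * C * max 1 Rs ^ (2 * ε) * (Rs + (M ^ 2 + M / a) ^ ε * D3 a M Rs) *
        tn 3 a M u) * phi (2 * ε) (R / Rs) := by ring
    _ ≤ _ := le_mul_of_one_le_right (by positivity) (dh2_one_le_exp ha' t)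

theorem dh2_D3_eq {a A M : ℝ} (ha : 0 < a) (hA : 0 < A) (hM : 0 < M) :
    A * Real.sqrt a * M⁻¹ * (M ^ 2 / (A * a) + D3 a M (M ^ 2 / (A * a))) =
      A + M / Real.sqrt a +
        ((A * M) ^ (2 / 3 : ℝ) + A * M ^ (1 / 3 : ℝ) + A ^ (1 / 3 : ℝ) * M) * a ^ (1 / 3 : ℝ) := by
  obtain ⟨m, hm, rfl⟩ : ∃ m : ℝ, 0 < m ∧ M = m ^ 3 :=
    ⟨M ^ (1 / 3 : ℝ), by positivity, by
      rw [← Real.rpow_natCast, ← Real.rpow_mul hM.le]; norm_num⟩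
  obtain ⟨r, hr, rfl⟩ : ∃ r : ℝ, 0 < r ∧ A = r ^ 3 :=
    ⟨A ^ (1 / 3 : ℝ), by positivity, by
      rw [← Real.rpow_natCast, ← Real.rpow_mul hA.le]; norm_num⟩
  obtain ⟨b, hb, rfl⟩ : ∃ b : ℝ, 0 < b ∧ a = b ^ 6 :=
    ⟨a ^ (1 / 6 : ℝ), by positivity, by
      rw [← Real.rpow_natCast, ← Real.rpow_mul ha.le]; norm_num⟩
  have key : ∀ {x y : ℝ} (k : ℕ), 0 < x → y = x ^ 3 → y ^ ((k : ℝ) / 3) = x ^ k :=
    fun {x y} k hx hy => by
      rw [hy, ← Real.rpow_natCast, ← Real.rpow_mul hx.le, ← Real.rpow_natCast]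
      congr 1
      push_cast
      ring
  have e1 : ((m ^ 3) ^ 2 / (r ^ 3 * b ^ 6)) ^ (1 / 3 : ℝ) = m ^ 2 / (r * b ^ 2) := by
    simpa using key (x := m ^ 2 / (r * b ^ 2)) (y := (m ^ 3) ^ 2 / (r ^ 3 * b ^ 6)) 1
      (by positivity) (by field_simp)
  have e2 : ((m ^ 3) ^ 2 / (r ^ 3 * b ^ 6) * m ^ 3) ^ (2 / 3 : ℝ) = (m ^ 3 / (r * b ^ 2)) ^ 2 := by
    simpa using key (x := m ^ 3 / (r * b ^ 2)) (y := (m ^ 3) ^ 2 / (r ^ 3 * b ^ 6) * m ^ 3) 2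
      (by positivity) (by field_simp)
  have e3 : (r ^ 3 * m ^ 3) ^ (2 / 3 : ℝ) = (r * m) ^ 2 := by
    simpa using key (x := r * m) (y := r ^ 3 * m ^ 3) 2 (by positivity) (by ring)
  have e4 : (m ^ 3) ^ (1 / 3 : ℝ) = m := by simpa using key (x := m) 1 hm rfl
  have e5 : (r ^ 3) ^ (1 / 3 : ℝ) = r := by simpa using key (x := r) 1 hr rfl
  have e6 : (m ^ 3) ^ (4 / 3 : ℝ) = m ^ 4 := by simpa using key (x := m) 4 hm rfl
  have e7 : (b ^ 6) ^ (1 / 3 : ℝ) = b ^ 2 := by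
    simpa using key (x := b ^ 2) (y := b ^ 6) 1 (by positivity) (by ring)
  have e8 : (b ^ 6) ^ (1 / 6 : ℝ) = b := by
    rw [← Real.rpow_natCast, ← Real.rpow_mul hb.le]
    norm_num
  have e9 : (b ^ 6) ^ (-(1 / 6) : ℝ) = b⁻¹ := by rw [Real.rpow_neg (by positivity), e8]
  have e10 : Real.sqrt (b ^ 6) = b ^ 3 := by
    rw [show b ^ 6 = (b ^ 3) ^ 2 by ring, Real.sqrt_sq (by positivity)]
  rw [D3, e1, e2, e3, e4, e5, e6, e7, e8, e9, e10]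
  field_simp
  ring

/-- `T2d` with `σ₁ = ε' = min ε 1 / 3`, `α = 2 ε'`, and `RH_thin2`; with `Rs = M² / (A a)`:
`A √a M⁻¹ (Rs + D3 a M Rs) = M / √a + A + (A^{1/3} M + (A M)^{2/3} + A M^{1/3}) a^{1/3}`. -/
theorem DS_thin2 {ε : ℝ} (hε : 0 < ε) : ∃ C : ℝ, 0 ≤ C ∧
    ∀ (a A B M X : ℝ) (u : O → ℂ), 0 < a → a ≤ 4 → 0 < A → 0 < M → M ≤ B → 1 ≤ X →
    B ^ 2 / (A * a) ≤ X → B ^ 2 + B / a ≤ X → Supp 1 u → TS a M u →
    ‖DS a A (RW All u) (RW All u)‖ ≤ C * X ^ ε * (A + B / Real.sqrt a +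
      ((A * B) ^ (2 / 3 : ℝ) + A * B ^ (1 / 3 : ℝ) + A ^ (1 / 3 : ℝ) * B) * a ^ (1 / 3 : ℝ)) *
        tn 3 a M u := by
  have h0 : 0 < min ε 1 / 3 := by positivity
  have h1 : min ε 1 / 3 ≤ 1 / 2 := by linarith [min_le_right ε 1]
  have h2 : 3 * (min ε 1 / 3) ≤ ε := by linarith [min_le_left ε 1]
  generalize min ε 1 / 3 = δ at h0 h1 h2
  obtain ⟨C₁, hC₁, k₁⟩ := T2d (σ₁ := δ) (α := 2 * δ) h0 h1 (by linarith)
  obtain ⟨C₂, hC₂, k₂⟩ := RH_thin2 h0 h1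
  refine ⟨C₁ * C₂, by positivity, ?_⟩
  intro a A B M X u ha ha4 hA hM hMB hX hX1 hX2 hs ht
  have hB : 0 < B := hM.trans_le hMB
  have hX0 : 0 < X := by linarith
  have hRs : 0 < M ^ 2 / (A * a) := by positivity
  have hD := dh2_D3_nonneg ha hM hRs
  have htn := tn_nonneg 3 a hM u
  have h3 := k₁ a A M _ _ ha ha4 hA hM (by positivity)
    (dom_RW All (ht.rap ha hM (supp_zero hs)) (supp_zero hs))
    (k₂ a a M _ u ha ha4 ha.le hM hRs hs ht)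
  refine h3.trans ?_
  have h4 : max 1 (M ^ 2 / (A * a)) ^ (2 * δ) ≤ X ^ (2 * δ) :=
    Real.rpow_le_rpow (by positivity) (max_le hX (le_trans (by gcongr) hX1)) (by positivity)
  have h5 : (M ^ 2 + M / a) ^ δ ≤ X ^ δ :=
    Real.rpow_le_rpow (by positivity) (le_trans (by gcongr) hX2) h0.le
  have h6 : 1 ≤ X ^ δ := Real.one_le_rpow hX h0.le
  have h7 : M ^ 2 / (A * a) + (M ^ 2 + M / a) ^ δ * D3 a M (M ^ 2 / (A * a)) ≤
      X ^ δ * (M ^ 2 / (A * a) + D3 a M (M ^ 2 / (A * a))) := by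
    rw [mul_add]
    exact add_le_add (le_mul_of_one_le_left hRs.le h6) (mul_le_mul_of_nonneg_right h5 hD)
  have h8 : X ^ (2 * δ) * X ^ δ ≤ X ^ ε := by
    rw [← Real.rpow_add hX0]
    exact Real.rpow_le_rpow_of_exponent_le hX (by linarith)
  calc C₁ * (A * Real.sqrt a) * M⁻¹ * (C₂ * max 1 (M ^ 2 / (A * a)) ^ (2 * δ) *
        (M ^ 2 / (A * a) + (M ^ 2 + M / a) ^ δ * D3 a M (M ^ 2 / (A * a))) * tn 3 a M u)
      ≤ C₁ * (A * Real.sqrt a) * M⁻¹ * (C₂ * X ^ (2 * δ) *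
        (X ^ δ * (M ^ 2 / (A * a) + D3 a M (M ^ 2 / (A * a)))) * tn 3 a M u) := by gcongr
    _ = C₁ * C₂ * (X ^ (2 * δ) * X ^ δ) * (A * Real.sqrt a * M⁻¹ *
        (M ^ 2 / (A * a) + D3 a M (M ^ 2 / (A * a)))) * tn 3 a M u := by ring
    _ ≤ _ := by
        rw [dh2_D3_eq ha hA hM]
        gcongr

/-- `T0`, `DS_thin2`, `sum_tn_dil`, `l2_le_tn`. -/
theorem H2core {ε : ℝ} (hε : 0 < ε) : ∃ C : ℝ, 0 ≤ C ∧
    ∀ (a A B X : ℝ) (γ : O → ℂ), 0 < a → a ≤ 4 → 0 < A → 0 < B → 1 ≤ X →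
    B ^ 2 / (A * a) ≤ X → B ^ 2 + B / a ≤ X → Supp 1 γ → TS a B γ →
    SS a A γ ≤ C * X ^ ε * (A + B / Real.sqrt a +
      ((A * B) ^ (2 / 3 : ℝ) + A * B ^ (1 / 3 : ℝ) + A ^ (1 / 3 : ℝ) * B) * a ^ (1 / 3 : ℝ)) *
        tn 4 a B γ := by
  obtain ⟨C₁, hC₁, k₁⟩ := dh2_T0
  obtain ⟨C₂, hC₂, k₂⟩ := DS_thin2 hε
  refine ⟨2 * C₁ + C₂, by positivity, ?_⟩
  intro a A B X γ ha ha4 hA hB hX hX1 hX2 hs ht
  have hX0 : 0 < X := by linarith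
  have h2 := k₁ 3 a A a B _ γ ha ha4 hA ha hB (by positivity) hs ht fun M u hM hMB hu htu =>
    k₂ a A B M X u ha ha4 hA hM hMB hX hX1 hX2 hu htu
  refine h2.trans (mul_le_mul_of_nonneg_right ?_ (tn_nonneg _ a hB _))
  have h3 : Real.sqrt a ≤ 2 := Real.sqrt_le_iff.2 ⟨by norm_num, by linarith⟩
  have h4 : 1 ≤ X ^ ε := Real.one_le_rpow hX hε.le
  have h5 : 0 ≤ B / Real.sqrt a := by positivity
  have h6 : 0 ≤ ((A * B) ^ (2 / 3 : ℝ) + A * B ^ (1 / 3 : ℝ) + A ^ (1 / 3 : ℝ) * B) *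
    a ^ (1 / 3 : ℝ) := by positivity
  set S := A + B / Real.sqrt a +
    ((A * B) ^ (2 / 3 : ℝ) + A * B ^ (1 / 3 : ℝ) + A ^ (1 / 3 : ℝ) * B) * a ^ (1 / 3 : ℝ) with hS
  have h7 : A * Real.sqrt a ≤ 2 * (X ^ ε * S) := by
    calc A * Real.sqrt a ≤ S * 2 := mul_le_mul (by linarith) h3 (Real.sqrt_nonneg _) (by linarith)
      _ = 2 * (1 * S) := by ring
      _ ≤ _ := by
          have : 0 ≤ S := by linarith
          gcongr
  nlinarith [mul_le_mul_of_nonneg_left h7 hC₁]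

/-- `DD_gt_le`, `H2core` with `X = 2 (A B)³`, `tn_co_le`. -/
theorem disp_H2 {ε : ℝ} (hε : 0 < ε) : ∃ C : ℝ, 0 ≤ C ∧
    ∀ (θ A B τ M : ℝ) (β : O → ℂ), 1 ≤ A → 1 ≤ B → (A * B)⁻¹ ≤ θ → θ ≤ 1 → Env M B β →
    DD gt θ A B τ β ≤ C * (A * B) ^ ε * ((A + B / Real.sqrt θ +
      ((A * B) ^ (2 / 3 : ℝ) + A * B ^ (1 / 3 : ℝ) + A ^ (1 / 3 : ℝ) * B) * θ ^ (1 / 3 : ℝ)) *
        cn (2 * θ) B β + M ^ 2) := by
  have h4 : 0 < ε / 4 := by positivity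
  obtain ⟨C₁, hC₁, k₁⟩ := H2core h4
  obtain ⟨C₂, hC₂, k₂⟩ := tn_co_le h4 4
  refine ⟨C₁ * 2 ^ (ε / 4) * 2 * C₂, by positivity, ?_⟩
  intro θ A B τ M β hA hB hθ hθ1 hE
  have hA0 : 0 < A := by linarith
  have hB0 : 0 < B := by linarith
  have hAB : 1 ≤ A * B := one_le_mul_of_one_le_of_one_le hA hB
  have h0 : 0 < θ := lt_of_lt_of_le (by positivity) hθ
  have hθ' : θ⁻¹ ≤ A * B := (inv_le_comm₀ (by positivity) h0).1 hθ
  have hB3 : B ≤ A * B := le_mul_of_one_le_left hB0.le hA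
  have hP : ∀ k : ℕ, k ≤ 3 → (A * B) ^ k ≤ (A * B) ^ 3 := fun k hk => pow_le_pow_right₀ hAB hk
  have hs := supp_co θ B τ β
  obtain ⟨t1, t2⟩ := (TS_co h0 hθ1 hB hE τ).of_le hB0 (v := fun b => co θ B τ β b * gt b)
    fun n => (norm_mul_gt hs n).le
  have hX1 : B ^ 2 / (A * (4 * θ)) ≤ 2 * (A * B) ^ 3 := by
    calc B ^ 2 / (A * (4 * θ)) = B ^ 2 * θ⁻¹ / (4 * A) := by field_simp
      _ ≤ B ^ 2 * θ⁻¹ := div_le_self (by positivity) (by linarith)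
      _ ≤ (A * B) ^ 2 * (A * B) := by gcongr
      _ = (A * B) ^ 3 := by ring
      _ ≤ _ := le_mul_of_one_le_left (by positivity) one_le_two
  have hX2 : B ^ 2 + B / (4 * θ) ≤ 2 * (A * B) ^ 3 := by
    have e1 : B ^ 2 ≤ (A * B) ^ 3 := le_trans (by gcongr) (hP 2 (by norm_num))
    have e2 : B / (4 * θ) ≤ (A * B) ^ 3 := by
      calc B / (4 * θ) = B * θ⁻¹ / 4 := by field_simp
        _ ≤ B * θ⁻¹ := div_le_self (by positivity) (by norm_num)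
        _ ≤ (A * B) * (A * B) := by gcongr
        _ = (A * B) ^ 2 := by ring
        _ ≤ _ := hP 2 (by norm_num)
    linarith
  have h2 := k₁ (4 * θ) A B (2 * (A * B) ^ 3) _ (by positivity) (by linarith) hA0 hB0
    (by linarith [hP 0 (by norm_num), pow_zero (A * B)]) hX1 hX2 (dh2_supp_mul hs _) t1
  refine ((DD_gt_le h0 hθ1 hA0 hB0 hE τ).trans h2).trans ?_
  have hcn := cn_nonneg (2 * θ) B β
  have h5 : tn 4 (4 * θ) B (fun b => co θ B τ β b * gt b) ≤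
      C₂ * (A * B) ^ (ε / 4) * cn (2 * θ) B β :=
    ((t2 4).trans (k₂ θ M B τ β h0 hθ1 hB hE).2).trans (by gcongr)
  have h6 : (4 * θ) ^ (1 / 3 : ℝ) ≤ 2 * θ ^ (1 / 3 : ℝ) := by
    rw [Real.mul_rpow (by norm_num) h0.le]
    refine mul_le_mul_of_nonneg_right ?_ (by positivity)
    calc (4 : ℝ) ^ (1 / 3 : ℝ) ≤ 4 ^ (1 / 2 : ℝ) :=
          Real.rpow_le_rpow_of_exponent_le (by norm_num) (by norm_num)
      _ = 2 := by
          rw [← Real.sqrt_eq_rpow, show (4 : ℝ) = 2 ^ 2 by norm_num, Real.sqrt_sq (by norm_num)]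
  have h7 : B / Real.sqrt (4 * θ) ≤ B / Real.sqrt θ := by
    gcongr
    linarith
  have h8 : 0 ≤ B / Real.sqrt θ := by positivity
  set T := (A * B) ^ (2 / 3 : ℝ) + A * B ^ (1 / 3 : ℝ) + A ^ (1 / 3 : ℝ) * B with hT
  have hT0 : 0 ≤ T := by positivity
  have h9 : A + B / Real.sqrt (4 * θ) + T * (4 * θ) ^ (1 / 3 : ℝ) ≤
      2 * (A + B / Real.sqrt θ + T * θ ^ (1 / 3 : ℝ)) := by
    nlinarith [mul_le_mul_of_nonneg_left h6 hT0]
  have h10 : (2 * (A * B) ^ 3) ^ (ε / 4) * (A * B) ^ (ε / 4) = 2 ^ (ε / 4) * (A * B) ^ ε := by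
    rw [Real.mul_rpow (by norm_num) (by positivity), ← Real.rpow_natCast,
      ← Real.rpow_mul (by positivity), mul_assoc, ← Real.rpow_add (by positivity)]
    congr 2
    push_cast
    ring
  calc C₁ * (2 * (A * B) ^ 3) ^ (ε / 4) * (A + B / Real.sqrt (4 * θ) + T * (4 * θ) ^ (1 / 3 : ℝ)) *
        tn 4 (4 * θ) B (fun b => co θ B τ β b * gt b)
      ≤ C₁ * (2 * (A * B) ^ 3) ^ (ε / 4) * (2 * (A + B / Real.sqrt θ + T * θ ^ (1 / 3 : ℝ))) *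
        (C₂ * (A * B) ^ (ε / 4) * cn (2 * θ) B β) :=
        mul_le_mul (mul_le_mul_of_nonneg_left h9 (by positivity)) h5 (tn_nonneg _ _ hB0 _)
          (by positivity)
    _ = C₁ * 2 * C₂ * ((2 * (A * B) ^ 3) ^ (ε / 4) * (A * B) ^ (ε / 4)) *
        ((A + B / Real.sqrt θ + T * θ ^ (1 / 3 : ℝ)) * cn (2 * θ) B β) := by ring
    _ = C₁ * 2 ^ (ε / 4) * 2 * C₂ * (A * B) ^ ε *
        ((A + B / Real.sqrt θ + T * θ ^ (1 / 3 : ℝ)) * cn (2 * θ) B β) := by rw [h10]; ring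
    _ ≤ _ := mul_le_mul_of_nonneg_left (le_add_of_nonneg_right (sq_nonneg M)) (by positivity)

end Crest.Agent.R012.D

end
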