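import Crest.Agent.R012.DG
import Crest.Agent.R017.FE1AuxB

/-! # Row 12, dispersion: the dual kernel -/

set_option autoImplicit false

noncomputable section

open scoped BigOperators ComplexConjugate Topology
open Complex MeasureTheory Filter Set Crest.Agent.R017

namespace Crest.Agent.R012.D

/-- The factor of `mK` besides the Gaussian. -/
def fK (a : ℝ) (s : ℂ) : ℂ := Complex.exp (a * (1 - 2 * s)) * (c0 : ℂ) ^ (1 - 2 * s) *
  (Complex.Gamma s * (Complex.Gamma (1 - s))⁻¹)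

theorem mK_eq (a : ℝ) (s : ℂ) : mK a s = fK a s * Wh a s := by
  simp only [mK, fK, Wh]
  have e : (a : ℂ) * (1 - s) ^ 2 = a * (1 - 2 * s) + a * s ^ 2 := by ring
  rw [e, Complex.exp_add]
  ring

/-- `Complex.differentiable_one_div_Gamma`, `Complex.differentiableAt_Gamma`. -/
theorem fK_diff (a : ℝ) {σ₁ : ℝ} (h : 0 < σ₁) (σ₂ : ℝ) :
    DifferentiableOn ℂ (fK a) (strip σ₁ σ₂) := by
  intro w hw
  have hw' : 0 < w.re := h.trans_le hw.1
  refine DifferentiableAt.differentiableWithinAt ?_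
  have h0 : (c0 : ℂ) ≠ 0 := ofReal_ne_zero.2 c0_pos.ne'
  have h1 : DifferentiableAt ℂ (fun w : ℂ => (c0 : ℂ) ^ (1 - 2 * w)) w :=
    DifferentiableAt.const_cpow (by fun_prop) (Or.inl h0)
  have h2 : DifferentiableAt ℂ Complex.Gamma w := Theta.v1t_diff_Gamma hw'
  have h4 : DifferentiableAt ℂ (fun w : ℂ => (Complex.Gamma (1 - w))⁻¹) w :=
    (Complex.differentiable_one_div_Gamma (1 - w)).comp w (f := fun w : ℂ => 1 - w)
      (by fun_prop)
  have h5 : DifferentiableAt ℂ (fun w : ℂ => Complex.exp (a * (1 - 2 * w))) w := by fun_prop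
  exact (h5.mul h1).mul (h2.mul h4)

/-- `p2_norm_Gamma_le_real` (bounded on the compact range of `σ`), `f1_inv_Gamma`. -/
theorem fK_expGr (a : ℝ) {σ₁ : ℝ} (h : 0 < σ₁) (σ₂ : ℝ) : ExpGr (fK a) σ₁ σ₂ := by
  have h1 : ExpGr (fun w : ℂ => (c0 : ℂ) ^ (1 - 2 * w)) σ₁ σ₂ := by
    refine ExpGr.of_bdd (c0 ^ (1 - 2 * σ₁) + c0 ^ (1 - 2 * σ₂)) 0 fun s hs _ => ?_
    rw [norm_cpow_eq_rpow_re_of_pos c0_pos]
    have e : (1 - 2 * s).re = 1 - 2 * s.re := by simp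
    rw [e]
    rcases le_total 1 c0 with h | h
    · linarith [Real.rpow_le_rpow_of_exponent_le h (show 1 - 2 * s.re ≤ 1 - 2 * σ₁ by
        linarith [hs.1]), Real.rpow_pos_of_pos c0_pos (1 - 2 * σ₂)]
    · linarith [Real.rpow_le_rpow_of_exponent_ge c0_pos h (show 1 - 2 * σ₂ ≤ 1 - 2 * s.re by
        linarith [hs.2]), Real.rpow_pos_of_pos c0_pos (1 - 2 * σ₁)]
  have h2 : ExpGr (fun w : ℂ => Complex.exp (a * (1 - 2 * w))) σ₁ σ₂ := by
    refine ((ExpGr.const (Complex.exp a) σ₁ σ₂).mul (expGr_exp_mul (-(2 * a)) σ₁ σ₂)).congr 0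
      fun s _ _ => ?_
    rw [← Complex.exp_add]
    congr 1
    ring
  have h3 : ExpGr (fun w : ℂ => (Complex.Gamma (1 - w))⁻¹) σ₁ σ₂ :=
    Theta.v1t_comp_sub (F := fun s => (Complex.Gamma s)⁻¹) 1 (Theta.expGr_inv_Gamma _ _)
  exact (h2.mul h1).mul ((Theta.expGr_Gamma h).mul h3)

theorem integrable_mK {a σ : ℝ} (ha : 0 < a) (hσ : 0 < σ) :
    Integrable (fun t : ℝ => mK a (σ + t * I)) := by
  simp_rw [mK_eq]
  exact integrable_mul_Wh ha (fK_diff a hσ σ).continuousOn (fK_expGr a hσ σ) le_rfl le_rfl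

theorem dk_shift {a y σ₁ σ₂ : ℝ} (ha : 0 < a) (hy : 0 < y) (h1 : 0 < σ₁) (h12 : σ₁ ≤ σ₂) :
    ∫ t : ℝ, mK a (σ₁ + t * I) * (y : ℂ) ^ (-((σ₁ : ℂ) + t * I)) =
      ∫ t : ℝ, mK a (σ₂ + t * I) * (y : ℂ) ^ (-((σ₂ : ℂ) + t * I)) := by
  have h0 : (y : ℂ) ≠ 0 := ofReal_ne_zero.2 hy.ne'
  have hd : DifferentiableOn ℂ (fun s : ℂ => fK a s * (y : ℂ) ^ (-s)) (strip σ₁ σ₂) :=
    (fK_diff a h1 σ₂).mul fun w _ =>
      (DifferentiableAt.const_cpow (by fun_prop) (Or.inl h0)).differentiableWithinAt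
  have h := shift_Wh ha h12 hd ((fK_expGr a h1 σ₂).mul (expGr_cpow_neg hy σ₁ σ₂))
  have e : ∀ s : ℂ, mK a s * (y : ℂ) ^ (-s) = fK a s * (y : ℂ) ^ (-s) * Wh a s := fun s => by
    rw [mK_eq]; ring
  simp_rw [e]
  exact h

/-- `shift_Wh`. -/
theorem KK_eq {a σ y : ℝ} (ha : 0 < a) (hσ : 0 < σ) (hy : 0 < y) :
    KK a y = (1 / (2 * Real.pi) : ℂ) *
      ∫ t : ℝ, mK a (σ + t * I) * (y : ℂ) ^ (-((σ : ℂ) + t * I)) := by
  unfold KK
  congr 1
  rcases le_total σ (1 / 2) with h | h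
  · exact (dk_shift ha hy hσ h).symm
  · exact dk_shift ha hy (by norm_num) h

theorem dk_norm_cpow {y : ℝ} (hy : 0 < y) (σ t : ℝ) :
    ‖(y : ℂ) ^ (-((σ : ℂ) + t * I))‖ = y ^ (-σ) := by
  rw [norm_cpow_eq_rpow_re_of_pos hy]
  simp

theorem norm_KK_le {a σ : ℝ} (ha : 0 < a) (hσ : 0 < σ) : ∃ C : ℝ, 0 ≤ C ∧ ∀ y : ℝ, 0 < y →
    ‖KK a y‖ ≤ C * y ^ (-σ) := by
  refine ⟨‖(1 / (2 * Real.pi) : ℂ)‖ * ∫ t : ℝ, ‖mK a (σ + t * I)‖,
    mul_nonneg (norm_nonneg _) (integral_nonneg fun t => norm_nonneg _), fun y hy => ?_⟩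
  rw [KK_eq ha hσ hy, norm_mul, mul_assoc]
  refine mul_le_mul_of_nonneg_left ?_ (norm_nonneg _)
  refine (norm_integral_le_integral_norm _).trans (le_of_eq ?_)
  rw [← integral_mul_const]
  congr 1
  funext t
  rw [norm_mul, dk_norm_cpow hy]

/-- Termwise Mellin representation of a Dirichlet-type series against the kernel
(`hasSum_integral_of_summable_integral_norm`). -/
theorem tsum_KK {ι : Type} [Countable ι] {a σ : ℝ} (ha : 0 < a) (hσ : 0 < σ) (c : ι → ℂ) (y : ι → ℝ)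
    (hy : ∀ i, c i ≠ 0 → 0 < y i) (hs : Summable (fun i => ‖c i‖ * y i ^ (-σ))) :
    ∑' i, c i * KK a (y i) = (1 / (2 * Real.pi) : ℂ) *
      ∫ t : ℝ, mK a (σ + t * I) * ∑' i, c i * (y i : ℂ) ^ (-((σ : ℂ) + t * I)) := by
  have hI := integrable_mK ha hσ
  set F : ι → ℝ → ℂ := fun i t => mK a (σ + t * I) * (c i * (y i : ℂ) ^ (-((σ : ℂ) + t * I)))
    with hF
  have hn : ∀ i t, ‖F i t‖ = ‖mK a (σ + t * I)‖ * (‖c i‖ * y i ^ (-σ)) := by
    intro i t
    by_cases hc : c i = 0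
    · simp [hF, hc]
    · rw [hF]
      simp only [norm_mul]
      rw [dk_norm_cpow (hy i hc)]
  have hint : ∀ i, Integrable (F i) := by
    intro i
    by_cases hc : c i = 0
    · simp [hF, hc]
    · have h0 : (y i : ℂ) ≠ 0 := ofReal_ne_zero.2 (hy i hc).ne'
      have hcont : Continuous fun t : ℝ => c i * (y i : ℂ) ^ (-((σ : ℂ) + t * I)) :=
        continuous_const.mul (Continuous.const_cpow (by fun_prop) (Or.inl h0))
      refine (hI.norm.mul_const (‖c i‖ * y i ^ (-σ))).mono'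
        (hI.aestronglyMeasurable.mul hcont.aestronglyMeasurable)
        (Eventually.of_forall fun t => (hn i t).le)
  have hsum : Summable fun i => ∫ t, ‖F i t‖ := by
    simp_rw [hn, integral_mul_const]
    exact hs.mul_left _
  have h := hasSum_integral_of_summable_integral_norm hint hsum
  have e1 : ∀ i, c i * KK a (y i) = (1 / (2 * Real.pi) : ℂ) * ∫ t, F i t := by
    intro i
    by_cases hc : c i = 0
    · simp [hF, hc]
    · rw [KK_eq ha hσ (hy i hc), mul_left_comm, ← integral_const_mul]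
      congr 2
      funext t
      rw [hF]
      ring
  simp_rw [e1]
  rw [tsum_mul_left, h.tsum_eq]
  congr 2
  funext t
  rw [hF, tsum_mul_left]

end Crest.Agent.R012.D

end
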