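import Crest.Agent.R012.DT3
import Crest.Agent.R012.CLS

/-! # Row 12, dispersion: large sieve inequalities in the form used -/

set_option autoImplicit false

noncomputable section

open scoped BigOperators ComplexConjugate Topology
open Complex MeasureTheory Filter Set Crest.Agent.R017

namespace Crest.Agent.R012.D

theorem dl_young {R M x y k κ : ℝ} (hR : 1 ≤ R) (hM : 1 ≤ M) (hx : 0 ≤ x) (hy : 0 ≤ y) (hk : 0 < k)
    (hk1 : k ≤ 1) (hκ : 1 + k ≤ κ) (h : x * (1 - k / 24) + y * (1 + k) ≤ (1 + k) * (1 - k / 24)) :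
    R ^ x * M ^ y ≤ R ^ κ + M ^ (1 - k / 24) := by
  have h1 : (0 : ℝ) < 1 + k := by linarith
  have h2 : (0 : ℝ) < 1 - k / 24 := by linarith
  have h3 : x / (1 + k) + y / (1 - k / 24) ≤ 1 := by
    rw [div_add_div _ _ h1.ne' h2.ne', div_le_one (mul_pos h1 h2)]
    linarith
  have := young hR hM hx hy h1 h2 h3
  have h4 : R ^ (1 + k) ≤ R ^ κ := Real.rpow_le_rpow_of_exponent_le hR hκ
  linarith

theorem dl_term {x y R Rs M M' : ℝ} (hx1 : 1 / 3 ≤ x) (hx2 : x ≤ 2) (hy1 : 0 ≤ y) (hy2 : y ≤ 2)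
    (hR : 1 ≤ R) (hRs : 0 < Rs) (hM : 0 < M) (hM' : 1 ≤ M') :
    R ^ x * M' ^ y ≤ Rs ^ x * M ^ y * (phi (1 / 3) (R / Rs) * max 1 (M' / M) ^ 2) := by
  have h1 := rpow_le_mul_phi hx1 hx2 (by linarith : 0 < R) hRs
  have h2 := rpow_le_mul_max hy1 hy2 hM (by linarith : 0 < M')
  calc R ^ x * M' ^ y ≤ (Rs ^ x * phi (1 / 3) (R / Rs)) * (M ^ y * max 1 (M' / M) ^ 2) :=
        mul_le_mul h1 h2 (by positivity) ((by positivity : (0 : ℝ) ≤ R ^ x).trans h1)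
    _ = _ := by ring

theorem dl_sub (S : O → Prop) (R : ℝ) : rows S R ⊆ box R := by
  intro r hr
  simp only [rows, Finset.mem_filter] at hr
  exact hr.1

/-- `cls_far` with `V = M^v` and `young`. With `k = min (κ - 1) 1`: `v = k / 4`, `c = k / 24`,
`ε₀ = min (k / 48) (ε / 2)`. The term `(R M)^{ε₀} M Z^{-1/3}` is `≤ M^{1+ε} Z^{-1/3}` if `R ≤ M` and
`≤ R^κ` otherwise. -/
theorem LSfar {κ : ℝ} (hκ : 1 < κ) : ∃ c : ℝ, 0 < c ∧ c ≤ 1 ∧ ∀ ε : ℝ, 0 < ε → ∃ C : ℝ, 0 ≤ C ∧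
    ∀ R M Z : ℝ, 1 ≤ R → 1 ≤ M → 1 ≤ Z → LSb (rows (Far Z) R) M
      (C * R ^ (1 / 3 : ℝ) * (M ^ (1 - c) + M ^ (1 + ε) * Z ^ (-(1 / 3) : ℝ) + R ^ κ)) := by
  obtain ⟨k, hk0, hk1, hkκ⟩ : ∃ k : ℝ, 0 < k ∧ k ≤ 1 ∧ 1 + k ≤ κ :=
    ⟨min (κ - 1) 1, lt_min (by linarith) one_pos, min_le_right _ _, by
      have := min_le_left (κ - 1) 1
      linarith⟩
  refine ⟨k / 24, by linarith, by linarith, fun ε hε => ?_⟩
  obtain ⟨e, he0, he1, he2⟩ : ∃ e : ℝ, 0 < e ∧ e ≤ k / 48 ∧ e ≤ ε / 2 :=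
    ⟨min (k / 48) (ε / 2), lt_min (by linarith) (by linarith), min_le_left _ _, min_le_right _ _⟩
  obtain ⟨C, hC, H⟩ := cls_far he0
  refine ⟨5 * C, by linarith, fun R M Z hR hM hZ a => ?_⟩
  have hR0 : 0 < R := by linarith
  have hM0 : 0 < M := by linarith
  have hV : 1 ≤ M ^ (k / 4) := Real.one_le_rpow hM (by linarith)
  have h := H R M Z (M ^ (k / 4)) a hR hM hZ hV
  have e1 : rows (Far Z) R = (box R).filter (fun r => ¬ Near Z r) := by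
    ext r
    simp [rows, Far]
  rw [e1]
  refine h.trans (mul_le_mul_of_nonneg_right ?_ (cl2_nonneg M a))
  have hz0 : 0 ≤ Z ^ (-(1 / 3) : ℝ) := by positivity
  have hz1 : Z ^ (-(1 / 3) : ℝ) ≤ 1 := Real.rpow_le_one_of_one_le_of_nonpos hZ (by norm_num)
  have t1 := dl_young (x := 2 / 3 + e) (y := e) hR hM (by linarith) he0.le hk0 hk1 hkκ (by nlinarith)
  have t2 := dl_young (x := 1 / 3 + e) (y := 2 / 3 + e) hR hM (by linarith) (by linarith) hk0 hk1 hkκ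
    (by nlinarith)
  have t4 := dl_young (x := e) (y := 1 - k / 12 + e) hR hM he0.le (by linarith) hk0 hk1 hkκ
    (by nlinarith)
  have t5 := dl_young (x := 1 + e) (y := k / 6 + e) hR hM (by linarith) (by linarith) hk0 hk1 hkκ
    (by nlinarith)
  have t3 : R ^ e * M ^ (1 + e) * Z ^ (-(1 / 3) : ℝ) ≤ M ^ (1 + ε) * Z ^ (-(1 / 3) : ℝ) + R ^ κ := by
    rcases le_total R M with hRM | hRM
    · have a1 : R ^ e ≤ M ^ e := Real.rpow_le_rpow hR0.le hRM he0.le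
      have a2 : M ^ e * M ^ (1 + e) ≤ M ^ (1 + ε) := by
        rw [← Real.rpow_add hM0]
        exact Real.rpow_le_rpow_of_exponent_le hM (by linarith)
      have a3 : R ^ e * M ^ (1 + e) ≤ M ^ (1 + ε) :=
        (mul_le_mul_of_nonneg_right a1 (by positivity)).trans a2
      have a4 := mul_le_mul_of_nonneg_right a3 hz0
      have : 0 ≤ R ^ κ := by positivity
      linarith
    · have a1 : M ^ (1 + e) ≤ R ^ (1 + e) := Real.rpow_le_rpow hM0.le hRM (by linarith)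
      have a2 : R ^ e * R ^ (1 + e) ≤ R ^ κ := by
        rw [← Real.rpow_add hR0]
        exact Real.rpow_le_rpow_of_exponent_le hR (by linarith)
      have a3 : R ^ e * M ^ (1 + e) ≤ R ^ κ :=
        (mul_le_mul_of_nonneg_left a1 (by positivity)).trans a2
      have a4 : R ^ e * M ^ (1 + e) * Z ^ (-(1 / 3) : ℝ) ≤ R ^ e * M ^ (1 + e) :=
        mul_le_of_le_one_right (by positivity) hz1
      have : 0 ≤ M ^ (1 + ε) * Z ^ (-(1 / 3) : ℝ) := by positivity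
      linarith
  have key : (R * M) ^ e * (R + (R * M) ^ (2 / 3 : ℝ) +
        R ^ (1 / 3 : ℝ) * M * (Z ^ (-(1 / 3) : ℝ) + (M ^ (k / 4)) ^ (-(1 / 3) : ℝ)) +
        R ^ (4 / 3 : ℝ) * (M ^ (k / 4)) ^ (2 / 3 : ℝ)) =
      R ^ (1 / 3 : ℝ) * (R ^ (2 / 3 + e) * M ^ e + R ^ (1 / 3 + e) * M ^ (2 / 3 + e) +
        R ^ e * M ^ (1 + e) * Z ^ (-(1 / 3) : ℝ) + R ^ e * M ^ (1 - k / 12 + e) +
        R ^ (1 + e) * M ^ (k / 6 + e)) := by
    obtain ⟨r, rfl⟩ : ∃ r, R = Real.exp r := ⟨Real.log R, (Real.exp_log hR0).symm⟩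
    obtain ⟨m, rfl⟩ : ∃ m, M = Real.exp m := ⟨Real.log M, (Real.exp_log hM0).symm⟩
    generalize Z ^ (-(1 / 3) : ℝ) = z
    simp only [← Real.exp_mul, ← Real.exp_add, mul_add, ← mul_assoc]
    have q : ∀ a b : ℝ, a = b → Real.exp a = Real.exp b := fun a b h => by rw [h]
    rw [← add_assoc]
    congr 1
    · congr 1
      · congr 1
        · congr 1 <;> exact q _ _ (by ring)
        · congr 1
          exact q _ _ (by ring)
      · exact q _ _ (by ring)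
    · exact q _ _ (by ring)
  rw [mul_assoc, key]
  have hA : 0 ≤ M ^ (1 + ε) * Z ^ (-(1 / 3) : ℝ) := by positivity
  have hB : 0 ≤ M ^ (1 - k / 24) := by positivity
  have hP : 0 ≤ C * R ^ (1 / 3 : ℝ) := by positivity
  have := mul_le_mul_of_nonneg_left (show R ^ (2 / 3 + e) * M ^ e + R ^ (1 / 3 + e) * M ^ (2 / 3 + e) +
        R ^ e * M ^ (1 + e) * Z ^ (-(1 / 3) : ℝ) + R ^ e * M ^ (1 - k / 12 + e) +
        R ^ (1 + e) * M ^ (k / 6 + e) ≤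
      5 * (M ^ (1 - k / 24) + M ^ (1 + ε) * Z ^ (-(1 / 3) : ℝ) + R ^ κ) by linarith) hP
  linarith

/-- `cls_mid`. -/
theorem LSmid : ∃ C : ℝ, 0 ≤ C ∧ ∀ R M Z₀ Z : ℝ, 0 < R → 1 ≤ M → 0 < Z₀ → 1 ≤ Z →
    LSb (rows (fun r => Near Z r ∧ ¬ Near Z₀ r) R) M
      (C * R ^ (1 / 3 : ℝ) * (M * Z₀ ^ (-(1 / 3) : ℝ) + Z ^ 2)) := by
  obtain ⟨C, hC, H⟩ := cls_mid
  refine ⟨C, hC, fun R M Z₀ Z hR hM hZ₀ hZ a => ?_⟩
  have e1 : rows (fun r => Near Z r ∧ ¬ Near Z₀ r) R =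
      (box R).filter (fun r => Near Z r ∧ ¬ Near Z₀ r) := by
    ext r
    simp [rows]
  rw [e1]
  exact H R M Z₀ Z a hR hM hZ₀ hZ

/-- A non-zero row is not `Near (1/2)`. -/
theorem not_near_half {r : O} (hr : r ≠ 0) : ¬ Near (1 / 2) r := by
  rintro ⟨k, y, rfl, hk⟩
  have := one_le_Nr (left_ne_zero_of_mul hr)
  linarith

/-- No `ε`-loss: `LSmid` with `Z₀ = 1/2`, `Z = √M`, and `LSfar` with `ε = 1/6`. -/
theorem LSfree {κ : ℝ} (hκ : 1 < κ) : ∃ C : ℝ, 0 ≤ C ∧ ∀ R M : ℝ, 1 ≤ R → 1 ≤ M →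
    LSb (box R) M (C * R ^ (1 / 3 : ℝ) * (M + R ^ κ)) := by
  obtain ⟨c, hc0, hc1, H⟩ := LSfar hκ
  obtain ⟨C₁, hC₁, H1⟩ := H (1 / 6) (by norm_num)
  obtain ⟨C₂, hC₂, H2⟩ := LSmid
  refine ⟨2 * C₁ + 3 * C₂, by linarith, fun R M hR hM a => ?_⟩
  have hR0 : 0 < R := by linarith
  have hM0 : 0 < M := by linarith
  have hZ : 1 ≤ M ^ (1 / 2 : ℝ) := Real.one_le_rpow hM (by norm_num)
  have h1 := H1 R M _ hR hM hZ a
  have h2 := H2 R M (1 / 2) _ hR0 hM (by norm_num) hZ a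
  have e0 : ∑ r ∈ box R, ‖cr M a r‖ ^ 2 = ∑ r ∈ rows (Far (M ^ (1 / 2 : ℝ))) R, ‖cr M a r‖ ^ 2 +
      ∑ r ∈ rows (fun r => Near (M ^ (1 / 2 : ℝ)) r ∧ ¬ Near (1 / 2) r) R, ‖cr M a r‖ ^ 2 := by
    rw [← Finset.sum_filter_not_add_sum_filter (box R) (fun r => Near (M ^ (1 / 2 : ℝ)) r)]
    congr 1
    · refine Finset.sum_congr ?_ fun _ _ => rfl
      ext r
      simp [rows, Far]
    · refine Finset.sum_congr ?_ fun _ _ => rfl
      ext r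
      simp only [rows, Finset.mem_filter]
      constructor
      · rintro ⟨hb, hn⟩
        refine ⟨hb, hn, not_near_half ?_⟩
        simp only [box, Finset.mem_filter] at hb
        exact hb.2.1
      · rintro ⟨hb, hn, -⟩
        exact ⟨hb, hn⟩
  have a1 : M ^ (1 - c) ≤ M := by
    simpa using Real.rpow_le_rpow_of_exponent_le hM (show 1 - c ≤ 1 by linarith)
  have a2 : M ^ (1 + 1 / 6 : ℝ) * (M ^ (1 / 2 : ℝ)) ^ (-(1 / 3) : ℝ) = M := by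
    rw [← Real.rpow_mul hM0.le, ← Real.rpow_add hM0]
    norm_num
  have a3 : (M ^ (1 / 2 : ℝ)) ^ 2 = M := by
    rw [← Real.rpow_natCast, ← Real.rpow_mul hM0.le]
    norm_num
  have a4 : (1 / 2 : ℝ) ^ (-(1 / 3) : ℝ) ≤ 2 := by
    have : (1 / 2 : ℝ) ^ (-(1 / 3) : ℝ) ≤ (1 / 2 : ℝ) ^ (-1 : ℝ) :=
      Real.rpow_le_rpow_of_exponent_ge (by norm_num) (by norm_num) (by norm_num)
    rw [Real.rpow_neg_one] at this
    linarith
  rw [a2] at h1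
  rw [a3] at h2
  have hl := cl2_nonneg M a
  have hκ0 : 0 ≤ R ^ κ := by positivity
  have hP : 0 ≤ R ^ (1 / 3 : ℝ) * cl2 M a := by positivity
  have b1 := mul_le_mul_of_nonneg_left (show M ^ (1 - c) + M + R ^ κ ≤ 2 * (M + R ^ κ) by linarith)
    (mul_nonneg hC₁ hP)
  have b2 := mul_le_mul_of_nonneg_left (show M * (1 / 2 : ℝ) ^ (-(1 / 3) : ℝ) + M ≤ 3 * (M + R ^ κ) by
    nlinarith) (mul_nonneg hC₂ hP)
  rw [e0]
  nlinarith

/-- `RH_of_LS`, `rpow_le_mul_phi`, `rpow_le_mul_max`. -/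
theorem RH_free {κ : ℝ} (h1 : 1 < κ) (h2 : κ ≤ 5 / 3) : ∃ C : ℝ, 0 ≤ C ∧
    ∀ (S : O → Prop) (a M Rs : ℝ) (u : O → ℂ), 0 ≤ a → 0 < M → 0 < Rs → Supp 1 u → Rap u →
    RH (1 / 4) (1 / 3) a (RW S u) M Rs (C * Rs ^ (1 / 3 : ℝ) * (M + Rs ^ κ) * nrm M u) := by
  obtain ⟨C₀, hC₀, H0⟩ := RH_of_LS
  obtain ⟨C, hC, H⟩ := LSfree h1
  refine ⟨C₀ * C, mul_nonneg hC₀ hC, fun S a M Rs u ha hM hRs hu hr => ?_⟩
  have := H0 S (1 / 4) (1 / 3) a M Rs (C * Rs ^ (1 / 3 : ℝ) * (M + Rs ^ κ)) u (by norm_num) (by norm_num)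
    (by norm_num) (by norm_num) ha hM hRs (by positivity) hu hr (fun R M' hR hM' => ?_)
  · convert this using 1
    ring
  refine (H R M' hR hM').mono (dl_sub S R) ?_
  have hR0 : 0 < R := by linarith
  have t1 := dl_term (x := 1 / 3) (y := 1) le_rfl (by norm_num) (by norm_num) (by norm_num) hR hRs hM hM'
  have t2 := dl_term (x := 1 / 3 + κ) (y := 0) (by linarith) (by linarith) le_rfl (by norm_num) hR hRs hM
    hM'
  simp only [Real.rpow_one, Real.rpow_zero, Real.rpow_add hR0, Real.rpow_add hRs, mul_one] at t1 t2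
  have := mul_le_mul_of_nonneg_left (add_le_add t1 t2) hC
  linarith

theorem RH_far {κ : ℝ} (h1 : 1 < κ) (h2 : κ ≤ 5 / 3) : ∃ c : ℝ, 0 < c ∧ c ≤ 1 ∧ ∀ ε : ℝ, 0 < ε →
    ε ≤ 1 → ∃ C : ℝ, 0 ≤ C ∧ ∀ (a M Rs Z : ℝ) (u : O → ℂ), 0 ≤ a → 0 < M → 0 < Rs → 1 ≤ Z →
    Supp 1 u → Rap u →
    RH (1 / 4) (1 / 3) a (RW (Far Z) u) M Rs (C * Rs ^ (1 / 3 : ℝ) *
      (M ^ (1 - c) + M ^ (1 + ε) * Z ^ (-(1 / 3) : ℝ) + Rs ^ κ) * nrm M u) := by
  obtain ⟨C₀, hC₀, H0⟩ := RH_of_LS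
  obtain ⟨c, hc0, hc1, H1⟩ := LSfar h1
  refine ⟨c, hc0, hc1, fun ε hε hε1 => ?_⟩
  obtain ⟨C, hC, H⟩ := H1 ε hε
  refine ⟨C₀ * C, mul_nonneg hC₀ hC, fun a M Rs Z u ha hM hRs hZ hu hr => ?_⟩
  have hz0 : 0 ≤ Z ^ (-(1 / 3) : ℝ) := by positivity
  have := H0 (Far Z) (1 / 4) (1 / 3) a M Rs (C * Rs ^ (1 / 3 : ℝ) *
    (M ^ (1 - c) + M ^ (1 + ε) * Z ^ (-(1 / 3) : ℝ) + Rs ^ κ)) u (by norm_num) (by norm_num)
    (by norm_num) (by norm_num) ha hM hRs (by positivity) hu hr (fun R M' hR hM' => ?_)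
  · convert this using 1
    ring
  refine (H R M' Z hR hM' hZ).mono subset_rfl ?_
  have hR0 : 0 < R := by linarith
  have t1 := dl_term (x := 1 / 3) (y := 1 - c) le_rfl (by norm_num) (by linarith) (by linarith) hR hRs hM
    hM'
  have t3 := mul_le_mul_of_nonneg_right (dl_term (x := 1 / 3) (y := 1 + ε) le_rfl (by norm_num)
    (by linarith) (by linarith) hR hRs hM hM') hz0
  have t2 := dl_term (x := 1 / 3 + κ) (y := 0) (by linarith) (by linarith) le_rfl (by norm_num) hR hRs hM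
    hM'
  simp only [Real.rpow_zero, Real.rpow_add hR0, Real.rpow_add hRs, mul_one] at t2
  have := mul_le_mul_of_nonneg_left (add_le_add (add_le_add t1 t3) t2) hC
  linarith

theorem RH_mid : ∃ C : ℝ, 0 ≤ C ∧ ∀ (a M Rs Z₀ Z : ℝ) (u : O → ℂ), 0 ≤ a → 0 < M → 0 < Rs →
    0 < Z₀ → 1 ≤ Z → Supp 1 u → Rap u →
    RH (1 / 4) (1 / 3) a (RW (fun r => Near Z r ∧ ¬ Near Z₀ r) u) M Rs
      (C * Rs ^ (1 / 3 : ℝ) * (M * Z₀ ^ (-(1 / 3) : ℝ) + Z ^ 2) * nrm M u) := by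
  obtain ⟨C₀, hC₀, H0⟩ := RH_of_LS
  obtain ⟨C, hC, H⟩ := LSmid
  refine ⟨C₀ * C, mul_nonneg hC₀ hC, fun a M Rs Z₀ Z u ha hM hRs hZ₀ hZ hu hr => ?_⟩
  have hz0 : 0 ≤ Z₀ ^ (-(1 / 3) : ℝ) := by positivity
  have := H0 (fun r => Near Z r ∧ ¬ Near Z₀ r) (1 / 4) (1 / 3) a M Rs (C * Rs ^ (1 / 3 : ℝ) *
    (M * Z₀ ^ (-(1 / 3) : ℝ) + Z ^ 2)) u (by norm_num) (by norm_num)
    (by norm_num) (by norm_num) ha hM hRs (by positivity) hu hr (fun R M' hR hM' => ?_)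
  · convert this using 1
    ring
  have hR0 : 0 < R := by linarith
  refine (H R M' Z₀ Z hR0 hM' hZ₀ hZ).mono subset_rfl ?_
  have t1 := mul_le_mul_of_nonneg_right (dl_term (x := 1 / 3) (y := 1) le_rfl (by norm_num)
    (by norm_num) (by norm_num) hR hRs hM hM') hz0
  have t2 := mul_le_mul_of_nonneg_right (dl_term (x := 1 / 3) (y := 0) le_rfl (by norm_num) le_rfl
    (by norm_num) hR hRs hM hM') (sq_nonneg Z)
  simp only [Real.rpow_zero, Real.rpow_one, mul_one] at t1 t2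
  have := mul_le_mul_of_nonneg_left (add_le_add t1 t2) hC
  linarith

/-- `cls_all`. -/
theorem RH_all {ε : ℝ} (h0 : 0 < ε) (h1 : ε ≤ 1) : ∃ C : ℝ, 0 ≤ C ∧
    ∀ (a M Rs : ℝ) (u : O → ℂ), 0 ≤ a → 0 < M → 0 < Rs → Supp 1 u → Rap u →
    RH (1 / 4) (1 / 3) a (RW All u) M Rs (C * (Rs * M) ^ ε *
      (Rs + Rs ^ (1 / 3 : ℝ) * M + (Rs * M) ^ (2 / 3 : ℝ)) * nrm M u) := by
  obtain ⟨C₀, hC₀, H0⟩ := RH_of_LS
  obtain ⟨C, hC, H⟩ := cls_all h0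
  refine ⟨C₀ * C, mul_nonneg hC₀ hC, fun a M Rs u ha hM hRs hu hr => ?_⟩
  have := H0 All (1 / 4) (1 / 3) a M Rs (C * (Rs * M) ^ ε *
      (Rs + Rs ^ (1 / 3 : ℝ) * M + (Rs * M) ^ (2 / 3 : ℝ))) u (by norm_num) (by norm_num)
    (by norm_num) (by norm_num) ha hM hRs (by positivity) hu hr (fun R M' hR hM' => ?_)
  · convert this using 1
    ring
  have hR0 : 0 < R := by linarith
  have hM0 : 0 < M' := by linarith
  have hL : LSb (box R) M' (C * (R * M') ^ ε * (R + R ^ (1 / 3 : ℝ) * M' + (R * M') ^ (2 / 3 : ℝ))) :=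
    fun a => H R M' a hR hM'
  refine hL.mono (dl_sub All R) ?_
  have t1 := dl_term (x := 1 + ε) (y := ε) (by linarith) (by linarith) h0.le (by linarith) hR hRs hM hM'
  have t2 := dl_term (x := 1 / 3 + ε) (y := 1 + ε) (by linarith) (by linarith) (by linarith)
    (by linarith) hR hRs hM hM'
  have t3 := dl_term (x := 2 / 3 + ε) (y := 2 / 3 + ε) (by linarith) (by linarith) (by linarith)
    (by linarith) hR hRs hM hM'
  simp only [Real.rpow_one, Real.rpow_add hR0, Real.rpow_add hRs, Real.rpow_add hM0,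
    Real.rpow_add hM] at t1 t2 t3
  simp only [Real.mul_rpow hR0.le hM0.le, Real.mul_rpow hRs.le hM.le]
  have := mul_le_mul_of_nonneg_left (add_le_add (add_le_add t1 t2) t3) hC
  linarith

end Crest.Agent.R012.D

end
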