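import Crest.Agent.R012.DK

/-! # Row 12, dispersion: Poisson summation against a log-Gaussian weight -/

set_option autoImplicit false

noncomputable section

open scoped BigOperators ComplexConjugate Topology
open Complex MeasureTheory Filter Set Crest.Agent.R017

namespace Crest.Agent.R012.D

/-- The analytic input. Take the `WeakFEPair` with `f = f1_th F 1`, `g = f1_th f N⁻¹`, `k = 1`,
`ε = 1` (compare `l1_pair`, `f1_analytic`) and
`H s = f1_xi P s · c0^s / Γ(s + 1)` (`f1_xi_eq`, `f1_mellin`, `f1_xi_FE`, `f1_xi_bound`,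
`f1_inv_Gamma`). -/
theorem tp_analytic {N : ℝ} (hN : 0 < N) {F f : O → ℂ} (hF : ∀ x, ‖F x‖ ≤ 1) (hf : ∀ x, ‖f x‖ ≤ 1)
    (hP : ∀ R : ℝ, 0 < R → ∑' x : O, (Phi (Nr x / R) : ℂ) * F x =
      (R : ℂ) * ∑' h : O, f h * (Phi (R * Nr h / N) : ℂ)) :
    ∃ H : ℂ → ℂ, Differentiable ℂ H ∧ (∀ σ₁ σ₂ : ℝ, ExpGr H σ₁ σ₂) ∧ H 1 = c0 * f 0 ∧
      (∀ s : ℂ, 1 < s.re → H s = (s - 1) * f1_D F s) ∧
      ∀ s : ℂ, 1 < s.re → H (1 - s) = -s * ((N : ℂ) ^ s * (c0 : ℂ) ^ (1 - 2 * s) *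
        (Complex.Gamma s * (Complex.Gamma (1 - s))⁻¹) * f1_D f s) := by
  have hκ : 0 < N⁻¹ := inv_pos.2 hN
  let P : WeakFEPair ℂ :=
    { f := f1_th F 1
      g := f1_th f N⁻¹
      k := 1
      ε := 1
      f₀ := F 0
      g₀ := f 0
      hf_int := (f1_th_cont hF one_pos).locallyIntegrableOn measurableSet_Ioi
      hg_int := (f1_th_cont hf hκ).locallyIntegrableOn measurableSet_Ioi
      hk := one_pos
      hε := one_ne_zero
      h_feq := fun t ht => by
        have e1 : ∀ x : O, 1 * (1 / t) * Nr x = Nr x / t := fun x => by ring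
        have e2 : ∀ x : O, t * Nr x / N = N⁻¹ * t * Nr x := fun x => by ring
        simp only [f1_th, e1]
        simp only [hP t ht, e2, Real.rpow_one, smul_eq_mul, one_mul, mul_comm (f _)]
      hf_top := f1_th_top hF one_pos
      hg_top := f1_th_top hf hκ }
  have hc := c0_pos
  have hcC : (c0 : ℂ) ≠ 0 := ofReal_ne_zero.2 hc.ne'
  have hx1 : ∀ s : ℂ, 1 < s.re → f1_xi P s =
      s * (s - 1) * (Gamma s * (((c0 * 1 : ℝ) : ℂ) ^ s)⁻¹ * f1_D F s) := fun s hs => by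
    rw [f1_xi_eq P rfl hs, ← f1_mellin hF one_pos hs]
  have hx2 : ∀ s : ℂ, 1 < s.re → f1_xi P.symm s =
      s * (s - 1) * (Gamma s * (((c0 * N⁻¹ : ℝ) : ℂ) ^ s)⁻¹ * f1_D f s) := fun s hs => by
    rw [f1_xi_eq P.symm rfl hs, ← f1_mellin hf hκ hs]; rfl
  refine ⟨fun s => (c0 : ℂ) ^ s * (Gamma (1 + s))⁻¹ * f1_xi P s, ?_, fun σ₁ σ₂ => ?_, ?_,
    fun s hs => ?_, fun s hs => ?_⟩
  · refine (Differentiable.mul ?_ ?_).mul (f1_xi_diff P)
    · exact differentiable_id.const_cpow (Or.inl hcC)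
    · exact differentiable_one_div_Gamma.comp ((differentiable_const _).add differentiable_id)
  · obtain ⟨C₁, -, h₁⟩ := f1_xi_bound P (|σ₁| + |σ₂|)
    obtain ⟨C₂, -, h₂⟩ := f1_inv_Gamma (|σ₁| + |σ₂| + 1)
    have hb : ∀ s ∈ strip σ₁ σ₂, -(|σ₁| + |σ₂|) ≤ s.re ∧ s.re ≤ |σ₁| + |σ₂| := fun s hs => by
      constructor <;> linarith [hs.1, hs.2, neg_abs_le σ₁, le_abs_self σ₂, abs_nonneg σ₁,
        abs_nonneg σ₂]
    refine ((expGr_cpow hc σ₁ σ₂).mul (ExpGr.of_two C₂ Real.pi 0 fun s hs _ => ?_)).mul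
      (ExpGr.of_two C₁ 2 0 fun s hs _ => h₁ s (abs_le.2 (hb s hs)))
    have b2 := h₂ (1 + s) (by
      rw [add_re, one_re, abs_le]; constructor <;> linarith [(hb s hs).1, (hb s hs).2])
    rwa [add_im, one_im, zero_add] at b2
  · have e : Gamma (1 + 1) = 1 := by rw [Gamma_add_one 1 one_ne_zero, Gamma_one, mul_one]
    simp only [e, f1_xi, cpow_one, inv_one, sub_self, mul_zero, zero_mul, mul_one, one_mul,
      zero_add, P]
  · have h0 : s ≠ 0 := by rintro rfl; norm_num at hs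
    have hG : Gamma s ≠ 0 := Gamma_ne_zero_of_re_pos (by linarith)
    have hks : (c0 : ℂ) ^ s ≠ 0 := by simp [hcC]
    simp only [hx1 s hs, mul_one]
    rw [add_comm 1 s, Gamma_add_one s h0]
    field_simp
  · have h1 : 1 - s ≠ 0 := by
      intro h; rw [← sub_eq_zero.1 h] at hs; norm_num at hs
    have e2 : (c0 : ℂ) ^ (1 - s) * (((c0 * N⁻¹ : ℝ) : ℂ) ^ s)⁻¹ =
        (N : ℂ) ^ s * (c0 : ℂ) ^ (1 - 2 * s) := by
      rw [w2_cpow hc, w2_cpow hc, w2_cpow hN, w2_cpow (mul_pos hc hκ), ← Complex.exp_neg,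
        ← Complex.exp_add, ← Complex.exp_add, Real.log_mul hc.ne' hκ.ne', Real.log_inv]
      congr 1; push_cast; ring
    have e3 : (1 - s)⁻¹ * (s - 1) = -1 := by field_simp; ring
    simp only [f1_xi_FE P rfl s, hx2 s hs]
    rw [add_comm 1 (1 - s), Gamma_add_one _ h1, mul_inv, ← e2]
    change _ * (1 * _) = _
    linear_combination (s * (c0 : ℂ) ^ (1 - s) * (((c0 * N⁻¹ : ℝ) : ℂ) ^ s)⁻¹ * Gamma s *
      (Gamma (1 - s))⁻¹ * f1_D f s) * e3

/-- `W_mellin` on `σ = 2` termwise. -/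
theorem tp_mellin {a A : ℝ} (ha : 0 < a) (hA : 0 < A) {F : O → ℂ} (hF : ∀ x, ‖F x‖ ≤ 1) :
    ∑' x : O, (if x = 0 then 0 else (W a (Nr x / A) : ℂ) * F x) = (1 / (2 * Real.pi) : ℂ) *
      ∫ t : ℝ, f1_D F (((2 : ℝ) : ℂ) + t * I) * (A : ℂ) ^ (((2 : ℝ) : ℂ) + t * I) *
        Wh a (((2 : ℝ) : ℂ) + t * I) := by
  set G : O → ℝ → ℂ := fun n t =>
    (if n = 0 then 0 else F n * (Nr n : ℂ) ^ (-(((2 : ℝ) : ℂ) + t * I))) *
      (A : ℂ) ^ (((2 : ℝ) : ℂ) + t * I) * Wh a ((2 : ℝ) + t * I) with hG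
  have hW := w2_integrable_Wh ha 2
  have hbd : ∀ n t, ‖G n t‖ ≤ A ^ (2 : ℝ) * Nr n ^ (-(2 : ℝ)) * ‖Wh a ((2 : ℝ) + t * I)‖ := by
    intro n t
    have hp := Real.rpow_nonneg (Nr_nonneg n) (-(2 : ℝ))
    simp only [hG]
    split_ifs with hn
    · simp only [zero_mul, norm_zero]
      positivity
    · rw [norm_mul, norm_mul, norm_mul, Complex.norm_cpow_eq_rpow_re_of_pos (Nr_pos hn),
        Complex.norm_cpow_eq_rpow_re_of_pos hA]
      have e1 : (-(((2 : ℝ) : ℂ) + t * I)).re = -2 := by simp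
      have e2 : (((2 : ℝ) : ℂ) + t * I).re = 2 := by simp
      rw [e1, e2, mul_comm (A ^ (2 : ℝ))]
      gcongr
      exact mul_le_of_le_one_left hp (hF n)
  have hint : ∀ n, Integrable (G n) := by
    intro n
    refine (hW.const_mul _).mono' (Continuous.aestronglyMeasurable ?_)
      (Filter.Eventually.of_forall (hbd n))
    simp only [hG, Wh, w2_cpow hA]
    split_ifs with hn
    · fun_prop
    · simp only [w2_cpow (Nr_pos hn)]
      fun_prop
  have hsum : Summable fun n => ∫ t, ‖G n t‖ := by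
    refine Summable.of_nonneg_of_le (fun n => integral_nonneg fun t => norm_nonneg _) (fun n => ?_)
      (((summable_Nr_rpow (σ := 2) one_lt_two).mul_left (A ^ (2 : ℝ))).mul_right
        (∫ t : ℝ, ‖Wh a ((2 : ℝ) + t * I)‖))
    rw [← integral_const_mul]
    exact integral_mono (hint n).norm (hW.const_mul _) (hbd n)
  have h1 : ∀ t : ℝ, f1_D F (((2 : ℝ) : ℂ) + t * I) * (A : ℂ) ^ (((2 : ℝ) : ℂ) + t * I) *
      Wh a (((2 : ℝ) : ℂ) + t * I) = ∑' n, G n t := fun t => by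
    simp only [hG, f1_D, tsum_mul_right]
  simp only [h1]
  rw [← integral_tsum_of_summable_integral_norm hint hsum, ← tsum_mul_left]
  refine tsum_congr fun n => ?_
  simp only [hG]
  split_ifs with hn
  · simp
  · have hN := Nr_pos hn
    rw [W_mellin ha (div_pos hN hA) 2, mul_assoc, ← integral_mul_const]
    congr 1
    refine integral_congr_ae (Filter.Eventually.of_forall fun t => ?_)
    simp only [w2_cpow hN, w2_cpow hA, w2_cpow (div_pos hN hA), Real.log_div hN.ne' hA.ne']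
    have : Complex.exp ((Real.log (Nr n) - Real.log A : ℝ) * -(((2 : ℝ) : ℂ) + t * I)) =
        Complex.exp ((Real.log (Nr n) : ℝ) * -(((2 : ℝ) : ℂ) + t * I)) *
        Complex.exp ((Real.log A : ℝ) * (((2 : ℝ) : ℂ) + t * I)) := by
      rw [← Complex.exp_add]
      congr 1
      rw [Complex.ofReal_sub]
      ring
    rw [this]
    ring

/-- `tp_mellin`, `shift_Wh_pole` from `σ = 2` to `σ = -1` (pole at `1`), `t ↦ -t`
(`integral_neg_eq_self`), `tsum_KK` on `σ = 2`. -/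
theorem thin_poisson₁ {a A N : ℝ} (ha : 0 < a) (hA : 0 < A) (hN : 0 < N) {F f : O → ℂ}
    (hF : ∀ x, ‖F x‖ ≤ 1) (hf : ∀ x, ‖f x‖ ≤ 1)
    (hP : ∀ R : ℝ, 0 < R → ∑' x : O, (Phi (Nr x / R) : ℂ) * F x =
      (R : ℂ) * ∑' h : O, f h * (Phi (R * Nr h / N) : ℂ)) :
    ∑' x : O, (if x = 0 then 0 else (W a (Nr x / A) : ℂ) * F x) =
      (A : ℂ) * (c0 * Wh a 1 * f 0 +
        ∑' h : O, if h = 0 then 0 else f h * KK a (A * Nr h / N)) := by
  obtain ⟨H, hH, hg, h1, h2, h3⟩ := tp_analytic hN hF hf hP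
  have hAC : (A : ℂ) ≠ 0 := ofReal_ne_zero.2 hA.ne'
  have hd : Differentiable ℂ fun s : ℂ => H s * (A : ℂ) ^ s :=
    hH.mul (differentiable_id.const_cpow (Or.inl hAC))
  have hsh := shift_Wh_pole ha (σ₁ := -1) (σ₂ := 2) (s₀ := 1) (by norm_num) (by norm_num)
    hd.differentiableOn ((hg _ _).mul (expGr_cpow hA _ _))
  have e1 : ∀ t : ℝ, f1_D F (((2 : ℝ) : ℂ) + t * I) * (A : ℂ) ^ (((2 : ℝ) : ℂ) + t * I) *
      Wh a (((2 : ℝ) : ℂ) + t * I) = H ((2 : ℝ) + t * I) * (A : ℂ) ^ (((2 : ℝ) : ℂ) + t * I) /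
        ((2 : ℝ) + t * I - 1) * Wh a ((2 : ℝ) + t * I) := fun t => by
    have hne : ((2 : ℝ) : ℂ) + t * I - 1 ≠ 0 := fun h0 => by
      have := congrArg Complex.re h0
      norm_num at this
    rw [h2 _ (by simp), mul_assoc (_ - 1 : ℂ), mul_div_cancel_left₀ _ hne]
  have hK := tsum_KK ha two_pos (fun h : O => if h = 0 then 0 else f h) (fun h => A * Nr h / N)
    (fun h hh => by
      have := Nr_pos (x := h) fun h0 => hh (if_pos h0)
      positivity)
    (by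
      refine Summable.of_nonneg_of_le (fun h => ?_) (fun h => ?_)
        ((summable_Nr_rpow (σ := 2) one_lt_two).mul_left ((A / N) ^ (-(2 : ℝ))))
      · have := Nr_nonneg h
        positivity
      · have := Nr_nonneg h
        rw [mul_div_right_comm, Real.mul_rpow (by positivity) this]
        refine mul_le_of_le_one_left (by positivity) ?_
        split_ifs
        · simp
        · exact hf h)
  have e2 : ∀ t : ℝ, H (((-1 : ℝ) : ℂ) + (-t : ℝ) * I) * (A : ℂ) ^ (((-1 : ℝ) : ℂ) + (-t : ℝ) * I) /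
      (((-1 : ℝ) : ℂ) + (-t : ℝ) * I - 1) * Wh a (((-1 : ℝ) : ℂ) + (-t : ℝ) * I) =
      A * (mK a ((2 : ℝ) + t * I) * ∑' h : O, (if h = 0 then 0 else f h) *
        ((A * Nr h / N : ℝ) : ℂ) ^ (-(((2 : ℝ) : ℂ) + t * I))) := fun t => by
    set s : ℂ := ((2 : ℝ) : ℂ) + t * I with hs
    have e : ((-1 : ℝ) : ℂ) + (-t : ℝ) * I = 1 - s := by rw [hs]; push_cast; ring
    have hne : s ≠ 0 := fun h0 => by
      have := congrArg Complex.re h0
      norm_num [hs] at this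
    have e4 : ∑' h : O, (if h = 0 then 0 else f h) * ((A * Nr h / N : ℝ) : ℂ) ^ (-s) =
        ((A / N : ℝ) : ℂ) ^ (-s) * f1_D f s := by
      rw [f1_D, ← tsum_mul_left]
      refine tsum_congr fun h => ?_
      split_ifs
      · simp
      · rw [mul_div_right_comm, ofReal_mul, mul_cpow_ofReal_nonneg (by positivity) (Nr_nonneg h)]
        ring
    have e5 : (A : ℂ) * ((A / N : ℝ) : ℂ) ^ (-s) = (N : ℂ) ^ s * (A : ℂ) ^ (1 - s) := by
      rw [cpow_sub _ _ hAC, cpow_one, w2_cpow hA, w2_cpow hN, w2_cpow (div_pos hA hN),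
        Real.log_div hA.ne' hN.ne', div_eq_mul_inv, ← Complex.exp_neg, mul_left_comm,
        ← Complex.exp_add]
      congr 2; push_cast; ring
    rw [e, e4, h3 s (by simp [hs]), mK, sub_sub_cancel_left, mul_assoc (-s),
      mul_div_cancel_left₀ _ (neg_ne_zero.2 hne)]
    linear_combination (-(Wh a (1 - s) * (c0 : ℂ) ^ (1 - 2 * s) *
      (Gamma s * (Gamma (1 - s))⁻¹) * f1_D f s)) * e5
  rw [← integral_neg_eq_self (fun t : ℝ => H (((-1 : ℝ) : ℂ) + t * I) *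
    (A : ℂ) ^ (((-1 : ℝ) : ℂ) + t * I) / (((-1 : ℝ) : ℂ) + t * I - 1) *
      Wh a (((-1 : ℝ) : ℂ) + t * I))] at hsh
  simp only [e2] at hsh
  simp only [ite_mul, zero_mul] at hK hsh
  rw [tp_mellin ha hA hF]
  simp only [e1]
  rw [hsh, hK, integral_const_mul, h1, cpow_one]
  have hπ : (Real.pi : ℂ) ≠ 0 := ofReal_ne_zero.2 Real.pi_ne_zero
  generalize (∫ t : ℝ, mK a ((2 : ℝ) + t * I) * _) = J
  field_simp

/-- `thin_poisson₁` for `F = KC n m / √(N n N m)` (`norm_KC_le`) and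
`f = conj κ_n κ_m / (N n N m)`; `poisson_KC` with `H = N (n m) / R`. -/
theorem thin_KC {a A : ℝ} (ha : 0 < a) (hA : 0 < A) {n m : O} (hn : Prim n) (hm : Prim m) :
    ∑' x : O, (if x = 0 then 0 else (W a (Nr x / A) : ℂ) * KC n m x) =
      (A : ℂ) * (((Nr n * Nr m) ^ (-(1 / 2) : ℝ) : ℝ) : ℂ) *
        (c0 * Wh a 1 * (conj (kap n 0) * kap m 0) +
          ∑' h : O, if h = 0 then 0 else
            conj (kap n h) * kap m h * KK a (A * Nr h / (Nr n * Nr m))) := by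
  have hn0 := Nr_pos hn.ne_zero
  have hm0 := Nr_pos hm.ne_zero
  set N := Nr n * Nr m with hN
  have hN1 : 1 ≤ N := one_le_mul_of_one_le_of_one_le (one_le_Nr hn.ne_zero) (one_le_Nr hm.ne_zero)
  have hN0 : 0 < N := by positivity
  have hq0 : 0 < Real.sqrt N := Real.sqrt_pos.2 hN0
  have hqC : (Real.sqrt N : ℂ) ≠ 0 := ofReal_ne_zero.2 hq0.ne'
  have hsq : (N : ℂ) = (Real.sqrt N : ℂ) ^ 2 := by
    rw [← Complex.ofReal_pow, Real.sq_sqrt hN0.le]
  have h := thin_poisson₁ ha hA hN0 (F := fun x => KC n m x / (Real.sqrt N : ℂ))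
    (f := fun h => conj (kap n h) * kap m h / (N : ℂ))
    (fun x => by
      rw [norm_div, norm_real, Real.norm_of_nonneg hq0.le, div_le_one hq0, Real.sqrt_eq_rpow, hN,
        Real.mul_rpow hn0.le hm0.le]
      exact norm_KC_le hn.ne_zero hm.ne_zero x)
    (fun x => by
      rw [norm_div, norm_real, Real.norm_of_nonneg hN0.le, div_le_one hN0, norm_mul,
        Complex.norm_conj]
      exact (mul_le_one₀ (norm_kap_le _ _) (norm_nonneg _) (norm_kap_le _ _)).trans hN1)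
    (fun R hR => by
      have hRC : (R : ℂ) ≠ 0 := ofReal_ne_zero.2 hR.ne'
      have h1 := poisson_KC hn hm (H := N / R) (by positivity)
      have e1 : ∀ h : O, Nr h / (N / R) = R * Nr h / N := fun h => by field_simp
      have e2 : ∀ h : O, N / R * Nr h / N = Nr h / R := fun h => by field_simp
      rw [Nr_mul, ← hN] at h1
      simp only [e1, e2, mul_comm (KC n m _)] at h1
      simp only [← mul_div_assoc, div_mul_eq_mul_div, tsum_div_const,
        mul_comm (conj (kap n _) * kap m _)]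
      rw [h1, ofReal_div, ofReal_div, hsq]
      field_simp)
  have e3 : ((N ^ (-(1 / 2) : ℝ) : ℝ) : ℂ) = (Real.sqrt N : ℂ)⁻¹ := by
    rw [Real.rpow_neg hN0.le, ← Real.sqrt_eq_rpow, ofReal_inv]
  have e4 : ∀ (p : Prop) [Decidable p] (u v : ℂ), (if p then 0 else u / v) =
      (if p then 0 else u) / v := fun p _ u v => by split_ifs <;> simp
  simp only [← mul_div_assoc, div_mul_eq_mul_div, e4, tsum_div_const] at h
  rw [div_eq_iff hqC] at h
  rw [h, e3, hsq]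
  field_simp

end Crest.Agent.R012.D

end
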