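import Crest.Agent.R012.DB2b
import Crest.Agent.R017.T4StepAux0

/-! # Row 12, dispersion: from finite large sieve inequalities to the row hypothesis -/

set_option autoImplicit false

noncomputable section

open scoped BigOperators ComplexConjugate Topology
open Complex MeasureTheory Filter Set Crest.Agent.R017

namespace Crest.Agent.R012.D

/-- The dyadic pieces of the columns: `0` for `N n ≤ M`, `j + 1` for `2^j M < N n ≤ 2^{j+1} M`. -/
theorem t3_index {M : ℝ} (hM : 0 < M) : ∃ ι : O → ℕ, ∀ n : O, Nr n ≤ 2 ^ ι n * M ∧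
    (ι n ≠ 0 → 2 ^ ι n * M < 2 * Nr n) := by
  classical
  have h : ∀ n : O, ∃ j : ℕ, Nr n ≤ 2 ^ j * M := fun n => by
    obtain ⟨j, hj⟩ := pow_unbounded_of_one_lt (Nr n / M) (one_lt_two (α := ℝ))
    exact ⟨j, ((div_lt_iff₀ hM).1 hj).le⟩
  refine ⟨fun n => Nat.find (h n), fun n => ⟨Nat.find_spec (h n), fun h0 => ?_⟩⟩
  beta_reduce at h0 ⊢
  obtain ⟨j, hj⟩ := Nat.exists_eq_succ_of_ne_zero h0
  have h1 := not_le.1 (Nat.find_min (h n) (m := j) (hj ▸ Nat.lt_succ_self j))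
  rw [hj, pow_succ]
  linarith

/-- Weighted Cauchy–Schwarz: `‖∑ z j‖² ≤ 2 ∑ 2^j ‖z j‖²`. -/
theorem t3_cauchy {z : ℕ → ℂ} {s : ℂ} (h : HasSum z s)
    (hs : Summable (fun j => (2 : ℝ) ^ j * ‖z j‖ ^ 2)) :
    ‖s‖ ^ 2 ≤ 2 * ∑' j, (2 : ℝ) ^ j * ‖z j‖ ^ 2 := by
  refine le_of_tendsto' ((h.tendsto_sum_nat.norm).pow 2) fun N => ?_
  refine (pow_le_pow_left₀ (norm_nonneg _) (norm_sum_le _ _) 2).trans ?_
  refine (Finset.sum_sq_le_sum_mul_sum_of_sq_le_mul (Finset.range N) (f := fun j => (1 / 2 : ℝ) ^ j)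
    (g := fun j => (2 : ℝ) ^ j * ‖z j‖ ^ 2) (fun _ _ => by positivity) (fun _ _ => by positivity)
    fun j _ => by rw [← mul_assoc, ← mul_pow]; simp).trans ?_
  exact mul_le_mul (sum_geometric_two_le N) (hs.sum_le_tsum _ fun _ _ => by positivity)
    (by positivity) zero_le_two

/-- The `j`-th piece is `cr (2^j M) (γ restricted to ι = j)` (empty if `2^j M < 1`), its cost is
`2^j · D 4^j`, and `8^j ≤ (2 N n / M)³` on the piece `j ≠ 0`. Regroup with `s4_fib` or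
`HasSum.sigma`/`Equiv.sigmaFiberEquiv`. -/
theorem t3_core : ∃ C : ℝ, 0 ≤ C ∧ ∀ (S : Finset O) (M D : ℝ) (γ : O → ℂ), 0 < M → 0 ≤ D →
    Supp 1 γ → Rap γ → (∀ M' : ℝ, 1 ≤ M' → LSb S M' (D * max 1 (M' / M) ^ 2)) →
    ∑ r ∈ S, ‖rowC γ r‖ ^ 2 ≤ C * D * ∑' n : O, ‖γ n‖ ^ 2 * (1 + (Nr n / M) ^ 3) := by
  classical
  refine ⟨16, by norm_num, fun S M D γ hM hD hs hr H => ?_⟩
  obtain ⟨ι, hι⟩ := t3_index hM
  obtain ⟨T, hT⟩ : ∃ T : ℕ → Finset O, ∀ j, T j = (sbox (2 ^ j * M)).filter fun n => ι n = j :=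
    ⟨_, fun _ => rfl⟩
  have hT1 : ∀ j, ∀ n ∈ T j, ι n = j := fun j n hn => by
    rw [hT] at hn; exact (Finset.mem_filter.1 hn).2
  have hT2 : ∀ n, γ n ≠ 0 → n ∈ T (ι n) := fun n hn => by
    rw [hT]
    exact Finset.mem_filter.2
      ⟨q_mem_sbox.2 ⟨(supp_iff.1 hs n hn).1, (supp_iff.1 hs n hn).2, (hι n).1⟩, rfl⟩
  have hz : ∀ r, HasSum (fun j => ∑ n ∈ T j, γ n * kap n r) (rowC γ r) := fun r =>
    s4_fib (F := fun n => γ n * kap n r) (.of_norm_bounded (rap_summable hr) fun n => by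
      rw [norm_mul]; exact mul_le_of_le_one_right (norm_nonneg _) (norm_kap_le _ _)) ι T hT1
      fun n hn => hT2 n (left_ne_zero_of_mul hn)
  have hsum : Summable fun n : O => ‖γ n‖ ^ 2 * (1 + (Nr n / M) ^ 3) := by
    refine ((rap_sq hr 0).add ((rap_sq hr 3).mul_right (M ^ 3)⁻¹)).congr fun n => ?_
    rw [Real.rpow_zero, Real.rpow_ofNat]
    ring
  have hv := s4_fib hsum ι T hT1 fun n hn => hT2 n fun h0 => hn (by simp [h0])
  have hj : ∀ j, ∑ r ∈ S, (2 : ℝ) ^ j * ‖∑ n ∈ T j, γ n * kap n r‖ ^ 2 ≤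
      8 * D * ∑ n ∈ T j, ‖γ n‖ ^ 2 * (1 + (Nr n / M) ^ 3) := by
    intro j
    by_cases h1 : 1 ≤ 2 ^ j * M
    swap
    · have : T j = ∅ := (hT j).trans (Finset.subset_empty.1 (((Finset.filter_subset _ _).trans
        (sbox_subset_box _)).trans (box_eq_empty (not_le.1 h1)).subset))
      simp [this]
    have h2 := H _ h1 fun n => if ι n = j then γ n else 0
    rw [mul_div_cancel_right₀ _ hM.ne', max_eq_right (one_le_pow₀ one_le_two)] at h2
    simp only [cr, cl2, ite_mul, zero_mul, apply_ite norm, norm_zero, ite_pow, ne_eq,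
      OfNat.ofNat_ne_zero, not_false_eq_true, zero_pow, ← Finset.sum_filter, ← hT] at h2
    rw [← Finset.mul_sum]
    refine (mul_le_mul_of_nonneg_left h2 (by positivity)).trans ?_
    rw [Finset.mul_sum, Finset.mul_sum, Finset.mul_sum]
    refine Finset.sum_le_sum fun n hn => ?_
    have h3 : ((2 : ℝ) ^ j) ^ 3 ≤ 8 * (1 + (Nr n / M) ^ 3) := by
      have h0 : 0 ≤ (Nr n / M) ^ 3 := pow_nonneg (div_nonneg (R017.Nr_nonneg _) hM.le) _
      by_cases h4 : j = 0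
      · rw [h4]; linarith
      · have h5 := (hι n).2 (by rwa [hT1 j n hn])
        rw [hT1 j n hn, ← lt_div_iff₀ hM, mul_div_assoc] at h5
        have h6 := pow_le_pow_left₀ (by positivity) h5.le 3
        rw [mul_pow] at h6
        linarith
    calc _ = D * ‖γ n‖ ^ 2 * ((2 : ℝ) ^ j) ^ 3 := by ring
      _ ≤ D * ‖γ n‖ ^ 2 * (8 * (1 + (Nr n / M) ^ 3)) := by gcongr
      _ = _ := by ring
  have hv' := hv.mul_left (8 * D)
  have hs1 : ∀ r ∈ S, Summable fun j => (2 : ℝ) ^ j * ‖∑ n ∈ T j, γ n * kap n r‖ ^ 2 :=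
    fun r hr => .of_nonneg_of_le (fun _ => by positivity) (fun j => (Finset.single_le_sum
      (f := fun r => (2 : ℝ) ^ j * ‖∑ n ∈ T j, γ n * kap n r‖ ^ 2) (fun _ _ => by positivity) hr).trans
      (hj j)) hv'.summable
  refine (Finset.sum_le_sum fun r hr => t3_cauchy (hz r) (hs1 r hr)).trans ?_
  rw [← Finset.mul_sum, ← Summable.tsum_finsetSum hs1]
  have h7 := Summable.tsum_le_tsum hj (summable_sum hs1) hv'.summable
  rw [hv'.tsum_eq] at h7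
  linarith

/-- `t3_core` for `γ n = u n N(n)^{s - 1/2}`; `y^{2σ-1} (1 + y³) ≤ 2 psi y`. -/
theorem T3 : ∃ C : ℝ, 0 ≤ C ∧ ∀ (S : Finset O) (M D σ t : ℝ) (u : O → ℂ), 0 < M → 0 ≤ D → 0 ≤ σ →
    σ ≤ 5 / 2 → Supp 1 u → Rap u → (∀ M' : ℝ, 1 ≤ M' → LSb S M' (D * max 1 (M' / M) ^ 2)) →
    ∑ r ∈ S, ‖XX (fun n => u n * kap n r) (σ + t * I)‖ ^ 2 ≤
      C * M ^ (2 * σ - 1) * D * nrm M u := by
  obtain ⟨C, hC, H⟩ := t3_core
  refine ⟨C * 2, by positivity, fun S M D σ t u hM hD h0 h1 hs hr hL => ?_⟩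
  have hu := supp_zero hs
  have hn := norm_XX_term hu σ t
  have h2 := H S M D (fun n => u n * (Nr n : ℂ) ^ ((σ : ℂ) + t * I - 1 / 2)) hM hD
    (fun n h => hs n (left_ne_zero_of_mul h)) (fun A => (hr (σ - 1 / 2 + A)).congr fun n => by
      by_cases h : n = 0
      · simp [h, hu]
      · rw [hn, Real.rpow_add (Nr_pos h), mul_assoc]) hL
  simp only [XX_eq_rowC]
  refine h2.trans ?_
  have h3 : ∀ n, ‖u n * (Nr n : ℂ) ^ ((σ : ℂ) + t * I - 1 / 2)‖ ^ 2 * (1 + (Nr n / M) ^ 3) ≤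
      2 * M ^ (2 * σ - 1) * (‖u n‖ ^ 2 * psi (Nr n / M)) := by
    intro n
    by_cases h : n = 0
    · simp [h, hu]
    have hN := Nr_pos h
    have hy : 0 < Nr n / M := by positivity
    have e1 : (Nr n ^ (σ - 1 / 2)) ^ 2 = M ^ (2 * σ - 1) * (Nr n / M) ^ (2 * σ - 1) := by
      rw [← Real.mul_rpow hM.le hy.le, mul_div_cancel₀ _ hM.ne', ← Real.rpow_natCast,
        ← Real.rpow_mul hN.le]
      congr 1
      push_cast
      ring
    have e2 : (Nr n / M) ^ (2 * σ - 1) * (Nr n / M) ^ 3 = (Nr n / M) ^ (2 * σ - 1 + 3) := by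
      rw [Real.rpow_add hy, Real.rpow_ofNat]
    have b1 := rpow_le_psi (β := 2 * σ - 1) (by linarith) (by linarith) hy
    have b2 := rpow_le_psi (β := 2 * σ - 1 + 3) (by linarith) (by linarith) hy
    rw [hn, mul_pow, e1]
    calc _ = M ^ (2 * σ - 1) * ‖u n‖ ^ 2 * ((Nr n / M) ^ (2 * σ - 1) +
          (Nr n / M) ^ (2 * σ - 1) * (Nr n / M) ^ 3) := by ring
      _ ≤ M ^ (2 * σ - 1) * ‖u n‖ ^ 2 * (psi (Nr n / M) + psi (Nr n / M)) := by rw [e2]; gcongr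
      _ = _ := by ring
  have h4 := (summable_nrm hr hM).mul_left (2 * M ^ (2 * σ - 1))
  have h5 := (Summable.of_nonneg_of_le (fun n => mul_nonneg (sq_nonneg _) (add_nonneg zero_le_one
    (pow_nonneg (div_nonneg (R017.Nr_nonneg _) hM.le) _))) h3 h4).tsum_le_tsum h3 h4
  rw [tsum_mul_left] at h5
  calc _ ≤ C * D * (2 * M ^ (2 * σ - 1) * nrm M u) := by gcongr; exact h5
    _ = _ := by ring

/-- `shell_RW_le`, `T3`, `phi_mul_le` with `c = 9`. -/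
theorem RH_of_LS : ∃ C : ℝ, 0 ≤ C ∧ ∀ (S : O → Prop) (σ₁ α a M Rs D : ℝ) (u : O → ℂ), 0 ≤ σ₁ →
    σ₁ ≤ 5 / 2 → 0 ≤ α → α ≤ 2 → 0 ≤ a → 0 < M → 0 < Rs → 0 ≤ D → Supp 1 u → Rap u →
    (∀ R M' : ℝ, 1 ≤ R → 1 ≤ M' →
      LSb (rows S R) M' (D * phi α (R / Rs) * max 1 (M' / M) ^ 2)) →
    RH σ₁ α a (RW S u) M Rs (C * D * nrm M u) := by
  obtain ⟨C, hC, H⟩ := T3
  refine ⟨C * 81, by positivity,
    fun S σ₁ α a M Rs D u h0 h1 h2 h3 ha hM hRs hD hs hr hL σ t R hσ hR => ?_⟩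
  have hx : 0 < R / Rs := by positivity
  have hp := (phi_pos α (show 0 < 9 * R / Rs by positivity)).le
  have hn := nrm_nonneg hM u
  have h4 := phi_mul_le h2 h3 (show (1 : ℝ) ≤ 9 by norm_num) hx
  have h5 : 1 ≤ Real.exp (a * t ^ 2 / 2) := Real.one_le_exp (by positivity)
  have h6 := (phi_pos α hx).le
  rw [← mul_div_assoc] at h4
  refine ((shell_RW_le S u R _).trans (H _ M (D * phi α (9 * R / Rs)) σ t u hM (by positivity)
    (by rcases hσ with rfl | rfl <;> linarith) (by rcases hσ with rfl | rfl <;> linarith) hs hr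
    fun M' hM' => hL _ M' (by linarith) hM')).trans ?_
  calc _ ≤ C * M ^ (2 * σ - 1) * (D * (9 ^ 2 * phi α (R / Rs))) * nrm M u := by gcongr
    _ = M ^ (2 * σ - 1) * (C * 81 * D * nrm M u) * phi α (R / Rs) * 1 := by ring
    _ ≤ _ := by gcongr

end Crest.Agent.R012.D

end
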