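import Crest.Agent.R017.QLS
import Crest.Agent.R017.Smooth
import Crest.Agent.R017.Recip1
import Crest.Agent.R017.Arith
import Crest.Agent.R017.LFun

/-! # Row 12 (cubic Gauss sums over primes): definitions -/

set_option autoImplicit false

noncomputable section

open scoped BigOperators ComplexConjugate Topology
open Complex MeasureTheory Filter Set Crest.Agent.R017

namespace Crest.Agent.R012

/-- `√-3 = 1 + 2 ω`. -/
def sq3 : O := ⟨1, 2⟩

open Classical in
/-- The normalised cubic Gauss sum with the character `e(Tr(x / n))`, zero off squarefree `n`. -/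
def gt (n : O) : ℂ := if Squarefree n then gs (kap n) n sq3 / (Real.sqrt (Nr n) : ℂ) else 0

/-- Patterson's constant. -/
def cst : ℝ := (2 * Real.pi) ^ ((2 : ℝ) / 3) / (3 * Real.Gamma (2 / 3))

open Classical in
/-- The model `μ²(n) N(n)^{-1/6}`. -/
def md (n : O) : ℂ := if Squarefree n then ((Nr n ^ (-(1 / 6) : ℝ) : ℝ) : ℂ) else 0

/-- The corrected Gauss sum. -/
def FF (n : O) : ℂ := gt n - (cst : ℂ) * md n

/-- The angular character. -/
def az (l : ℤ) (n : O) : ℂ := ang n ^ l

open Classical in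
/-- `log N p` on primes. -/
def Lp (n : O) : ℂ := if Prime n then (Real.log (Nr n) : ℂ) else 0

/-- All prime factors have norm `> w`. -/
def Rough (w : ℝ) (n : O) : Prop := ∀ p : O, Prime p → p ∣ n → w < Nr p

/-- All prime factors have norm `≤ w`. -/
def Smth (w : ℝ) (n : O) : Prop := ∀ p : O, Prime p → p ∣ n → Nr p ≤ w

open Classical in
/-- The indicator of squarefree `w`-rough elements. -/
def rg (w : ℝ) (n : O) : ℂ := if Squarefree n ∧ Rough w n then 1 else 0

/-- Cubes. -/
def IsCube (h : O) : Prop := ∃ y : O, h = y ^ 3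

/-- Rows whose cube-free part has norm at most `Z`. -/
def Near (Z : ℝ) (h : O) : Prop := ∃ k y : O, h = k * y ^ 3 ∧ Nr k ≤ Z

instance (Z : ℝ) (h : O) : Decidable (Near Z h) := Classical.propDecidable _

/-- The number of primary divisors. -/
def dv (n : O) : ℝ := ((pdiv n).card : ℝ)

/-- Envelope of a coefficient sequence at scale `B`. -/
def Env (M B : ℝ) (β : O → ℂ) : Prop := ∀ b : O, Prim b → ‖β b‖ ≤ M * (1 + Nr b / B)

open Classical in
/-- Weighted `L²` norm (squared) over primary squarefree elements. -/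
def cn (a B : ℝ) (β : O → ℂ) : ℝ :=
  ∑' b : O, if Prim b ∧ Squarefree b then ‖β b‖ ^ 2 * W a (Nr b / B) else 0

open Classical in
/-- The same with the divisor function. -/
def cn2 (a B : ℝ) (β : O → ℂ) : ℝ :=
  ∑' b : O, if Prim b ∧ Squarefree b then ‖β b‖ ^ 2 * dv b * W a (Nr b / B) else 0

/-- The dispersion: rows of length `A`, columns of length `B`, relative width `√θ`. -/
def DD (G : O → ℂ) (θ A B τ : ℝ) (β : O → ℂ) : ℝ :=
  ∑' a : O, if Prim a then
    W (4 * θ) (Nr a / A) * ‖sm (2 * θ) (fun b => β b * G (a * b)) B τ‖ ^ 2 else 0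

/-- The Siegel–Walfisz hypothesis for non-trivial cubic characters. -/
def SWH (M Z B τ : ℝ) (β : O → ℂ) : Prop :=
  ∀ h : O, h ≠ 0 → Nr h ≤ Z → ¬ IsCube h → ∀ u t : ℝ, |u| ≤ 10 → |t| ≤ Z →
    ‖sm 2 (fun b => β b * kap b h) (B * Real.exp u) (τ + t)‖ ≤ M * B / Z

open Classical in
/-- Restriction to the norms in `I`. -/
def cut (I : Set ℝ) (g : O → ℂ) (b : O) : ℂ := if Nr b ∈ I then g b else 0

/-- The prime coefficient `log N p · ang(p)^l` on `N p > V`. -/
def LpV (l : ℤ) (V : ℝ) : O → ℂ := cut (Ioi V) (fun b => Lp b * az l b)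

end Crest.Agent.R012

end
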