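import Crest.Agent.R012.FR
import Crest.Agent.R012.TI
import Crest.Agent.R012.DH2
import Crest.Agent.R012.DA7

/-! # Row 12: dispersion estimates (interface) -/

set_option autoImplicit false

noncomputable section

open scoped BigOperators ComplexConjugate Topology
open Complex MeasureTheory Filter Set Crest.Agent.R017

namespace Crest.Agent.R012

/-- Upper bound without `ε`-loss, unbalanced range, arbitrary coefficients. -/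
theorem disp_UB {η : ℝ} (hη : 0 < η) : ∃ s : ℝ, 0 < s ∧ ∃ C : ℝ, 0 ≤ C ∧
    ∀ (θ A B τ M : ℝ) (β : O → ℂ), 1 ≤ A → A ^ (2 / 5 : ℝ) ≤ B → B ≤ A ^ (1 - η) → A ^ (-s) ≤ θ → θ ≤ 1 →
    Env M B β →
    DD gt θ A B τ β ≤ C * ((A * Real.sqrt θ + (A * B) ^ (2 / 3 : ℝ) * θ ^ (1 / 6 : ℝ)) * cn2 (2 * θ) B β +
      M ^ 2 * A ^ (2 / 3 - s) * B ^ (5 / 3 : ℝ)) :=
  D.disp_UB hη

/-- The same in the balanced range, for primes. -/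
theorem disp_UB_P (l : ℤ) : ∃ η : ℝ, 0 < η ∧ ∃ C : ℝ, 0 ≤ C ∧
    ∀ θ A B τ V : ℝ, 1 ≤ A → A ^ (1 - η) ≤ B → B ≤ A ^ (1 + η) → A ^ (-η) ≤ θ → θ ≤ 1 → |τ| ≤ A ^ η →
    V ≤ B ^ (9 / 10 : ℝ) →
    DD gt θ A B τ (LpV l V) ≤ C * ((A * B) ^ (2 / 3 : ℝ) * θ ^ (1 / 6 : ℝ) * cn2 (2 * θ) B (LpV l V) +
      A ^ (2 / 3 - η) * B ^ (5 / 3 : ℝ)) :=
  D.disp_UB_P l

/-- The corrected dispersion, unbalanced range. -/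
theorem disp_AS {η : ℝ} (hη : 0 < η) (K : ℝ) : ∃ K' C : ℝ, 0 ≤ K' ∧ 0 ≤ C ∧
    ∀ (A B τ M : ℝ) (β : O → ℂ), 3 ≤ A → A ^ (2 / 5 : ℝ) ≤ B → B ≤ A ^ (1 - η) → Env M B β →
    (∀ b, Prim b → β b ≠ 0 → Squarefree b ∧ Rough (Real.log A ^ K') b) →
    SWH M (Real.log A ^ K') B τ β →
    DD FF 1 A B τ β ≤ C * ((A + (A * B) ^ (2 / 3 : ℝ) * (A / B ^ 2) ^ (1 / 12 : ℝ)) * cn2 2 B β +
      M ^ 2 * A ^ (2 / 3 : ℝ) * B ^ (5 / 3 : ℝ) / Real.log A ^ K) :=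
  D.disp_AS hη K

/-- The corrected dispersion, balanced range, for primes. -/
theorem disp_AS_P (l : ℤ) : ∃ η : ℝ, 0 < η ∧ ∀ K : ℝ, ∃ K' C : ℝ, 0 ≤ K' ∧ 0 ≤ C ∧
    ∀ A B τ V : ℝ, 3 ≤ A → A ^ (1 - η) ≤ B → B ≤ A ^ (1 + η) → |τ| ≤ A ^ η →
    Real.log A ^ K' ≤ V → V ≤ B ^ (9 / 10 : ℝ) → SWH 1 (Real.log A ^ K') B τ (LpV l V) →
    DD FF 1 A B τ (LpV l V) ≤ C * A ^ (2 / 3 : ℝ) * B ^ (5 / 3 : ℝ) / Real.log A ^ K :=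
  D.disp_AS_P l

/-- Hybrid large sieve, one Poisson summation (`θ = T⁻²`). -/
theorem disp_H1 {ε : ℝ} (hε : 0 < ε) : ∃ C : ℝ, 0 ≤ C ∧
    ∀ (θ A B τ M : ℝ) (β : O → ℂ), 1 ≤ A → 1 ≤ B → (A * B)⁻¹ ≤ θ → θ ≤ 1 → Env M B β →
    DD gt θ A B τ β ≤ C * (A * B) ^ ε * ((A * Real.sqrt θ + B / Real.sqrt θ +
      (A * B) ^ (2 / 3 : ℝ) * θ ^ (1 / 6 : ℝ) + A ^ (1 / 3 : ℝ) * B * θ ^ (-(1 / 6) : ℝ)) *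
        cn (2 * θ) B β + M ^ 2) :=
  D.disp_H1 hε

/-- Hybrid large sieve, thin rows and thin columns. -/
theorem disp_H2 {ε : ℝ} (hε : 0 < ε) : ∃ C : ℝ, 0 ≤ C ∧
    ∀ (θ A B τ M : ℝ) (β : O → ℂ), 1 ≤ A → 1 ≤ B → (A * B)⁻¹ ≤ θ → θ ≤ 1 → Env M B β →
    DD gt θ A B τ β ≤ C * (A * B) ^ ε * ((A + B / Real.sqrt θ +
      ((A * B) ^ (2 / 3 : ℝ) + A * B ^ (1 / 3 : ℝ) + A ^ (1 / 3 : ℝ) * B) * θ ^ (1 / 3 : ℝ)) *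
        cn (2 * θ) B β + M ^ 2) :=
  D.disp_H2 hε

end Crest.Agent.R012

end
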