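import Crest.Agent.R012.CG
import Crest.Agent.R012.CDW
import Crest.Agent.R012.Chr
import Crest.Agent.R012.Ang
import Crest.Agent.R017.T4StepAuxC
import Crest.Agent.R017.T4StepAuxE
import Crest.Agent.R017.CountAux1
import Crest.Agent.R017.Pointwise2

/-! # Row 12: far rows for primes: definitions -/

set_option autoImplicit false

noncomputable section

open scoped BigOperators ComplexConjugate Topology
open Complex MeasureTheory Filter Crest.Agent.R017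

namespace Crest.Agent.R012.Far

/-- Primary elements of norm at most `M`. -/
def pbox (M : ℝ) : Finset O := (box M).filter Prim

/-- The row sum over all primary columns. -/
def prw (M : ℝ) (a : O → ℂ) (r : O) : ℂ := ∑ n ∈ pbox M, a n * kap n r

/-- Dirichlet convolution over primary elements. -/
def dc (f g : O → ℂ) (n : O) : ℂ := ∑ d ∈ pdiv n, f d * g (n / d)

/-- Restriction to norms at most `M`. -/
def cutM (M : ℝ) (a : O → ℂ) (n : O) : ℂ := if Nr n ≤ M then a n else 0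

/-- The large sieve constant for all rows. -/
def Xi (R M : ℝ) : ℝ := R + R ^ (1 / 3 : ℝ) * M + (R * M) ^ (2 / 3 : ℝ)

/-- The size of the leaves in the fourth moment. -/
def Xi0 (R₀ N₁ N₂ U : ℝ) : ℝ := R₀ ^ (4 / 3 : ℝ) + R₀ ^ (1 / 3 : ℝ) * (1 + N₁ + N₂ * U)

/-- The character of the row `r`. -/
def ch (l : ℤ) (r n : O) : ℂ := kap n r * az l n

/-- The unit of the convolution. -/
def dl (n : O) : ℂ := if n = 1 then 1 else 0

/-- The truncated Möbius function. -/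
def muU (U : ℝ) (n : O) : ℂ := if Nr n ≤ U then mu n else 0

/-- The logarithm of the norm. -/
def lg (n : O) : ℂ := (Real.log (Nr n) : ℂ)

/-- `δ - μ_U * 1`. -/
def hbb (U : ℝ) (n : O) : ℂ := dl n - dc (muU U) (fun _ => 1) n

/-- `δ + b + b * b`. -/
def hbg (U : ℝ) (n : O) : ℂ := dl n + hbb U n + dc (hbb U) (hbb U) n

/-- Heath-Brown's identity: this is `Λ` on norms `≤ U³`. -/
def hb (U : ℝ) : O → ℂ := dc (dc (muU U) lg) (hbg U)

/-- The smooth sums of `f` of every length `Y ≥ 1` are at most `K Y^σ`. -/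
structure Gd (a A K σ τ : ℝ) (f : O → ℂ) : Prop where
  pb : ∀ n, Prim n → ‖f n‖ ≤ K * Nr n ^ A
  bd : ∀ Y : ℝ, 1 ≤ Y → ‖sm a f Y τ‖ ≤ K * Y ^ σ

/-- A large value at some length in `[Y₁, Y₂]` and some height near `τ`. -/
def Big (a K σ τ Y₁ Y₂ : ℝ) (c : O → ℂ) : Prop :=
  ∃ Y τ' : ℝ, Y₁ ≤ Y ∧ Y ≤ Y₂ ∧ |τ' - τ| ≤ 1 ∧ K * Y ^ σ < ‖sm a c Y τ'‖

/-- The coefficients of a smooth sum. -/
def wc (a Y τ : ℝ) (f : O → ℂ) (n : O) : ℂ :=
  f n * (Nr n : ℂ) ^ (-(τ * I)) * (W a (Nr n / Y) : ℂ)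

/-- The prime sum of the row `r`. -/
def Pr (l : ℤ) (x τ : ℝ) (r : O) : ℂ := sm 4 (fun b => Lp b * az l b * kap b r) x τ

/-- The row `r` has a large Möbius sum or a large plain sum. -/
def Bad (l : ℤ) (x τ σ : ℝ) (r : O) : Prop :=
  (∃ Y₂, Big (2 / 3) (x ^ (2 / 10 ^ 8 : ℝ)) σ τ 1 Y₂ (fun n => muU (x ^ (17 / 50 : ℝ)) n * ch l r n)) ∨
  (∃ Y₂, Big (2 / 3) (x ^ (2 / 10 ^ 8 : ℝ)) σ τ 1 Y₂ (ch l r))

/-- The large sieve hypothesis for rows of large conductor. -/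
def LSA (S : Finset O) (x : ℝ) : Prop := ∀ L : ℝ, 1 ≤ L → L ≤ x ^ 3 →
  LSb S L (x ^ (1 / 10 ^ 8 : ℝ) * (x + L + (x * L) ^ (2 / 3 : ℝ)))

/-- The large sieve hypothesis for rows of conductor about `x^{2/3}`. -/
def LSB (S : Finset O) (x : ℝ) : Prop := ∀ L : ℝ, 1 ≤ L → L ≤ x ^ 3 →
  LSb S L (x ^ (1 / 1000 : ℝ) * (L + x ^ (4 / 3 : ℝ)))

theorem mem_pbox {M : ℝ} {n : O} : n ∈ pbox M ↔ Prim n ∧ Nr n ≤ M := by
  rw [pbox, Finset.mem_filter, mem_box]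
  exact ⟨fun h => ⟨h.2, h.1.2⟩, fun h => ⟨⟨h.1.ne_zero, h.2⟩, h.1⟩⟩

theorem card_pbox_le {M : ℝ} (hM : 0 ≤ M) : ((pbox M).card : ℝ) ≤ 25 * M :=
  le_trans (by exact_mod_cast Finset.card_filter_le _ _) (card_box_le hM)

theorem norm_az_le (l : ℤ) (n : O) : ‖az l n‖ ≤ 1 := by
  by_cases hn : n = 0
  · subst hn
    by_cases hl : l = 0
    · simp [hl, az]
    · simp [az, ang, zero_zpow l hl]
  · exact (norm_az l hn).le

theorem norm_ch_le (l : ℤ) (r n : O) : ‖ch l r n‖ ≤ 1 := by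
  rw [ch, norm_mul]
  exact mul_le_one₀ (norm_kap_le _ _) (norm_nonneg _) (norm_az_le _ _)

theorem ch_one (l : ℤ) (r : O) : ch l r 1 = 1 := by
  rw [ch, kap_unit_left isUnit_one, az_one, one_mul]

theorem ch_mul (l : ℤ) (r : O) {m n : O} (hm : Prim m) (hn : Prim n) :
    ch l r (m * n) = ch l r m * ch l r n := by
  rw [ch, ch, ch, kap_mul_left hm.ne_zero hn.ne_zero, az_mul]; ring

theorem ch_row_mul (l : ℤ) (r t n : O) : ch l (r * t) n = (kap n t * az l n) * kap n r := by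
  rw [ch, kap_mul_right]; ring

theorem sm_ch_eq (a : ℝ) (l : ℤ) (r : O) (X τ : ℝ) :
    sm a (ch l r) X τ = sm a (fun n => kc r n * az l n) X τ :=
  gn_sm_congr (fun n hn => by rw [kc_prim hn, ch]) X τ

theorem norm_muU_le (U : ℝ) (n : O) : ‖muU U n‖ ≤ 1 := by
  unfold muU
  split_ifs
  · exact norm_mu_le n
  · simp

theorem norm_cutM_le (M : ℝ) (a : O → ℂ) (n : O) : ‖cutM M a n‖ ≤ ‖a n‖ := by
  unfold cutM
  split_ifs <;> simp

theorem norm_wc_le {a : ℝ} (ha : 0 < a) (Y τ : ℝ) (f : O → ℂ) {n : O} (hn : Prim n) :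
    ‖wc a Y τ f n‖ ≤ ‖f n‖ := by
  rw [wc, w2_norm_term hn]
  exact mul_le_of_le_one_right (norm_nonneg _) (W_le_one ha _)

theorem Xi_nonneg {R M : ℝ} (hR : 0 ≤ R) (hM : 0 ≤ M) : 0 ≤ Xi R M := by
  unfold Xi; positivity

theorem le_Xi {R M : ℝ} (hR : 0 ≤ R) (hM : 0 ≤ M) : R ≤ Xi R M := by
  unfold Xi
  have : 0 ≤ R ^ (1 / 3 : ℝ) * M + (R * M) ^ (2 / 3 : ℝ) := by positivity
  linarith

theorem Xi_mono {R M M' : ℝ} (hR : 0 ≤ R) (hM : 0 ≤ M) (h : M ≤ M') : Xi R M ≤ Xi R M' := by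
  unfold Xi
  gcongr

theorem Xi_mul_le {R M y : ℝ} (hR : 0 ≤ R) (hM : 0 ≤ M) (hy : 1 ≤ y) : Xi R (M * y) ≤ y * Xi R M := by
  unfold Xi
  have h1 : (R * (M * y)) ^ (2 / 3 : ℝ) ≤ y * (R * M) ^ (2 / 3 : ℝ) := by
    rw [← mul_assoc, Real.mul_rpow (by positivity) (by positivity), mul_comm]
    refine mul_le_mul_of_nonneg_right ?_ (by positivity)
    simpa using Real.rpow_le_rpow_of_exponent_le hy (show (2 / 3 : ℝ) ≤ 1 by norm_num)
  have h2 : R ≤ y * R := le_mul_of_one_le_left hR hy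
  nlinarith

theorem not_cube_of_not_near {Z : ℝ} (hZ : 1 ≤ Z) {r : O} (h : ¬ Near Z r) : ¬ IsCube r :=
  fun ⟨y, hy⟩ => h ⟨1, y, by rw [one_mul, hy], by rwa [R017.Nr_one]⟩

theorem norm_cr_sq_le {M : ℝ} (hM : 0 ≤ M) (a : O → ℂ) (r : O) :
    ‖cr M a r‖ ^ 2 ≤ 25 * M * cl2 M a := by
  have h1 : ‖cr M a r‖ ≤ ∑ b ∈ sbox M, ‖a b‖ := (norm_sum_le _ _).trans (Finset.sum_le_sum fun b _ => by
    rw [norm_mul]; exact mul_le_of_le_one_right (norm_nonneg _) (norm_kap_le _ _))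
  refine (pow_le_pow_left₀ (norm_nonneg _) h1 2).trans (sq_sum_le_card_mul_sum_sq.trans ?_)
  exact mul_le_mul_of_nonneg_right (card_sbox_le hM) (cl2_nonneg _ _)

theorem Big.mono {a K K' σ τ Y₁ Y₂ Y₁' Y₂' : ℝ} {c : O → ℂ} (h : Big a K σ τ Y₁ Y₂ c) (hY : 0 ≤ Y₁)
    (hK : K' ≤ K) (h1 : Y₁' ≤ Y₁) (h2 : Y₂ ≤ Y₂') : Big a K' σ τ Y₁' Y₂' c := by
  obtain ⟨Y, τ', a1, a2, a3, a4⟩ := h
  refine ⟨Y, τ', h1.trans a1, a2.trans h2, a3, lt_of_le_of_lt ?_ a4⟩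
  exact mul_le_mul_of_nonneg_right hK (Real.rpow_nonneg (hY.trans a1) _)

theorem Big.split {a K σ τ Y₁ Y₂ : ℝ} {c : O → ℂ} (h : Big a K σ τ Y₁ Y₂ c) (Z : ℝ) :
    Big a K σ τ Y₁ Z c ∨ Big a K σ τ Z Y₂ c := by
  obtain ⟨Y, τ', a1, a2, a3, a4⟩ := h
  rcases le_total Y Z with h | h
  · exact Or.inl ⟨Y, τ', a1, h, a3, a4⟩
  · exact Or.inr ⟨Y, τ', h, a2, a3, a4⟩

theorem Big.congr {a K σ τ Y₁ Y₂ : ℝ} {c c' : O → ℂ} (h : Big a K σ τ Y₁ Y₂ c)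
    (hc : ∀ n, Prim n → c n = c' n) : Big a K σ τ Y₁ Y₂ c' := by
  obtain ⟨Y, τ', a1, a2, a3, a4⟩ := h
  exact ⟨Y, τ', a1, a2, a3, by rwa [← gn_sm_congr hc]⟩

end Crest.Agent.R012.Far

end
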