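import Crest.Agent.R012.FB1

/-! # Row 12: the coefficients of the bracket -/

set_option autoImplicit false

noncomputable section

open scoped BigOperators ComplexConjugate Topology
open Complex MeasureTheory Filter Crest.Agent.R017

namespace Crest.Agent.R012.Far

/-- The coefficient of the bracket on triples (the third entry is `1`). -/
def f4T (a N₁ N₂ U τ : ℝ) (l : ℤ) (m : O3) : ℂ :=
  dl m.2.2 * (az l m.1 * az l m.2.1) * ((Nr m.1 : ℂ) ^ (-(τ * I)) * (Nr m.2.1 : ℂ) ^ (-(τ * I))) *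
    ((W a (Nr m.1 / N₁) : ℂ) * (W a (Nr m.2.1 / N₂) : ℂ) -
      (W a (Nr m.1 / (N₁ / U)) : ℂ) * (W a (Nr m.2.1 / (N₂ * U)) : ℂ))

/-- The coefficient of the bracket. -/
def f4G (a N₁ N₂ U τ : ℝ) (l : ℤ) : O → ℂ := s4_G (f4T a N₁ N₂ U τ l)

theorem f4a_dl_one : dl 1 = 1 := by simp [dl]

theorem f4a_dl_mul {x y : O} (hx : Prim x) (hy : Prim y) : dl (x * y) = dl x * dl y := by
  unfold dl
  by_cases h : x * y = 1
  · rw [if_pos h, if_pos (hx.eq_one_of_isUnit (IsUnit.of_mul_eq_one y h)),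
      if_pos (hy.eq_one_of_isUnit (IsUnit.of_mul_eq_one x (by rw [mul_comm, h]))), one_mul]
  · rw [if_neg h]
    split_ifs with h1 h2
    · exact absurd (by rw [h1, h2, one_mul]) h
    all_goals simp

/-- `W_le_rpow` with exponent `-D` for the four weights; the third entry is `1` or the value is `0`. -/
theorem norm_f4T_le {a N₁ N₂ U : ℝ} (ha : 0 < a) (hN₁ : 0 < N₁) (hN₂ : 0 < N₂) (hU : 0 < U) (D τ : ℝ)
    (l : ℤ) {m : O3} (hm : s4_P m) :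
    ‖f4T a N₁ N₂ U τ l m‖ ≤ 2 * Real.exp (2 * a * D ^ 2) * (Nr (s4_pr m) / (N₁ * N₂)) ^ (-D) := by
  have h1 := Nr_pos hm.1.ne_zero
  have h2 := Nr_pos hm.2.1.ne_zero
  have hpr := Nr_pos hm.pr.ne_zero
  by_cases h3 : m.2.2 = 1
  swap
  · have : f4T a N₁ N₂ U τ l m = 0 := by simp [f4T, dl, h3]
    rw [this, norm_zero]
    positivity
  have w := fun (a y : ℝ) => (W_pos a y).le
  have key : ∀ X₁ X₂ : ℝ, 0 < X₁ → 0 < X₂ → X₁ * X₂ = N₁ * N₂ →
      W a (Nr m.1 / X₁) * W a (Nr m.2.1 / X₂) ≤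
        Real.exp (2 * a * D ^ 2) * (Nr (s4_pr m) / (N₁ * N₂)) ^ (-D) := by
    intro X₁ X₂ hX₁ hX₂ hX
    refine (mul_le_mul (W_le_rpow ha (div_pos h1 hX₁) (-D)) (W_le_rpow ha (div_pos h2 hX₂) (-D))
      (w _ _) (by positivity)).trans (le_of_eq ?_)
    rw [s4_pr, h3, mul_one, Nr_mul, ← hX, show Nr m.1 * Nr m.2.1 / (X₁ * X₂) =
      Nr m.1 / X₁ * (Nr m.2.1 / X₂) by field_simp, Real.mul_rpow (by positivity) (by positivity),
      show 2 * a * D ^ 2 = a * (-D) ^ 2 + a * (-D) ^ 2 by ring, Real.exp_add]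
    ring
  have k1 := key N₁ N₂ hN₁ hN₂ rfl
  have k2 := key (N₁ / U) (N₂ * U) (div_pos hN₁ hU) (mul_pos hN₂ hU) (by field_simp)
  have h4 : ‖(W a (Nr m.1 / N₁) : ℂ) * (W a (Nr m.2.1 / N₂) : ℂ) -
      (W a (Nr m.1 / (N₁ / U)) : ℂ) * (W a (Nr m.2.1 / (N₂ * U)) : ℂ)‖ ≤
      2 * Real.exp (2 * a * D ^ 2) * (Nr (s4_pr m) / (N₁ * N₂)) ^ (-D) := by
    refine (norm_sub_le _ _).trans ?_
    simp only [norm_mul, Complex.norm_real, Real.norm_of_nonneg (w _ _)]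
    linarith
  unfold f4T
  rw [norm_mul]
  refine (mul_le_of_le_one_left (norm_nonneg _) ?_).trans h4
  simp only [norm_mul, sv_norm_cpow hm.1.ne_zero, sv_norm_cpow hm.2.1.ne_zero, mul_one, h3,
    f4a_dl_one, norm_one, one_mul]
  exact mul_le_one₀ (norm_az_le _ _) (norm_nonneg _) (norm_az_le _ _)

theorem f4T_dec {a N₁ N₂ U : ℝ} (ha : 0 < a) (hN₁ : 0 < N₁) (hN₂ : 0 < N₂) (hU : 0 < U) (τ : ℝ)
    (l : ℤ) : s4_Dec (f4T a N₁ N₂ U τ l) := by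
  intro A
  refine ⟨2 * Real.exp (2 * a * A ^ 2) * (N₁ * N₂) ^ A, fun m hm =>
    (norm_f4T_le ha hN₁ hN₂ hU A τ l hm).trans (le_of_eq ?_)⟩
  have hpr := Nr_pos hm.pr.ne_zero
  rw [Real.div_rpow hpr.le (by positivity), Real.rpow_neg (show (0 : ℝ) ≤ N₁ * N₂ by positivity)]
  field_simp

open Classical in
/-- Follow `s4_eval` (`R017/T4StepAuxT.lean`): `s4_prod` twice, `summable_sm`, `az_mul`;
`dl (κ₃ m₃) = dl κ₃ * dl m₃` for primary entries. -/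
theorem f4_eval {a N₁ N₂ U : ℝ} (ha : 0 < a) (hN₁ : 0 < N₁) (hN₂ : 0 < N₂) (hU : 0 < U) (τ : ℝ)
    (l : ℤ) {κ : O3} (hκ : s4_P κ) {u : O → ℂ} {K B : ℝ}
    (hu : ∀ x y, Prim x → Prim y → u (x * y) = u x * u y) (hu1 : u 1 = 1)
    (hub : ∀ n, Prim n → ‖u n‖ ≤ K * Nr n ^ B) :
    ∑' m, (if s4_P m then f4T a N₁ N₂ U τ l (κ * m) * u (s4_pr m) else 0) =
      (dl κ.2.2 * (az l κ.1 * az l κ.2.1) *
        ((Nr κ.1 : ℂ) ^ (-(τ * I)) * (Nr κ.2.1 : ℂ) ^ (-(τ * I)))) *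
      s4_br a a U 1 (fun n => u n * az l n) (N₁ / Nr κ.1) (N₂ / Nr κ.2.1) τ := by
  have k1 := Nr_pos hκ.1.ne_zero
  have k2 := Nr_pos hκ.2.1.ne_zero
  have hb : ∀ n, Prim n → ‖u n * az l n‖ ≤ K * Nr n ^ B := fun n hn => by
    rw [norm_mul]
    exact (mul_le_of_le_one_right (norm_nonneg _) (norm_az_le _ _)).trans (hub n hn)
  have h0 : ∀ b : O, b ≠ 1 → (if Prim b then dl b * u b else 0) = 0 := by
    intro b hb
    simp [dl, hb]
  have s₃ : HasSum (fun b => if Prim b then dl b * u b else 0) 1 := by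
    have := hasSum_single (1 : O) h0
    rwa [if_pos prim_one, f4a_dl_one, hu1, one_mul] at this
  have h1 := s4_prod (summable_sm ha (div_pos hN₁ k1) hb τ) (summable_sm ha (div_pos hN₂ k2) hb τ)
    s₃.summable
  have h2 := s4_prod (summable_sm ha (div_pos (div_pos hN₁ k1) hU) hb τ)
    (summable_sm ha (mul_pos (div_pos hN₂ k2) hU) hb τ) s₃.summable
  rw [s₃.tsum_eq] at h1 h2
  have h3 := (h1.sub h2).mul_left (dl κ.2.2 * (az l κ.1 * az l κ.2.1) *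
        ((Nr κ.1 : ℂ) ^ (-(τ * I)) * (Nr κ.2.1 : ℂ) ^ (-(τ * I))))
  refine Eq.trans (tsum_congr fun m => ?_) (h3.tsum_eq.trans ?_)
  · split_ifs with hm
    · have e1 : Nr κ.1 * Nr m.1 / N₁ = Nr m.1 / (N₁ / Nr κ.1) := by field_simp
      have e2 : Nr κ.2.1 * Nr m.2.1 / N₂ = Nr m.2.1 / (N₂ / Nr κ.2.1) := by field_simp
      have e3 : Nr κ.1 * Nr m.1 / (N₁ / U) = Nr m.1 / (N₁ / Nr κ.1 / U) := by field_simp
      have e4 : Nr κ.2.1 * Nr m.2.1 / (N₂ * U) = Nr m.2.1 / (N₂ / Nr κ.2.1 * U) := by field_simp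
      unfold f4T
      simp only [Prod.fst_mul, Prod.snd_mul, az_mul, Nr_mul, e1, e2, e3, e4, Complex.ofReal_mul,
        Complex.mul_cpow_ofReal_nonneg (Nr_nonneg _) (Nr_nonneg _), f4a_dl_mul hκ.2.2 hm.2.2]
      rw [show s4_pr m = m.1 * m.2.1 * m.2.2 from rfl, hu _ _ (hm.1.mul hm.2.1) hm.2.2,
        hu _ _ hm.1 hm.2.1]
      ring
    · simp
  · unfold s4_br sm
    ring

/-- `s4_group`, `f4_eval` with `κ = 1`, `u n = kap n r`. -/
theorem f4_F {a N₁ N₂ U : ℝ} (ha : 0 < a) (hN₁ : 0 < N₁) (hN₂ : 0 < N₂) (hU : 0 < U) (τ : ℝ)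
    (l : ℤ) (r : O) : s4_br a a U 1 (ch l r) N₁ N₂ τ =
      ∑' n, if Prim n then f4G a N₁ N₂ U τ l n * kap n r else 0 := by
  have hub : ∀ n, Prim n → ‖kap n r‖ ≤ 1 * Nr n ^ (0 : ℝ) := fun n _ => by
    simpa using norm_kap_le n r
  have h1 : s4_P (1 : O3) := ⟨prim_one, prim_one, prim_one⟩
  have h2 := f4_eval ha hN₁ hN₂ hU τ l h1 (u := fun n => kap n r)
    (fun x y hx hy => kap_mul_left hx.ne_zero hy.ne_zero r) (kap_unit_left isUnit_one r) hub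
  simp only [one_mul, Prod.fst_one, Prod.snd_one, f4a_dl_one, az_one, R017.Nr_one,
    Complex.ofReal_one, Complex.one_cpow, div_one] at h2
  have h3 := s4_group ((f4T_dec ha hN₁ hN₂ hU τ l).mul (u := fun m => kap (s4_pr m) r)
    (fun m hm => hub _ hm.pr)).summable'
  refine h2.symm.trans (h3.tsum_eq.symm.trans (tsum_congr fun n => ?_))
  split_ifs with hn
  · rw [f4G, s4_G, s4_G, Finset.sum_mul]
    exact Finset.sum_congr rfl fun m hm => by rw [((s4_mem_dv hn.ne_zero).1 hm).2]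
  · rfl

/-- `s4_card_dv`, `norm_f4T_le`. -/
theorem norm_f4G_le {a ε : ℝ} (ha : 0 < a) (hε : 0 < ε) (D : ℝ) : ∃ C : ℝ, 0 ≤ C ∧
    ∀ (N₁ N₂ U τ : ℝ) (l : ℤ) (n : O), 0 < N₁ → 0 < N₂ → 0 < U → Prim n →
    ‖f4G a N₁ N₂ U τ l n‖ ≤ C * Nr n ^ ε * (Nr n / (N₁ * N₂)) ^ (-D) := by
  obtain ⟨C, hC0, hC⟩ := s4_card_dv hε
  refine ⟨C * (2 * Real.exp (2 * a * D ^ 2)), by positivity,
    fun N₁ N₂ U τ l n hN₁ hN₂ hU hn => ?_⟩
  have h1 := Nr_pos hn.ne_zero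
  rw [f4G, s4_G]
  refine (norm_sum_le _ _).trans ((Finset.sum_le_card_nsmul _ _
    (2 * Real.exp (2 * a * D ^ 2) * (Nr n / (N₁ * N₂)) ^ (-D)) fun m hm => ?_).trans ?_)
  · obtain ⟨h2, h3⟩ := (s4_mem_dv hn.ne_zero).1 hm
    have := norm_f4T_le ha hN₁ hN₂ hU D τ l h2
    rwa [h3] at this
  · rw [nsmul_eq_mul]
    refine (mul_le_mul_of_nonneg_right (hC n hn.ne_zero) (by positivity)).trans (le_of_eq ?_)
    ring

/-- With `L = N₁ N₂`, `m = c n`, `N m > L x^ε`, `D = 3 + (B + 6) / ε` (for `B ≥ 0`):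
`‖f4G m‖ ≤ C N m^{-2} L³ (N m / L)^{3 - D} ≤ C N n^{-2} x^{-B}`; `summable_Nr_rpow`. -/
theorem f4G_tail {a ε : ℝ} (ha : 0 < a) (hε : 0 < ε) {B : ℝ} (hB : 0 ≤ B) : ∃ C : ℝ, 0 ≤ C ∧
    ∀ (x N₁ N₂ U τ : ℝ) (l : ℤ) (c : O) (u : O → ℂ), 1 ≤ x → 0 < N₁ → 0 < N₂ → 0 < U →
    N₁ * N₂ ≤ x ^ 2 → Prim c → (∀ n, Prim n → ‖u n‖ ≤ 1) →
    ‖(∑' n, if Prim n then f4G a N₁ N₂ U τ l (c * n) * u n else 0) -
      ∑ n ∈ pbox (N₁ * N₂ * x ^ ε / Nr c), f4G a N₁ N₂ U τ l (c * n) * u n‖ ≤ C * x ^ (-B) := by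
  classical
  obtain ⟨C, hC0, hC⟩ := norm_f4G_le ha one_pos (3 + (B + 6) / ε)
  have hs := summable_Nr_rpow (σ := 2) (by norm_num)
  have hS0 : 0 ≤ ∑' n : O, Nr n ^ (-(2 : ℝ)) :=
    tsum_nonneg fun n => Real.rpow_nonneg (Nr_nonneg _) _
  refine ⟨C * ∑' n : O, Nr n ^ (-(2 : ℝ)), by positivity,
    fun x N₁ N₂ U τ l c u hx hN₁ hN₂ hU hL hc hu => ?_⟩
  set L := N₁ * N₂ with hLdef
  have hL0 : 0 < L := by positivity
  have hx0 : 0 < x := by linarith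
  have hc1 := one_le_Nr hc.ne_zero
  set s := pbox (L * x ^ ε / Nr c) with hsdef
  set f : O → ℂ := fun n => if Prim n then f4G a N₁ N₂ U τ l (c * n) * u n else 0 with hf
  set g : O → ℂ := fun n => if n ∈ s then 0 else f n with hg
  have hgb : ∀ n, ‖g n‖ ≤ C * x ^ (-B) * Nr n ^ (-(2 : ℝ)) := by
    intro n
    have h0 : 0 ≤ C * x ^ (-B) * Nr n ^ (-(2 : ℝ)) := by
      have := Real.rpow_nonneg (Nr_nonneg n) (-(2 : ℝ))
      positivity
    simp only [hg, hf]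
    split_ifs with h1 hn
    · rwa [norm_zero]
    swap
    · rwa [norm_zero]
    have hn1 := one_le_Nr hn.ne_zero
    have h2 : L * x ^ ε < Nr (c * n) := by
      have : ¬ Nr n ≤ L * x ^ ε / Nr c := fun h => h1 (mem_pbox.2 ⟨hn, h⟩)
      rw [not_le, div_lt_iff₀ (by linarith)] at this
      rwa [Nr_mul, mul_comm (Nr c)]
    set y := Nr (c * n) with hy
    have hy1 : Nr n ≤ y := by
      rw [hy, Nr_mul]
      exact le_mul_of_one_le_left (by linarith) hc1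
    have hy0 : 0 < y := by linarith
    have h3 : x ^ ε ≤ y / L := by
      rw [le_div_iff₀ hL0, mul_comm]
      exact h2.le
    have h4 : (y / L) ^ (-((B + 6) / ε)) ≤ x ^ (-(B + 6)) := by
      refine (Real.rpow_le_rpow_of_nonpos (by positivity) h3
        (neg_nonpos.2 (by positivity))).trans (le_of_eq ?_)
      rw [← Real.rpow_mul hx0.le]
      congr 1
      field_simp
    have h5 : y ^ (-(2 : ℝ)) ≤ Nr n ^ (-(2 : ℝ)) :=
      Real.rpow_le_rpow_of_nonpos (by linarith) hy1 (by norm_num)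
    have h6 : L ^ 3 ≤ x ^ (6 : ℝ) := by
      rw [show (6 : ℝ) = ((6 : ℕ) : ℝ) by norm_num, Real.rpow_natCast]
      calc L ^ 3 ≤ (x ^ 2) ^ 3 := pow_le_pow_left₀ hL0.le hL 3
        _ = x ^ 6 := by ring
    have h7 : y ^ (1 : ℝ) * (y / L) ^ (-(3 + (B + 6) / ε)) =
        y ^ (-(2 : ℝ)) * (L ^ 3 * (y / L) ^ (-((B + 6) / ε))) := by
      rw [neg_add, Real.rpow_add (by positivity), Real.rpow_one, Real.rpow_neg (by positivity),
        Real.rpow_neg hy0.le, show (3 : ℝ) = ((3 : ℕ) : ℝ) by norm_num, Real.rpow_natCast,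
        show (2 : ℝ) = ((2 : ℕ) : ℝ) by norm_num, Real.rpow_natCast]
      field_simp
    have h8 : L ^ 3 * (y / L) ^ (-((B + 6) / ε)) ≤ x ^ (-B) := by
      refine (mul_le_mul h6 h4 (by positivity) (by positivity)).trans (le_of_eq ?_)
      rw [← Real.rpow_add hx0]
      congr 1
      ring
    rw [norm_mul]
    refine (mul_le_of_le_one_right (norm_nonneg _) (hu n hn)).trans
      ((hC N₁ N₂ U τ l (c * n) hN₁ hN₂ hU (hc.mul hn)).trans ?_)
    rw [mul_assoc, ← hy, ← hLdef, h7, mul_assoc, mul_comm (x ^ (-B))]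
    exact mul_le_mul_of_nonneg_left (mul_le_mul h5 h8 (by positivity)
      (Real.rpow_nonneg (Nr_nonneg _) _)) hC0
  have hs' := hs.mul_left (C * x ^ (-B))
  have hgs : Summable g := Summable.of_norm_bounded hs' hgb
  have hh : HasSum (fun n => if n ∈ s then f n else 0) (∑ n ∈ s, f n) := by
    have := hasSum_sum_of_ne_finset_zero (f := fun n => if n ∈ s then f n else 0) (s := s)
      (L := SummationFilter.unconditional O) (fun n hn => if_neg hn)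
    rwa [Finset.sum_congr rfl fun n hn => if_pos hn] at this
  have hfs : HasSum f (∑' n, g n + ∑ n ∈ s, f n) := by
    convert hgs.hasSum.add hh using 2 with n
    simp only [hg]
    split_ifs <;> simp
  have he : ∑ n ∈ s, f4G a N₁ N₂ U τ l (c * n) * u n = ∑ n ∈ s, f n :=
    Finset.sum_congr rfl fun n hn => (if_pos (mem_pbox.1 hn).1).symm
  rw [hfs.tsum_eq, he, add_sub_cancel_right]
  refine (tsum_of_norm_bounded hs'.hasSum hgb).trans (le_of_eq ?_)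
  rw [tsum_mul_left]
  ring

end Crest.Agent.R012.Far

end
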