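import Crest.Agent.R012.F4b1

/-! # Row 12: the children in the fourth moment -/

set_option autoImplicit false

noncomputable section

open scoped BigOperators ComplexConjugate Topology
open Complex MeasureTheory Filter Crest.Agent.R017

namespace Crest.Agent.R012.Far

theorem f4b_u (ρ : O) (σ u : ℝ) {n : O} (hn : Prim n) :
    ‖kap n ρ * (Nr n : ℂ) ^ ((σ : ℂ) + u * I)‖ ≤ 1 * Nr n ^ σ := by
  rw [norm_mul, Complex.norm_cpow_eq_rpow_re_of_pos (Nr_pos hn.ne_zero), l3_re]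
  exact mul_le_mul_of_nonneg_right (norm_kap_le _ _) (Real.rpow_nonneg (Nr_nonneg _) _)

open Classical in
/-- Port of `s4c_char`: `s4c_sum`, `s4_mob`, `s4_expand`, `s4_mink`, `s4_mink'`, `s4_card_dv`,
`f4T_dec`, `f4_term`. -/
theorem f4_child {a e : ℝ} (ha : 0 < a) (he : 0 < e) (he1 : e ≤ 1 / 2) (l : ℤ) : ∃ C : ℝ, 0 ≤ C ∧
    ∀ (x R₀ N₁ N₂ U τ σ t : ℝ) (c d : O), 1 ≤ x → 0 ≤ R₀ → R₀ ≤ x → 1 ≤ U → 0 < N₁ → N₁ ≤ x →
    0 < N₂ → N₂ * U ≤ x → Prim c → Nr c ≤ x ^ 3 → Prim d → Squarefree d → d ∣ c → 0 < σ → σ ≤ e →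
    NS (R₀ / Nr d ^ 2) (fun r => ∑' n, if Prim n ∧ Squarefree n ∧ IsCoprime n c then
      f4G a N₁ N₂ U τ l (c * n) *
        (kap n (r * d ^ 2) * (Nr n : ℂ) ^ (((σ - 1 : ℝ) : ℂ) + t * I)) else 0) ≤
      C * x ^ (20 * e) * (1 + |τ|) ^ C * (1 + |t|) ^ C *
        (Nr c / (N₁ * N₂) * Xi0 R₀ N₁ N₂ U / Nr d) := by
  obtain ⟨C, hC, hterm⟩ := f4_term ha he he1 l
  obtain ⟨Cm, hCm, hmob⟩ := s4_mob he
  obtain ⟨Cd, hCd, hdv⟩ := s4_card_dv (half_pos he)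
  refine ⟨C * (Cd * Cm) ^ 2 + C, by positivity,
    fun x R₀ N₁ N₂ U τ σ t k d hx hR hRx hU hN₁ hN₁x hN₂ hN₂x hk hkx hd hds hdk hσ hσe => ?_⟩
  have hx0 : 0 < x := lt_of_lt_of_le one_pos hx
  have hU0 : 0 < U := lt_of_lt_of_le one_pos hU
  have hD : 0 ≤ Xi0 R₀ N₁ N₂ U := by unfold Xi0; positivity
  have kd := Nr_pos hd.ne_zero
  have kk := Nr_pos hk.ne_zero
  have hdec := f4T_dec ha hN₁ hN₂ hU0 τ l
  obtain ⟨g, Kg, hg1, hg2, hg3⟩ := hmob k hk.ne_zero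
  obtain ⟨L, hL⟩ : ∃ L, L = C * x ^ (10 * e) * (1 + |τ|) ^ C * (1 + |t|) ^ C *
    (Nr k / (N₁ * N₂) * Xi0 R₀ N₁ N₂ U / Nr d) := ⟨_, rfl⟩
  have hL0 : 0 ≤ L := by rw [hL]; positivity
  have hb0 : ∀ f : O3, 0 ≤ (if s4_P f then ‖g f‖ * Nr (s4_pr f) ^ (-(1 / 2 + e)) else 0) := fun f => by
    have := Nr_nonneg (s4_pr f)
    split_ifs <;> positivity
  have hbs := summable_of_sum_le hb0 hg3
  have hbt := hbs.tsum_le_of_sum_le hg3
  have e1 := fun r => (s4c_sum hdec hk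
    (u := fun n => kap n (r * d ^ 2) * (Nr n : ℂ) ^ (((σ - 1 : ℝ) : ℂ) + t * I))
    (fun n hn => f4b_u (r * d ^ 2) (σ - 1) t hn)).tsum_eq
  simp only [f4G, e1]
  refine (s4_mink' (s4_dv k) (b := fun _ => Cm * Nr k ^ (e / 2) * Real.sqrt L)
    (fun _ _ => by positivity) fun κ hκ => ?_).trans ?_
  · obtain ⟨hκ, hκk⟩ := (s4_mem_dv hk.ne_zero).1 hκ
    refine (s4_mink (f := fun f r => if s4_P f then g f * ∑' m, (if s4_P m then
      f4T a N₁ N₂ U τ l (κ * (f * m)) * (kap (s4_pr (f * m)) (r * d ^ 2) *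
        (Nr (s4_pr (f * m)) : ℂ) ^ (((σ - 1 : ℝ) : ℂ) + t * I)) else 0) else 0)
      (b := fun f => (if s4_P f then ‖g f‖ * Nr (s4_pr f) ^ (-(1 / 2 + e)) else 0) *
      Real.sqrt L) (fun r _ => ?_) (hbs.mul_right _)
      (fun f => mul_nonneg (hb0 f) (by positivity)) fun f => ?_).trans ?_
    · have h1 := s4_expand ((hdec.shift hκ).mul (u := fun m =>
        kap (s4_pr m) (r * d ^ 2) * (Nr (s4_pr m) : ℂ) ^ (((σ - 1 : ℝ) : ℂ) + t * I))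
        fun m hm => f4b_u (r * d ^ 2) (σ - 1) t hm.pr) hg2 hg1
      simp only [mul_comm (s4_phi k _)] at h1
      exact h1
    · by_cases hf : s4_P f
      · simp only [if_pos hf]
        rw [s4_NS_mul]
        have h1 := hterm x R₀ N₁ N₂ U τ σ t d κ f hx hR hRx hU hN₁ hN₁x hN₂ hN₂x hκ hf hd hds
          (hκk ▸ hdk) hσ hσe
        rw [hκk, ← hL] at h1
        refine (mul_le_mul_of_nonneg_left h1 (by positivity)).trans (le_of_eq ?_)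
        rw [mul_pow, mul_pow, Real.sq_sqrt hL0]
        ring
      · simp [hf, NS]
    · rw [tsum_mul_right]
      exact pow_le_pow_left₀ (mul_nonneg (tsum_nonneg hb0) (by positivity))
        (mul_le_mul_of_nonneg_right hbt (by positivity)) 2
  rw [Finset.sum_const, nsmul_eq_mul]
  have a1 : x ^ (10 * e) * (Nr k ^ (e / 2) * Nr k ^ (e / 2)) ^ 2 ≤ x ^ (20 * e) := by
    calc _ ≤ x ^ (10 * e) * ((x ^ 3) ^ (e / 2) * (x ^ 3) ^ (e / 2)) ^ 2 := by gcongr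
      _ ≤ _ := by
        rw [← Real.rpow_natCast x 3, ← Real.rpow_mul hx0.le, ← Real.rpow_add hx0,
          ← Real.rpow_natCast _ 2, ← Real.rpow_mul hx0.le, ← Real.rpow_add hx0]
        refine Real.rpow_le_rpow_of_exponent_le hx ?_
        push_cast
        linarith
  have t1 : 1 ≤ 1 + |τ| := le_add_of_nonneg_right (abs_nonneg _)
  have t2 : 1 ≤ 1 + |t| := le_add_of_nonneg_right (abs_nonneg _)
  have t3 : C ≤ C * (Cd * Cm) ^ 2 + C := le_add_of_nonneg_left (by positivity)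
  have t4 : C * (Cd * Cm) ^ 2 ≤ C * (Cd * Cm) ^ 2 + C := le_add_of_nonneg_right hC
  calc _ ≤ ((Cd * Nr k ^ (e / 2)) * (Cm * Nr k ^ (e / 2) * Real.sqrt L)) ^ 2 := by
        gcongr
        exact hdv k hk.ne_zero
    _ = (Cd * Cm) ^ 2 * Real.sqrt L ^ 2 * (Nr k ^ (e / 2) * Nr k ^ (e / 2)) ^ 2 := by ring
    _ = C * (Cd * Cm) ^ 2 * (1 + |τ|) ^ C * (1 + |t|) ^ C *
        (Nr k / (N₁ * N₂) * Xi0 R₀ N₁ N₂ U / Nr d) *
        (x ^ (10 * e) * (Nr k ^ (e / 2) * Nr k ^ (e / 2)) ^ 2) := by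
        rw [Real.sq_sqrt hL0, hL]; ring
    _ ≤ (C * (Cd * Cm) ^ 2 + C) * (1 + |τ|) ^ (C * (Cd * Cm) ^ 2 + C) *
        (1 + |t|) ^ (C * (Cd * Cm) ^ 2 + C) * (Nr k / (N₁ * N₂) * Xi0 R₀ N₁ N₂ U / Nr d) *
        x ^ (20 * e) := by gcongr
    _ = _ := by ring

end Crest.Agent.R012.Far

end
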