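import Crest.Agent.R012.FE1

/-! # Row 12: reflected moments and the leaves -/

set_option autoImplicit false

noncomputable section

open scoped BigOperators ComplexConjugate Topology
open Complex MeasureTheory Filter Crest.Agent.R017

namespace Crest.Agent.R012.Far

/-- `r d² = y³` forces `d ∣ y` (`Squarefree.dvd_pow_iff_dvd`), `r = d z³`. -/
theorem card_cube_tw {R : ℝ} (hR : 0 ≤ R) {d : O} (hd : Squarefree d) (S : Finset O) (hS : S ⊆ box R)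
    (h : ∀ r ∈ S, IsCube (r * d ^ 2)) : (S.card : ℝ) ≤ 25 * (R / Nr d) ^ (1 / 3 : ℝ) := by
  classical
  have hd0 := Nr_pos hd.ne_zero
  have h1 : S ⊆ (box ((R / Nr d) ^ (1 / 3 : ℝ))).image fun z => d * z ^ 3 := fun r hr => by
    obtain ⟨y, hy⟩ := h r hr
    obtain ⟨z, rfl⟩ : d ∣ y := (hd.dvd_pow_iff_dvd three_ne_zero).1 ⟨r * d, by rw [← hy]; ring⟩
    have h2 : r = d * z ^ 3 :=
      mul_right_cancel₀ (pow_ne_zero 2 hd.ne_zero) (by rw [hy]; ring)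
    obtain ⟨h3, h4⟩ := mem_box.1 (hS hr)
    refine Finset.mem_image.2 ⟨z, mem_box.2 ⟨fun h0 => h3 (by simp [h2, h0]), ?_⟩, h2.symm⟩
    rw [one_div, Real.le_rpow_inv_iff_of_pos (Nr_nonneg z) (by positivity) (by norm_num),
      le_div_iff₀ hd0, Real.rpow_ofNat]
    rwa [h2, Nr_mul, Nr_pow, mul_comm] at h4
  refine le_trans ?_ (card_box_le (by positivity))
  exact_mod_cast (Finset.card_le_card h1).trans Finset.card_image_le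

theorem fe_xi {R₀ D X E : ℝ} (hD : 1 ≤ D) (hR : 1 ≤ R₀ / D ^ 2) (hX : 0 ≤ X) (hE : 0 ≤ E)
    (h : X ^ 2 ≤ E ^ 2 / D) :
    Xi (R₀ / D ^ 2) (X + R₀ / D) ≤ 4 * ((R₀ ^ (4 / 3 : ℝ) + R₀ ^ (1 / 3 : ℝ) * E) / D) := by
  obtain ⟨δ, hδ, rfl⟩ : ∃ δ : ℝ, 1 ≤ δ ∧ D = δ ^ 6 :=
    ⟨D ^ (6 : ℝ)⁻¹, Real.one_le_rpow hD (by norm_num),
      (Real.rpow_inv_natCast_pow (n := 6) (by linarith) (by norm_num)).symm⟩
  have hδ0 : 0 < δ := by linarith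
  obtain ⟨ρ, hρ, hρ'⟩ : ∃ ρ : ℝ, 1 ≤ ρ ∧ R₀ / (δ ^ 6) ^ 2 = ρ ^ 3 :=
    ⟨(R₀ / (δ ^ 6) ^ 2) ^ (3 : ℝ)⁻¹, Real.one_le_rpow hR (by norm_num),
      (Real.rpow_inv_natCast_pow (n := 3) (by linarith) (by norm_num)).symm⟩
  have hρ0 : 0 < ρ := by linarith
  obtain rfl : R₀ = (ρ * δ ^ 4) ^ 3 := by
    rw [div_eq_iff (by positivity)] at hρ'
    rw [hρ']
    ring
  obtain ⟨μ, hμ, hμ'⟩ : ∃ μ : ℝ, 0 ≤ μ ∧ X + (ρ * δ ^ 4) ^ 3 / δ ^ 6 = μ ^ 3 :=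
    ⟨(X + (ρ * δ ^ 4) ^ 3 / δ ^ 6) ^ (3 : ℝ)⁻¹, by positivity,
      (Real.rpow_inv_natCast_pow (n := 3) (by positivity) (by norm_num)).symm⟩
  have e : ∀ (u : ℝ) (k : ℕ), 0 ≤ u → (u ^ 3) ^ ((k : ℝ) / 3) = u ^ k := fun u k hu => by
    rw [← Real.rpow_natCast, ← Real.rpow_mul hu, ← Real.rpow_natCast]
    congr 1
    push_cast
    ring
  have e1 := e ρ 1 hρ0.le
  have e2 := e (ρ * μ) 2 (by positivity)
  have e3 := e (ρ * δ ^ 4) 1 (by positivity)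
  have e4 := e (ρ * δ ^ 4) 4 (by positivity)
  push_cast at e1 e2 e3 e4
  have h1 : (ρ * μ) ^ 2 ≤ ρ ^ 4 + ρ * μ ^ 3 := by
    rcases le_total μ ρ with h2 | h2
    · have : (ρ * μ) ^ 2 ≤ (ρ * ρ) ^ 2 := by gcongr
      have : 0 ≤ ρ * μ ^ 3 := by positivity
      nlinarith
    · have : ρ * (ρ * μ ^ 2) ≤ μ * (ρ * μ ^ 2) := by gcongr
      have : 0 ≤ ρ ^ 4 := by positivity
      nlinarith
  have h2 : X * δ ^ 3 ≤ E := by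
    rw [le_div_iff₀ (by positivity)] at h
    exact (pow_le_pow_iff_left₀ (by positivity) hE two_ne_zero).1 (by nlinarith)
  rw [Xi, hρ', hμ', ← mul_pow, e1, e2, e3, e4, ← mul_div_assoc, le_div_iff₀ (by positivity)]
  have h3 : μ ^ 3 * δ ^ 6 = X * δ ^ 6 + (ρ * δ ^ 4) ^ 3 := by
    rw [← hμ']
    field_simp
  have h4 : ρ ^ 3 * δ ^ 6 ≤ ρ ^ 4 * δ ^ 16 := by gcongr <;> first | assumption | norm_num
  have h5 : ρ ^ 4 * δ ^ 6 ≤ ρ ^ 4 * δ ^ 16 := by gcongr; norm_num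
  have h6 : ρ ^ 4 * δ ^ 12 ≤ ρ ^ 4 * δ ^ 16 := by gcongr; norm_num
  have h7 : ρ * δ ^ 3 * (X * δ ^ 3) ≤ ρ * δ ^ 4 * E := by gcongr; norm_num
  have h8 : 0 ≤ ρ * δ ^ 4 * E := by positivity
  calc _ ≤ (ρ ^ 3 + ρ ^ 1 * μ ^ 3 + (ρ ^ 4 + ρ * μ ^ 3)) * δ ^ 6 := by gcongr
    _ = ρ ^ 3 * δ ^ 6 + ρ ^ 4 * δ ^ 6 + 2 * ρ * (μ ^ 3 * δ ^ 6) := by ring
    _ = ρ ^ 3 * δ ^ 6 + ρ ^ 4 * δ ^ 6 + 2 * (ρ * δ ^ 3 * (X * δ ^ 3)) + 2 * (ρ ^ 4 * δ ^ 12) := by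
      rw [h3]
      ring
    _ ≤ 4 * (ρ ^ 4 * δ ^ 16 + ρ * δ ^ 4 * E) := by linarith
    _ = _ := by ring

/-- A product on rows with a non-principal character. Put `R = R₀ / N d² ≥ 1` (else `S` is empty),
`Q = R₀ / N d` (`rad (r d²) ∣ rad r * d`), and reflect the longer factor (`refl_mom`). With
`X = min X₁ X₂ ≤ √(X₁ X₂) ≤ E / √(N d)`:
`Xi R (X + Q) ≤ C (R₀^{4/3} + R₀^{1/3} E) / N d` (use `(R X)^{2/3} ≤ R^{4/3} + R^{1/3} X`). -/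
theorem leaf_prod {a ε : ℝ} (ha : 0 < a) (hε : 0 < ε) (l : ℤ) : ∃ C : ℝ, 0 ≤ C ∧
    ∀ (S : Finset O) (d : O) (x R₀ E X₁ X₂ τ : ℝ), 1 ≤ x → 0 ≤ R₀ → R₀ ≤ x → Prim d → Squarefree d →
    S ⊆ box (R₀ / Nr d ^ 2) → (∀ r ∈ S, l ≠ 0 ∨ ¬ IsCube (r * d ^ 2)) →
    0 < X₁ → X₁ ≤ x → 0 < X₂ → X₂ ≤ x → 1 ≤ X₁ * X₂ → 0 ≤ E → X₁ * X₂ ≤ E ^ 2 / Nr d →
    ∑ r ∈ S, ‖sm a (ch l (r * d ^ 2)) X₁ τ * sm a (ch l (r * d ^ 2)) X₂ τ‖ ^ 2 ≤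
      C * x ^ ε * (1 + |τ|) ^ C * (X₁ * X₂ * (R₀ ^ (4 / 3 : ℝ) + R₀ ^ (1 / 3 : ℝ) * E) / Nr d) := by
  obtain ⟨C, hC0, hC⟩ := refl_mom ha ha hε l
  refine ⟨4 * C, by positivity,
    fun S d x R₀ E X₁ X₂ τ hx hR₀ hR₀x hd hs hS hS' h₁ h₁x h₂ h₂x h12 hE hE' => ?_⟩
  wlog hle : X₂ ≤ X₁ generalizing X₁ X₂
  · simpa only [mul_comm X₂ X₁, mul_comm (sm a _ X₂ τ)] using this X₂ X₁ h₂ h₂x h₁ h₁x
      (by rwa [mul_comm]) (by rwa [mul_comm]) (le_of_not_ge hle)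
  have hD := one_le_Nr hd.ne_zero
  have hT : 1 ≤ 1 + |τ| := le_add_of_nonneg_right (abs_nonneg τ)
  rcases lt_or_ge (R₀ / Nr d ^ 2) 1 with hR | hR
  · rw [box_eq_empty hR, Finset.subset_empty] at hS
    rw [hS, Finset.sum_empty]
    positivity
  have hQ : R₀ / Nr d ^ 2 ≤ R₀ / Nr d := by
    gcongr
    nlinarith
  have hQx : R₀ / Nr d ≤ x := (div_le_self hR₀ hD).trans hR₀x
  refine (hC S (d ^ 2) x _ (R₀ / Nr d) X₁ X₂ τ hR (hQ.trans hQx) (hR.trans hQ) hQx hS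
    (pow_ne_zero _ hd.ne_zero) (fun r hr => ⟨?_, hS' r hr⟩) (by nlinarith) h₂ h₂x).trans ?_
  · obtain ⟨h3, h4⟩ := mem_box.1 (hS hr)
    have h5 : rad (r * d ^ 2) ∣ r * d := (rad_mul_dvd h3 (pow_ne_zero _ hd.ne_zero)).trans
      (mul_dvd_mul (rad_dvd h3) (by rw [rad_pow two_ne_zero]; exact rad_dvd hd.ne_zero))
    refine (Nr_le_of_dvd (mul_ne_zero h3 hd.ne_zero) h5).trans ?_
    rw [le_div_iff₀ (by positivity)] at h4 ⊢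
    rw [Nr_mul]
    linarith
  · have h3 : Xi (R₀ / Nr d ^ 2) (X₂ + R₀ / Nr d * X₂ / X₁) ≤ Xi (R₀ / Nr d ^ 2) (X₂ + R₀ / Nr d) := by
      refine Xi_mono (by linarith) (by positivity) (add_le_add le_rfl ?_)
      rw [mul_div_assoc]
      exact mul_le_of_le_one_right (by positivity) ((div_le_one h₁).2 hle)
    have h4 := h3.trans (fe_xi hD hR h₂.le hE (le_trans (by nlinarith) hE'))
    have h5 : (1 + |τ|) ^ C ≤ (1 + |τ|) ^ (4 * C) :=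
      Real.rpow_le_rpow_of_exponent_le hT (by linarith)
    have h6 : 0 ≤ Xi (R₀ / Nr d ^ 2) (X₂ + R₀ / Nr d * X₂ / X₁) :=
      Xi_nonneg (by linarith) (by positivity)
    calc _ ≤ C * x ^ ε * (1 + |τ|) ^ (4 * C) *
          (X₁ * X₂ * (4 * ((R₀ ^ (4 / 3 : ℝ) + R₀ ^ (1 / 3 : ℝ) * E) / Nr d))) := by gcongr
      _ = _ := by ring

set_option maxHeartbeats 800000 in
/-- If `X₁ X₂ ≤ 1`: `s4b_br_pow` (`k = 1`), at most `25 R₀ / N d²` rows. Otherwise: `leaf_prod` for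
both products (`E = 1 + N₁ + N₂ U`, `N₁ N₂ ≤ E²`) on the rows with `l ≠ 0 ∨ ¬ IsCube (r d²)`; on the
other rows `l = 0`, `r d² = y³`, `ch 0 (y³) n = if IsCoprime n y then kc 1 n else 0` for primary `n`
(`kap_cube_right`, `gn_sm_congr`), `s4b_exc` (`q = 9 * rad 1`, `k = y`), `card_cube_tw`. -/
theorem leaf {a ε : ℝ} (ha : 0 < a) (hε : 0 < ε) (hε1 : ε ≤ 1) (l : ℤ) : ∃ C : ℝ, 0 ≤ C ∧
    ∀ (x R₀ N₁ N₂ U X₁ X₂ τ : ℝ) (d : O), 1 ≤ x → 0 ≤ R₀ → R₀ ≤ x → 1 ≤ U → N₁ ≤ x → N₂ * U ≤ x →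
    0 < X₁ → X₁ ≤ N₁ → 0 < X₂ → X₂ ≤ N₂ → Prim d → Squarefree d → X₁ * X₂ ≤ N₁ * N₂ / Nr d →
    NS (R₀ / Nr d ^ 2) (fun r => s4_br a a U 1 (ch l (r * d ^ 2)) X₁ X₂ τ) ≤
      C * x ^ ε * (1 + |τ|) ^ C * ((X₁ * X₂) ^ (1 + ε) * Xi0 R₀ N₁ N₂ U / Nr d) := by
  classical
  obtain ⟨C₁, hC₁0, hC₁⟩ := s4b_br_pow ha ha (k := 1) le_rfl
  obtain ⟨C₂, hC₂0, hC₂⟩ := leaf_prod ha hε l
  obtain ⟨C₃, hC₃0, hC₃⟩ := s4b_exc ha ha (e := ε / 8) (by positivity) (9 * rad 1)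
  refine ⟨25 * C₁ ^ 2 + 4 * C₂ + 25 * C₃, by positivity,
    fun x R₀ N₁ N₂ U X₁ X₂ τ d hx hR₀ hR₀x hU hN₁ hN₂ h₁ h₁N h₂ h₂N hd hs h12 => ?_⟩
  set C := 25 * C₁ ^ 2 + 4 * C₂ + 25 * C₃ with hC
  have hD := one_le_Nr hd.ne_zero
  have hT : 1 ≤ 1 + |τ| := le_add_of_nonneg_right (abs_nonneg τ)
  have hU0 : 0 < U := by linarith
  have hN₁0 : 0 < N₁ := by linarith
  have hN₂0 : 0 < N₂ := by linarith
  have hc₁ : 0 ≤ C₁ ^ 2 := sq_nonneg _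
  rw [Xi0, NS]
  set E := 1 + N₁ + N₂ * U with hE
  have hNU : N₂ ≤ N₂ * U := le_mul_of_one_le_right hN₂0.le hU
  have hE1 : 1 ≤ E := by linarith
  have hE0 : 0 ≤ E := by linarith
  rcases lt_or_ge (R₀ / Nr d ^ 2) 1 with hR | hR
  · rw [box_eq_empty hR, Finset.sum_empty]
    positivity
  have hR1 : 1 ≤ R₀ := hR.trans (div_le_self hR₀ (one_le_pow₀ hD))
  rcases le_total (X₁ * X₂) 1 with hX | hX
  · have h3 := Finset.sum_le_card_nsmul (box (R₀ / Nr d ^ 2))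
      (fun r => ‖s4_br a a U 1 (ch l (r * d ^ 2)) X₁ X₂ τ‖ ^ 2) ((C₁ * (X₁ * X₂) ^ 1) ^ 2)
      fun r _ => pow_le_pow_left₀ (norm_nonneg _)
        (hC₁ U X₁ X₂ τ 1 _ hU0 h₁ h₂ (by simp) (norm_ch_le _ _)) 2
    rw [nsmul_eq_mul] at h3
    have h4 := card_box_le (Y := R₀ / Nr d ^ 2) (by linarith)
    have h5 : R₀ / Nr d ^ 2 ≤ (R₀ ^ (4 / 3 : ℝ) + R₀ ^ (1 / 3 : ℝ) * E) / Nr d := by
      have h6 : R₀ ≤ R₀ ^ (4 / 3 : ℝ) := by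
        simpa using Real.rpow_le_rpow_of_exponent_le hR1 (show (1 : ℝ) ≤ 4 / 3 by norm_num)
      have h7 : 0 ≤ R₀ ^ (1 / 3 : ℝ) * E := by positivity
      gcongr
      · linarith
      · nlinarith
    have h6 : (X₁ * X₂) ^ 2 ≤ (X₁ * X₂) ^ (1 + ε) := by
      rw [← Real.rpow_two]
      exact Real.rpow_le_rpow_of_exponent_ge (by positivity) hX (by linarith)
    have h7 : 1 ≤ x ^ ε := Real.one_le_rpow hx hε.le
    have h8 : 1 ≤ (1 + |τ|) ^ C := Real.one_le_rpow hT (by positivity)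
    calc _ ≤ 25 * (R₀ / Nr d ^ 2) * (C₁ * (X₁ * X₂) ^ 1) ^ 2 := h3.trans (by gcongr)
      _ = 25 * C₁ ^ 2 * 1 * 1 * ((X₁ * X₂) ^ 2 * (R₀ / Nr d ^ 2)) := by ring
      _ ≤ C * x ^ ε * (1 + |τ|) ^ C * ((X₁ * X₂) ^ (1 + ε) *
          ((R₀ ^ (4 / 3 : ℝ) + R₀ ^ (1 / 3 : ℝ) * E) / Nr d)) := by
        gcongr
        linarith
      _ = _ := by ring
  have hEE : X₁ * X₂ ≤ E ^ 2 / Nr d := h12.trans (by
    rw [sq]
    gcongr <;> linarith)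
  have hXU : X₁ / U * (X₂ * U) = X₁ * X₂ := by field_simp
  have h₁U : X₁ / U ≤ X₁ := div_le_self h₁.le hU
  have h₂U : X₂ * U ≤ N₂ * U := by gcongr
  rw [← Finset.sum_filter_add_sum_filter_not _ fun r => l ≠ 0 ∨ ¬ IsCube (r * d ^ 2)]
  set S := (box (R₀ / Nr d ^ 2)).filter fun r => l ≠ 0 ∨ ¬ IsCube (r * d ^ 2) with hS
  set S' := (box (R₀ / Nr d ^ 2)).filter fun r => ¬ (l ≠ 0 ∨ ¬ IsCube (r * d ^ 2)) with hS'
  have h3 := hC₂ S d x R₀ E X₁ X₂ τ hx hR₀ hR₀x hd hs (Finset.filter_subset _ _)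
    (fun r hr => (Finset.mem_filter.1 hr).2) h₁ (by linarith) h₂ (by linarith) hX hE0 hEE
  have h4 := hC₂ S d x R₀ E (X₁ / U) (X₂ * U) τ hx hR₀ hR₀x hd hs (Finset.filter_subset _ _)
    (fun r hr => (Finset.mem_filter.1 hr).2) (by positivity) (by linarith) (by positivity)
    (by linarith) (by rwa [hXU]) hE0 (by rwa [hXU])
  rw [hXU] at h4
  have h5 : ∑ r ∈ S, ‖s4_br a a U 1 (ch l (r * d ^ 2)) X₁ X₂ τ‖ ^ 2 ≤
      2 * ∑ r ∈ S, ‖sm a (ch l (r * d ^ 2)) X₁ τ * sm a (ch l (r * d ^ 2)) X₂ τ‖ ^ 2 +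
      2 * ∑ r ∈ S, ‖sm a (ch l (r * d ^ 2)) (X₁ / U) τ * sm a (ch l (r * d ^ 2)) (X₂ * U) τ‖ ^ 2 := by
    rw [Finset.mul_sum, Finset.mul_sum, ← Finset.sum_add_distrib]
    refine Finset.sum_le_sum fun r _ => ?_
    rw [s4_br, one_mul]
    generalize sm a (ch l (r * d ^ 2)) X₁ τ * sm a (ch l (r * d ^ 2)) X₂ τ = u
    generalize sm a (ch l (r * d ^ 2)) (X₁ / U) τ * sm a (ch l (r * d ^ 2)) (X₂ * U) τ = v
    have := pow_le_pow_left₀ (norm_nonneg _) (norm_sub_le u v) 2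
    nlinarith [sq_nonneg (‖u‖ - ‖v‖)]
  have h6 := Finset.sum_le_card_nsmul S'
    (fun r => ‖s4_br a a U 1 (ch l (r * d ^ 2)) X₁ X₂ τ‖ ^ 2)
    (C₃ * x ^ ε * (1 + |τ|) ^ C₃ * (X₁ * X₂ * E)) fun r hr => by
      obtain ⟨h7, h8⟩ := Finset.mem_filter.1 hr
      obtain ⟨h9, h10⟩ := mem_box.1 h7
      push Not at h8
      obtain ⟨rfl, y, hy⟩ := h8
      have hy0 : y ≠ 0 := fun h0 => mul_ne_zero h9 (pow_ne_zero 2 hd.ne_zero) (by simp [hy, h0])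
      have hy1 := one_le_Nr hy0
      have hy2 : Nr y ≤ x ^ 2 := by
        rw [le_div_iff₀ (by positivity), ← Nr_pow, ← Nr_mul, hy, Nr_pow] at h10
        have := le_self_pow₀ hy1 three_ne_zero
        nlinarith
      have h11 := hC₃ (kc 1) y x U X₁ X₂ τ E (isCh_kc one_ne_zero) hy0 hx hy2 hU0 h₁ h₂ hE1
        (by linarith) (by linarith) (by linarith) (by linarith)
      have h12 : ∀ X, sm a (ch 0 (y ^ 3)) X τ =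
          sm a (fun n => if IsCoprime n y then kc 1 n else 0) X τ := fun X =>
        gn_sm_congr (fun n hn => by
          rw [ch, az_zero, mul_one, kap_cube_right hn, kc_prim hn, kap_one_right hn.not_lam_dvd]) X τ
      rw [show 8 * (ε / 8) = ε by ring] at h11
      simpa only [s4_br, hy, h12] using h11
  rw [nsmul_eq_mul] at h6
  have h7 := card_cube_tw (R := R₀ / Nr d ^ 2) (by linarith) hs S' (Finset.filter_subset _ _)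
    fun r hr => not_not.1 (not_or.1 (Finset.mem_filter.1 hr).2).2
  have h8 : (R₀ / Nr d ^ 2 / Nr d) ^ (1 / 3 : ℝ) = R₀ ^ (1 / 3 : ℝ) / Nr d := by
    rw [div_div, ← pow_succ, Real.div_rpow hR₀ (by positivity), one_div]
    congr 1
    exact Real.pow_rpow_inv_natCast (n := 3) (Nr_nonneg d) three_ne_zero
  rw [h8] at h7
  have h9 : X₁ * X₂ ≤ (X₁ * X₂) ^ (1 + ε) := by
    simpa using Real.rpow_le_rpow_of_exponent_le hX (show (1 : ℝ) ≤ 1 + ε by linarith)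
  have h10 : (1 + |τ|) ^ C₂ ≤ (1 + |τ|) ^ C := Real.rpow_le_rpow_of_exponent_le hT (by linarith)
  have h11 : (1 + |τ|) ^ C₃ ≤ (1 + |τ|) ^ C := Real.rpow_le_rpow_of_exponent_le hT (by linarith)
  set P := R₀ ^ (4 / 3 : ℝ) + R₀ ^ (1 / 3 : ℝ) * E with hP
  have h12 : R₀ ^ (1 / 3 : ℝ) * E ≤ P := le_add_of_nonneg_left (by positivity)
  have hP0 : 0 ≤ P := by positivity
  calc _ ≤ 4 * (C₂ * x ^ ε * (1 + |τ|) ^ C₂ * (X₁ * X₂ * P / Nr d)) +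
        25 * (R₀ ^ (1 / 3 : ℝ) / Nr d) * (C₃ * x ^ ε * (1 + |τ|) ^ C₃ * (X₁ * X₂ * E)) :=
        add_le_add (by linarith) (h6.trans (by gcongr))
    _ = 4 * C₂ * x ^ ε * (1 + |τ|) ^ C₂ * (X₁ * X₂ * P / Nr d) +
        25 * C₃ * x ^ ε * (1 + |τ|) ^ C₃ * (X₁ * X₂ * (R₀ ^ (1 / 3 : ℝ) * E) / Nr d) := by ring
    _ ≤ 4 * C₂ * x ^ ε * (1 + |τ|) ^ C * ((X₁ * X₂) ^ (1 + ε) * P / Nr d) +
        25 * C₃ * x ^ ε * (1 + |τ|) ^ C * ((X₁ * X₂) ^ (1 + ε) * P / Nr d) := by gcongr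
    _ = (4 * C₂ + 25 * C₃) * x ^ ε * (1 + |τ|) ^ C * ((X₁ * X₂) ^ (1 + ε) * P / Nr d) := by ring
    _ ≤ _ := by
      gcongr
      linarith

end Crest.Agent.R012.Far

end
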