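import Crest.Agent.R012.F4a
import Crest.Agent.R012.FE

/-! # Row 12: the children in the fourth moment -/

set_option autoImplicit false

noncomputable section

open scoped BigOperators ComplexConjugate Topology
open Complex MeasureTheory Filter Crest.Agent.R017

namespace Crest.Agent.R012.Far

theorem f4b1_alg {x P F c L σ e : ℝ} (hx : 1 ≤ x) (hP : 0 < P) (hF : 0 < F) (hc : 1 ≤ c)
    (hL : P * F * c = L) (hLx : L ≤ x ^ 2) (hσ : 0 < σ) (hσe : σ ≤ e) :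
    x ^ (2 * e) * ((F ^ (σ - 1) * P ^ (σ - 1)) ^ 2 * P ^ (1 + 2 * e)) ≤
      x ^ (10 * e) * (c / L) * (F ^ (-(1 / 2 + e))) ^ 2 := by
  subst hL
  obtain ⟨x, rfl⟩ : ∃ u, x = Real.exp u := ⟨_, (Real.exp_log (by linarith)).symm⟩
  obtain ⟨c, rfl⟩ : ∃ u, c = Real.exp u := ⟨_, (Real.exp_log (by linarith)).symm⟩
  obtain ⟨P, rfl⟩ : ∃ u, P = Real.exp u := ⟨_, (Real.exp_log hP).symm⟩
  obtain ⟨F, rfl⟩ : ∃ u, F = Real.exp u := ⟨_, (Real.exp_log hF).symm⟩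
  have hx' : 0 ≤ x := Real.one_le_exp_iff.1 hx
  have hc' : 0 ≤ c := Real.one_le_exp_iff.1 hc
  simp only [← Real.exp_mul, ← Real.exp_nat_mul, ← Real.exp_add, ← Real.exp_sub,
    Real.exp_le_exp] at hLx ⊢
  push_cast at hLx ⊢
  have h1 : 0 ≤ (σ + e) * (2 * x - (P + F)) := mul_nonneg (by linarith) (by linarith)
  have h2 : 0 ≤ (e - σ) * x := mul_nonneg (by linarith) hx'
  nlinarith

theorem f4b1_u (ρ : O) (σ t : ℝ) {n : O} (hn : Prim n) :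
    ‖kap n ρ * (Nr n : ℂ) ^ ((σ : ℂ) + t * I)‖ ≤ 1 * Nr n ^ σ := by
  rw [norm_mul, Complex.norm_cpow_eq_rpow_re_of_pos (Nr_pos hn.ne_zero), l3_re]
  exact mul_le_mul_of_nonneg_right (norm_kap_le _ _) (Real.rpow_nonneg (Nr_nonneg _) _)

theorem f4b1_umul (ρ : O) (s : ℂ) (x y : O) (hx : Prim x) (hy : Prim y) :
    kap (x * y) ρ * (Nr (x * y) : ℂ) ^ s =
      kap x ρ * (Nr x : ℂ) ^ s * (kap y ρ * (Nr y : ℂ) ^ s) := by
  rw [kap_mul_left hx.ne_zero hy.ne_zero, Nr_mul, Complex.ofReal_mul,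
    Complex.mul_cpow_ofReal_nonneg (Nr_nonneg _) (Nr_nonneg _)]
  ring

open Classical in
theorem f4b1_eval {a N₁ N₂ U : ℝ} (ha : 0 < a) (hN₁ : 0 < N₁) (hN₂ : 0 < N₂) (hU : 0 < U)
    (τ s t : ℝ) (l : ℤ) {κ f : O3} (hκ : s4_P κ) (hf : s4_P f) (ρ : O) :
    (∑' m, if s4_P m then f4T a N₁ N₂ U τ l (κ * (f * m)) *
      (kap (s4_pr (f * m)) ρ * (Nr (s4_pr (f * m)) : ℂ) ^ ((s : ℂ) + t * I)) else 0) =
      (kap (s4_pr f) ρ * (Nr (s4_pr f) : ℂ) ^ ((s : ℂ) + t * I)) *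
        ((dl (κ * f).2.2 * (az l (κ * f).1 * az l (κ * f).2.1) *
          ((Nr (κ * f).1 : ℂ) ^ (-(τ * I)) * (Nr (κ * f).2.1 : ℂ) ^ (-(τ * I)))) *
        (((((N₁ / Nr (κ * f).1) * (N₂ / Nr (κ * f).2.1)) ^ s *
          (Real.exp (a * s ^ 2) * Real.exp (a * s ^ 2)) : ℝ) : ℂ) *
        s4_br a a U 1 (ch l ρ) (N₁ / Nr (κ * f).1 * Real.exp (2 * a * s))
          (N₂ / Nr (κ * f).2.1 * Real.exp (2 * a * s)) (τ - t))) := by
  have hκf := hκ.mul hf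
  have k1 := Nr_pos hκf.1.ne_zero
  have k2 := Nr_pos hκf.2.1.ne_zero
  have h1 := f4_eval ha hN₁ hN₂ hU τ l hκf
    (u := fun n => kap n ρ * (Nr n : ℂ) ^ ((s : ℂ) + t * I)) (K := 1) (B := s)
    (fun x y hx hy => f4b1_umul ρ _ x y hx hy)
    (by simp only [kap_unit_left isUnit_one, R017.Nr_one, Complex.ofReal_one, Complex.one_cpow,
      one_mul])
    (fun n hn => f4b1_u ρ s t hn)
  have h2 : (∑' m, if s4_P m then f4T a N₁ N₂ U τ l (κ * (f * m)) *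
      (kap (s4_pr (f * m)) ρ * (Nr (s4_pr (f * m)) : ℂ) ^ ((s : ℂ) + t * I)) else 0) =
      (kap (s4_pr f) ρ * (Nr (s4_pr f) : ℂ) ^ ((s : ℂ) + t * I)) *
      ∑' m, if s4_P m then f4T a N₁ N₂ U τ l (κ * f * m) *
        (kap (s4_pr m) ρ * (Nr (s4_pr m) : ℂ) ^ ((s : ℂ) + t * I)) else 0 := by
    rw [← tsum_mul_left]
    refine tsum_congr fun m => ?_
    split_ifs with hm
    · rw [s4_pr_mul, f4b1_umul ρ _ _ _ hf.pr hm.pr, mul_assoc κ]; ring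
    · simp
  have h3 : (fun n => kap n ρ * (Nr n : ℂ) ^ ((s : ℂ) + t * I) * az l n) =
      fun n => ch l ρ n * (Nr n : ℂ) ^ ((s : ℂ) + t * I) := by
    funext n
    rw [ch]; ring
  rw [h2, h1, h3, s4c_br ha ha hU (div_pos hN₁ k1) (div_pos hN₂ k2)]

open Classical in
/-- Port of `s4c_term` (`R017/T4StepAuxC.lean`): the weight `u n = kap n (r d²) N n^{σ - 1 + i t}` is
multiplicative; `f4_eval` with `κ * f`; the value vanishes unless `κ₃ = f₃ = 1`; `s4c_br`; `leaf` with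
`ε = 2 e` at the lengths `X_i e^{2a(σ - 1)} ≤ X_i = N_i / N (κ_i f_i)`, whose product is at most
`N₁ N₂ / N d` because `d ∣ s4_pr κ`. With `L = N₁ N₂`, `c = s4_pr κ`, `F = N (s4_pr f)`:
`F^{2σ - 2} (L / (N c F))^{2σ - 1 + 2e} = F^{-1 - 2e} (N c / L) (L / N c)^{2σ + 2e}` and the last
factor is at most `x^{8e}`. -/
theorem f4_term {a e : ℝ} (ha : 0 < a) (he : 0 < e) (he1 : e ≤ 1 / 2) (l : ℤ) : ∃ C : ℝ, 0 ≤ C ∧
    ∀ (x R₀ N₁ N₂ U τ σ t : ℝ) (d : O) (κ f : O3), 1 ≤ x → 0 ≤ R₀ → R₀ ≤ x → 1 ≤ U → 0 < N₁ → N₁ ≤ x →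
    0 < N₂ → N₂ * U ≤ x → s4_P κ → s4_P f → Prim d → Squarefree d → d ∣ s4_pr κ → 0 < σ → σ ≤ e →
    NS (R₀ / Nr d ^ 2) (fun r => ∑' m, if s4_P m then f4T a N₁ N₂ U τ l (κ * (f * m)) *
      (kap (s4_pr (f * m)) (r * d ^ 2) * (Nr (s4_pr (f * m)) : ℂ) ^ (((σ - 1 : ℝ) : ℂ) + t * I)) else 0) ≤
      (C * x ^ (10 * e) * (1 + |τ|) ^ C * (1 + |t|) ^ C *
        (Nr (s4_pr κ) / (N₁ * N₂) * Xi0 R₀ N₁ N₂ U / Nr d)) * (Nr (s4_pr f) ^ (-(1 / 2 + e))) ^ 2 := by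
  obtain ⟨C, hC, hleaf⟩ := leaf ha (ε := 2 * e) (by positivity) (by linarith) l
  obtain ⟨E, hE⟩ : ∃ E, E = Real.exp a * Real.exp a := ⟨_, rfl⟩
  have hE0 : 0 < E := by rw [hE]; positivity
  refine ⟨E ^ 2 * C + C, by positivity,
    fun x R₀ N₁ N₂ U τ σ t d κ f hx hR₀ hR₀x hU hN₁ hN₁x hN₂ hN₂x hκ hf hd hds hdκ hσ hσe => ?_⟩
  have hx0 : 0 < x := lt_of_lt_of_le one_pos hx
  have hU0 : 0 < U := lt_of_lt_of_le one_pos hU
  have hκf := hκ.mul hf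
  have k1 := one_le_Nr hκf.1.ne_zero
  have k2 := one_le_Nr hκf.2.1.ne_zero
  have kf := one_le_Nr hf.pr.ne_zero
  have kc := one_le_Nr hκ.pr.ne_zero
  have kd := Nr_pos hd.ne_zero
  have hΞ : 0 ≤ Xi0 R₀ N₁ N₂ U := by unfold Xi0; positivity
  simp only [f4b1_eval ha hN₁ hN₂ hU0 τ (σ - 1) t l hκ hf]
  by_cases h3 : (κ * f).2.2 = 1
  swap
  · simp only [dl, if_neg h3, zero_mul, mul_zero, NS, norm_zero, ne_eq, OfNat.ofNat_ne_zero,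
      not_false_eq_true, zero_pow, Finset.sum_const_zero]
    positivity
  obtain ⟨X₁, hX₁⟩ : ∃ X, X = N₁ / Nr (κ * f).1 := ⟨_, rfl⟩
  obtain ⟨X₂, hX₂⟩ : ∃ X, X = N₂ / Nr (κ * f).2.1 := ⟨_, rfl⟩
  rw [← hX₁, ← hX₂]
  have hX₁0 : 0 < X₁ := by rw [hX₁]; positivity
  have hX₂0 : 0 < X₂ := by rw [hX₂]; positivity
  have hX₁N : X₁ ≤ N₁ := hX₁ ▸ div_le_self hN₁.le k1
  have hX₂N : X₂ ≤ N₂ := hX₂ ▸ div_le_self hN₂.le k2
  have e₁ : Real.exp (2 * a * (σ - 1)) ≤ 1 :=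
    Real.exp_le_one_iff.2 (mul_nonpos_of_nonneg_of_nonpos (by positivity) (by linarith))
  have g₁ : X₁ * Real.exp (2 * a * (σ - 1)) ≤ X₁ := mul_le_of_le_one_right hX₁0.le e₁
  have g₂ : X₂ * Real.exp (2 * a * (σ - 1)) ≤ X₂ := mul_le_of_le_one_right hX₂0.le e₁
  have g₃ : X₁ * Real.exp (2 * a * (σ - 1)) * (X₂ * Real.exp (2 * a * (σ - 1))) ≤ X₁ * X₂ :=
    mul_le_mul g₁ g₂ (by positivity) hX₁0.le
  have a2 : X₁ * X₂ * Nr (s4_pr f) * Nr (s4_pr κ) = N₁ * N₂ := by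
    have h7 : Nr (κ * f).1 * Nr (κ * f).2.1 = Nr (s4_pr κ) * Nr (s4_pr f) := by
      rw [← Nr_mul, ← Nr_mul, ← s4_pr_mul, s4_pr, h3, mul_one]
    rw [hX₁, hX₂]
    field_simp
    linear_combination (-1 : ℝ) * h7
  have g₄ : X₁ * X₂ ≤ N₁ * N₂ / Nr d := by
    rw [le_div_iff₀ kd, ← a2, mul_assoc (X₁ * X₂)]
    refine mul_le_mul_of_nonneg_left ?_ (by positivity)
    exact (Nr_le_of_dvd hκ.pr.ne_zero hdκ).trans (le_mul_of_one_le_left (by positivity) kf)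
  have hL := hleaf x R₀ N₁ N₂ U (X₁ * Real.exp (2 * a * (σ - 1))) (X₂ * Real.exp (2 * a * (σ - 1)))
    (τ - t) d hx hR₀ hR₀x hU hN₁x hN₂x (by positivity) (g₁.trans hX₁N) (by positivity)
    (g₂.trans hX₂N) hd hds (g₃.trans g₄)
  have hEσ : Real.exp (a * (σ - 1) ^ 2) * Real.exp (a * (σ - 1) ^ 2) ≤ E := by
    have : Real.exp (a * (σ - 1) ^ 2) ≤ Real.exp a :=
      Real.exp_le_exp.2 (mul_le_of_le_one_right ha.le (by nlinarith))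
    rw [hE]
    exact mul_le_mul this this (by positivity) (by positivity)
  refine le_trans (s4_NS_le (g := fun r =>
    ((Nr (s4_pr f) ^ (σ - 1) * (X₁ * X₂) ^ (σ - 1) * E : ℝ) : ℂ) *
      s4_br a a U 1 (ch l (r * d ^ 2)) (X₁ * Real.exp (2 * a * (σ - 1)))
        (X₂ * Real.exp (2 * a * (σ - 1))) (τ - t)) fun r _ => ?_) ?_
  · have h5 := f4b1_u (r * d ^ 2) (σ - 1) t hf.pr
    have h6 : ‖dl (κ * f).2.2 * (az l (κ * f).1 * az l (κ * f).2.1) *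
        ((Nr (κ * f).1 : ℂ) ^ (-(τ * I)) * (Nr (κ * f).2.1 : ℂ) ^ (-(τ * I)))‖ = 1 := by
      simp only [norm_mul, sv_norm_cpow hκf.1.ne_zero, sv_norm_cpow hκf.2.1.ne_zero, mul_one, dl,
        if_pos h3, norm_one, norm_az l hκf.1.ne_zero, norm_az l hκf.2.1.ne_zero]
    rw [norm_mul, norm_mul (_ * _ * _), h6, one_mul, norm_mul (((_ : ℝ) : ℂ)),
      norm_mul (((_ : ℝ) : ℂ)), Complex.norm_real, Complex.norm_real,
      Real.norm_of_nonneg (by positivity), Real.norm_of_nonneg (by positivity), ← mul_assoc]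
    refine mul_le_mul_of_nonneg_right ?_ (norm_nonneg _)
    rw [one_mul] at h5
    rw [mul_assoc (Nr (s4_pr f) ^ (σ - 1))]
    exact mul_le_mul h5 (mul_le_mul_of_nonneg_left hEσ (by positivity)) (by positivity)
      (by positivity)
  rw [s4_NS_mul, Complex.norm_real, Real.norm_of_nonneg (by positivity)]
  refine (mul_le_mul_of_nonneg_left hL (by positivity)).trans ?_
  have hLx : N₁ * N₂ ≤ x ^ 2 := by
    rw [sq]
    exact mul_le_mul hN₁x ((le_mul_of_one_le_right hN₂.le hU).trans hN₂x) hN₂.le hx0.le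
  have a1 := f4b1_alg hx (mul_pos hX₁0 hX₂0) (lt_of_lt_of_le one_pos kf) kc a2 hLx hσ hσe
  have a3 : (1 + |τ - t|) ^ C ≤ (1 + |τ|) ^ (E ^ 2 * C + C) * (1 + |t|) ^ (E ^ 2 * C + C) := by
    have t1 : 1 ≤ 1 + |τ| := le_add_of_nonneg_right (abs_nonneg _)
    have t2 : 1 ≤ 1 + |t| := le_add_of_nonneg_right (abs_nonneg _)
    have t3 : 1 + |τ - t| ≤ (1 + |τ|) * (1 + |t|) := by
      have := abs_sub τ t
      nlinarith [mul_nonneg (abs_nonneg τ) (abs_nonneg t)]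
    calc _ ≤ ((1 + |τ|) * (1 + |t|)) ^ C := by gcongr
      _ = (1 + |τ|) ^ C * (1 + |t|) ^ C := Real.mul_rpow (by positivity) (by positivity)
      _ ≤ _ := by
          have : 0 ≤ E ^ 2 * C := by positivity
          gcongr <;> linarith
  have a4 : (X₁ * Real.exp (2 * a * (σ - 1)) * (X₂ * Real.exp (2 * a * (σ - 1)))) ^ (1 + 2 * e) ≤
      (X₁ * X₂) ^ (1 + 2 * e) := Real.rpow_le_rpow (by positivity) g₃ (by positivity)
  calc _ ≤ (Nr (s4_pr f) ^ (σ - 1) * (X₁ * X₂) ^ (σ - 1) * E) ^ 2 *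
        (C * x ^ (2 * e) * (1 + |τ - t|) ^ C * ((X₁ * X₂) ^ (1 + 2 * e) * Xi0 R₀ N₁ N₂ U / Nr d)) := by
        gcongr
    _ = (E ^ 2 * C) * (1 + |τ - t|) ^ C * (Xi0 R₀ N₁ N₂ U / Nr d) *
        (x ^ (2 * e) * ((Nr (s4_pr f) ^ (σ - 1) * (X₁ * X₂) ^ (σ - 1)) ^ 2 *
          (X₁ * X₂) ^ (1 + 2 * e))) := by ring
    _ ≤ (E ^ 2 * C + C) * ((1 + |τ|) ^ (E ^ 2 * C + C) * (1 + |t|) ^ (E ^ 2 * C + C)) *
        (Xi0 R₀ N₁ N₂ U / Nr d) *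
        (x ^ (10 * e) * (Nr (s4_pr κ) / (N₁ * N₂)) * (Nr (s4_pr f) ^ (-(1 / 2 + e))) ^ 2) := by
        gcongr
        linarith
    _ = _ := by ring

end Crest.Agent.R012.Far

end
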