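import Crest.Agent.R012.F4c1

/-! # Row 12: the fourth moment of cubic character sums -/

set_option autoImplicit false

noncomputable section

open scoped BigOperators ComplexConjugate Topology
open Complex MeasureTheory Filter Crest.Agent.R017

namespace Crest.Agent.R012.Far

theorem f4c_sq (u v : ℂ) : ‖u + v‖ ^ 2 ≤ 2 * ‖u‖ ^ 2 + 2 * ‖v‖ ^ 2 := by
  have h := pow_le_pow_left₀ (norm_nonneg _) (norm_add_le u v) 2
  nlinarith [sq_nonneg (‖u‖ - ‖v‖)]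

theorem f4c_Xi0 {R N₁ N₂ U : ℝ} (hR : 0 ≤ R) (h1 : 0 ≤ N₁) (h2 : 0 ≤ N₂) (h3 : 0 ≤ U) :
    0 ≤ Xi0 R N₁ N₂ U := by
  unfold Xi0
  positivity

/-- `f4_F`, `f4G_tail` (`c = 1`), `sq_reduce`, `br_slice`. -/
theorem br_mom {a ε : ℝ} (ha : 0 < a) (hε : 0 < ε) (l : ℤ) : ∃ C : ℝ, 0 ≤ C ∧
    ∀ (x K T N₁ N₂ U τ : ℝ), 1 ≤ K → K ≤ x → 1 ≤ T → T ≤ x → 1 ≤ U → 1 ≤ N₁ → N₁ ≤ x →
    1 ≤ N₂ → N₂ * U ≤ x →
    ∑ r ∈ box K, ‖s4_br a a U 1 (ch l r) N₁ N₂ τ‖ ^ 2 ≤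
      C * x ^ ε * (1 + |τ|) ^ C * (N₁ * N₂ * (K + N₁ * N₂ * T + T * Xi0 (K / T) N₁ N₂ U)) := by
  classical
  obtain ⟨e, he, he1, he2⟩ : ∃ e : ℝ, 0 < e ∧ e ≤ 1 / 10 ∧ 63 * e ≤ ε :=
    ⟨min (1 / 10) (ε / 63), by positivity, min_le_left _ _, by
      have := min_le_right (1 / 10) (ε / 63)
      linarith⟩
  obtain ⟨C₁, hC₁, h1⟩ := f4G_tail ha he (B := 0) le_rfl
  obtain ⟨C₂, hC₂, h2⟩ := sq_reduce he
  obtain ⟨C₃, hC₃, h3⟩ := br_slice ha he he1 l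
  refine ⟨2 * C₂ * C₃ + 50 * C₁ ^ 2 + C₃, by positivity,
    fun x K T N₁ N₂ U τ hK hKx hT hTx hU hN₁ hN₁x hN₂ hN₂x => ?_⟩
  have hx : 1 ≤ x := hK.trans hKx
  have hN₂x' : N₂ ≤ x := (le_mul_of_one_le_right (by linarith) hU).trans hN₂x
  have hL : 1 ≤ N₁ * N₂ := one_le_mul_of_one_le_of_one_le hN₁ hN₂
  have hLx : N₁ * N₂ ≤ x ^ 2 := by
    rw [sq]
    exact mul_le_mul hN₁x hN₂x' (by linarith) (by linarith)
  have hxe : 1 ≤ x ^ e := Real.one_le_rpow hx he.le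
  have hM : 1 ≤ N₁ * N₂ * x ^ e := one_le_mul_of_one_le_of_one_le hL hxe
  have hMx : N₁ * N₂ * x ^ e ≤ x ^ (3 : ℝ) := by
    have h4 : x ^ e ≤ x := by
      simpa using Real.rpow_le_rpow_of_exponent_le hx (show e ≤ 1 by linarith)
    calc N₁ * N₂ * x ^ e ≤ x ^ 2 * x := mul_le_mul hLx h4 (by linarith) (by positivity)
      _ = x ^ (3 : ℝ) := by
        rw [show (3 : ℝ) = ((3 : ℕ) : ℝ) by norm_num, Real.rpow_natCast]
        ring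
  have hXi := f4c_Xi0 (R := K / T) (N₁ := N₁) (N₂ := N₂) (U := U) (by positivity) (by linarith)
    (by linarith) (by linarith)
  set Z := N₁ * N₂ * (K + N₁ * N₂ * T + T * Xi0 (K / T) N₁ N₂ U) with hZ
  have hKZ : K ≤ Z := by
    have h4 : 0 ≤ N₁ * N₂ * T + T * Xi0 (K / T) N₁ N₂ U := by positivity
    calc K ≤ K + N₁ * N₂ * T + T * Xi0 (K / T) N₁ N₂ U := by linarith
      _ ≤ Z := le_mul_of_one_le_left (by linarith) hL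
  have hZ0 : 0 ≤ Z := by linarith
  have hτ : 1 ≤ 1 + |τ| := by linarith [abs_nonneg τ]
  have hmain := h2 (box K) (N₁ * N₂ * x ^ e) (C₃ * x ^ (60 * e) * (1 + |τ|) ^ C₃ * Z)
    (f4G a N₁ N₂ U τ l) hM (by positivity)
    (fun k hk => h3 x K T N₁ N₂ U τ k hK hKx hT hTx hU hN₁ hN₁x hN₂ hN₂x hk)
  have hpt : ∀ r ∈ box K, ‖s4_br a a U 1 (ch l r) N₁ N₂ τ‖ ^ 2 ≤
      2 * ‖prw (N₁ * N₂ * x ^ e) (f4G a N₁ N₂ U τ l) r‖ ^ 2 + 2 * C₁ ^ 2 := by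
    intro r _
    have h4 := h1 x N₁ N₂ U τ l 1 (fun n => kap n r) hx (by linarith) (by linarith) (by linarith)
      hLx prim_one (fun n _ => norm_kap_le _ _)
    simp only [one_mul, R017.Nr_one, div_one, neg_zero, Real.rpow_zero, mul_one] at h4
    rw [← f4_F ha (by linarith) (by linarith) (by linarith)] at h4
    have h5 := f4c_sq (prw (N₁ * N₂ * x ^ e) (f4G a N₁ N₂ U τ l) r)
      (s4_br a a U 1 (ch l r) N₁ N₂ τ - prw (N₁ * N₂ * x ^ e) (f4G a N₁ N₂ U τ l) r)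
    rw [add_sub_cancel] at h5
    have h6 := pow_le_pow_left₀ (norm_nonneg _) h4 2
    unfold prw at h5 ⊢
    linarith
  have hP : (1 + |τ|) ^ C₃ ≤ (1 + |τ|) ^ (2 * C₂ * C₃ + 50 * C₁ ^ 2 + C₃) :=
    Real.rpow_le_rpow_of_exponent_le hτ (by
      have : 0 ≤ 2 * C₂ * C₃ + 50 * C₁ ^ 2 := by positivity
      linarith)
  have hP1 : 1 ≤ (1 + |τ|) ^ C₃ := Real.one_le_rpow hτ hC₃
  have hX : (N₁ * N₂ * x ^ e) ^ e * x ^ (60 * e) ≤ x ^ ε := by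
    calc (N₁ * N₂ * x ^ e) ^ e * x ^ (60 * e) ≤ (x ^ (3 : ℝ)) ^ e * x ^ (60 * e) :=
          mul_le_mul_of_nonneg_right (Real.rpow_le_rpow (by linarith) hMx he.le) (by positivity)
      _ = x ^ (63 * e) := by
          rw [← Real.rpow_mul (by linarith), ← Real.rpow_add (by linarith)]
          ring_nf
      _ ≤ x ^ ε := Real.rpow_le_rpow_of_exponent_le hx he2
  have hX1 : 1 ≤ x ^ ε := Real.one_le_rpow hx hε.le
  set P := (1 + |τ|) ^ (2 * C₂ * C₃ + 50 * C₁ ^ 2 + C₃)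
  set P₃ := (1 + |τ|) ^ C₃
  have hW : Z ≤ x ^ ε * P * Z :=
    le_mul_of_one_le_left hZ0 (one_le_mul_of_one_le_of_one_le hX1 (hP1.trans hP))
  calc ∑ r ∈ box K, ‖s4_br a a U 1 (ch l r) N₁ N₂ τ‖ ^ 2
      ≤ ∑ r ∈ box K, (2 * ‖prw (N₁ * N₂ * x ^ e) (f4G a N₁ N₂ U τ l) r‖ ^ 2 + 2 * C₁ ^ 2) :=
        Finset.sum_le_sum hpt
    _ = 2 * ∑ r ∈ box K, ‖prw (N₁ * N₂ * x ^ e) (f4G a N₁ N₂ U τ l) r‖ ^ 2 +
          ((box K).card : ℝ) * (2 * C₁ ^ 2) := by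
        rw [Finset.sum_add_distrib, Finset.mul_sum, Finset.sum_const, nsmul_eq_mul]
    _ ≤ 2 * (C₂ * (N₁ * N₂ * x ^ e) ^ e * (C₃ * x ^ (60 * e) * P₃ * Z)) +
          25 * K * (2 * C₁ ^ 2) := by
        gcongr
        exact card_box_le (by linarith)
    _ = 2 * C₂ * C₃ * (((N₁ * N₂ * x ^ e) ^ e * x ^ (60 * e)) * P₃ * Z) + 50 * C₁ ^ 2 * K := by
        ring
    _ ≤ 2 * C₂ * C₃ * (x ^ ε * P * Z) + 50 * C₁ ^ 2 * (x ^ ε * P * Z) + C₃ * (x ^ ε * P * Z) := by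
        have h7 : 0 ≤ C₃ * (x ^ ε * P * Z) := mul_nonneg hC₃ (hZ0.trans hW)
        have h8 : 50 * C₁ ^ 2 * K ≤ 50 * C₁ ^ 2 * (x ^ ε * P * Z) :=
          mul_le_mul_of_nonneg_left (hKZ.trans hW) (by positivity)
        have h9 : 2 * C₂ * C₃ * (((N₁ * N₂ * x ^ e) ^ e * x ^ (60 * e)) * P₃ * Z) ≤
            2 * C₂ * C₃ * (x ^ ε * P * Z) := by
          gcongr
        linarith
    _ = _ := by ring

/-- `S(N)² = s4_br + S(N / U) S(N U)`; `br_mom` and `refl_mom` (`t = 1`, `Q = K`, `X₁ = N U`,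
`X₂ = N / U`; `rad_dvd`, `Nr_le_of_dvd`). -/
theorem four3 {a ε : ℝ} (ha : 0 < a) (hε : 0 < ε) (l : ℤ) : ∃ C : ℝ, 0 ≤ C ∧
    ∀ (S : Finset O) (x K T N U τ : ℝ), 1 ≤ K → K ≤ x → 1 ≤ T → T ≤ x → 1 ≤ U → 1 ≤ N → N * U ≤ x →
    S ⊆ box K → (∀ r ∈ S, ¬ IsCube r) →
    ∑ r ∈ S, ‖sm a (ch l r) N τ‖ ^ 4 ≤ C * x ^ ε * (1 + |τ|) ^ C *
      (N ^ 2 * (K + N ^ 2 * T + T * Xi0 (K / T) N N U + Xi K (N / U + K / U ^ 2))) := by
  obtain ⟨C₁, hC₁, h1⟩ := br_mom ha hε l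
  obtain ⟨C₂, hC₂, h2⟩ := refl_mom ha ha hε l
  refine ⟨2 * C₁ + 2 * C₂, by positivity,
    fun S x K T N U τ hK hKx hT hTx hU hN hNx hS hc => ?_⟩
  have hx : 1 ≤ x := hK.trans hKx
  have hNU : N ≤ N * U := le_mul_of_one_le_right (by linarith) hU
  have hU0 : 0 < U := by linarith
  have hN0 : 0 < N := by linarith
  have hA := h1 x K T N N U τ hK hKx hT hTx hU hN (hNU.trans hNx) hN hNx
  have hB := h2 S 1 x K K (N * U) (N / U) τ hK hKx hK hKx hS one_ne_zero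
    (fun r hr => by
      have h := mem_box.1 (hS hr)
      rw [mul_one]
      exact ⟨(Nr_le_of_dvd h.1 (rad_dvd h.1)).trans h.2, Or.inr (hc r hr)⟩)
    (hN.trans hNU) (by positivity) ((div_le_self hN0.le hU).trans (hNU.trans hNx))
  simp only [mul_one] at hB
  have e1 : N * U * (N / U) = N ^ 2 := by field_simp
  have e2 : N / U + K * (N / U) / (N * U) = N / U + K / U ^ 2 := by field_simp
  rw [e1, e2] at hB
  rw [← sq] at hA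
  have hpt : ∀ r ∈ S, ‖sm a (ch l r) N τ‖ ^ 4 ≤ 2 * ‖s4_br a a U 1 (ch l r) N N τ‖ ^ 2 +
      2 * ‖sm a (ch l r) (N * U) τ * sm a (ch l r) (N / U) τ‖ ^ 2 := by
    intro r _
    have h := f4c_sq (s4_br a a U 1 (ch l r) N N τ)
      (sm a (ch l r) (N * U) τ * sm a (ch l r) (N / U) τ)
    have e3 : s4_br a a U 1 (ch l r) N N τ + sm a (ch l r) (N * U) τ * sm a (ch l r) (N / U) τ =
        sm a (ch l r) N τ ^ 2 := by
      unfold s4_br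
      ring
    rw [e3, norm_pow, ← pow_mul] at h
    exact h
  have hτ : 1 ≤ 1 + |τ| := by linarith [abs_nonneg τ]
  have hP₁ : (1 + |τ|) ^ C₁ ≤ (1 + |τ|) ^ (2 * C₁ + 2 * C₂) :=
    Real.rpow_le_rpow_of_exponent_le hτ (by linarith)
  have hP₂ : (1 + |τ|) ^ C₂ ≤ (1 + |τ|) ^ (2 * C₁ + 2 * C₂) :=
    Real.rpow_le_rpow_of_exponent_le hτ (by linarith)
  have hXi0 := f4c_Xi0 (R := K / T) (N₁ := N) (N₂ := N) (U := U) (by positivity) (by linarith)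
    (by linarith) (by linarith)
  have hXi : 0 ≤ Xi K (N / U + K / U ^ 2) := Xi_nonneg (by linarith) (by positivity)
  have hZ : 0 ≤ K + N ^ 2 * T + T * Xi0 (K / T) N N U := by positivity
  set Z₁ := K + N ^ 2 * T + T * Xi0 (K / T) N N U
  set Z₂ := Xi K (N / U + K / U ^ 2)
  set P := (1 + |τ|) ^ (2 * C₁ + 2 * C₂)
  calc ∑ r ∈ S, ‖sm a (ch l r) N τ‖ ^ 4
      ≤ ∑ r ∈ S, (2 * ‖s4_br a a U 1 (ch l r) N N τ‖ ^ 2 +
        2 * ‖sm a (ch l r) (N * U) τ * sm a (ch l r) (N / U) τ‖ ^ 2) := Finset.sum_le_sum hpt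
    _ = 2 * ∑ r ∈ S, ‖s4_br a a U 1 (ch l r) N N τ‖ ^ 2 +
        2 * ∑ r ∈ S, ‖sm a (ch l r) (N * U) τ * sm a (ch l r) (N / U) τ‖ ^ 2 := by
        rw [Finset.sum_add_distrib, Finset.mul_sum, Finset.mul_sum]
    _ ≤ 2 * (C₁ * x ^ ε * (1 + |τ|) ^ C₁ * (N ^ 2 * Z₁)) +
        2 * (C₂ * x ^ ε * (1 + |τ|) ^ C₂ * (N ^ 2 * Z₂)) := by
        gcongr
        exact (Finset.sum_le_sum_of_subset_of_nonneg hS fun _ _ _ => by positivity).trans hA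
    _ ≤ 2 * (C₁ * x ^ ε * P * (N ^ 2 * (Z₁ + Z₂))) +
        2 * (C₂ * x ^ ε * P * (N ^ 2 * (Z₁ + Z₂))) := by
        gcongr <;> linarith
    _ = _ := by ring

end Crest.Agent.R012.Far

end
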