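import Crest.Agent.R012.F0

/-! # Row 12: double Poisson summation -/

set_option autoImplicit false

noncomputable section

open scoped BigOperators ComplexConjugate Topology
open Complex MeasureTheory Filter Crest.Agent.R017

namespace Crest.Agent.R012.Far

theorem fd_norm_pow {x : ℝ} (hx : 0 < x) (σ t : ℝ) :
    ‖(x : ℂ) ^ (((σ : ℝ) : ℂ) + t * I)‖ = x ^ σ := by
  rw [Complex.norm_cpow_eq_rpow_re_of_pos hx]
  simp

theorem fd_pow_le {x M e σ : ℝ} (hx : 1 ≤ x) (hM : x ≤ M) (hσ : σ ≤ e) (he : 0 ≤ e) :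
    (x ^ (σ - 1 / 2)) ^ 2 ≤ (M ^ e) ^ 2 * x⁻¹ := by
  have hx0 : 0 < x := by linarith
  have h1 : (x ^ (σ - 1 / 2)) ^ 2 = (x ^ σ) ^ 2 * x⁻¹ := by
    rw [← Real.rpow_natCast, ← Real.rpow_natCast, ← Real.rpow_mul hx0.le, ← Real.rpow_mul hx0.le,
      ← Real.rpow_neg_one, ← Real.rpow_add hx0]
    congr 1
    push_cast
    ring
  rw [h1]
  have h2 : x ^ σ ≤ M ^ e :=
    (Real.rpow_le_rpow_of_exponent_le hx hσ).trans (Real.rpow_le_rpow hx0.le hM he)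
  have := Real.rpow_nonneg hx0.le σ
  gcongr

theorem fd_g3 {m n : O} (hm : Prim m) (hn : Prim n) (hs : Squarefree (m * n)) :
    g3 (m * n) * conj (g3 n) = g3 m * kap n (m ^ 2) := by
  have hc : IsCoprime m n := (squarefree_mul_iff.1 hs).1.isCoprime
  have h1 := Complex.mul_conj' (g3 n)
  rw [norm_g3 hn.not_lam_dvd hs.of_mul_right] at h1
  rw [g3_mul hm.not_lam_dvd hn.not_lam_dvd hc, cubic_recip hm hn, kap_pow_right _ _ two_ne_zero]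
  push_cast at h1
  linear_combination (g3 m * kap n m ^ 2) * h1

open Classical in
theorem fd_dual {M : ℝ} (a : O → ℂ) {d d' : O} (hd : Prim d) (hd' : Prim d') (hs : Squarefree d')
    (σ₁ t₁ σ₂ t₂ : ℝ) (h : O) :
    ‖cr (M / Nr d / Nr d') (fun n => if d' * n ∈ sbox (M / Nr d) then
        conj ((if d * (d' * n) ∈ sbox M then conj (a (d * (d' * n)) * g3 (d' * n)) *
          (Nr (d' * n) : ℂ) ^ (((σ₁ - 1 / 2 : ℝ) : ℂ) + t₁ * I) else 0) * g3 n) *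
          (Nr n : ℂ) ^ (((σ₂ - 1 / 2 : ℝ) : ℂ) + t₂ * I) else 0) h‖ =
      Nr d' ^ (σ₁ - 1 / 2) * ‖cr (M / Nr (d * d')) (fun n => if d * d' * n ∈ sbox M then
        a (d * d' * n) * (Nr n : ℂ) ^ (((σ₁ + σ₂ - 1 : ℝ) : ℂ) + (-t₁ + t₂ : ℝ) * I) else 0)
          (h * d' ^ 2)‖ := by
  have hd0 := Nr_pos hd'.ne_zero
  have e1 : ‖g3 d' * (Nr d' : ℂ) ^ (((σ₁ - 1 / 2 : ℝ) : ℂ) + (-t₁ : ℝ) * I)‖ =
      Nr d' ^ (σ₁ - 1 / 2) := by
    rw [norm_mul, norm_g3 hd'.not_lam_dvd hs, fd_norm_pow hd0, one_mul]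
  rw [← e1, ← norm_mul, div_div, ← Nr_mul, cr, cr, Finset.mul_sum]
  congr 1
  refine Finset.sum_congr rfl fun n hn => ?_
  obtain ⟨hn1, -, -⟩ := q_mem_sbox.1 hn
  have hn0 := Nr_pos hn1.ne_zero
  rw [mul_assoc d d' n]
  by_cases hh : d * (d' * n) ∈ sbox M
  · have hh' := cd_div hd hh
    have e2 : conj ((Nr (d' * n) : ℂ) ^ (((σ₁ - 1 / 2 : ℝ) : ℂ) + t₁ * I)) =
        (Nr d' : ℂ) ^ (((σ₁ - 1 / 2 : ℝ) : ℂ) + (-t₁ : ℝ) * I) *
          (Nr n : ℂ) ^ (((σ₁ - 1 / 2 : ℝ) : ℂ) + (-t₁ : ℝ) * I) := by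
      have := l3_conj_cpow (Nr_nonneg (d' * n)) (σ₁ - 1 / 2) (-t₁)
      rw [neg_neg] at this
      rw [this, Nr_mul, Complex.ofReal_mul, Complex.mul_cpow_ofReal_nonneg hd0.le hn0.le]
    have e3 : (Nr n : ℂ) ^ (((σ₁ + σ₂ - 1 : ℝ) : ℂ) + (-t₁ + t₂ : ℝ) * I) =
        (Nr n : ℂ) ^ (((σ₁ - 1 / 2 : ℝ) : ℂ) + (-t₁ : ℝ) * I) *
          (Nr n : ℂ) ^ (((σ₂ - 1 / 2 : ℝ) : ℂ) + t₂ * I) := by
      rw [← Complex.cpow_add _ _ (by exact_mod_cast hn0.ne')]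
      congr 1
      push_cast
      ring
    have e4 := fd_g3 hd' hn1 (q_mem_sbox.1 hh').2.1
    rw [if_pos hh', if_pos hh, if_pos hh, map_mul, map_mul, Complex.conj_conj, e2, e3,
      kap_mul_right]
    linear_combination (a (d * (d' * n)) *
      ((Nr d' : ℂ) ^ (((σ₁ - 1 / 2 : ℝ) : ℂ) + (-t₁ : ℝ) * I) *
        (Nr n : ℂ) ^ (((σ₁ - 1 / 2 : ℝ) : ℂ) + (-t₁ : ℝ) * I)) *
      (Nr n : ℂ) ^ (((σ₂ - 1 / 2 : ℝ) : ℂ) + t₂ * I) * kap n h) * e4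
  · rw [if_neg hh, if_neg hh]
    simp

theorem fd_radius {K M T e ε x y : ℝ} (hK : 1 ≤ K) (hM : 1 ≤ M) (hT : 1 ≤ T) (he : 0 ≤ e)
    (he1 : e ≤ 1) (heε : 4 * e ≤ ε) (hx : 1 ≤ x) (hxM : x ≤ M) (hy : 0 < y) :
    (T * ((K * M) ^ e * x ^ 2 / K) * x) ^ e * (x / y) ^ 2 / (T * ((K * M) ^ e * x ^ 2 / K)) ≤
      (K * M * T) ^ ε * K / T / y ^ 2 := by
  have hKM : 1 ≤ K * M := one_le_mul_of_one_le_of_one_le hK hM
  have hX : 1 ≤ K * M * T := one_le_mul_of_one_le_of_one_le hKM hT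
  have h1 : 1 ≤ (K * M) ^ e := Real.one_le_rpow hKM he
  have h2 : (K * M) ^ e ≤ K * M := by
    simpa using Real.rpow_le_rpow_of_exponent_le hKM he1
  have hMX : M ≤ K * M * T := by nlinarith
  have h3 : T * ((K * M) ^ e * x ^ 2 / K) * x ≤ (K * M * T) ^ 4 := by
    have h4 : (K * M) ^ e * x ^ 2 / K ≤ K * M * x ^ 2 :=
      (div_le_self (by positivity) hK).trans (by gcongr)
    have h5 : x ≤ K * M * T := hxM.trans hMX
    calc T * ((K * M) ^ e * x ^ 2 / K) * x ≤ T * (K * M * x ^ 2) * x := by gcongr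
      _ = (K * M * T) * x ^ 3 := by ring
      _ ≤ (K * M * T) * (K * M * T) ^ 3 := by gcongr
      _ = _ := by ring
  have h4 : (T * ((K * M) ^ e * x ^ 2 / K) * x) ^ e ≤ (K * M * T) ^ ε := by
    refine (Real.rpow_le_rpow (by positivity) h3 he).trans ?_
    rw [← Real.rpow_natCast, ← Real.rpow_mul (by linarith)]
    exact Real.rpow_le_rpow_of_exponent_le hX (by push_cast; linarith)
  have h5 : (x / y) ^ 2 / (T * ((K * M) ^ e * x ^ 2 / K)) = K / T / y ^ 2 / (K * M) ^ e := by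
    field_simp
  rw [mul_div_assoc, h5, show (K * M * T) ^ ε * K / T / y ^ 2 = (K * M * T) ^ ε * (K / T / y ^ 2) by
    ring]
  exact mul_le_mul h4 (div_le_self (by positivity) h1) (by positivity) (by positivity)

theorem fd_sum_inv {e C₂ : ℝ} (hC : ∀ Y : ℝ, 1 ≤ Y → ∑ x ∈ box Y, (Nr x)⁻¹ ≤ C₂ * Y ^ e)
    {Y : ℝ} (hY : 1 ≤ Y) : ∑ x ∈ sbox Y, (Nr x)⁻¹ ≤ C₂ * Y ^ e :=
  (Finset.sum_le_sum_of_subset_of_nonneg (sbox_subset_box Y) fun x _ _ =>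
    inv_nonneg.2 (Nr_nonneg x)).trans (hC Y hY)

open Classical in
/-- `fin_pstepW` twice with `ε₁ = min ε 1 / 10`. First with `R = K`. For `d ∈ sbox M` the dual box
is empty or contained in `box R₁`, `R₁ = T (K M)^{ε₁} (M / N d)² / K ≥ 1`; apply `fin_pstepW` with
`R₁`, `M₁ = M / N d` to `a₁ n = [d n ∈ sbox M] conj (a (d n) g3 n) N n^{σ₁ - 1/2 + i t₁}`.
For `d' ∈ sbox M₁` and `d d' n ∈ sbox M`: `g3 (d' n) conj (g3 n) = g3 d' kap n (d'²)` (`g3_mul`,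
`cubic_recip`, `norm_g3`, `kap_pow_right`), so the second dual sum has norm
`N d'^{σ₁ - 1/2} ‖cr (M / N (d d')) (..) (h d'²)‖` with `σ = σ₁ + σ₂`, `t = t₂ - t₁` (`cr_mul`; it
vanishes if `d d' ∉ sbox M`); the second dual box has radius at most
`(R₁ M₁)^{ε₁} K / T / N d'² ≤ (K M T)^ε K / T / N d'²`. Use `s4d_one_add`,
`∑_{d'} N d'^{2σ₁ - 1} ≤ C M^{3ε₁}` (`q_sum_inv`), `cl2 M₁ a₁ ≤ C M^{3ε₁} c²`, so
`E₁ d = C R₁ M^{4ε₁} (c² + E N d) (1 + |t₁|)^{C₀}`; finally sum `N d⁻²` and `N d⁻¹`. -/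
theorem dp {ε C₀ : ℝ} (hε : 0 < ε) (hC₀ : 0 ≤ C₀) : ∃ C : ℝ, 0 ≤ C ∧
    ∀ (K M T c E : ℝ) (a : O → ℂ), 1 ≤ K → 1 ≤ M → 1 ≤ T → 0 ≤ E → (∀ n ∈ sbox M, ‖a n‖ ≤ c) →
    (∀ (d d' : O) (σ t : ℝ), Prim d → Prim d' → d * d' ∈ sbox M → 0 < σ → σ ≤ ε →
      ∑ r ∈ box ((K * M * T) ^ ε * K / T / Nr d' ^ 2),
        ‖cr (M / Nr (d * d')) (fun n => if d * d' * n ∈ sbox M then a (d * d' * n) *
          (Nr n : ℂ) ^ (((σ - 1 : ℝ) : ℂ) + t * I) else 0) (r * d' ^ 2)‖ ^ 2 ≤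
        E * Nr d * (1 + |t|) ^ C₀) →
    ∑ r ∈ box K, ‖cr M a r‖ ^ 2 ≤ C * (K * M * T) ^ ε * (K * M * c ^ 2 + M ^ 2 * T * (c ^ 2 + E)) := by
  obtain ⟨e, he0, he1, heε⟩ : ∃ e : ℝ, 0 < e ∧ e ≤ 1 ∧ 10 * e ≤ ε :=
    ⟨min ε 1 / 10, by positivity, by linarith [min_le_right ε 1], by linarith [min_le_left ε 1]⟩
  obtain ⟨C₁, hC₁, h₁⟩ := fin_pstepW he0 C₀
  obtain ⟨C₂, hC₂, h₂⟩ := q_sum_inv he0
  refine ⟨C₁ * (25 + C₁ * C₂ ^ 2), by positivity, fun K M T c E a hK hM hT hE ha H => ?_⟩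
  have hKM : 1 ≤ K * M := one_le_mul_of_one_le_of_one_le hK hM
  have hX : 1 ≤ K * M * T := one_le_mul_of_one_le_of_one_le hKM hT
  have hMe : 1 ≤ M ^ e := Real.one_le_rpow hM he0.le
  have hKMe : 0 ≤ (K * M) ^ e := by positivity
  have key := h₁ K M a (fun d => C₁ * C₂ * (T * ((K * M) ^ e * (M / Nr d) ^ 2 / K)) *
      (M ^ e) ^ 4 * (c ^ 2 + E * Nr d)) hK hM
    (fun d => by have := Nr_nonneg d; positivity) fun d hd σ₁ t₁ hσ₁ hσ₁e => ?_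
  · refine key.trans ?_
    have h3 := cl2_le_of_bdd (by linarith) ha
    have h4 : ∑ d ∈ sbox M, C₁ * C₂ * (T * ((K * M) ^ e * (M / Nr d) ^ 2 / K)) *
        (M ^ e) ^ 4 * (c ^ 2 + E * Nr d) ≤ C₁ * C₂ * (T * ((K * M) ^ e * M ^ 2 / K)) *
        (M ^ e) ^ 4 * (c ^ 2 + E) * (C₂ * M ^ e) := by
      refine le_trans ?_ (mul_le_mul_of_nonneg_left (fd_sum_inv h₂ hM) (by positivity))
      rw [Finset.mul_sum]
      refine Finset.sum_le_sum fun d hd => ?_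
      have hd1 := one_le_Nr (q_mem_sbox.1 hd).1.ne_zero
      have h5 : c ^ 2 + E * Nr d ≤ (c ^ 2 + E) * Nr d := by nlinarith [sq_nonneg c]
      calc _ ≤ C₁ * C₂ * (T * ((K * M) ^ e * (M / Nr d) ^ 2 / K)) *
            (M ^ e) ^ 4 * ((c ^ 2 + E) * Nr d) := by gcongr
        _ = _ := by field_simp
    set y := (K * M * T) ^ e with hy
    have hy1 : 1 ≤ y := Real.one_le_rpow hX he0.le
    have hy2 : (K * M) ^ e ≤ y := Real.rpow_le_rpow (by linarith) (by nlinarith) he0.le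
    have hy3 : M ^ e ≤ y := Real.rpow_le_rpow (by linarith) (by nlinarith) he0.le
    have hy4 : y ^ 6 ≤ (K * M * T) ^ ε := by
      rw [hy, ← Real.rpow_natCast, ← Real.rpow_mul (by linarith)]
      exact Real.rpow_le_rpow_of_exponent_le hX (by push_cast; linarith)
    have hy5 : M ^ e ≤ (K * M * T) ^ ε :=
      hy3.trans ((le_self_pow₀ hy1 (by norm_num)).trans hy4)
    have hy6 : (K * M) ^ e * (M ^ e) ^ 5 ≤ (K * M * T) ^ ε := by
      refine le_trans ?_ hy4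
      calc (K * M) ^ e * (M ^ e) ^ 5 ≤ y * y ^ 5 := by gcongr
        _ = _ := by ring
    set Z := (K * M * T) ^ ε with hZ
    have hA : 0 ≤ K * M * c ^ 2 := by positivity
    have hB : 0 ≤ M ^ 2 * T * (c ^ 2 + E) := by positivity
    have hZ0 : 0 ≤ Z := by linarith
    calc _ ≤ C₁ * K * (M ^ e * (25 * M * c ^ 2) + C₁ * C₂ * (T * ((K * M) ^ e * M ^ 2 / K)) *
          (M ^ e) ^ 4 * (c ^ 2 + E) * (C₂ * M ^ e)) := by gcongr
      _ = C₁ * (25 * M ^ e * (K * M * c ^ 2) + C₁ * C₂ ^ 2 * ((K * M) ^ e * (M ^ e) ^ 5) *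
          (M ^ 2 * T * (c ^ 2 + E))) := by field_simp
      _ ≤ C₁ * (25 * Z * (K * M * c ^ 2 + M ^ 2 * T * (c ^ 2 + E)) + C₁ * C₂ ^ 2 * Z *
          (K * M * c ^ 2 + M ^ 2 * T * (c ^ 2 + E))) := by
          gcongr
          · linarith
          · linarith
      _ = _ := by ring
  obtain ⟨hd1, hd2, hd3⟩ := q_mem_sbox.1 hd
  have hd4 := one_le_Nr hd1.ne_zero
  have hM₁ : 1 ≤ M / Nr d := by rwa [le_div_iff₀ (by linarith), one_mul]
  have hM₁' : M / Nr d ≤ M := div_le_self (by linarith) hd4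
  have hW : 1 ≤ (1 + |t₁|) ^ C₀ := Real.one_le_rpow (by linarith [abs_nonneg t₁]) hC₀
  rcases lt_or_ge ((K * M) ^ e * (M / Nr d) ^ 2 / K) 1 with hH | hH
  · rw [box_eq_empty hH, Finset.sum_empty]
    positivity
  have hR₁ : (K * M) ^ e * (M / Nr d) ^ 2 / K ≤ T * ((K * M) ^ e * (M / Nr d) ^ 2 / K) :=
    le_mul_of_one_le_left (by linarith) hT
  refine (Finset.sum_le_sum_of_subset_of_nonneg (box_mono hR₁) fun _ _ _ => sq_nonneg _).trans ?_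
  have key₂ := h₁ (T * ((K * M) ^ e * (M / Nr d) ^ 2 / K)) (M / Nr d)
    (fun n => if d * n ∈ sbox M then conj (a (d * n) * g3 n) *
      (Nr n : ℂ) ^ (((σ₁ - 1 / 2 : ℝ) : ℂ) + t₁ * I) else 0)
    (fun d' => (M ^ e) ^ 2 * (E * Nr d * (1 + |t₁|) ^ C₀) * (Nr d')⁻¹) (hH.trans hR₁) hM₁
    (fun d' => by have := Nr_nonneg d'; positivity) fun d' hd' σ₂ t₂ hσ₂ hσ₂e => ?_
  · refine key₂.trans ?_
    have hMe' : (M / Nr d) ^ e ≤ M ^ e := Real.rpow_le_rpow (by linarith) hM₁' he0.le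
    have h5 : ∑ x ∈ sbox (M / Nr d), (Nr x)⁻¹ ≤ C₂ * M ^ e :=
      (fd_sum_inv h₂ hM₁).trans (by gcongr)
    have h6 : cl2 (M / Nr d) (fun n => if d * n ∈ sbox M then conj (a (d * n) * g3 n) *
        (Nr n : ℂ) ^ (((σ₁ - 1 / 2 : ℝ) : ℂ) + t₁ * I) else 0) ≤
        (M ^ e) ^ 2 * c ^ 2 * (C₂ * M ^ e) := by
      refine le_trans ?_ (mul_le_mul_of_nonneg_left h5 (by positivity))
      rw [Finset.mul_sum]
      refine Finset.sum_le_sum fun n hn => ?_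
      obtain ⟨hn1, hn2, hn3⟩ := q_mem_sbox.1 hn
      have hn4 := one_le_Nr hn1.ne_zero
      beta_reduce
      split_ifs with hh
      · rw [norm_mul, RCLike.norm_conj, norm_mul, norm_g3 hn1.not_lam_dvd hn2, mul_one,
          fd_norm_pow (by linarith), mul_pow]
        have h7 := fd_pow_le hn4 (hn3.trans hM₁') hσ₁e he0.le
        have h8 := pow_le_pow_left₀ (norm_nonneg _) (ha _ hh) 2
        calc _ ≤ c ^ 2 * ((M ^ e) ^ 2 * (Nr n)⁻¹) := by gcongr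
          _ = _ := by ring
      · rw [norm_zero, zero_pow two_ne_zero]
        positivity
    rw [← Finset.mul_sum]
    calc _ ≤ C₁ * (T * ((K * M) ^ e * (M / Nr d) ^ 2 / K)) *
          (M ^ e * ((M ^ e) ^ 2 * c ^ 2 * (C₂ * M ^ e)) * (1 + |t₁|) ^ C₀ +
            M ^ e * ((M ^ e) ^ 2 * (E * Nr d * (1 + |t₁|) ^ C₀) * (C₂ * M ^ e))) := by
          have := cl2_nonneg (M / Nr d) (fun n => if d * n ∈ sbox M then conj (a (d * n) * g3 n) *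
            (Nr n : ℂ) ^ (((σ₁ - 1 / 2 : ℝ) : ℂ) + t₁ * I) else 0)
          refine mul_le_mul_of_nonneg_left (add_le_add ?_ ?_) (by positivity)
          · exact le_trans (by gcongr) (le_mul_of_one_le_right (by positivity) hW)
          · exact le_trans (by gcongr) (le_mul_of_one_le_left (by positivity) hMe)
      _ = _ := by ring
  obtain ⟨hd1', hd2', hd3'⟩ := q_mem_sbox.1 hd'
  have hd4' := one_le_Nr hd1'.ne_zero
  simp only [fd_dual a hd1 hd1' hd2', mul_pow]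
  rw [← Finset.mul_sum]
  have hW₂ : 0 ≤ (1 + |t₂|) ^ C₀ := by positivity
  by_cases hdd : d * d' ∈ sbox M
  · have h5 := H d d' (σ₁ + σ₂) (-t₁ + t₂) hd1 hd1' hdd (by linarith) (by linarith)
    have h6 := fd_radius hK hM hT he0.le he1 (by linarith : 4 * e ≤ ε) hM₁ hM₁'
      (by linarith : 0 < Nr d')
    have h7 := (Finset.sum_le_sum_of_subset_of_nonneg (box_mono h6)
      fun _ _ _ => sq_nonneg _).trans h5
    have h8 := s4d_one_add (-t₁) t₂ C₀ hC₀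
    rw [abs_neg] at h8
    have h9 := fd_pow_le hd4' (hd3'.trans hM₁') hσ₁e he0.le
    calc _ ≤ (M ^ e) ^ 2 * (Nr d')⁻¹ * (E * Nr d * ((1 + |t₁|) ^ C₀ * (1 + |t₂|) ^ C₀)) :=
          mul_le_mul h9 (h7.trans (by gcongr)) (Finset.sum_nonneg fun _ _ => sq_nonneg _)
            (by positivity)
      _ = _ := by ring
  · have hz : ∀ n, d * d' * n ∉ sbox M := fun n hn => hdd (q_mem_sbox.2 ⟨hd1.mul hd1',
      (q_mem_sbox.1 hn).2.1.of_mul_left,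
      (Nr_le_of_dvd (q_mem_sbox.1 hn).1.ne_zero (dvd_mul_right _ _)).trans (q_mem_sbox.1 hn).2.2⟩)
    simp only [if_neg (hz _), cr, zero_mul, Finset.sum_const_zero, norm_zero, ne_eq,
      OfNat.ofNat_ne_zero, not_false_eq_true, zero_pow, mul_zero]
    positivity

end Crest.Agent.R012.Far

end
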