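import Crest.Agent.R012.F4b
import Crest.Agent.R012.FD

/-! # Row 12: the fourth moment of cubic character sums -/

set_option autoImplicit false

noncomputable section

open scoped BigOperators ComplexConjugate Topology
open Complex MeasureTheory Filter Crest.Agent.R017

namespace Crest.Agent.R012.Far

theorem f4c1_Xi0_nonneg {R N₁ N₂ U : ℝ} (hR : 0 ≤ R) (h₁ : 0 ≤ N₁) (h₂ : 0 ≤ N₂ * U) :
    0 ≤ Xi0 R N₁ N₂ U := by
  unfold Xi0; positivity

theorem f4c1_Xi0_le {R ρ z N₁ N₂ U : ℝ} (hR : 0 ≤ R) (hρ : 0 ≤ ρ) (hz : 1 ≤ z) (h : R ≤ z * ρ)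
    (h₁ : 0 ≤ N₁) (h₂ : 0 ≤ N₂ * U) : Xi0 R N₁ N₂ U ≤ z ^ 2 * Xi0 ρ N₁ N₂ U := by
  have key : ∀ p : ℝ, 0 ≤ p → p ≤ 2 → R ^ p ≤ z ^ 2 * ρ ^ p := fun p hp hp2 => by
    refine (Real.rpow_le_rpow hR h hp).trans ?_
    rw [Real.mul_rpow (by linarith) hρ]
    refine mul_le_mul_of_nonneg_right ?_ (by positivity)
    rw [← Real.rpow_two]
    exact Real.rpow_le_rpow_of_exponent_le hz hp2
  unfold Xi0
  rw [mul_add (z ^ 2), ← mul_assoc]
  exact add_le_add (key (4 / 3) (by norm_num) (by norm_num))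
    (mul_le_mul_of_nonneg_right (key (1 / 3) (by norm_num) (by norm_num)) (by positivity))

theorem f4c1_pow {x : ℝ} (hx : 0 ≤ x) (e : ℝ) (n : ℕ) : (x ^ n) ^ e = (x ^ e) ^ n := by
  rw [← Real.rpow_natCast, ← Real.rpow_mul hx, mul_comm, Real.rpow_mul hx, Real.rpow_natCast]

open Classical in
theorem f4c1_cr {M : ℝ} {k D : O} (hD : D ∈ sbox M) (hc : IsCoprime D k) (G w : O → ℂ) (r : O) :
    cr (M / Nr D) (fun n => if D * n ∈ sbox M then
      (if IsCoprime (D * n) k then G (k * (D * n)) else 0) * w n else 0) r =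
    ∑ n ∈ pbox (M / Nr D), G (k * D * n) *
      (if Squarefree n ∧ IsCoprime n (k * D) then kap n r * w n else 0) := by
  obtain ⟨hp, hs, -⟩ := q_mem_sbox.1 hD
  have hpos := Nr_pos hp.ne_zero
  have e : sbox (M / Nr D) = (pbox (M / Nr D)).filter Squarefree := by
    ext n
    rw [q_mem_sbox, Finset.mem_filter, mem_pbox]; tauto
  unfold cr
  rw [e, Finset.sum_filter]
  refine Finset.sum_congr rfl fun n hn => ?_
  obtain ⟨hn1, hn2⟩ := mem_pbox.1 hn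
  by_cases h1 : Squarefree n
  · have h2 : D * n ∈ sbox M ↔ IsCoprime n D := by
      rw [q_mem_sbox, squarefree_mul_iff, isRelPrime_iff_isCoprime, isCoprime_comm, Nr_mul]
      rw [le_div_iff₀' hpos] at hn2
      exact ⟨fun h => h.2.1.1, fun h => ⟨hp.mul hn1, ⟨h, hs, h1⟩, hn2⟩⟩
    have h3 : IsCoprime (D * n) k ↔ IsCoprime n k := by
      rw [IsCoprime.mul_left_iff]; exact ⟨fun h => h.2, fun h => ⟨hc, h⟩⟩
    simp only [h1, if_true, true_and, h2, h3, IsCoprime.mul_right_iff, mul_assoc]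
    by_cases h4 : IsCoprime n D <;> by_cases h5 : IsCoprime n k <;> simp [h4, h5]
    ring
  · simp [h1]

theorem f4c1_final {Cd CG Cc Ct C y P P' K L T X Q Z : ℝ} (hCd : 0 ≤ Cd) (hCc : 0 ≤ Cc)
    (hC : Cd * (CG ^ 2 + 2 * Cc + 50 * Ct ^ 2) ≤ C) (hy : 1 ≤ y) (hP : 1 ≤ P') (hP' : P' ≤ P)
    (hK : 0 ≤ K) (hL : 0 < L) (hT : 0 ≤ T) (hX : 0 ≤ X) (hQ : 1 ≤ Q) (hZ : Z ≤ y ^ 5) :
    Cd * Z * (K * (L * y / Q) * (CG * y ^ 3) ^ 2 + (L * y / Q) ^ 2 * T * ((CG * y ^ 3) ^ 2 +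
      (2 * Cc * y ^ 50 * P' * (Q / L * X) + 50 * Ct ^ 2))) ≤
      C * y ^ 60 * P * (L * (K + L * T + T * X)) / Q := by
  have hQ0 : 0 < Q := by linarith
  have hy0 : 0 < y := by linarith
  have hP1 : 1 ≤ P := hP.trans hP'
  have hP0 : 0 < P' := by linarith
  have hP0' : 0 < P := by linarith
  have g1 : 0 ≤ K * (L * y / Q) * (CG * y ^ 3) ^ 2 + (L * y / Q) ^ 2 * T * ((CG * y ^ 3) ^ 2 +
      (2 * Cc * y ^ 50 * P' * (Q / L * X) + 50 * Ct ^ 2)) := by positivity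
  have g2 : 0 ≤ Cd * y ^ 5 := by positivity
  have g3 : 0 ≤ y ^ 60 * P * (L * (K + L * T + T * X)) / Q := by clear g1 g2; positivity
  have hpow : ∀ n : ℕ, n ≤ 55 → y ^ n ≤ y ^ 55 * P := fun n hn =>
    (pow_le_pow_right₀ hy hn).trans (le_mul_of_one_le_right (by positivity) hP1)
  have hQi : Q⁻¹ ≤ 1 := inv_le_one_of_one_le₀ hQ
  have hA : 0 ≤ L * K / Q := by positivity
  have hB : 0 ≤ L * (L * T) / Q := by positivity
  have hD : 0 ≤ L * (T * X) / Q := by positivity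
  have hW : 0 ≤ y ^ 55 * P := by positivity
  have h1 : K * (L * y / Q) * (CG * y ^ 3) ^ 2 ≤ CG ^ 2 * (y ^ 55 * P) * (L * K / Q) := by
    calc _ = CG ^ 2 * y ^ 7 * (L * K / Q) := by ring
      _ ≤ _ := by gcongr; exact hpow 7 (by norm_num)
  have h2 : (L * y / Q) ^ 2 * T * (CG * y ^ 3) ^ 2 ≤ CG ^ 2 * (y ^ 55 * P) * (L * (L * T) / Q) := by
    calc _ = CG ^ 2 * y ^ 8 * (L * (L * T) / Q) * Q⁻¹ := by ring
      _ ≤ CG ^ 2 * y ^ 8 * (L * (L * T) / Q) := mul_le_of_le_one_right (by positivity) hQi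
      _ ≤ _ := by gcongr; exact hpow 8 (by norm_num)
  have h3 : (L * y / Q) ^ 2 * T * (2 * Cc * y ^ 50 * P' * (Q / L * X)) ≤
      2 * Cc * (y ^ 55 * P) * (L * (T * X) / Q) := by
    calc _ = 2 * Cc * (y ^ 52 * P') * (L * (T * X) / Q) := by field_simp
      _ ≤ _ := by gcongr; norm_num
  have h4 : (L * y / Q) ^ 2 * T * (50 * Ct ^ 2) ≤ 50 * Ct ^ 2 * (y ^ 55 * P) * (L * (L * T) / Q) := by
    calc _ = 50 * Ct ^ 2 * y ^ 2 * (L * (L * T) / Q) * Q⁻¹ := by ring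
      _ ≤ 50 * Ct ^ 2 * y ^ 2 * (L * (L * T) / Q) := mul_le_of_le_one_right (by positivity) hQi
      _ ≤ _ := by gcongr; exact hpow 2 (by norm_num)
  have h5 : K * (L * y / Q) * (CG * y ^ 3) ^ 2 + (L * y / Q) ^ 2 * T * ((CG * y ^ 3) ^ 2 +
      (2 * Cc * y ^ 50 * P' * (Q / L * X) + 50 * Ct ^ 2)) ≤
      (CG ^ 2 + 2 * Cc + 50 * Ct ^ 2) * (y ^ 55 * P) * (L * K / Q + L * (L * T) / Q + L * (T * X) / Q) := by
    have a1 := mul_nonneg (mul_nonneg (sq_nonneg CG) hW) hD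
    have a2 := mul_nonneg (mul_nonneg hCc hW) hA
    have a3 := mul_nonneg (mul_nonneg hCc hW) hB
    have a4 := mul_nonneg (mul_nonneg (sq_nonneg Ct) hW) hA
    have a5 := mul_nonneg (mul_nonneg (sq_nonneg Ct) hW) hD
    rw [mul_add ((L * y / Q) ^ 2 * T), mul_add ((L * y / Q) ^ 2 * T)]
    linarith
  calc _ ≤ Cd * y ^ 5 * ((CG ^ 2 + 2 * Cc + 50 * Ct ^ 2) * (y ^ 55 * P) *
        (L * K / Q + L * (L * T) / Q + L * (T * X) / Q)) :=
        mul_le_mul (mul_le_mul_of_nonneg_left hZ hCd) h5 g1 g2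
    _ = Cd * (CG ^ 2 + 2 * Cc + 50 * Ct ^ 2) * (y ^ 60 * P * (L * (K + L * T + T * X)) / Q) := by ring
    _ ≤ C * (y ^ 60 * P * (L * (K + L * T + T * X)) / Q) :=
        mul_le_mul_of_nonneg_right hC g3
    _ = _ := by ring

open Classical in
/-- One slice. `dp` with `ε₁ = e`, `M = N₁ N₂ x^e / N k`, `c = C x^{3e}` (`norm_f4G_le`, `D = 0`).
For `d d' ∈ sbox M` the dual coefficients vanish unless `d d'` is prime to `k`; then, with
`c = k d d'`, the dual sum is `∑_{n ∈ pbox (N₁ N₂ x^e / N c)} f4G (c n) u n` with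
`u n = [n squarefree, prime to c] kap n (r d'²) N n^s`; `f4G_tail` (`B = 1`) and `f4_child` with
ambient parameter `x²`, `R₀ = (K M T)^e K / T ≤ x^{5e} K / T`, `Xi0 R₀ ≤ x^{7e} Xi0 (K / T)`.
Take `E = C x^{47e} (1 + |τ|)^C (N k / (N₁ N₂)) Xi0 (K / T) + C`. -/
theorem br_slice {a e : ℝ} (ha : 0 < a) (he : 0 < e) (he1 : e ≤ 1 / 10) (l : ℤ) : ∃ C : ℝ, 0 ≤ C ∧
    ∀ (x K T N₁ N₂ U τ : ℝ) (k : O), 1 ≤ K → K ≤ x → 1 ≤ T → T ≤ x → 1 ≤ U → 1 ≤ N₁ → N₁ ≤ x →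
    1 ≤ N₂ → N₂ * U ≤ x → k ∈ pbox (N₁ * N₂ * x ^ e) →
    ∑ r ∈ box K, ‖cr (N₁ * N₂ * x ^ e / Nr k)
      (fun n => if IsCoprime n k then f4G a N₁ N₂ U τ l (k * n) else 0) r‖ ^ 2 ≤
      C * x ^ (60 * e) * (1 + |τ|) ^ C *
        (N₁ * N₂ * (K + N₁ * N₂ * T + T * Xi0 (K / T) N₁ N₂ U)) / Nr k := by
  obtain ⟨CG, hCG, hG⟩ := norm_f4G_le ha he 0
  obtain ⟨Ct, hCt, hT⟩ := f4G_tail ha he zero_le_one
  obtain ⟨Cc, hCc, hc⟩ := f4_child ha he (by linarith) l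
  obtain ⟨Cd, hCd, hd⟩ := dp he hCc
  refine ⟨Cd * (CG ^ 2 + 2 * Cc + 50 * Ct ^ 2) + Cc, by positivity, ?_⟩
  intro x K T N₁ N₂ U τ k hK hKx hT1 hTx hU hN₁ hN₁x hN₂ hN₂x hk
  obtain ⟨hkp, hkL⟩ := mem_pbox.1 hk
  have hx : 1 ≤ x := hK.trans hKx
  have hx0 : 0 < x := by linarith
  have hN₂x' : N₂ ≤ x := (le_mul_of_one_le_right (by linarith) hU).trans hN₂x
  have hL0 : 0 < N₁ * N₂ := by positivity
  have hL : N₁ * N₂ ≤ x ^ 2 := by rw [sq]; gcongr
  have hQ := one_le_Nr hkp.ne_zero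
  have hQ0 : 0 < Nr k := by linarith
  obtain ⟨y, hy⟩ : ∃ y, y = x ^ e := ⟨_, rfl⟩
  have hy1 : 1 ≤ y := hy ▸ Real.one_le_rpow hx he.le
  have hy5 : y ^ 5 ≤ x := by
    rw [hy, ← Real.rpow_natCast, ← Real.rpow_mul hx0.le]
    simpa using Real.rpow_le_rpow_of_exponent_le hx (show e * (5 : ℕ) ≤ 1 by push_cast; linarith)
  have hyx : y ≤ x := (le_self_pow₀ hy1 (by norm_num)).trans hy5
  have hLy : N₁ * N₂ * y ≤ x ^ 3 := by rw [pow_succ]; gcongr
  have h60 : x ^ (60 * e) = y ^ 60 := by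
    rw [hy, mul_comm, Real.rpow_mul hx0.le, ← Real.rpow_natCast]; norm_num
  have h40 : (x ^ 2) ^ (20 * e) = y ^ 40 := by
    rw [hy, ← Real.rpow_natCast, ← Real.rpow_natCast, ← Real.rpow_mul hx0.le, ← Real.rpow_mul hx0.le]
    congr 1; push_cast; ring
  rw [← hy] at hkL ⊢
  rw [h60]
  obtain ⟨M, hM⟩ : ∃ M, M = N₁ * N₂ * y / Nr k := ⟨_, rfl⟩
  have hM1 : 1 ≤ M := by rw [hM, le_div_iff₀ hQ0, one_mul]; exact hkL
  have hkM : Nr k * M = N₁ * N₂ * y := by rw [hM]; field_simp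
  have hMx : M ≤ x ^ 3 := (le_mul_of_one_le_left (by linarith) hQ).trans (hkM.le.trans hLy)
  have hZ : (K * M * T) ^ e ≤ y ^ 5 := by
    rw [hy, ← f4c1_pow hx0.le]
    refine Real.rpow_le_rpow (by positivity) ?_ he.le
    calc K * M * T ≤ x * x ^ 3 * x := by gcongr
      _ = _ := by ring
  have hX := f4c1_Xi0_nonneg (R := K / T) (N₁ := N₁) (N₂ := N₂) (U := U) (by positivity) (by positivity)
    (by positivity)
  have hτ : 1 ≤ 1 + |τ| := by linarith [abs_nonneg τ]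
  have hP' : 1 ≤ (1 + |τ|) ^ Cc := Real.one_le_rpow hτ hCc
  refine (hM ▸ hd K M T (CG * y ^ 3) (2 * Cc * y ^ 50 * (1 + |τ|) ^ Cc * (Nr k / (N₁ * N₂) *
    Xi0 (K / T) N₁ N₂ U) + 50 * Ct ^ 2) _ hK hM1 hT1 (by positivity) ?_ ?_).trans ?_
  · intro n hn
    obtain ⟨hn1, -, hn2⟩ := q_mem_sbox.1 hn
    split_ifs
    · refine (hG N₁ N₂ U τ l (k * n) (by linarith) (by linarith) (by linarith) (hkp.mul hn1)).trans ?_
      rw [neg_zero, Real.rpow_zero, mul_one, hy, ← f4c1_pow hx0.le]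
      refine mul_le_mul_of_nonneg_left (Real.rpow_le_rpow (Nr_nonneg _) ?_ he.le) hCG
      rw [Nr_mul]
      exact (mul_le_mul_of_nonneg_left hn2 hQ0.le).trans (hkM.le.trans hLy)
    · rw [norm_zero]; positivity
  · intro d d' σ t hdp hdp' hdd hσ hσe
    have ht : 1 ≤ (1 + |t|) ^ Cc := Real.one_le_rpow (by linarith [abs_nonneg t]) hCc
    have hNd := one_le_Nr hdp.ne_zero
    have hNd' := one_le_Nr hdp'.ne_zero
    by_cases hco : IsCoprime (d * d') k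
    swap
    · rw [Finset.sum_eq_zero]
      · positivity
      · intro r _
        rw [cr, Finset.sum_eq_zero, norm_zero, zero_pow two_ne_zero]
        intro n _
        rw [if_neg (fun h : IsCoprime (d * d' * n) k => hco h.of_mul_left_left)]
        simp
    obtain ⟨hp, hs, hdM⟩ := q_mem_sbox.1 hdd
    obtain ⟨R₀, hR₀⟩ : ∃ R₀, R₀ = (K * M * T) ^ e * K / T := ⟨_, rfl⟩
    have hR0 : 0 ≤ R₀ := by rw [hR₀]; positivity
    have hR1 : R₀ ≤ y ^ 5 * (K / T) := by rw [hR₀, mul_div_assoc]; gcongr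
    have hR2 : R₀ ≤ x ^ 2 := by
      refine hR1.trans ?_
      rw [sq]
      exact mul_le_mul hy5 ((div_le_self (by linarith) hT1).trans hKx) (by positivity) hx0.le
    have hxx : x ≤ x ^ 2 := le_self_pow₀ hx two_ne_zero
    have hch := hc (x ^ 2) R₀ N₁ N₂ U τ σ t (k * (d * d')) d' (hx.trans hxx) hR0 hR2 hU (by linarith)
      (hN₁x.trans hxx) (by linarith) (hN₂x.trans hxx) (hkp.mul hp) (by
        rw [Nr_mul]
        calc Nr k * Nr (d * d') ≤ Nr k * M := by gcongr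
          _ ≤ x ^ 3 := hkM.le.trans hLy
          _ ≤ _ := by gcongr) hdp' (hs.squarefree_of_dvd (dvd_mul_left _ _))
      ((dvd_mul_left _ _).mul_left _) hσ hσe
    rw [← hR₀]
    have hterm : ∀ r : O, ‖cr (M / Nr (d * d')) (fun n => if d * d' * n ∈ sbox M then
        (if IsCoprime (d * d' * n) k then f4G a N₁ N₂ U τ l (k * (d * d' * n)) else 0) *
          (Nr n : ℂ) ^ (((σ - 1 : ℝ) : ℂ) + t * I) else 0) (r * d' ^ 2)‖ ^ 2 ≤
        2 * ‖∑' n, if Prim n ∧ Squarefree n ∧ IsCoprime n (k * (d * d')) then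
          f4G a N₁ N₂ U τ l (k * (d * d') * n) *
          (kap n (r * d' ^ 2) * (Nr n : ℂ) ^ (((σ - 1 : ℝ) : ℂ) + t * I)) else 0‖ ^ 2 +
        2 * (Ct * x⁻¹) ^ 2 := by
      intro r
      have h1 := hT x N₁ N₂ U τ l (k * (d * d')) (fun n => if Squarefree n ∧ IsCoprime n (k * (d * d'))
        then kap n (r * d' ^ 2) * (Nr n : ℂ) ^ (((σ - 1 : ℝ) : ℂ) + t * I) else 0) hx (by linarith)
        (by linarith) (by linarith) hL (hkp.mul hp) (fun n hn => by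
          split_ifs
          · rw [norm_mul, Complex.norm_cpow_eq_rpow_re_of_pos (Nr_pos hn.ne_zero)]
            refine mul_le_one₀ (norm_kap_le _ _) (Real.rpow_nonneg (Nr_nonneg _) _) ?_
            refine Real.rpow_le_one_of_one_le_of_nonpos (one_le_Nr hn.ne_zero) ?_
            simp; linarith
          · simp)
      have e1 : N₁ * N₂ * x ^ e / Nr (k * (d * d')) = M / Nr (d * d') := by
        rw [← hy, hM, Nr_mul k, div_div]
      rw [e1, Real.rpow_neg_one, ← f4c1_cr hdd hco] at h1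
      have e2 : (∑' n, if Prim n then f4G a N₁ N₂ U τ l (k * (d * d') * n) *
          (if Squarefree n ∧ IsCoprime n (k * (d * d')) then
            kap n (r * d' ^ 2) * (Nr n : ℂ) ^ (((σ - 1 : ℝ) : ℂ) + t * I) else 0) else 0) =
          ∑' n, if Prim n ∧ Squarefree n ∧ IsCoprime n (k * (d * d')) then
          f4G a N₁ N₂ U τ l (k * (d * d') * n) *
          (kap n (r * d' ^ 2) * (Nr n : ℂ) ^ (((σ - 1 : ℝ) : ℂ) + t * I)) else 0 := by
        refine tsum_congr fun n => ?_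
        by_cases h2 : Prim n <;> by_cases h3 : Squarefree n ∧ IsCoprime n (k * (d * d')) <;>
          simp [h2, h3]
      rw [e2] at h1
      generalize (∑' n, if Prim n ∧ Squarefree n ∧ IsCoprime n (k * (d * d')) then _ else _ : ℂ) = A
        at h1 ⊢
      generalize cr _ _ _ = B at h1 ⊢
      have h2 : ‖B‖ ≤ ‖A‖ + Ct * x⁻¹ := by
        have := norm_sub_norm_le B A
        rw [norm_sub_rev] at this
        linarith
      nlinarith [norm_nonneg B, sq_nonneg (‖A‖ - Ct * x⁻¹)]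
    refine (Finset.sum_le_sum fun r _ => hterm r).trans ?_
    rw [Finset.sum_add_distrib, ← Finset.mul_sum, Finset.sum_const, nsmul_eq_mul, add_mul, add_mul]
    refine add_le_add ?_ ?_
    · refine (mul_le_mul_of_nonneg_left hch zero_le_two).trans ?_
      have h1 := f4c1_Xi0_le (N₁ := N₁) (N₂ := N₂) (U := U) hR0 (by positivity) (one_le_pow₀ hy1) hR1
        (by positivity) (by positivity)
      rw [h40, Nr_mul, Nr_mul]
      calc _ ≤ 2 * (Cc * y ^ 40 * (1 + |τ|) ^ Cc * (1 + |t|) ^ Cc * (Nr k * (Nr d * Nr d') / (N₁ * N₂) *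
            ((y ^ 5) ^ 2 * Xi0 (K / T) N₁ N₂ U) / Nr d')) := by gcongr
        _ = _ := by field_simp
    · have h1 : ((box (R₀ / Nr d' ^ 2)).card : ℝ) ≤ 25 * x ^ 2 :=
        (card_box_le (by positivity)).trans (by
          gcongr; exact (div_le_self hR0 (one_le_pow₀ hNd')).trans hR2)
      calc _ ≤ 25 * x ^ 2 * (2 * (Ct * x⁻¹) ^ 2) := by gcongr
        _ = 50 * Ct ^ 2 * 1 * 1 := by field_simp; ring
        _ ≤ _ := by gcongr
  · rw [hM] at hZ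
    exact f4c1_final hCd hCc (le_add_of_nonneg_right hCc) hy1 hP'
      (Real.rpow_le_rpow_of_exponent_le hτ (le_add_of_nonneg_left (by positivity))) (by linarith) hL0
      (by linarith) hX hQ hZ

end Crest.Agent.R012.Far

end
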