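import Crest.Agent.R012.F0

/-! # Row 12: Dirichlet convolution and Heath-Brown's identity -/

set_option autoImplicit false

noncomputable section

open scoped BigOperators ComplexConjugate Topology
open Complex MeasureTheory Filter Crest.Agent.R017

namespace Crest.Agent.R012.Far

theorem fa1_prim {n d : O} (hn : Prim n) (hd : d ∈ pdiv n) : Prim d :=
  ((mem_pdiv hn.ne_zero).1 hd).1

theorem fa1_prim_div {n d : O} (hn : Prim n) (hd : d ∈ pdiv n) : Prim (n / d) :=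
  fa1_prim hn (s4m_div hn hd).1

theorem fa1_div_div {n d : O} (hn : Prim n) (hd : d ∈ pdiv n) : n / (n / d) = d :=
  (EuclideanDomain.eq_div_of_mul_eq_left (fa1_prim_div hn hd).ne_zero (s4m_div hn hd).2).symm

theorem fa1_Nr_le {n d : O} (hn : Prim n) (hd : d ∈ pdiv n) : Nr d ≤ Nr n :=
  Nr_le_of_dvd hn.ne_zero ((mem_pdiv hn.ne_zero).1 hd).2

/-- `s4m_div`. -/
theorem dc_congr {f f' g g' : O → ℂ} {n : O} (hn : Prim n) (hf : ∀ d ∈ pdiv n, f d = f' d)
    (hg : ∀ d ∈ pdiv n, g d = g' d) : dc f g n = dc f' g' n :=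
  Finset.sum_congr rfl fun d hd => by rw [hf d hd, hg _ (s4m_div hn hd).1]

/-- The involution `d ↦ n / d` of `pdiv n` (`s4m_div`). -/
theorem dc_comm (f g : O → ℂ) {n : O} (hn : Prim n) : dc f g n = dc g f n := by
  unfold dc
  refine Finset.sum_nbij' (fun d => n / d) (fun d => n / d) (fun d hd => (s4m_div hn hd).1)
    (fun d hd => (s4m_div hn hd).1) (fun d hd => fa1_div_div hn hd) (fun d hd => fa1_div_div hn hd)
    (fun d hd => ?_)
  rw [fa1_div_div hn hd, mul_comm]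

/-- Both sides are the sum over the primary triples with product `n` (`Finset.sum_sigma'`,
`Finset.sum_nbij'`: `(d, e) ↦ (e, d / e)`). -/
theorem dc_assoc (f g h : O → ℂ) {n : O} (hn : Prim n) :
    dc (dc f g) h n = dc f (dc g h) n := by
  unfold dc
  simp only [Finset.sum_mul, Finset.mul_sum]
  rw [Finset.sum_sigma', Finset.sum_sigma']
  refine Finset.sum_nbij' (fun p => ⟨p.2, p.1 / p.2⟩) (fun p => ⟨p.1 * p.2, p.1⟩) ?_ ?_ ?_ ?_ ?_
  · rintro ⟨d, e⟩ hp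
    simp only [Finset.mem_sigma] at hp ⊢
    obtain ⟨hd, he⟩ := hp
    have pd := fa1_prim hn hd
    have pe := fa1_prim pd he
    have hen : e ∈ pdiv n := (mem_pdiv hn.ne_zero).2
      ⟨pe, ((mem_pdiv pd.ne_zero).1 he).2.trans ((mem_pdiv hn.ne_zero).1 hd).2⟩
    refine ⟨hen, (mem_pdiv (fa1_prim_div hn hen).ne_zero).2 ⟨fa1_prim_div pd he, n / d, ?_⟩⟩
    refine mul_left_cancel₀ pe.ne_zero ?_
    rw [(s4m_div hn hen).2, ← mul_assoc, (s4m_div pd he).2, (s4m_div hn hd).2]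
  · rintro ⟨e, c⟩ hp
    simp only [Finset.mem_sigma] at hp ⊢
    obtain ⟨he, hc⟩ := hp
    have pe := fa1_prim hn he
    have pq := fa1_prim_div hn he
    have pc := fa1_prim pq hc
    refine ⟨(mem_pdiv hn.ne_zero).2 ⟨pe.mul pc, n / e / c, ?_⟩,
      (mem_pdiv (pe.mul pc).ne_zero).2 ⟨pe, dvd_mul_right _ _⟩⟩
    rw [mul_assoc, (s4m_div pq hc).2, (s4m_div hn he).2]
  · rintro ⟨d, e⟩ hp
    simp only [Finset.mem_sigma] at hp
    simp only [(s4m_div (fa1_prim hn hp.1) hp.2).2]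
  · rintro ⟨e, c⟩ hp
    simp only [Finset.mem_sigma] at hp
    simp only [mul_div_cancel_left₀ c (fa1_prim hn hp.1).ne_zero]
  · rintro ⟨d, e⟩ hp
    simp only [Finset.mem_sigma] at hp ⊢
    obtain ⟨hd, he⟩ := hp
    have pd := fa1_prim hn hd
    have pe := fa1_prim pd he
    have hen : e ∈ pdiv n := (mem_pdiv hn.ne_zero).2
      ⟨pe, ((mem_pdiv pd.ne_zero).1 he).2.trans ((mem_pdiv hn.ne_zero).1 hd).2⟩
    have e1 : d / e * (n / d) = n / e := by
      refine mul_left_cancel₀ pe.ne_zero ?_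
      rw [(s4m_div hn hen).2, ← mul_assoc, (s4m_div pd he).2, (s4m_div hn hd).2]
    rw [← EuclideanDomain.eq_div_of_mul_eq_right (fa1_prim_div pd he).ne_zero e1, mul_assoc]

theorem dc_dl (f : O → ℂ) {n : O} (hn : Prim n) : dc f dl n = f n := by
  unfold dc
  have hnn : n ∈ pdiv n := (mem_pdiv hn.ne_zero).2 ⟨hn, dvd_rfl⟩
  rw [Finset.sum_eq_single_of_mem n hnn]
  · rw [EuclideanDomain.div_self hn.ne_zero, dl, if_pos rfl, mul_one]
  · intro d hd hne
    have : n / d ≠ 1 := fun h => hne (by simpa only [h, mul_one] using (s4m_div hn hd).2)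
    rw [dl, if_neg this, mul_zero]

theorem dc_add (f g h : O → ℂ) (n : O) :
    dc f (fun m => g m + h m) n = dc f g n + dc f h n := by
  simp only [dc, mul_add, Finset.sum_add_distrib]

theorem dc_sub (f g h : O → ℂ) (n : O) :
    dc f (fun m => g m - h m) n = dc f g n - dc f h n := by
  simp only [dc, mul_sub, Finset.sum_sub_distrib]

theorem dc_mul {χ : O → ℂ} (hχ : ∀ m n, Prim m → Prim n → χ (m * n) = χ m * χ n) (f g : O → ℂ)
    {n : O} (hn : Prim n) : dc f g n * χ n = dc (fun m => f m * χ m) (fun m => g m * χ m) n := by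
  unfold dc
  rw [Finset.sum_mul]
  refine Finset.sum_congr rfl fun d hd => ?_
  have : χ n = χ d * χ (n / d) := by
    rw [← hχ _ _ (fa1_prim hn hd) (fa1_prim_div hn hd), (s4m_div hn hd).2]
  rw [this]; ring

/-- `card_pdiv_le_Nr`. -/
theorem norm_dc_le {f g : O → ℂ} {K K' A B : ℝ} (hA : 0 ≤ A) (hB : 0 ≤ B)
    (hf : ∀ n, Prim n → ‖f n‖ ≤ K * Nr n ^ A) (hg : ∀ n, Prim n → ‖g n‖ ≤ K' * Nr n ^ B)
    {n : O} (hn : Prim n) : ‖dc f g n‖ ≤ 25 * K * K' * Nr n ^ (A + B + 1) := by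
  have hK : 0 ≤ K := by
    have := (norm_nonneg _).trans (hf 1 prim_one)
    simpa only [R017.Nr_one, Real.one_rpow, mul_one] using this
  have hK' : 0 ≤ K' := by
    have := (norm_nonneg _).trans (hg 1 prim_one)
    simpa only [R017.Nr_one, Real.one_rpow, mul_one] using this
  have hN := Nr_pos hn.ne_zero
  have h1 : ∀ d ∈ pdiv n, ‖f d * g (n / d)‖ ≤ (K * Nr n ^ A) * (K' * Nr n ^ B) := by
    intro d hd
    rw [norm_mul]
    refine mul_le_mul ((hf d (fa1_prim hn hd)).trans ?_) ((hg _ (fa1_prim_div hn hd)).trans ?_)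
      (norm_nonneg _) (by positivity)
    · exact mul_le_mul_of_nonneg_left
        (Real.rpow_le_rpow (Nr_nonneg _) (fa1_Nr_le hn hd) hA) hK
    · exact mul_le_mul_of_nonneg_left
        (Real.rpow_le_rpow (Nr_nonneg _) (fa1_Nr_le hn (s4m_div hn hd).1) hB) hK'
  calc ‖dc f g n‖ ≤ ∑ d ∈ pdiv n, ‖f d * g (n / d)‖ := norm_sum_le _ _
    _ ≤ (pdiv n).card • ((K * Nr n ^ A) * (K' * Nr n ^ B)) := Finset.sum_le_card_nsmul _ _ _ h1
    _ ≤ (25 * Nr n) * ((K * Nr n ^ A) * (K' * Nr n ^ B)) := by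
        rw [nsmul_eq_mul]
        exact mul_le_mul_of_nonneg_right (card_pdiv_le_Nr n) (by positivity)
    _ = 25 * K * K' * Nr n ^ (A + B + 1) := by
        rw [Real.rpow_add hN, Real.rpow_add hN, Real.rpow_one]; ring

/-- `sum_pdiv_mu`. -/
theorem hbb_eq_zero {U : ℝ} {n : O} (hn : Prim n) (h : Nr n ≤ U) : hbb U n = 0 := by
  have : dc (muU U) (fun _ => 1) n = ∑ d ∈ pdiv n, mu d :=
    Finset.sum_congr rfl fun d hd => by
      rw [muU, if_pos ((fa1_Nr_le hn hd).trans h), mul_one]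
  rw [hbb, this, sum_pdiv_mu hn, dl, sub_self]

theorem fa1_b3 {U : ℝ} (hU : 0 ≤ U) {m : O} (hm : Prim m) (h : Nr m ≤ U ^ 3) :
    dc (hbb U) (dc (hbb U) (hbb U)) m = 0 := by
  refine Finset.sum_eq_zero fun d hd => ?_
  by_cases h1 : Nr d ≤ U
  · rw [hbb_eq_zero (fa1_prim hm hd) h1, zero_mul]
  have pq := fa1_prim_div hm hd
  refine mul_eq_zero_of_right _ (Finset.sum_eq_zero fun e he => ?_)
  by_cases h2 : Nr e ≤ U
  · rw [hbb_eq_zero (fa1_prim pq he) h2, zero_mul]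
  refine mul_eq_zero_of_right _ (hbb_eq_zero (fa1_prim_div pq he) ?_)
  by_contra h3
  push Not at h1 h2 h3
  have e1 : Nr m = Nr d * (Nr e * Nr (m / d / e)) := by
    rw [← R017.Nr_mul, ← R017.Nr_mul, (s4m_div pq he).2, (s4m_div hm hd).2]
  have e2 : U * U < Nr e * Nr (m / d / e) := mul_lt_mul'' h2 h3 hU hU
  have e3 : U * (U * U) < Nr d * (Nr e * Nr (m / d / e)) :=
    mul_lt_mul'' h1 e2 hU (mul_nonneg hU hU)
  nlinarith

/-- With `b = hbb U`: `(μ_U * 1) * (δ + b + b²) = (δ - b) * (δ + b + b²) = δ - b³` and `Λ * 1 = log`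
(`l2_sum_vm`), so `hb = Λ - Λ * b³`; `b³` vanishes on norms `≤ U³` by `hbb_eq_zero`. -/
theorem hb_eq {U : ℝ} (hU : 0 ≤ U) {n : O} (hn : Prim n) (h : Nr n ≤ U ^ 3) : hb U n = vm n := by
  have h1 : ∀ m, Prim m → dc (muU U) lg m = dc vm (fun k => dl k - hbb U k) m := by
    intro m hm
    have a1 : dc (muU U) lg m = dc (muU U) (dc (fun _ => 1) vm) m :=
      dc_congr hm (fun _ _ => rfl) fun d hd => by
        rw [dc_comm _ _ (fa1_prim hm hd), lg, ← l2_sum_vm (fa1_prim hm hd)]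
        exact Finset.sum_congr rfl fun e _ => (mul_one _).symm
    rw [a1, ← dc_assoc _ _ _ hm, dc_comm _ _ hm]
    exact dc_congr hm (fun _ _ => rfl) fun d _ => by rw [hbb]; ring
  have h2 : ∀ m, Prim m → Nr m ≤ U ^ 3 → dc (fun k => dl k - hbb U k) (hbg U) m = dl m := by
    intro m hm hU3
    rw [dc_comm _ _ hm, dc_sub, dc_dl _ hm, dc_comm _ _ hm]
    have : dc (hbb U) (hbg U) m = dc (hbb U) dl m + dc (hbb U) (hbb U) m +
        dc (hbb U) (dc (hbb U) (hbb U)) m := by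
      rw [← dc_add, ← dc_add]; rfl
    rw [this, fa1_b3 hU hm hU3, dc_dl _ hm, hbg]
    ring
  calc hb U n = dc (dc vm (fun k => dl k - hbb U k)) (hbg U) n :=
        dc_congr hn (fun d hd => h1 d (fa1_prim hn hd)) fun _ _ => rfl
    _ = dc vm (dc (fun k => dl k - hbb U k) (hbg U)) n := dc_assoc _ _ _ hn
    _ = dc vm dl n := dc_congr hn (fun _ _ => rfl) fun d hd =>
        h2 d (fa1_prim hn hd) ((fa1_Nr_le hn hd).trans h)
    _ = vm n := dc_dl _ hn

/-- `norm_dc_le`. -/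
theorem norm_hb_le : ∃ K : ℝ, ∀ (U : ℝ) (n : O), Prim n → ‖hb U n‖ ≤ K * Nr n ^ (10 : ℝ) := by
  refine ⟨25 * (25 * 1 * 1) * (1 + 26 + 25 * 26 * 26), fun U n hn => ?_⟩
  have hmu : ∀ m, Prim m → ‖muU U m‖ ≤ 1 * Nr m ^ (0 : ℝ) := fun m _ => by
    rw [Real.rpow_zero, mul_one]; exact norm_muU_le U m
  have hone : ∀ m : O, Prim m → ‖(1 : ℂ)‖ ≤ 1 * Nr m ^ (0 : ℝ) := fun m _ => by simp
  have hdl : ∀ m : O, ‖dl m‖ ≤ 1 := fun m => by unfold dl; split_ifs <;> simp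
  have hlg : ∀ m, Prim m → ‖lg m‖ ≤ 1 * Nr m ^ (1 : ℝ) := fun m hm => by
    have h1 := one_le_Nr hm.ne_zero
    rw [lg, Complex.norm_real, Real.norm_of_nonneg (Real.log_nonneg h1), Real.rpow_one, one_mul]
    linarith [Real.log_le_sub_one_of_pos (Nr_pos hm.ne_zero)]
  have hb1 : ∀ m, Prim m → ‖hbb U m‖ ≤ 26 * Nr m ^ (1 : ℝ) := fun m hm => by
    have h1 := one_le_Nr hm.ne_zero
    have h2 := norm_dc_le le_rfl le_rfl hmu hone hm
    rw [zero_add, zero_add, Real.rpow_one] at h2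
    rw [Real.rpow_one, hbb]
    linarith [norm_sub_le (dl m) (dc (muU U) (fun _ => 1) m), hdl m]
  have hg : ∀ m, Prim m → ‖hbg U m‖ ≤ (1 + 26 + 25 * 26 * 26) * Nr m ^ (3 : ℝ) := fun m hm => by
    have h1 := one_le_Nr hm.ne_zero
    have h2 := norm_dc_le zero_le_one zero_le_one hb1 hb1 hm
    rw [show (1 : ℝ) + 1 + 1 = 3 by norm_num] at h2
    have h3 : Nr m ^ (1 : ℝ) ≤ Nr m ^ (3 : ℝ) := Real.rpow_le_rpow_of_exponent_le h1 (by norm_num)
    have h4 : (1 : ℝ) ≤ Nr m ^ (3 : ℝ) := Real.one_le_rpow h1 (by norm_num)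
    have h5 : ‖hbg U m‖ ≤ ‖dl m‖ + ‖hbb U m‖ + ‖dc (hbb U) (hbb U) m‖ := norm_add₃_le
    have h6 := hdl m
    have h7 := hb1 m hm
    generalize Nr m ^ (3 : ℝ) = X at *
    generalize Nr m ^ (1 : ℝ) = Y at *
    linarith
  have h6 := norm_dc_le (by norm_num) (by norm_num)
    (fun m hm => norm_dc_le le_rfl zero_le_one hmu hlg hm) hg hn
  refine h6.trans (mul_le_mul_of_nonneg_left
    (Real.rpow_le_rpow_of_exponent_le (one_le_Nr hn.ne_zero) (by norm_num)) (by norm_num))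

end Crest.Agent.R012.Far

end
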