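import Crest.Agent.R012.FA2a

/-! # Row 12: smooth sums of convolutions -/

set_option autoImplicit false

noncomputable section

open scoped BigOperators ComplexConjugate Topology
open Complex MeasureTheory Filter Crest.Agent.R017

namespace Crest.Agent.R012.Far

theorem fa2_sm_add {a X : ℝ} (ha : 0 < a) (hX : 0 < X) {f g : O → ℂ} {K K' A B : ℝ}
    (hf : ∀ n, Prim n → ‖f n‖ ≤ K * Nr n ^ A) (hg : ∀ n, Prim n → ‖g n‖ ≤ K' * Nr n ^ B) (τ : ℝ) :
    sm a (fun n => f n + g n) X τ = sm a f X τ + sm a g X τ := by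
  unfold sm
  rw [← (summable_sm ha hX hf τ).tsum_add (summable_sm ha hX hg τ)]
  refine tsum_congr fun n => ?_
  split_ifs <;> ring

theorem fa2_sm_mul (a X τ : ℝ) (c : ℂ) (f : O → ℂ) :
    sm a (fun n => c * f n) X τ = c * sm a f X τ := by
  unfold sm
  rw [← tsum_mul_left]
  refine tsum_congr fun n => ?_
  split_ifs <;> ring

theorem fa2_int {e : ℝ} (he : 0 < e) : Integrable (fun u : ℝ => Real.exp (-e * |u|)) := by
  have h1 : IntegrableOn (fun u : ℝ => Real.exp (-e * |u|)) (Set.Ioi 0) :=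
    (exp_neg_integrableOn_Ioi 0 he).congr_fun
      (fun u hu => by simp only [abs_of_pos (Set.mem_Ioi.1 hu)]) measurableSet_Ioi
  have h2 : IntegrableOn (fun u : ℝ => Real.exp (-e * |u|)) (Set.Iic 0) :=
    (integrableOn_exp_mul_Iic he 0).congr_fun
      (fun u hu => by simp only [abs_of_nonpos (Set.mem_Iic.1 hu), neg_mul_neg]) measurableSet_Iic
  have := h2.union h1
  rwa [Set.Iic_union_Ioi, integrableOn_univ] at this

theorem Gd.nonneg {a A K σ τ : ℝ} {f : O → ℂ} (h : Gd a A K σ τ f) : 0 ≤ K := by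
  have := h.pb 1 prim_one
  rw [R017.Nr_one, Real.one_rpow, mul_one] at this
  exact (norm_nonneg _).trans this

/-- All lengths. -/
theorem fa2_all {a : ℝ} (ha : 0 < a) (A : ℝ) : ∃ C : ℝ, 1 ≤ C ∧ ∀ (K σ τ : ℝ) (f : O → ℂ), σ ≤ 2 →
    Gd a A K σ τ f → ∀ u : ℝ,
      ‖sm a f (Real.exp u) τ‖ ≤ C * K * Real.exp (σ * u + min u 0) := by
  obtain ⟨C, hC⟩ := tsum_W_le_small ha A 3
  refine ⟨max C 1, le_max_right _ _, fun K σ τ f hσ h u => ?_⟩
  have hK := h.nonneg
  rcases le_total 0 u with hu | hu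
  · refine (h.bd _ (Real.one_le_exp hu)).trans ?_
    rw [min_eq_right hu, add_zero, ← Real.exp_mul, mul_comm u]
    exact mul_le_mul_of_nonneg_right (le_mul_of_one_le_left hK (le_max_right _ _))
      (Real.exp_pos _).le
  · have hX := Real.exp_pos u
    have h3 : ‖sm a f (Real.exp u) τ‖ ≤
        K * ∑' n : O, (if n = 0 then 0 else Nr n ^ A * W a (Nr n / Real.exp u)) := by
      rw [← tsum_mul_left]
      exact tsum_of_norm_bounded ((summable_W ha hX A).mul_left K).hasSum fun n => by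
        simpa only [abs_of_nonneg hK] using w2_term_le (a := a) (X := Real.exp u) h.pb τ n
    have h4 := hC _ hX (Real.exp_le_one_iff.2 hu)
    rw [← Real.exp_mul] at h4
    rw [min_eq_left hu]
    calc _ ≤ K * (C * Real.exp (u * 3)) := h3.trans (mul_le_mul_of_nonneg_left h4 hK)
      _ ≤ K * (max C 1 * Real.exp (u * 3)) := by gcongr; exact le_max_left _ _
      _ ≤ K * (max C 1 * Real.exp (σ * u + u)) := by
          gcongr
          nlinarith
      _ = _ := by ring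

theorem Gd.mono {a A A' K K' σ σ' τ : ℝ} {f : O → ℂ} (h : Gd a A K σ τ f) (hA : A ≤ A')
    (hK : K ≤ K') (hσ : σ ≤ σ') : Gd a A' K' σ' τ f := by
  have h0 := h.nonneg
  exact ⟨fun n hn => (h.pb n hn).trans (mul_le_mul hK
      (Real.rpow_le_rpow_of_exponent_le (one_le_Nr hn.ne_zero) hA)
      (Real.rpow_nonneg (Nr_nonneg n) _) (h0.trans hK)),
    fun Y hY => (h.bd Y hY).trans (mul_le_mul hK (Real.rpow_le_rpow_of_exponent_le hY hσ)
      (Real.rpow_nonneg (by linarith) _) (h0.trans hK))⟩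

/-- `gn_sm_congr`. -/
theorem Gd.congr {a A K σ τ : ℝ} {f g : O → ℂ} (h : Gd a A K σ τ f) (hfg : ∀ n, Prim n → f n = g n) :
    Gd a A K σ τ g :=
  ⟨fun n hn => hfg n hn ▸ h.pb n hn, fun Y hY => gn_sm_congr hfg Y τ ▸ h.bd Y hY⟩

/-- `summable_sm`. -/
theorem Gd.add {a A K K' σ τ : ℝ} {f g : O → ℂ} (ha : 0 < a) (h : Gd a A K σ τ f)
    (h' : Gd a A K' σ τ g) : Gd a A (K + K') σ τ (fun n => f n + g n) := by
  refine ⟨fun n hn => ?_, fun Y hY => ?_⟩
  · rw [add_mul]
    exact (norm_add_le _ _).trans (add_le_add (h.pb n hn) (h'.pb n hn))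
  · rw [fa2_sm_add ha (by linarith) h.pb h'.pb, add_mul]
    exact (norm_add_le _ _).trans (add_le_add (h.bd Y hY) (h'.bd Y hY))

theorem Gd.sub {a A K K' σ τ : ℝ} {f g : O → ℂ} (ha : 0 < a) (h : Gd a A K σ τ f)
    (h' : Gd a A K' σ τ g) : Gd a A (K + K') σ τ (fun n => f n - g n) := by
  have h2 : Gd a A K' σ τ (fun n => -1 * g n) :=
    ⟨fun n hn => by simpa using h'.pb n hn, fun Y hY => by
      rw [fa2_sm_mul]; simpa using h'.bd Y hY⟩
  exact (h.add ha h2).congr fun n _ => by ring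

/-- `sm a dl Y τ = W a (1 / Y)`. -/
theorem gd_dl {a σ : ℝ} (ha : 0 < a) (hσ : 0 ≤ σ) (τ : ℝ) : Gd a 0 1 σ τ dl := by
  refine ⟨fun n _ => ?_, fun Y hY => ?_⟩
  · unfold dl
    split_ifs <;> simp
  · unfold sm
    rw [tsum_eq_single 1 fun n hn => by simp [dl, hn], if_pos prim_one, w2_norm_term prim_one]
    simp only [dl, if_true, norm_one, one_mul]
    exact (W_le_one ha _).trans (Real.one_le_rpow hY hσ)

/-- `sm_conv`, `norm_integral_le_of_norm_le`. For `0 ≤ u ≤ log Y` the integrand is at most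
`K K' Y^σ` and `log Y ≤ Y^ε / ε`. For `u ≤ 0` use `‖sm a f (e^u) τ‖ ≤ C K e^{3 u}` (`w2_term_le`,
`tsum_W_le_small`), so the integrand is `≤ C K K' Y^σ e^{u}`; symmetrically for `u ≥ log Y`.
One majorant: `C K K' Y^σ (1_{[0, log Y]} + e^{-|u|} + e^{-|u - log Y|})`. -/
theorem Gd.conv {a b A B ε : ℝ} (ha : 0 < a) (hb : 0 < b) (hA : 0 ≤ A) (hB : 0 ≤ B) (hε : 0 < ε) :
    ∃ C : ℝ, 1 ≤ C ∧ ∀ (K K' σ τ : ℝ) (f g : O → ℂ), 0 ≤ σ → σ ≤ 2 → Gd a A K σ τ f →
      Gd b B K' σ τ g → Gd (a + b) (A + B + 1) (C * K * K') (σ + ε) τ (dc f g) := by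
  obtain ⟨C₁, hC₁, H₁⟩ := fa2_all ha A
  obtain ⟨C₂, hC₂, H₂⟩ := fa2_all hb B
  obtain ⟨e, he, he1, heε⟩ : ∃ e : ℝ, 0 < e ∧ e ≤ 1 ∧ e ≤ ε :=
    ⟨min 1 ε, lt_min one_pos hε, min_le_left _ _, min_le_right _ _⟩
  set J : ℝ := ∫ u : ℝ, Real.exp (-e * |u|) with hJ
  have hJ0 : 0 ≤ J := integral_nonneg fun u => (Real.exp_pos _).le
  set c : ℝ := Real.sqrt ((a + b) / (4 * Real.pi * a * b)) with hc
  have hc0 : 0 ≤ c := Real.sqrt_nonneg _
  have hp : 0 ≤ c * (C₁ * C₂ * J) := by positivity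
  refine ⟨25 + c * (C₁ * C₂ * J), by linarith, fun K K' σ τ f g hσ hσ2 hf hg => ?_⟩
  have hK := hf.nonneg
  have hK' := hg.nonneg
  refine ⟨fun n hn => (norm_dc_le hA hB hf.pb hg.pb hn).trans ?_, fun Y hY => ?_⟩
  · have := Real.rpow_nonneg (Nr_nonneg n) (A + B + 1)
    gcongr
    linarith
  · have hY0 : 0 < Y := by linarith
    obtain ⟨L, hL, rfl⟩ : ∃ L : ℝ, 0 ≤ L ∧ Y = Real.exp L :=
      ⟨Real.log Y, Real.log_nonneg hY, (Real.exp_log hY0).symm⟩
    rw [sm_conv ha hb hY0 hA hB hf.pb hg.pb, norm_mul, Complex.norm_real, Real.norm_of_nonneg hc0]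
    have h1 := norm_integral_le_of_norm_le
      (f := fun u : ℝ => sm a f (Real.exp u) τ * sm b g (Real.exp L * Real.exp (-u)) τ)
      ((fa2_int he).const_mul (C₁ * C₂ * K * K' * Real.exp (L * (σ + ε))))
      (Eventually.of_forall fun u => by
        rw [norm_mul, ← Real.exp_add]
        have h2 : σ * u + min u 0 + (σ * (L + -u) + min (L + -u) 0) ≤ L * (σ + ε) + -e * |u| := by
          have h3 : e * L ≤ ε * L := mul_le_mul_of_nonneg_right heε hL
          rcases le_total u 0 with hu | hu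
          · rw [min_eq_left hu, abs_of_nonpos hu, min_eq_right (by linarith)]
            nlinarith
          · rw [min_eq_right hu, abs_of_nonneg hu]
            rcases le_total u L with h4 | h4
            · rw [min_eq_right (by linarith)]
              nlinarith
            · rw [min_eq_left (by linarith)]
              nlinarith
        calc _ ≤ C₁ * K * Real.exp (σ * u + min u 0) *
              (C₂ * K' * Real.exp (σ * (L + -u) + min (L + -u) 0)) :=
            mul_le_mul (H₁ K σ τ f hσ2 hf u) (H₂ K' σ τ g hσ2 hg _) (norm_nonneg _) (by positivity)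
          _ = C₁ * C₂ * K * K' *
              Real.exp (σ * u + min u 0 + (σ * (L + -u) + min (L + -u) 0)) := by
            rw [Real.exp_add (σ * u + min u 0)]; ring
          _ ≤ C₁ * C₂ * K * K' * Real.exp (L * (σ + ε) + -e * |u|) := by gcongr
          _ = _ := by rw [Real.exp_add]; ring)
    rw [integral_const_mul, ← hJ] at h1
    rw [← Real.exp_mul]
    have h5 : 0 ≤ 25 * K * K' * Real.exp (L * (σ + ε)) := by positivity
    have h6 := mul_le_mul_of_nonneg_left h1 hc0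
    nlinarith

/-- `log N n = (log N n - u) + u` with `u = log Y`; `norm_sm_log_le_circle`; lengths below `1` are
covered by `norm_sm_le`. -/
theorem gd_log {a ε : ℝ} (ha : 0 < a) (hε : 0 < ε) : ∃ C : ℝ, 1 ≤ C ∧ ∀ (K σ τ : ℝ) (χ : O → ℂ),
    (∀ n, Prim n → ‖χ n‖ ≤ 1) → 1 ≤ K → 0 ≤ σ → σ ≤ 1 →
    (∀ Y τ' : ℝ, 1 ≤ Y → |τ' - τ| ≤ 1 / (2 * a) → ‖sm a χ Y τ'‖ ≤ K * Y ^ σ) →
    Gd a 1 (C * K) (σ + ε) τ (fun n => lg n * χ n) := by
  obtain ⟨C₁, H₁⟩ := norm_sm_log_le_circle ha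
  obtain ⟨C₀, H₀⟩ := norm_sm_le ha 0
  have hp : 0 ≤ |C₁| * ((Real.exp 1 + |C₀|) * (2 * Real.pi)) := by positivity
  have hq : 0 ≤ 1 / ε := by positivity
  refine ⟨1 + |C₁| * ((Real.exp 1 + |C₀|) * (2 * Real.pi)) + 1 / ε, by linarith,
    fun K σ τ χ hχ hK hσ hσ1 h => ⟨fun n hn => ?_, fun Y hY => ?_⟩⟩
  · have h1 := one_le_Nr hn.ne_zero
    rw [norm_mul, lg, Complex.norm_real, Real.norm_of_nonneg (Real.log_nonneg h1), Real.rpow_one]
    calc Real.log (Nr n) * ‖χ n‖ ≤ Nr n * 1 :=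
          mul_le_mul (Real.log_le_self (by linarith)) (hχ n hn) (norm_nonneg _) (by linarith)
      _ = 1 * 1 * Nr n := by ring
      _ ≤ _ := by
          gcongr
          linarith
  · have hY0 : 0 < Y := by linarith
    have hK0 : 0 ≤ K := by linarith
    obtain ⟨u, hu, rfl⟩ : ∃ L : ℝ, 0 ≤ L ∧ Y = Real.exp L :=
      ⟨Real.log Y, Real.log_nonneg hY, (Real.exp_log hY0).symm⟩
    have hχ' : ∀ n, Prim n → ‖χ n‖ ≤ 1 * Nr n ^ (0 : ℝ) := fun n hn => by simpa using hχ n hn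
    have b1 : ∀ n, Prim n → ‖χ n * ((Real.log (Nr n) - u : ℝ) : ℂ)‖ ≤ (1 + u) * Nr n ^ (1 : ℝ) := by
      intro n hn
      have h1 := one_le_Nr hn.ne_zero
      have h2 := Real.log_nonneg h1
      have h3 := Real.log_le_self (x := Nr n) (by linarith)
      rw [norm_mul, Complex.norm_real, Real.norm_eq_abs, Real.rpow_one]
      have h4 : |Real.log (Nr n) - u| ≤ (1 + u) * Nr n := by
        rw [abs_le]
        constructor <;> nlinarith
      exact (mul_le_of_le_one_left (abs_nonneg _) (hχ n hn)).trans h4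
    have b2 : ∀ n, Prim n → ‖(u : ℂ) * χ n‖ ≤ u * Nr n ^ (0 : ℝ) := fun n hn => by
      rw [norm_mul, Complex.norm_real, Real.norm_of_nonneg hu, Real.rpow_zero]
      exact mul_le_mul_of_nonneg_left (hχ n hn) hu
    have e1 : sm a (fun n => lg n * χ n) (Real.exp u) τ =
        sm a (fun n => χ n * ((Real.log (Nr n) - u : ℝ) : ℂ)) (Real.exp u) τ +
          u * sm a χ (Real.exp u) τ := by
      rw [← fa2_sm_mul, ← fa2_sm_add ha hY0 b1 b2]
      refine gn_sm_congr (fun n _ => ?_) _ _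
      rw [lg]
      push_cast
      ring
    have hS : 1 ≤ Real.exp u ^ σ := Real.one_le_rpow hY hσ
    have hT : Real.exp u ^ σ ≤ Real.exp u ^ (σ + ε) :=
      Real.rpow_le_rpow_of_exponent_le hY (by linarith)
    have b3 : ∀ θ : ℝ, ‖sm a χ (Real.exp (u + Real.cos θ)) (τ - Real.sin θ / (2 * a))‖ ≤
        (Real.exp 1 + |C₀|) * (K * Real.exp u ^ σ) := fun θ => by
      have c0 : 1 ≤ K * Real.exp u ^ σ := one_le_mul_of_one_le_of_one_le hK hS
      have c1 := Real.exp_pos 1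
      have c2 := abs_nonneg C₀
      rcases le_total 1 (Real.exp (u + Real.cos θ)) with h1 | h1
      · refine (h _ _ h1 ?_).trans ?_
        · rw [sub_sub_cancel_left, abs_neg, abs_div, abs_of_pos (by positivity : 0 < 2 * a)]
          exact div_le_div_of_nonneg_right (Real.abs_sin_le_one θ) (by positivity)
        · have c3 : Real.exp (u + Real.cos θ) ^ σ ≤ Real.exp 1 * Real.exp u ^ σ := by
            rw [← Real.exp_mul, ← Real.exp_mul, ← Real.exp_add, Real.exp_le_exp]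
            nlinarith [Real.cos_le_one θ]
          have c4 := mul_le_mul_of_nonneg_left c3 hK0
          nlinarith
      · refine (H₀ χ _ _ (Real.exp_pos _) hχ (Or.inr h1)).trans ?_
        rw [Real.rpow_zero, mul_one]
        nlinarith [le_abs_self C₀]
    have b4 := intervalIntegral.norm_integral_le_of_norm_le_const (a := 0) (b := 2 * Real.pi)
      (f := fun θ => ‖sm a χ (Real.exp (u + Real.cos θ)) (τ - Real.sin θ / (2 * a))‖)
      (C := (Real.exp 1 + |C₀|) * (K * Real.exp u ^ σ)) fun θ _ => by rw [norm_norm]; exact b3 θ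
    rw [sub_zero, abs_of_pos Real.two_pi_pos, Real.norm_eq_abs] at b4
    have b5 := (H₁ χ 1 0 u τ hχ').trans ((le_abs_self _).trans_eq (abs_mul _ _))
    have b6 := b5.trans (mul_le_mul_of_nonneg_left b4 (abs_nonneg _))
    have b7 : ‖(u : ℂ) * sm a χ (Real.exp u) τ‖ ≤ 1 / ε * K * Real.exp u ^ (σ + ε) := by
      rw [norm_mul, Complex.norm_real, Real.norm_of_nonneg hu, Real.rpow_add hY0]
      have c1 : u ≤ Real.exp u ^ ε / ε := by
        simpa only [Real.log_exp] using Real.log_le_rpow_div hY0.le hε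
      calc u * ‖sm a χ (Real.exp u) τ‖ ≤ Real.exp u ^ ε / ε * (K * Real.exp u ^ σ) :=
            mul_le_mul c1 (h _ _ hY (by rw [sub_self, abs_zero]; positivity)) (norm_nonneg _)
              (by positivity)
        _ = _ := by ring
    rw [e1]
    refine (norm_add_le _ _).trans ((add_le_add b6 b7).trans ?_)
    have b8 := mul_le_mul_of_nonneg_left (mul_le_mul_of_nonneg_left hT hK0) hp
    have b9 : 0 ≤ K * Real.exp u ^ (σ + ε) := by positivity
    nlinarith

end Crest.Agent.R012.Far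

end
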