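import Crest.Agent.R012.FA1

/-! # Row 12: smooth sums of convolutions -/

set_option autoImplicit false

noncomputable section

open scoped BigOperators ComplexConjugate Topology
open Complex MeasureTheory Filter Crest.Agent.R017

namespace Crest.Agent.R012.Far

theorem fa2a_summable {c X : ℝ} (hc : 0 < c) (hX : 0 < X) {f g : O → ℂ} {K K' A B : ℝ}
    (hA : 0 ≤ A) (hB : 0 ≤ B)
    (hf : ∀ n, Prim n → ‖f n‖ ≤ K * Nr n ^ A) (hg : ∀ n, Prim n → ‖g n‖ ≤ K' * Nr n ^ B) (τ : ℝ) :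
    Summable fun z : O × O =>
      w3_k f τ z.1 * w3_k g τ z.2 * (W c (Nr (z.1 * z.2) / X) : ℂ) := by
  have hs : Summable fun z : O × O => Nr z.1 ^ (-(B + 2)) * Nr z.2 ^ (-(A + 2)) :=
    (summable_Nr_rpow (σ := B + 2) (by linarith)).mul_of_nonneg
      (summable_Nr_rpow (σ := A + 2) (by linarith))
      (fun x => Real.rpow_nonneg (Nr_nonneg x) _) (fun x => Real.rpow_nonneg (Nr_nonneg x) _)
  refine Summable.of_norm_bounded (hs.mul_left (|K| * |K'| *
    (Real.exp (c * (-(A + B + 2)) ^ 2) * X ^ (A + B + 2)))) fun z => ?_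
  have hn : 0 ≤ |K| * |K'| * (Real.exp (c * (-(A + B + 2)) ^ 2) * X ^ (A + B + 2)) *
      (Nr z.1 ^ (-(B + 2)) * Nr z.2 ^ (-(A + 2))) :=
    mul_nonneg (by positivity)
      (mul_nonneg (Real.rpow_nonneg (Nr_nonneg _) _) (Real.rpow_nonneg (Nr_nonneg _) _))
  by_cases h1 : Prim z.1
  swap
  · simpa [w3_k, h1] using hn
  by_cases h2 : Prim z.2
  swap
  · simpa [w3_k, h2] using hn
  have p1 := Nr_pos h1.ne_zero
  have p2 := Nr_pos h2.ne_zero
  have a1 := w3_norm_k hf τ z.1
  have a2 := w3_norm_k hg τ z.2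
  rw [if_neg h1.ne_zero] at a1
  rw [if_neg h2.ne_zero] at a2
  have a3 := W_le_rpow hc (div_pos (mul_pos p1 p2) hX) (-(A + B + 2))
  rw [norm_mul, norm_mul, Complex.norm_real, Real.norm_of_nonneg (W_pos _ _).le, Nr_mul]
  refine (mul_le_mul (mul_le_mul a1 a2 (norm_nonneg _) (by positivity)) a3 (W_pos _ _).le
    (by positivity)).trans (le_of_eq ?_)
  have e1 : Nr z.1 ^ (-(B + 2)) = Nr z.1 ^ A * Nr z.1 ^ (-(A + B + 2)) := by
    rw [← Real.rpow_add p1]
    congr 1
    ring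
  have e2 : Nr z.2 ^ (-(A + 2)) = Nr z.2 ^ B * Nr z.2 ^ (-(A + B + 2)) := by
    rw [← Real.rpow_add p2]
    congr 1
    ring
  rw [e1, e2, Real.div_rpow (mul_pos p1 p2).le hX.le, Real.mul_rpow p1.le p2.le,
    Real.rpow_neg hX.le, div_inv_eq_mul]
  ring

theorem fa2a_fib {c X : ℝ} {f g : O → ℂ} {τ : ℝ} (hs : Summable fun z : O × O =>
      w3_k f τ z.1 * w3_k g τ z.2 * (W c (Nr (z.1 * z.2) / X) : ℂ)) :
    sm c (dc f g) X τ =
      ∑' z : O × O, w3_k f τ z.1 * w3_k g τ z.2 * (W c (Nr (z.1 * z.2) / X) : ℂ) := by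
  classical
  have h := s4_fib hs (fun z => z.1 * z.2)
    (fun n => if Prim n then (pdiv n).image (fun d => (d, n / d)) else ∅)
    (fun n z hz => by
      split_ifs at hz with hn
      · obtain ⟨d, hd, rfl⟩ := Finset.mem_image.1 hz
        obtain ⟨hd1, m, rfl⟩ := (mem_pdiv hn.ne_zero).1 hd
        rw [mul_div_cancel_left₀ m hd1.ne_zero]
      · exact absurd hz (Finset.notMem_empty _))
    (fun z hz => by
      have h1 : Prim z.1 := by
        by_contra h
        exact hz (by simp [w3_k, h])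
      have h2 : Prim z.2 := by
        by_contra h
        exact hz (by simp [w3_k, h])
      rw [if_pos (h1.mul h2)]
      refine Finset.mem_image.2 ⟨z.1, (mem_pdiv (h1.mul h2).ne_zero).2 ⟨h1, dvd_mul_right _ _⟩, ?_⟩
      rw [mul_div_cancel_left₀ _ h1.ne_zero])
  rw [← h.tsum_eq, sm]
  refine tsum_congr fun n => ?_
  split_ifs with hn
  · rw [Finset.sum_image (fun a _ b _ h => congrArg Prod.fst h), dc, Finset.sum_mul,
      Finset.sum_mul]
    refine Finset.sum_congr rfl fun d hd => ?_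
    obtain ⟨hd1, m, rfl⟩ := (mem_pdiv hn.ne_zero).1 hd
    have hm : Prim m := hd1.of_mul hn
    simp only [mul_div_cancel_left₀ m hd1.ne_zero, w3_k, if_pos hd1, if_pos hm, l2_cpow_mul]
    ring
  · rw [Finset.sum_empty]

/-- Compare `sm_mix`. For primary `d`, `m`:
`∫ W a (N d / e^u) * W b (N m / (X e^{-u})) du = W (a + b) (N (d m) / X) * √(4 π a b / (a + b))`
(`w3_gauss`, `w3_W_exp`, translation invariance); exchange sum and integral over pairs
(`integral_tsum_of_summable_integral_norm` or `hasSum_integral_of_summable_integral_norm`), and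
group the pairs by their product (`s4_fib`; compare `l2_conv`). -/
theorem sm_conv {a b X : ℝ} (ha : 0 < a) (hb : 0 < b) (hX : 0 < X) {f g : O → ℂ} {K K' A B : ℝ}
    (hA : 0 ≤ A) (hB : 0 ≤ B)
    (hf : ∀ n, Prim n → ‖f n‖ ≤ K * Nr n ^ A) (hg : ∀ n, Prim n → ‖g n‖ ≤ K' * Nr n ^ B) (τ : ℝ) :
    sm (a + b) (dc f g) X τ = ((Real.sqrt ((a + b) / (4 * Real.pi * a * b)) : ℝ) : ℂ) *
      ∫ u : ℝ, sm a f (Real.exp u) τ * sm b g (X * Real.exp (-u)) τ := by
  let E : O × O → ℝ → ℝ := fun z y => Real.exp (-y ^ 2 / (4 * a)) *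
    Real.exp (-(Real.log (Nr (z.1 * z.2) / X) - y) ^ 2 / (4 * b))
  let G : O × O → ℝ → ℂ := fun z u =>
    w3_k f τ z.1 * w3_k g τ z.2 * ((E z (Real.log (Nr z.1) - u) : ℝ) : ℂ)
  have hsm : ∀ {c Y : ℝ} {h : O → ℂ} {K A : ℝ}, 0 < c → 0 < Y →
      (∀ n, Prim n → ‖h n‖ ≤ K * Nr n ^ A) →
      Summable fun n => ‖w3_k h τ n * (W c (Nr n / Y) : ℂ)‖ := fun hc hY hh => by
    refine summable_norm_iff.2 ((summable_sm hc hY hh τ).congr fun n => ?_)
    unfold w3_k
    split_ifs <;> simp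
  have h1 : ∀ u : ℝ, sm a f (Real.exp u) τ * sm b g (X * Real.exp (-u)) τ = ∑' z, G z u := by
    intro u
    rw [w3_sm, w3_sm, tsum_mul_tsum_of_summable_norm (hsm ha (Real.exp_pos u) hf)
      (hsm hb (mul_pos hX (Real.exp_pos _)) hg)]
    refine tsum_congr fun z => ?_
    by_cases h1 : Prim z.1
    swap
    · simp [G, w3_k, h1]
    by_cases h2 : Prim z.2
    swap
    · simp [G, w3_k, h2]
    have p1 := Nr_pos h1.ne_zero
    have p2 := Nr_pos h2.ne_zero
    have e : W a (Nr z.1 / Real.exp u) * W b (Nr z.2 / (X * Real.exp (-u))) =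
        E z (Real.log (Nr z.1) - u) := by
      simp only [E]
      rw [w3_W_exp p2 hX, W, Real.log_div p1.ne' (Real.exp_pos u).ne', Real.log_exp, Nr_mul,
        mul_div_assoc (Nr z.1), Real.log_mul p1.ne' (div_pos p2 hX).ne']
      congr 4
      ring
    simp only [G]
    rw [← e]
    push_cast
    ring
  have hs := fa2a_summable (add_pos ha hb) hX hA hB hf hg τ
  set s := Real.sqrt (Real.pi / ((b + a) / (4 * b * a))) with hs'
  have hE : ∀ z, ∫ u, E z (Real.log (Nr z.1) - u) = W (a + b) (Nr (z.1 * z.2) / X) * s :=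
    fun z => by
      rw [integral_sub_left_eq_self (E z) volume]
      simp only [E]
      rw [w3_gauss hb ha, W, hs', add_comm b a]
  have h2 : ∀ z, Integrable (G z) := fun z =>
    ((w3_gauss_int hb ha _).comp_sub_left (Real.log (Nr z.1))).ofReal.const_mul _
  have h3 : ∀ z, ∫ u, G z u =
      w3_k f τ z.1 * w3_k g τ z.2 * (W (a + b) (Nr (z.1 * z.2) / X) : ℂ) * s := fun z => by
    simp only [G]
    rw [integral_const_mul, integral_complex_ofReal, hE]
    push_cast
    ring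
  have h4 : ∀ z, ∫ u, ‖G z u‖ =
      ‖w3_k f τ z.1 * w3_k g τ z.2 * (W (a + b) (Nr (z.1 * z.2) / X) : ℂ)‖ * s := fun z => by
    have : ∀ u, ‖G z u‖ = ‖w3_k f τ z.1 * w3_k g τ z.2‖ * E z (Real.log (Nr z.1) - u) :=
      fun u => by
        simp only [G]
        rw [norm_mul, Complex.norm_real, Real.norm_of_nonneg (by simp only [E]; positivity)]
    simp only [this]
    rw [integral_const_mul, hE, norm_mul _ (W _ _ : ℂ), Complex.norm_real,
      Real.norm_of_nonneg (W_pos _ _).le]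
    ring
  have h5 : Summable fun z => ∫ u, ‖G z u‖ := by
    simp only [h4]
    exact (summable_norm_iff.2 hs).mul_right _
  simp only [h1]
  rw [← integral_tsum_of_summable_integral_norm h2 h5]
  simp only [h3]
  rw [tsum_mul_right, ← fa2a_fib hs, mul_left_comm, ← Complex.ofReal_mul, hs',
    ← Real.sqrt_mul (by positivity)]
  have : (a + b) / (4 * Real.pi * a * b) * (Real.pi / ((b + a) / (4 * b * a))) = 1 := by
    have := Real.pi_pos
    field_simp
    ring
  rw [this]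
  simp

end Crest.Agent.R012.Far

end
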