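import Crest.Agent.R012.FA2

/-! # Row 12: prime sums from Möbius sums and plain sums -/

set_option autoImplicit false

noncomputable section

open scoped BigOperators ComplexConjugate Topology
open Complex MeasureTheory Filter Crest.Agent.R017

namespace Crest.Agent.R012.Far

/-- All functions are multiplied by `χ` (`dc_mul`). With `ε' = min ε 1 / 10`: `μ_U χ`, `χ`, `lg χ` are
`Gd (2/3)` (`gd_log`), `hbb χ = dl - (μ_U χ) * χ` is `Gd (4/3)` (`gd_dl`, `Gd.conv`, `Gd.sub`),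
`hbg χ` is `Gd (8/3)` (write `b = b * dl` by `dc_dl`), so `hb χ` is `Gd 4`. -/
theorem gd_hb {ε : ℝ} (hε : 0 < ε) : ∃ C A : ℝ, 0 ≤ C ∧ ∀ (χ : O → ℂ) (U K σ τ : ℝ),
    (∀ m n, Prim m → Prim n → χ (m * n) = χ m * χ n) → (∀ n, ‖χ n‖ ≤ 1) → χ 1 = 1 →
    1 ≤ K → 0 ≤ σ → σ ≤ 1 →
    (∀ Y : ℝ, 1 ≤ Y → ‖sm (2 / 3) (fun n => muU U n * χ n) Y τ‖ ≤ K * Y ^ σ) →
    (∀ Y τ' : ℝ, 1 ≤ Y → |τ' - τ| ≤ 1 → ‖sm (2 / 3) χ Y τ'‖ ≤ K * Y ^ σ) →
    Gd 4 A (C * K ^ 6) (σ + ε) τ (fun n => hb U n * χ n) := by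
  set e : ℝ := min ε 1 / 10 with he
  have he0 : 0 < e := by have := lt_min hε one_pos; positivity
  have he1 : e ≤ 1 / 10 := by have := min_le_right ε 1; linarith
  have he2 : 10 * e ≤ ε := by have := min_le_left ε 1; linarith
  have h23 : (0 : ℝ) < 2 / 3 := by norm_num
  have h43 : (0 : ℝ) < 4 / 3 := by norm_num
  have h83 : (0 : ℝ) < 8 / 3 := by norm_num
  obtain ⟨C0, hC0, H0⟩ := gd_log h23 he0
  obtain ⟨C1, hC1, H1⟩ := Gd.conv h23 h23 (le_refl (0 : ℝ)) (le_refl (0 : ℝ)) he0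
  obtain ⟨C2, hC2, H2⟩ := Gd.conv h43 h43 (zero_le_one (α := ℝ)) (zero_le_one (α := ℝ)) he0
  obtain ⟨C4, hC4, H4⟩ := Gd.conv h23 h23 (le_refl (0 : ℝ)) (zero_le_one (α := ℝ)) he0
  obtain ⟨C5, hC5, H5⟩ := Gd.conv h43 h83 (show (0 : ℝ) ≤ 2 by norm_num)
    (show (0 : ℝ) ≤ 3 by norm_num) he0
  rw [show (2 / 3 + 2 / 3 : ℝ) = 4 / 3 by norm_num] at H1 H4
  rw [show (4 / 3 + 4 / 3 : ℝ) = 8 / 3 by norm_num] at H2
  rw [show (4 / 3 + 8 / 3 : ℝ) = 4 by norm_num] at H5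
  refine ⟨C5 * (C4 * C0) * (1 + C2 * (1 + C1) + C2 * (1 + C1) ^ 2), 2 + 3 + 1, by positivity,
    fun χ U K σ τ hχ hn h1 hK hσ0 hσ1 hmu hch => ?_⟩
  have hdl : ∀ n, dl n * χ n = dl n := fun n => by
    unfold dl
    split_ifs with h
    · rw [h, h1, one_mul]
    · rw [zero_mul]
  have hK2 : 1 ≤ K ^ 2 := one_le_pow₀ hK
  have g1 : Gd (2 / 3) 0 K σ τ (fun n => muU U n * χ n) := ⟨fun n _ => by
    rw [Real.rpow_zero, mul_one, norm_mul]
    exact (mul_le_one₀ (norm_muU_le _ _) (norm_nonneg _) (hn n)).trans hK, hmu⟩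
  have g2 : Gd (2 / 3) 0 K σ τ χ := ⟨fun n _ => by
    rw [Real.rpow_zero, mul_one]
    exact (hn n).trans hK, fun Y hY => hch Y τ hY (by simp)⟩
  have g3 : Gd (2 / 3) 1 (C0 * K) (σ + e) τ (fun n => lg n * χ n) :=
    H0 K σ τ χ (fun n _ => hn n) hK hσ0 hσ1 fun Y τ' hY h => hch Y τ' hY (h.trans (by norm_num))
  have g4 := H1 K K σ τ _ _ hσ0 (by linarith) g1 g2
  have d1 : Gd (4 / 3) 1 1 (σ + e) τ dl :=
    (gd_dl h43 (by linarith) τ).mono zero_le_one le_rfl le_rfl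
  have gb : Gd (4 / 3) 1 ((1 + C1) * K ^ 2) (σ + e) τ (fun n => hbb U n * χ n) := by
    refine ((d1.sub h43 (g4.mono (by norm_num) le_rfl le_rfl)).congr fun n hn' => ?_).mono le_rfl
      (by nlinarith) le_rfl
    rw [hbb, sub_mul, hdl, dc_mul hχ _ _ hn']
    simp only [one_mul]
  have g5 := H2 _ _ _ τ _ _ (by linarith) (by linarith) gb gb
  have g6 := H2 _ _ _ τ _ _ (by linarith) (by linarith) gb d1
  have d2 : Gd (8 / 3) (1 + 1 + 1) 1 (σ + e + e) τ dl :=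
    (gd_dl h83 (by linarith) τ).mono (by norm_num) le_rfl le_rfl
  have gg : Gd (8 / 3) 3 ((1 + C2 * (1 + C1) + C2 * (1 + C1) ^ 2) * K ^ 4) (σ + e + e) τ
      (fun n => hbg U n * χ n) := by
    refine (((d2.add h83 g6).add h83 g5).congr fun n hn' => ?_).mono (by norm_num) ?_ le_rfl
    · rw [hbg, add_mul, add_mul, hdl, dc_mul hχ _ _ hn', dc_dl _ hn']
    · have hK4 : K ^ 2 ≤ K ^ 4 := pow_le_pow_right₀ hK (by norm_num)
      have h3 : C2 * (1 + C1) * K ^ 2 ≤ C2 * (1 + C1) * K ^ 4 :=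
        mul_le_mul_of_nonneg_left hK4 (by positivity)
      nlinarith
  have g7 := H4 _ _ _ τ _ _ (by linarith) (by linarith) (g1.mono le_rfl le_rfl
    (show σ ≤ σ + e by linarith)) g3
  have g8 := H5 _ _ _ τ _ _ (by linarith) (by linarith) (g7.mono (by norm_num) le_rfl le_rfl) gg
  refine (g8.congr fun n hn' => ?_).mono le_rfl (le_of_eq (by ring)) (by linarith)
  rw [hb, dc_mul hχ _ _ hn']
  exact dc_congr hn' (fun d hd => (dc_mul hχ _ _ ((mem_pdiv hn'.ne_zero).1 hd).1).symm) fun _ _ => rfl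

/-- `Lp = pr = hb + (vm - hb) - (vm - pr)`: `gd_hb`; `vm - hb` vanishes on norms `≤ x^{1+ε}` (`hb_eq`)
and is `≤ K N^10` (`norm_hb_le`), so its sum is bounded (`ps_norm_le`, `tsum_W_tail`); `ps_pows`. -/
theorem pw_prime {ε : ℝ} (hε : 0 < ε) : ∃ C : ℝ, 0 ≤ C ∧ ∀ (χ : O → ℂ) (x U K σ τ : ℝ),
    (∀ m n, Prim m → Prim n → χ (m * n) = χ m * χ n) → (∀ n, ‖χ n‖ ≤ 1) → χ 1 = 1 →
    1 ≤ x → 0 ≤ U → x ^ (1 + ε) ≤ U ^ 3 → 1 ≤ K → 1 / 2 ≤ σ → σ ≤ 1 →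
    (∀ Y : ℝ, 1 ≤ Y → ‖sm (2 / 3) (fun n => muU U n * χ n) Y τ‖ ≤ K * Y ^ σ) →
    (∀ Y τ' : ℝ, 1 ≤ Y → |τ' - τ| ≤ 1 → ‖sm (2 / 3) χ Y τ'‖ ≤ K * Y ^ σ) →
    ‖sm 4 (fun n => Lp n * χ n) x τ‖ ≤ C * K ^ 6 * x ^ (σ + ε) := by
  have h4 : (0 : ℝ) < 4 := by norm_num
  obtain ⟨C1, A, hC1, H1⟩ := gd_hb hε
  obtain ⟨K0, H0⟩ := norm_hb_le
  obtain ⟨C2, H2⟩ := tsum_W_tail h4 hε 10 0 (by norm_num)
  obtain ⟨C3, hC3, H3⟩ := ps_pows h4 hε
  refine ⟨C1 + (1 + |K0|) * |C2| + C3, by positivity,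
    fun χ x U K σ τ hχ hn h1 hx hU hxU hK hσ0 hσ1 hmu hch => ?_⟩
  have hx0 : 0 < x := by linarith
  have G := H1 χ U K σ τ hχ hn h1 hK (by linarith) hσ1 hmu hch
  have hlog : ∀ n : O, Prim n → Real.log (Nr n) ≤ Nr n ^ (10 : ℝ) := fun n hp => by
    have h := one_le_Nr hp.ne_zero
    calc Real.log (Nr n) ≤ Nr n := (Real.log_le_sub_one_of_pos (by linarith)).trans (by linarith)
      _ = Nr n ^ (1 : ℝ) := (Real.rpow_one _).symm
      _ ≤ Nr n ^ (10 : ℝ) := Real.rpow_le_rpow_of_exponent_le h (by norm_num)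
  have b2 : ∀ n, Prim n → ‖(vm n - hb U n) * χ n‖ ≤ (1 + |K0|) * Nr n ^ (10 : ℝ) := fun n hp => by
    rw [norm_mul]
    refine (mul_le_of_le_one_right (norm_nonneg _) (hn n)).trans ((norm_sub_le _ _).trans ?_)
    have a1 := (norm_vm_le hp.ne_zero).trans (hlog n hp)
    have a2 := (H0 U n hp).trans (mul_le_mul_of_nonneg_right (le_abs_self K0)
      (Real.rpow_nonneg (Nr_nonneg n) _))
    linarith
  have b3 : ∀ n, Prim n → ‖(vm n - pr n) * χ n‖ ≤ 2 * Nr n ^ (10 : ℝ) := fun n hp => by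
    rw [norm_mul]
    refine (mul_le_of_le_one_right (norm_nonneg _) (hn n)).trans ((norm_sub_le _ _).trans ?_)
    have a1 := (norm_vm_le hp.ne_zero).trans (hlog n hp)
    have a2 : ‖pr n‖ ≤ Nr n ^ (10 : ℝ) := by
      unfold pr
      split_ifs
      · rw [Complex.norm_real, Real.norm_of_nonneg (Real.log_nonneg (one_le_Nr hp.ne_zero))]
        exact hlog n hp
      · rw [norm_zero]; exact Real.rpow_nonneg (Nr_nonneg n) _
    linarith
  have hsplit : sm 4 (fun n => Lp n * χ n) x τ = sm 4 (fun n => hb U n * χ n) x τ +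
      sm 4 (fun n => (vm n - hb U n) * χ n) x τ - sm 4 (fun n => (vm n - pr n) * χ n) x τ := by
    unfold sm
    rw [← (summable_sm h4 hx0 G.pb τ).tsum_add (summable_sm h4 hx0 b2 τ),
      ← ((summable_sm h4 hx0 G.pb τ).add (summable_sm h4 hx0 b2 τ)).tsum_sub (summable_sm h4 hx0 b3 τ)]
    refine tsum_congr fun n => ?_
    split_ifs
    · have : Lp n = pr n := rfl
      simp only [this]; ring
    · simp
  have hK6 : 1 ≤ K ^ 6 := one_le_pow₀ hK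
  have hxs : 1 ≤ x ^ (σ + ε) := Real.one_le_rpow hx (by linarith)
  have t1 := G.bd x hx
  have t2 : ‖sm 4 (fun n => (vm n - hb U n) * χ n) x τ‖ ≤ (1 + |K0|) * |C2| := by
    have hs : Summable fun n : O => (if n ≠ 0 ∧ (Nr n ≤ x * x ^ (-ε) ∨ x * x ^ ε ≤ Nr n) then
        Nr n ^ (10 : ℝ) * W 4 (Nr n / x) else 0) := by
      refine Summable.of_nonneg_of_le (fun n => ?_) (fun n => ?_) (summable_W h4 hx0 10)
      · split_ifs
        · exact mul_nonneg (Real.rpow_nonneg (Nr_nonneg n) _) (W_pos _ _).le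
        · exact le_rfl
      · split_ifs with a b b
        · exact absurd b a.1
        · exact le_rfl
        · exact le_rfl
        · exact mul_nonneg (Real.rpow_nonneg (Nr_nonneg n) _) (W_pos _ _).le
    refine (ps_norm_le (hs.mul_left (1 + |K0|)) (fun n => ?_) fun n hp => ?_).trans ?_
    · split_ifs
      · exact mul_nonneg (by positivity) (mul_nonneg (Real.rpow_nonneg (Nr_nonneg n) _) (W_pos _ _).le)
      · simp
    · split_ifs with a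
      · rw [← mul_assoc]
        exact mul_le_mul_of_nonneg_right (b2 n hp) (W_pos _ _).le
      · have hlt : Nr n < x * x ^ ε := lt_of_not_ge fun h => a ⟨hp.ne_zero, Or.inr h⟩
        have : Nr n ≤ U ^ 3 := by
          rw [Real.rpow_add hx0, Real.rpow_one] at hxU
          linarith
        rw [hb_eq hU hp this]
        simp
    · rw [tsum_mul_left]
      refine mul_le_mul_of_nonneg_left ((H2 x x hx hx0 le_rfl).trans ?_) (by positivity)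
      rw [neg_zero, Real.rpow_zero, mul_one]
      exact le_abs_self _
  have t3 := H3 χ x x τ σ hn hx hx0 le_rfl hσ0 hσ1
  rw [mul_assoc, ← Real.rpow_add hx0, add_comm ε σ] at t3
  rw [hsplit]
  refine (norm_sub_le _ _).trans ((add_le_add (norm_add_le _ _) le_rfl).trans ?_)
  have hKx : 1 ≤ K ^ 6 * x ^ (σ + ε) := one_le_mul_of_one_le_of_one_le hK6 hxs
  have u2 : (1 + |K0|) * |C2| ≤ (1 + |K0|) * |C2| * (K ^ 6 * x ^ (σ + ε)) :=
    le_mul_of_one_le_right (by positivity) hKx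
  have u3 : C3 * x ^ (σ + ε) ≤ C3 * (K ^ 6 * x ^ (σ + ε)) :=
    mul_le_mul_of_nonneg_left (le_mul_of_one_le_left (by linarith) hK6) hC3
  nlinarith

/-- `pw_prime` with `χ = ch l r`, `K = x^{2e}`, `ε = e / 4` (`e = 10⁻⁸`); take `Y₂ = Y` in `¬ Bad`. -/
theorem pw_bad (l : ℤ) : ∀ᶠ x : ℝ in atTop, ∀ (τ σ : ℝ) (r : O), 1 / 2 ≤ σ → σ ≤ 1 →
    ¬ Bad l x τ σ r → ‖Pr l x τ r‖ ^ 2 ≤ x ^ (25 / 10 ^ 8 : ℝ) * x ^ (2 * σ) := by
  obtain ⟨C, hC, H⟩ := pw_prime (ε := 1 / (4 * 10 ^ 8)) (by norm_num)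
  have ht : ∀ᶠ x : ℝ in atTop, C ^ 2 ≤ x ^ (1 / (2 * 10 ^ 8) : ℝ) :=
    (tendsto_rpow_atTop (by norm_num)).eventually_ge_atTop _
  filter_upwards [ht, eventually_ge_atTop (1 : ℝ)] with x hCx hx τ σ r hσ0 hσ1 hB
  have hx0 : 0 < x := by linarith
  rw [Bad, not_or, not_exists, not_exists] at hB
  have h := H (ch l r) x (x ^ (17 / 50 : ℝ)) (x ^ (2 / 10 ^ 8 : ℝ)) σ τ
    (fun m n hm hn => ch_mul l r hm hn) (norm_ch_le l r) (ch_one l r) hx (by positivity)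
    (by
      rw [← Real.rpow_mul_natCast hx0.le]
      exact Real.rpow_le_rpow_of_exponent_le hx (by norm_num))
    (Real.one_le_rpow hx (by norm_num)) hσ0 hσ1
    (fun Y hY => le_of_not_gt fun hlt => hB.1 Y ⟨Y, τ, hY, le_rfl, by simp, hlt⟩)
    (fun Y τ' hY hτ => le_of_not_gt fun hlt => hB.2 Y ⟨Y, τ', hY, le_rfl, hτ, hlt⟩)
  have hP : Pr l x τ r = sm 4 (fun n => Lp n * ch l r n) x τ :=
    gn_sm_congr (fun n _ => by rw [ch]; ring) x τ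
  rw [hP]
  refine (pow_le_pow_left₀ (norm_nonneg _) h 2).trans ?_
  have e1 : ((x ^ (2 / 10 ^ 8 : ℝ)) ^ 6) ^ 2 = x ^ (24 / 10 ^ 8 : ℝ) := by
    rw [← pow_mul, ← Real.rpow_mul_natCast hx0.le]
    norm_num
  have e2 : (x ^ (σ + 1 / (4 * 10 ^ 8))) ^ 2 = x ^ (1 / (2 * 10 ^ 8) : ℝ) * x ^ (2 * σ) := by
    rw [← Real.rpow_mul_natCast hx0.le, ← Real.rpow_add hx0]
    congr 1
    push_cast
    ring
  have e3 : x ^ (25 / 10 ^ 8 : ℝ) =
      x ^ (1 / (2 * 10 ^ 8) : ℝ) * x ^ (24 / 10 ^ 8 : ℝ) * x ^ (1 / (2 * 10 ^ 8) : ℝ) := by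
    rw [← Real.rpow_add hx0, ← Real.rpow_add hx0]
    norm_num
  rw [mul_pow, mul_pow, e1, e2, e3, ← mul_assoc]
  gcongr

end Crest.Agent.R012.Far

end
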