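import Crest.Agent.R012.F0

/-! # Row 12: row sums over all primary columns -/

set_option autoImplicit false

noncomputable section

open scoped BigOperators ComplexConjugate Topology
open Complex MeasureTheory Filter Crest.Agent.R017

namespace Crest.Agent.R012.Far

/-- `Finset.sum_mul_sum`; the pairs `(d, m) ∈ pbox M₁ × pbox M₂` correspond to `n = d m`,
`d ∈ pdiv n` with both cut-offs satisfied (`s4m_div`, `kap_mul_left`). -/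
theorem prw_mul {M₁ M₂ : ℝ} (h₁ : 0 ≤ M₁) (h₂ : 0 ≤ M₂) (a b : O → ℂ) (r : O) :
    prw M₁ a r * prw M₂ b r = prw (M₁ * M₂) (dc (cutM M₁ a) (cutM M₂ b)) r := by
  simp only [prw, dc, Finset.mul_sum, Finset.sum_mul]
  rw [Finset.sum_comm, ← Finset.sum_product', Finset.sum_sigma']
  refine Finset.sum_of_injOn (fun p => ⟨p.1 * p.2, p.1⟩) ?_ ?_ ?_ ?_
  · rintro ⟨d, m⟩ hp ⟨d', m'⟩ - h
    have hd := (mem_pbox.1 (Finset.mem_product.1 hp).1).1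
    obtain ⟨h3, h4⟩ := Sigma.mk.inj_iff.1 h
    obtain rfl : d = d' := eq_of_heq h4
    exact Prod.ext rfl (mul_left_cancel₀ hd.ne_zero h3)
  · rintro ⟨d, m⟩ hp
    obtain ⟨hd, hd'⟩ := mem_pbox.1 (Finset.mem_product.1 hp).1
    obtain ⟨hm, hm'⟩ := mem_pbox.1 (Finset.mem_product.1 hp).2
    refine Finset.mem_sigma.2 ⟨mem_pbox.2 ⟨hd.mul hm, ?_⟩,
      (mem_pdiv (hd.mul hm).ne_zero).2 ⟨hd, dvd_mul_right _ _⟩⟩
    rw [R017.Nr_mul]
    exact mul_le_mul hd' hm' (Nr_nonneg _) h₁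
  · rintro ⟨n, d⟩ hq hq'
    obtain ⟨hn, hd⟩ := Finset.mem_sigma.1 hq
    have hn' := (mem_pbox.1 hn).1
    obtain ⟨h3, h4⟩ := s4m_div hn' hd
    simp only [cutM]
    split_ifs with h5 h6
    · refine absurd ⟨(d, n / d), Finset.mem_product.2
        ⟨mem_pbox.2 ⟨((mem_pdiv hn'.ne_zero).1 hd).1, h5⟩,
          mem_pbox.2 ⟨((mem_pdiv hn'.ne_zero).1 h3).1, h6⟩⟩, ?_⟩ hq'
      exact Sigma.ext h4 HEq.rfl
    all_goals simp
  · rintro ⟨d, m⟩ hp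
    obtain ⟨hd, hd'⟩ := mem_pbox.1 (Finset.mem_product.1 hp).1
    obtain ⟨hm, hm'⟩ := mem_pbox.1 (Finset.mem_product.1 hp).2
    simp only [cutM]
    rw [mul_div_cancel_left₀ _ hd.ne_zero, if_pos hd', if_pos hm',
      kap_mul_left hd.ne_zero hm.ne_zero]
    ring

/-- `q_card_pdiv`. -/
theorem norm_dc_cut_le {ε : ℝ} (hε : 0 < ε) : ∃ C : ℝ, 0 ≤ C ∧ ∀ (M M₁ M₂ c₁ c₂ : ℝ) (a b : O → ℂ),
    0 ≤ c₁ → 0 ≤ c₂ → (∀ n ∈ pbox M₁, ‖a n‖ ≤ c₁) → (∀ n ∈ pbox M₂, ‖b n‖ ≤ c₂) →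
    ∀ n ∈ pbox M, ‖dc (cutM M₁ a) (cutM M₂ b) n‖ ≤ C * M ^ ε * c₁ * c₂ := by
  obtain ⟨C, hC, h⟩ := q_card_pdiv hε
  refine ⟨C, hC, fun M M₁ M₂ c₁ c₂ a b h₁ h₂ ha hb n hn => ?_⟩
  obtain ⟨hn, hn'⟩ := mem_pbox.1 hn
  have key : ∀ (M c : ℝ) (a : O → ℂ), 0 ≤ c → (∀ n ∈ pbox M, ‖a n‖ ≤ c) →
      ∀ d ∈ pdiv n, ‖cutM M a d‖ ≤ c := fun M c a hc ha d hd => by
    unfold cutM
    split_ifs with h
    · exact ha d (mem_pbox.2 ⟨((mem_pdiv hn.ne_zero).1 hd).1, h⟩)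
    · rwa [norm_zero]
  refine (norm_sum_le _ _).trans ((Finset.sum_le_card_nsmul _ _ (c₁ * c₂) fun d hd => ?_).trans ?_)
  · rw [norm_mul]
    exact mul_le_mul (key _ _ _ h₁ ha d hd) (key _ _ _ h₂ hb _ (s4m_div hn hd).1)
      (norm_nonneg _) h₁
  · rw [nsmul_eq_mul, mul_assoc (C * M ^ ε)]
    exact mul_le_mul_of_nonneg_right (h M n hn.ne_zero hn') (mul_nonneg h₁ h₂)

/-- Induction on `j` (for all `ε`), `prw_mul`, `norm_dc_cut_le`. -/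
theorem prw_pow {j : ℕ} (hj : 1 ≤ j) {ε : ℝ} (hε : 0 < ε) : ∃ C : ℝ, 0 < C ∧
    ∀ (M : ℝ) (a : O → ℂ), 1 ≤ M → (∀ n ∈ pbox M, ‖a n‖ ≤ 1) →
    ∃ b : O → ℂ, (∀ n ∈ pbox (M ^ j), ‖b n‖ ≤ C * M ^ ε) ∧ ∀ r, prw M a r ^ j = prw (M ^ j) b r := by
  induction j, hj using Nat.le_induction generalizing ε with
  | base =>
    refine ⟨1, one_pos, fun M a hM ha => ⟨a, fun n hn => ?_, fun r => by rw [pow_one, pow_one]⟩⟩
    rw [pow_one] at hn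
    rw [one_mul]
    exact (ha n hn).trans (Real.one_le_rpow hM hε.le)
  | succ j hj ih =>
    obtain ⟨C, hC, h⟩ := ih (half_pos hε)
    obtain ⟨C', hC', h'⟩ := norm_dc_cut_le (ε := ε / 2 / (j + 1 : ℕ)) (by positivity)
    refine ⟨C' * C + 1, by positivity, fun M a hM ha => ?_⟩
    have hM0 : 0 < M := by linarith
    obtain ⟨b, hb, hb'⟩ := h M a hM ha
    refine ⟨dc (cutM (M ^ j) b) (cutM M a), fun n hn => ?_, fun r => ?_⟩
    · refine (h' _ _ _ _ _ b a (by positivity) zero_le_one hb ha n hn).trans ?_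
      have e : (M ^ (j + 1)) ^ (ε / 2 / (j + 1 : ℕ)) = M ^ (ε / 2) := by
        rw [← Real.rpow_natCast, ← Real.rpow_mul hM0.le]
        congr 1
        field_simp
      have e' : M ^ ε = M ^ (ε / 2) * M ^ (ε / 2) := by rw [← Real.rpow_add hM0, add_halves]
      rw [e, e']
      have : 0 ≤ M ^ (ε / 2) * M ^ (ε / 2) := by positivity
      linarith
    · rw [pow_succ, pow_succ, hb', prw_mul (by positivity) hM0.le]

open Classical in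
theorem FB1_split (M : ℝ) (G : O → ℂ) (r : O) : prw M G r = ∑ k ∈ (pbox M).filter Pow2,
    kap k r * cr (M / Nr k) (fun n => if IsCoprime n k then G (k * n) else 0) r := by
  simp only [prw, cr, ite_mul, zero_mul, ← Finset.sum_filter, Finset.mul_sum]
  rw [Finset.sum_sigma']
  symm
  refine Finset.sum_bij (fun q _ => q.1 * q.2) ?_ ?_ ?_ ?_
  · rintro ⟨k, m⟩ hq
    simp only [Finset.mem_sigma, Finset.mem_filter, mem_pbox, q_mem_sbox] at hq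
    obtain ⟨⟨⟨h1, -⟩, -⟩, ⟨h2, -, h3⟩, -⟩ := hq
    refine mem_pbox.2 ⟨h1.mul h2, ?_⟩
    rw [R017.Nr_mul, mul_comm]
    exact (le_div_iff₀ (Nr_pos h1.ne_zero)).1 h3
  · rintro ⟨k, m⟩ hq ⟨k', m'⟩ hq' h
    simp only [Finset.mem_sigma, Finset.mem_filter, mem_pbox, q_mem_sbox] at hq hq' h
    obtain ⟨⟨⟨h1, -⟩, h2⟩, ⟨h3, h4, -⟩, h5⟩ := hq
    obtain ⟨⟨⟨h1', -⟩, h2'⟩, ⟨h3', h4', -⟩, h5'⟩ := hq'
    have h6 := (exists_sqf_pow2 (h1.mul h3)).unique (y₁ := (m, k)) (y₂ := (m', k'))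
      ⟨h3, h1, h4, h2, h5, mul_comm _ _⟩ ⟨h3', h1', h4', h2', h5', h.trans (mul_comm _ _)⟩
    obtain ⟨rfl, rfl⟩ := Prod.mk.inj h6
    rfl
  · intro n hn
    obtain ⟨hn1, hn2⟩ := mem_pbox.1 hn
    obtain ⟨⟨m, k⟩, h1, h2, h3, h4, h5, rfl⟩ := (exists_sqf_pow2 hn1).exists
    refine ⟨⟨k, m⟩, ?_, mul_comm _ _⟩
    simp only [Finset.mem_sigma, Finset.mem_filter, mem_pbox, q_mem_sbox]
    refine ⟨⟨⟨h2, (Nr_le_of_dvd hn1.ne_zero (dvd_mul_left _ _)).trans hn2⟩, h4⟩, ⟨h1, h3, ?_⟩, h5⟩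
    rw [le_div_iff₀ (Nr_pos h2.ne_zero), ← R017.Nr_mul]
    exact hn2
  · rintro ⟨k, m⟩ hq
    simp only [Finset.mem_sigma, Finset.mem_filter, mem_pbox, q_mem_sbox] at hq
    rw [kap_mul_left hq.1.1.1.ne_zero hq.2.1.1.ne_zero]
    ring

open Classical in
/-- Write `n = m k` with `m` squarefree, `k` powerful (`exists_sqf_pow2`, compare `s4e_split`):
`prw M G r = ∑_{k ∈ pbox M, Pow2 k} kap k r * cr (M / N k) (..) r`. Cauchy–Schwarz with the weights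
`N k ^ (∓(1/2 + ε/2))` and `pow2_sum_le` (twice; `N k^{-1/2 + ε/2} ≤ M^ε N k^{-(1/2 + ε/2)}`). -/
theorem sq_reduce {ε : ℝ} (hε : 0 < ε) : ∃ C : ℝ, 0 ≤ C ∧ ∀ (S : Finset O) (M E : ℝ) (G : O → ℂ),
    1 ≤ M → 0 ≤ E →
    (∀ k ∈ pbox M, ∑ r ∈ S,
      ‖cr (M / Nr k) (fun n => if IsCoprime n k then G (k * n) else 0) r‖ ^ 2 ≤ E / Nr k) →
    ∑ r ∈ S, ‖prw M G r‖ ^ 2 ≤ C * M ^ ε * E := by
  obtain ⟨C, hC⟩ := pow2_sum_le (σ := 1 / 2 + ε / 2) (by linarith)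
  refine ⟨C * C, mul_self_nonneg C, fun S M E G hM hE h => ?_⟩
  have hK : ∀ k ∈ (pbox M).filter Pow2, k ∈ pbox M ∧ 0 < Nr k ∧ Nr k ≤ M := fun k hk =>
    have h1 := (Finset.mem_filter.1 hk).1
    ⟨h1, Nr_pos (mem_pbox.1 h1).1.ne_zero, (mem_pbox.1 h1).2⟩
  have hC1 := hC ((pbox M).filter Pow2) fun k hk =>
    ⟨(mem_pbox.1 (hK k hk).1).1.ne_zero, (Finset.mem_filter.1 hk).2⟩
  have hC0 : 0 ≤ C := le_trans (Finset.sum_nonneg fun k _ => Real.rpow_nonneg (Nr_nonneg k) _) hC1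
  have h1 : ∀ r, ‖prw M G r‖ ^ 2 ≤ C * ∑ k ∈ (pbox M).filter Pow2, Nr k ^ (1 / 2 + ε / 2) *
      ‖cr (M / Nr k) (fun n => if IsCoprime n k then G (k * n) else 0) r‖ ^ 2 := fun r => by
    rw [FB1_split]
    refine (pow_le_pow_left₀ (norm_nonneg _) ((norm_sum_le _ _).trans (Finset.sum_le_sum
      (g := fun k => ‖cr (M / Nr k) (fun n => if IsCoprime n k then G (k * n) else 0) r‖)
      fun k _ => ?_)) 2).trans ?_
    · rw [norm_mul]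
      exact mul_le_of_le_one_left (norm_nonneg _) (norm_kap_le _ _)
    · refine (Finset.sum_sq_le_sum_mul_sum_of_sq_le_mul _
        (f := fun k => Nr k ^ (-(1 / 2 + ε / 2))) (fun k _ => Real.rpow_nonneg (Nr_nonneg k) _)
        (fun k _ => mul_nonneg (Real.rpow_nonneg (Nr_nonneg k) _) (sq_nonneg _))
        fun k hk => ?_).trans (mul_le_mul_of_nonneg_right hC1 (Finset.sum_nonneg fun k _ =>
          mul_nonneg (Real.rpow_nonneg (Nr_nonneg k) _) (sq_nonneg _)))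
      rw [← mul_assoc, ← Real.rpow_add (hK k hk).2.1, neg_add_cancel, Real.rpow_zero, one_mul]
  refine (Finset.sum_le_sum fun r _ => h1 r).trans ?_
  rw [← Finset.mul_sum, Finset.sum_comm, mul_assoc, mul_assoc]
  refine mul_le_mul_of_nonneg_left ?_ hC0
  refine le_trans (Finset.sum_le_sum fun k hk => ?_) (le_trans (Finset.sum_mul _ _ _).ge
    (mul_le_mul_of_nonneg_right hC1 (by positivity)))
  obtain ⟨h2, h3, h4⟩ := hK k hk
  rw [← Finset.mul_sum]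
  refine (mul_le_mul_of_nonneg_left (h k h2) (Real.rpow_nonneg h3.le _)).trans ?_
  have e : Nr k ^ (1 / 2 + ε / 2) * (E / Nr k) = Nr k ^ (-(1 / 2 + ε / 2)) * (Nr k ^ ε * E) := by
    rw [← mul_assoc, ← Real.rpow_add h3, div_eq_mul_inv E, ← Real.rpow_neg_one, mul_comm E,
      ← mul_assoc, ← Real.rpow_add h3]
    congr 2
    ring
  rw [e]
  gcongr

/-- `sq_reduce`, `LSb.mono_cols`, `cl2_le_of_bdd`. -/
theorem ls_bdd {ε : ℝ} (hε : 0 < ε) : ∃ C : ℝ, 0 ≤ C ∧ ∀ (S : Finset O) (M Λ c : ℝ) (G : O → ℂ),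
    1 ≤ M → 0 ≤ Λ → LSb S M Λ → (∀ n ∈ pbox M, ‖G n‖ ≤ c) →
    ∑ r ∈ S, ‖prw M G r‖ ^ 2 ≤ C * M ^ ε * Λ * M * c ^ 2 := by
  classical
  obtain ⟨C, hC, h⟩ := sq_reduce hε
  refine ⟨25 * C, by positivity, fun S M Λ c G hM hΛ hS hG => ?_⟩
  refine (h S M (Λ * (25 * M * c ^ 2)) G hM (by positivity) fun k hk => ?_).trans_eq (by ring)
  obtain ⟨hk1, -⟩ := mem_pbox.1 hk
  have h1 := one_le_Nr hk1.ne_zero
  have h2 : 0 < Nr k := by linarith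
  refine (hS.mono_cols (div_le_self (by linarith) h1) _).trans ?_
  refine (mul_le_mul_of_nonneg_left (cl2_le_of_bdd (c := c) (by positivity) fun b hb => ?_)
    hΛ).trans_eq (by ring)
  obtain ⟨hb1, -, hb2⟩ := q_mem_sbox.1 hb
  have h3 := hG (k * b) (mem_pbox.2 ⟨hk1.mul hb1, by
    rw [R017.Nr_mul, mul_comm]
    exact (le_div_iff₀ h2).1 hb2⟩)
  split_ifs
  · exact h3
  · rw [norm_zero]
    exact (norm_nonneg _).trans h3

end Crest.Agent.R012.Far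

end
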