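import Crest.Agent.R012.FB1

/-! # Row 12: moments from the large sieve -/

set_option autoImplicit false

noncomputable section

open scoped BigOperators ComplexConjugate Topology
open Complex MeasureTheory Filter Crest.Agent.R017

namespace Crest.Agent.R012.Far

/-- The difference is the sum over `N n > Y x^ε` (`summable_sm`, `Summable.sum_add_tsum_compl` or
`tsum_eq_sum`), `tsum_W_tail`. -/
theorem sm_trunc {a ε : ℝ} (ha : 0 < a) (hε : 0 < ε) (A B : ℝ) (hA : 0 ≤ A) : ∃ C : ℝ, 0 ≤ C ∧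
    ∀ (f : O → ℂ) (K x Y τ : ℝ) (r : O), 1 ≤ x → 0 < Y → Y ≤ x →
    (∀ n, Prim n → ‖f n‖ ≤ K * Nr n ^ A) →
    ‖sm a (fun n => f n * kap n r) Y τ - prw (Y * x ^ ε) (wc a Y τ f) r‖ ≤ C * K * x ^ (-B) := by
  classical
  obtain ⟨C, hC⟩ := tsum_W_tail ha hε A B hA
  refine ⟨max C 0, le_max_right _ _, fun f K x Y τ r hx hY hYx hf => ?_⟩
  have hK : 0 ≤ K := by
    have h := hf 1 prim_one
    rw [R017.Nr_one, Real.one_rpow, mul_one] at h
    exact (norm_nonneg _).trans h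
  have hc : ∀ n, Prim n → ‖f n * kap n r‖ ≤ K * Nr n ^ A := fun n hn => by
    rw [norm_mul]
    exact (mul_le_of_le_one_right (norm_nonneg _) (norm_kap_le _ _)).trans (hf n hn)
  set g : O → ℂ := fun n => if Prim n then f n * kap n r * (Nr n : ℂ) ^ (-(τ * I)) *
    (W a (Nr n / Y) : ℂ) else 0 with hg
  have hs : Summable g := summable_sm ha hY hc τ
  have h1 : prw (Y * x ^ ε) (wc a Y τ f) r = ∑ n ∈ pbox (Y * x ^ ε), g n :=
    Finset.sum_congr rfl fun n hn => by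
      simp only [hg, wc, if_pos (mem_pbox.1 hn).1]; ring
  set t : O → ℝ := fun n => if n ≠ 0 ∧ (Nr n ≤ Y * x ^ (-ε) ∨ Y * x ^ ε ≤ Nr n) then
    Nr n ^ A * W a (Nr n / Y) else 0 with ht
  have ht0 : ∀ n, 0 ≤ t n := fun n => by
    have hp := Real.rpow_nonneg (Nr_nonneg n) A
    have hw := (W_pos a (Nr n / Y)).le
    simp only [ht]; split_ifs <;> positivity
  have hts : Summable t := Summable.of_nonneg_of_le ht0 (fun n => by
    have hp := Real.rpow_nonneg (Nr_nonneg n) A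
    have hw := (W_pos a (Nr n / Y)).le
    simp only [ht]
    split_ifs with h1 h2
    · exact absurd h2 h1.1
    · exact le_rfl
    · exact le_rfl
    · positivity) (summable_W ha hY A)
  have h2 : sm a (fun n => f n * kap n r) Y τ - ∑ n ∈ pbox (Y * x ^ ε), g n =
      ∑' n, if n ∈ pbox (Y * x ^ ε) then 0 else g n := by
    have h3 : ∑ n ∈ pbox (Y * x ^ ε), g n = ∑' n, if n ∈ pbox (Y * x ^ ε) then g n else 0 := by
      rw [tsum_eq_sum (s := pbox (Y * x ^ ε)) fun n hn => if_neg hn]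
      exact Finset.sum_congr rfl fun n hn => (if_pos hn).symm
    have h4 : Summable fun n => if n ∈ pbox (Y * x ^ ε) then g n else 0 :=
      summable_of_ne_finset_zero (s := pbox (Y * x ^ ε)) fun n hn => if_neg hn
    rw [h3, show sm a (fun n => f n * kap n r) Y τ = ∑' n, g n from rfl, ← hs.tsum_sub h4]
    refine tsum_congr fun n => ?_
    split_ifs <;> simp
  rw [h1, h2]
  have h5 : ∀ n, ‖(if n ∈ pbox (Y * x ^ ε) then 0 else g n)‖ ≤ K * t n := fun n => by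
    have h6 := mul_nonneg hK (ht0 n)
    split_ifs with hn
    · rwa [norm_zero]
    · by_cases hp : Prim n
      · have h7 : Y * x ^ ε ≤ Nr n := le_of_lt (not_le.1 fun h => hn (mem_pbox.2 ⟨hp, h⟩))
        simp only [hg, ht, if_pos hp, if_pos (And.intro hp.ne_zero (Or.inr h7))]
        rw [w2_norm_term (c := fun n => f n * kap n r) hp, ← mul_assoc]
        exact mul_le_mul_of_nonneg_right (hc n hp) (W_pos _ _).le
      · simpa only [hg, if_neg hp, norm_zero] using h6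
  refine (tsum_of_norm_bounded (hts.mul_left K).hasSum h5).trans ?_
  rw [tsum_mul_left, mul_comm (max C 0), mul_assoc]
  exact mul_le_mul_of_nonneg_left ((hC x Y hx hY hYx).trans
    (mul_le_mul_of_nonneg_right (le_max_left _ _) (by positivity))) hK

theorem fb2_split (u v : ℂ) (k : ℕ) : ‖u‖ ^ k ≤ 2 ^ k * (‖v‖ ^ k + ‖u - v‖ ^ k) := by
  have h1 : ‖u‖ ≤ ‖v‖ + ‖u - v‖ := by
    simpa using norm_add_le v (u - v)
  refine (pow_le_pow_left₀ (norm_nonneg _) h1 k).trans ((add_pow_le (norm_nonneg _)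
    (norm_nonneg _) k).trans (mul_le_mul_of_nonneg_right ?_ (by positivity)))
  exact pow_le_pow_right₀ one_le_two (Nat.sub_le _ _)

theorem fb2_err {x c : ℝ} (hx : 1 ≤ x) (hc : 0 ≤ c) {S : Finset O} (hS : (S.card : ℝ) ≤ x ^ 2)
    {k : ℕ} (hk : 2 ≤ k) {e : O → ℝ} (h0 : ∀ r, 0 ≤ e r) (he : ∀ r, e r ≤ c * x ^ (-1 : ℝ)) :
    ∑ r ∈ S, e r ^ k ≤ c ^ k := by
  have hx0 : 0 < x := by linarith
  have h1 : ∀ r ∈ S, e r ^ k ≤ c ^ k * (x⁻¹) ^ 2 := fun r _ => by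
    refine (pow_le_pow_left₀ (h0 r) (he r) k).trans ?_
    rw [Real.rpow_neg_one, mul_pow]
    exact mul_le_mul_of_nonneg_left (pow_le_pow_of_le_one (by positivity)
      (inv_le_one_of_one_le₀ hx) hk) (by positivity)
  refine (Finset.sum_le_card_nsmul _ _ _ h1).trans ?_
  rw [nsmul_eq_mul]
  calc (S.card : ℝ) * (c ^ k * (x⁻¹) ^ 2) ≤ x ^ 2 * (c ^ k * (x⁻¹) ^ 2) := by gcongr
    _ = c ^ k := by field_simp

/-- `sm_trunc` (`B = 1`), `(u + v)^{2j} ≤ 2^{2j} (u^{2j} + v^{2j})` (`add_pow_le`), `prw_pow`,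
`norm_wc_le`, `ls_bdd` (with exponents `ε / (4 j (1 + ε))`, as `Y x^ε ≤ x^{1+ε}`). -/
theorem mom_LS {a ε : ℝ} (ha : 0 < a) (hε : 0 < ε) {j : ℕ} (hj : 1 ≤ j) : ∃ C : ℝ, 0 ≤ C ∧
    ∀ (S : Finset O) (f : O → ℂ) (x Y τ Λ : ℝ), 1 ≤ x → 0 < Y → Y ≤ x → 1 ≤ Y * x ^ ε →
    (S.card : ℝ) ≤ x ^ 2 → 0 ≤ Λ → (∀ n, Prim n → ‖f n‖ ≤ 1) → LSb S ((Y * x ^ ε) ^ j) Λ →
    ∑ r ∈ S, ‖sm a (fun n => f n * kap n r) Y τ‖ ^ (2 * j) ≤
      C * (x ^ ε * Λ * (Y * x ^ ε) ^ j + 1) := by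
  obtain ⟨C₁, hC₁, h₁⟩ := sm_trunc ha hε 0 1 le_rfl
  have hj0 : (0 : ℝ) < j := by exact_mod_cast hj
  set η : ℝ := ε / ((j + 2) * (1 + ε)) with hη
  have hη0 : 0 < η := by positivity
  obtain ⟨C₂, hC₂, h₂⟩ := prw_pow hj hη0
  obtain ⟨C₃, hC₃, h₃⟩ := ls_bdd hη0
  refine ⟨2 ^ (2 * j) * (C₃ * C₂ ^ 2 + C₁ ^ (2 * j)), by positivity,
    fun S f x Y τ Λ hx hY hYx hM hS hΛ hf hL => ?_⟩
  set M := Y * x ^ ε with hMd
  have hx0 : 0 < x := by linarith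
  have hM0 : 0 < M := by linarith
  obtain ⟨b, hb, hb'⟩ := h₂ M (wc a Y τ f) hM fun n hn =>
    (norm_wc_le ha Y τ f (mem_pbox.1 hn).1).trans (hf n (mem_pbox.1 hn).1)
  have h4 := h₃ S (M ^ j) Λ (C₂ * M ^ η) b (one_le_pow₀ hM) hΛ hL hb
  have h5 : ∑ r ∈ S, ‖sm a (fun n => f n * kap n r) Y τ - prw M (wc a Y τ f) r‖ ^ (2 * j) ≤
      C₁ ^ (2 * j) := fb2_err hx hC₁ hS (by omega) (fun _ => norm_nonneg _) fun r => by
    simpa only [mul_one] using h₁ f 1 x Y τ r hx hY hYx fun n hn => by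
      rw [Real.rpow_zero, mul_one]; exact hf n hn
  have h6 : (M ^ j) ^ η * (M ^ η) ^ 2 ≤ x ^ ε := by
    have e1 : (M ^ j) ^ η * (M ^ η) ^ 2 = M ^ ((j + 2) * η) := by
      rw [← Real.rpow_natCast, ← Real.rpow_natCast, ← Real.rpow_mul hM0.le, ← Real.rpow_mul hM0.le,
        ← Real.rpow_add hM0]
      congr 1; push_cast; ring
    have e2 : M ≤ x ^ (1 + ε) := by
      rw [Real.rpow_add hx0, Real.rpow_one]
      exact mul_le_mul_of_nonneg_right hYx (by positivity)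
    rw [e1]
    refine (Real.rpow_le_rpow hM0.le e2 (by positivity)).trans (le_of_eq ?_)
    rw [← Real.rpow_mul hx0.le]
    congr 1; rw [hη]; field_simp
  have h7 : ∑ r ∈ S, ‖prw M (wc a Y τ f) r‖ ^ (2 * j) ≤ C₃ * C₂ ^ 2 * (x ^ ε * Λ * M ^ j) := by
    calc _ = ∑ r ∈ S, ‖prw (M ^ j) b r‖ ^ 2 := Finset.sum_congr rfl fun r _ => by
          rw [← hb', norm_pow, ← pow_mul, mul_comm]
      _ ≤ _ := h4
      _ = C₃ * C₂ ^ 2 * (((M ^ j) ^ η * (M ^ η) ^ 2) * Λ * M ^ j) := by ring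
      _ ≤ _ := by gcongr
  refine (Finset.sum_le_sum fun r _ => fb2_split _ (prw M (wc a Y τ f) r) _).trans ?_
  rw [← Finset.mul_sum, Finset.sum_add_distrib, mul_assoc (2 ^ (2 * j))]
  refine mul_le_mul_of_nonneg_left ((add_le_add h7 h5).trans ?_) (by positivity)
  have h8 : 0 ≤ x ^ ε * Λ * M ^ j := by positivity
  have h9 : 0 ≤ C₃ * C₂ ^ 2 := by positivity
  have h10 : 0 ≤ C₁ ^ (2 * j) := by positivity
  nlinarith [mul_nonneg h10 h8]

/-- The prime sums from the large sieve alone: `sm_trunc` (`a = 4`, `Y = x`, `A = 1`, `B = 1`,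
`f = Lp * az l`), `ls_bdd` with `c = log (x^{1+ε}) ≤ C x^{ε/2}`. -/
theorem easy_LS {ε : ℝ} (hε : 0 < ε) (l : ℤ) : ∃ C : ℝ, 0 ≤ C ∧ ∀ (S : Finset O) (x τ Λ : ℝ),
    1 ≤ x → (S.card : ℝ) ≤ x ^ 2 → 1 ≤ Λ → LSb S (x ^ (1 + ε)) Λ →
    ∑ r ∈ S, ‖Pr l x τ r‖ ^ 2 ≤ C * x ^ (1 + 3 * ε) * Λ := by
  obtain ⟨C₁, hC₁, h₁⟩ := sm_trunc (a := 4) (by norm_num) hε 1 1 zero_le_one
  set η : ℝ := ε / (1 + ε) with hη
  have hη0 : 0 < η := by positivity
  obtain ⟨C₃, hC₃, h₃⟩ := ls_bdd hη0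
  refine ⟨2 ^ 2 * (C₃ * (2 / η) ^ 2 + C₁ ^ 2), by positivity, fun S x τ Λ hx hS hΛ hL => ?_⟩
  have hx0 : 0 < x := by linarith
  have eM : x * x ^ ε = x ^ (1 + ε) := by rw [Real.rpow_add hx0, Real.rpow_one]
  set M := x ^ (1 + ε) with hMd
  have hM : 1 ≤ M := Real.one_le_rpow hx (by linarith)
  have hM0 : 0 < M := by linarith
  have hf : ∀ n, Prim n → ‖Lp n * az l n‖ ≤ Real.log (Nr n) := fun n hn => by
    rw [norm_mul]
    exact (mul_le_of_le_one_right (norm_nonneg _) (norm_az_le _ _)).trans (norm_Lp_le hn.ne_zero)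
  have h5 : ∑ r ∈ S, ‖Pr l x τ r - prw M (wc 4 x τ fun n => Lp n * az l n) r‖ ^ 2 ≤ C₁ ^ 2 :=
    fb2_err hx hC₁ hS le_rfl (fun _ => norm_nonneg _) fun r => by
      have h := h₁ (fun n => Lp n * az l n) 1 x x τ r hx hx0 le_rfl fun n hn => by
        rw [Real.rpow_one, one_mul]
        exact (hf n hn).trans ((Real.log_le_sub_one_of_pos (Nr_pos hn.ne_zero)).trans (by linarith))
      rw [eM, mul_one] at h
      exact h
  have h4 := h₃ S M Λ (M ^ (η / 2) / (η / 2)) (wc 4 x τ fun n => Lp n * az l n) hM (by linarith) hL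
    fun n hn => (norm_wc_le (by norm_num) x τ _ (mem_pbox.1 hn).1).trans
      ((hf n (mem_pbox.1 hn).1).trans ((Real.log_le_log (Nr_pos (mem_pbox.1 hn).1.ne_zero)
        (mem_pbox.1 hn).2).trans (Real.log_le_rpow_div hM0.le (by positivity))))
  have h6 : M ^ η * M * (M ^ (η / 2)) ^ 2 = x ^ (1 + 3 * ε) := by
    have e1 : M ^ η = x ^ ε := by
      rw [hMd, ← Real.rpow_mul hx0.le]; congr 1; rw [hη]; field_simp
    have e2 : (M ^ (η / 2)) ^ 2 = M ^ η := by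
      rw [← Real.rpow_natCast, ← Real.rpow_mul hM0.le]; congr 1; push_cast; ring
    rw [e2, e1, hMd, ← Real.rpow_add hx0, ← Real.rpow_add hx0]
    congr 1; ring
  have h7 : ∑ r ∈ S, ‖prw M (wc 4 x τ fun n => Lp n * az l n) r‖ ^ 2 ≤
      C₃ * (2 / η) ^ 2 * (x ^ (1 + 3 * ε) * Λ) := by
    refine h4.trans (le_of_eq ?_)
    rw [← h6]; field_simp
  refine (Finset.sum_le_sum fun r _ => fb2_split _ (prw M (wc 4 x τ fun n => Lp n * az l n) r) _).trans ?_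
  rw [← Finset.mul_sum, Finset.sum_add_distrib, mul_assoc, mul_assoc]
  refine mul_le_mul_of_nonneg_left ((add_le_add h7 h5).trans ?_) (by positivity)
  have h8 : 1 ≤ x ^ (1 + 3 * ε) * Λ := one_le_mul_of_one_le_of_one_le
    (Real.one_le_rpow hx (by linarith)) hΛ
  have h10 : 0 ≤ C₁ ^ 2 := by positivity
  nlinarith [mul_le_mul_of_nonneg_left h8 h10]

end Crest.Agent.R012.Far

end
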