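import Crest.Agent.R012.FB2

/-! # Row 12: moments from the large sieve -/

set_option autoImplicit false

noncomputable section

open scoped BigOperators ComplexConjugate Topology
open Complex MeasureTheory Filter Crest.Agent.R017

namespace Crest.Agent.R012.Far

theorem fb3_pow {x M δ : ℝ} (hx : 1 ≤ x) (hM : 0 ≤ M) (hδ : 0 ≤ δ) (k : ℕ) (h : M ≤ x ^ k) :
    M ^ δ ≤ (x ^ δ) ^ k := by
  have hx0 : 0 ≤ x := by linarith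
  calc M ^ δ ≤ (x ^ k) ^ δ := Real.rpow_le_rpow hM h hδ
    _ = (x ^ δ) ^ k := by
      rw [← Real.rpow_natCast, ← Real.rpow_mul hx0, mul_comm, Real.rpow_mul hx0, Real.rpow_natCast]

theorem fb3_small {ε : ℝ} (hε : 0 < ε) (k : ℕ) : ∃ δ : ℝ, 0 < δ ∧ ∀ x : ℝ, 1 ≤ x →
    1 ≤ x ^ δ ∧ x ^ δ ≤ x ∧ (x ^ δ) ^ k ≤ x ^ ε := by
  refine ⟨min 1 (ε / (k + 1)), lt_min one_pos (by positivity), fun x hx => ⟨?_, ?_, ?_⟩⟩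
  · exact Real.one_le_rpow hx (le_min zero_le_one (by positivity))
  · simpa using Real.rpow_le_rpow_of_exponent_le hx (min_le_left 1 (ε / (k + 1)))
  · rw [← Real.rpow_natCast, ← Real.rpow_mul (by linarith)]
    refine Real.rpow_le_rpow_of_exponent_le hx ?_
    have h1 : min 1 (ε / (k + 1)) * (k : ℝ) ≤ ε / (k + 1) * (k + 1) :=
      mul_le_mul (min_le_right _ _) (by linarith) (by positivity) (by positivity)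
    rwa [div_mul_cancel₀ _ (by positivity)] at h1

theorem fb3_ls {δ : ℝ} (hδ : 0 < δ) : ∃ C : ℝ, 0 ≤ C ∧ ∀ (G : O → ℂ) (x R M c : ℝ),
    1 ≤ R → R ≤ x → 1 ≤ M → M ≤ x ^ 4 → (∀ n ∈ pbox M, ‖G n‖ ≤ c) →
    ∑ r ∈ box R, ‖prw M G r‖ ^ 2 ≤ C * (x ^ δ) ^ 9 * (M * Xi R M) * c ^ 2 := by
  obtain ⟨C1, hC1, h1⟩ := ls_bdd hδ
  obtain ⟨C2, hC2, h2⟩ := cls_all' hδ
  refine ⟨C1 * C2, by positivity, fun G x R M c hR hRx hM hMx hG => ?_⟩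
  have hx : 1 ≤ x := hR.trans hRx
  have hXi : 0 ≤ Xi R M := Xi_nonneg (by linarith) (by linarith)
  have h3 := h1 (box R) M (C2 * (R * M) ^ δ * Xi R M) c G hM (by positivity) (h2 R M hR hM) hG
  have h4 : M ^ δ ≤ (x ^ δ) ^ 4 := fb3_pow hx (by linarith) hδ.le 4 hMx
  have h5 : (R * M) ^ δ ≤ (x ^ δ) ^ 5 := by
    refine fb3_pow hx (by positivity) hδ.le 5 ?_
    calc R * M ≤ x * x ^ 4 := by gcongr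
      _ = x ^ 5 := by ring
  refine h3.trans ?_
  calc C1 * M ^ δ * (C2 * (R * M) ^ δ * Xi R M) * M * c ^ 2
      ≤ C1 * (x ^ δ) ^ 4 * (C2 * (x ^ δ) ^ 5 * Xi R M) * M * c ^ 2 := by gcongr
    _ = _ := by ring

theorem fb3_coef {f : O → ℂ} (hf : ∀ n, Prim n → ‖f n‖ ≤ 1) (r : O) :
    ∀ n, Prim n → ‖f n * kap n r‖ ≤ 1 := fun n hn => by
  rw [norm_mul]
  exact mul_le_one₀ (hf n hn) (norm_nonneg _) (norm_kap_le _ _)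

theorem fb3_sm {a : ℝ} (ha : 0 < a) : ∃ C : ℝ, 0 ≤ C ∧ ∀ (f : O → ℂ) (Y τ : ℝ) (r : O), 0 < Y →
    (∀ n, Prim n → ‖f n‖ ≤ 1) → ‖sm a (fun n => f n * kap n r) Y τ‖ ≤ C * Y := by
  obtain ⟨C, h⟩ := norm_sm_le ha 1
  refine ⟨max C 0, le_max_right _ _, fun f Y τ r hY hf => ?_⟩
  have := h _ Y τ hY (fb3_coef hf r) (Or.inl le_rfl)
  rw [Real.rpow_one] at this
  exact this.trans (mul_le_mul_of_nonneg_right (le_max_left _ _) hY.le)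

theorem fb3_split {S : Finset O} {s p : O → ℂ} {E : ℝ} (h : ∀ r ∈ S, ‖s r - p r‖ ≤ E) :
    ∑ r ∈ S, ‖s r‖ ^ 2 ≤ 2 * ∑ r ∈ S, ‖p r‖ ^ 2 + 2 * (S.card * E ^ 2) := by
  rw [Finset.mul_sum, ← nsmul_eq_mul, ← Finset.sum_const, Finset.mul_sum, ← Finset.sum_add_distrib]
  refine Finset.sum_le_sum fun r hr => ?_
  have h1 : ‖s r‖ ≤ ‖p r‖ + E := by
    calc ‖s r‖ = ‖p r + (s r - p r)‖ := by congr 1; ring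
      _ ≤ ‖p r‖ + ‖s r - p r‖ := norm_add_le _ _
      _ ≤ _ := by linarith [h r hr]
  have h2 : ‖s r‖ ^ 2 ≤ (‖p r‖ + E) ^ 2 := pow_le_pow_left₀ (norm_nonneg _) h1 2
  nlinarith [sq_nonneg (‖p r‖ - E)]

theorem fb3_wc {a : ℝ} (ha : 0 < a) (Y τ M : ℝ) {f : O → ℂ} (hf : ∀ n, Prim n → ‖f n‖ ≤ 1) :
    ∀ n ∈ pbox M, ‖wc a Y τ f n‖ ≤ 1 := fun n hn =>
  (norm_wc_le ha Y τ f (mem_pbox.1 hn).1).trans (hf n (mem_pbox.1 hn).1)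

theorem fb3_trunc {a δ : ℝ} (ha : 0 < a) (hδ : 0 < δ) : ∃ C : ℝ, 0 ≤ C ∧
    ∀ (f : O → ℂ) (x Y τ : ℝ) (r : O), 1 ≤ x → 0 < Y → Y ≤ x → (∀ n, Prim n → ‖f n‖ ≤ 1) →
    ‖sm a (fun n => f n * kap n r) Y τ - prw (Y * x ^ δ) (wc a Y τ f) r‖ ≤ C * x⁻¹ := by
  obtain ⟨C, hC, h⟩ := sm_trunc ha hδ 0 1 le_rfl
  refine ⟨C, hC, fun f x Y τ r hx hY hYx hf => ?_⟩
  have := h f 1 x Y τ r hx hY hYx (fun n hn => by simpa using hf n hn)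
  rwa [mul_one, Real.rpow_neg_one] at this


/-- For `Y ≤ 1` use `norm_sm_le` (`σ = 1`), `card_box_le`, `le_Xi`. Otherwise `sm_trunc`, `ls_bdd`,
`cls_all'`, `Xi_mul_le`. -/
theorem mom1 {a ε : ℝ} (ha : 0 < a) (hε : 0 < ε) : ∃ C : ℝ, 0 ≤ C ∧
    ∀ (f : O → ℂ) (x R Y τ : ℝ), 1 ≤ R → R ≤ x → 0 < Y → Y ≤ x → (∀ n, Prim n → ‖f n‖ ≤ 1) →
    ∑ r ∈ box R, ‖sm a (fun n => f n * kap n r) Y τ‖ ^ 2 ≤ C * x ^ ε * (Y * Xi R Y) := by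
  obtain ⟨δ, hδ, hy⟩ := fb3_small hε 11
  obtain ⟨C1, hC1, h1⟩ := fb3_sm ha
  obtain ⟨C2, hC2, h2⟩ := fb3_trunc ha hδ
  obtain ⟨C3, hC3, h3⟩ := fb3_ls hδ
  refine ⟨25 * C1 ^ 2 + 2 * C3 + 50 * C2 ^ 2, by positivity,
    fun f x R Y τ hR hRx hY hYx hf => ?_⟩
  have hx : 1 ≤ x := hR.trans hRx
  obtain ⟨y1, y2, y3⟩ := hy x hx
  have hxε : 1 ≤ x ^ ε := Real.one_le_rpow hx hε.le
  have hXi : R ≤ Xi R Y := le_Xi (by linarith) hY.le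
  have hXi0 : 0 ≤ Xi R Y := by linarith
  have hcard : ((box R).card : ℝ) ≤ 25 * R := card_box_le (by linarith)
  have hP : 0 ≤ x ^ ε * (Y * Xi R Y) := by positivity
  rcases le_total Y 1 with hY1 | hY1
  · calc ∑ r ∈ box R, ‖sm a (fun n => f n * kap n r) Y τ‖ ^ 2
        ≤ ∑ _r ∈ box R, (C1 * Y) ^ 2 := Finset.sum_le_sum fun r _ =>
          pow_le_pow_left₀ (norm_nonneg _) (h1 f Y τ r hY hf) 2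
      _ = (box R).card * (C1 * Y) ^ 2 := by rw [Finset.sum_const, nsmul_eq_mul]
      _ ≤ 25 * R * (C1 * Y) ^ 2 := by gcongr
      _ = 25 * C1 ^ 2 * (Y * (Y * R)) := by ring
      _ ≤ 25 * C1 ^ 2 * (x ^ ε * (Y * Xi R Y)) := by gcongr; linarith
      _ ≤ _ := by nlinarith [mul_nonneg hC3 hP, mul_nonneg (sq_nonneg C2) hP]
  · set y := x ^ δ with hy
    have hM1 : 1 ≤ Y * y := one_le_mul_of_one_le_of_one_le hY1 y1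
    have hM4 : Y * y ≤ x ^ 4 := by
      calc Y * y ≤ x * x := by gcongr
        _ = x ^ 2 := by ring
        _ ≤ x ^ 4 := pow_le_pow_right₀ hx (by norm_num)
    have h4 := h3 (wc a Y τ f) x R (Y * y) 1 hR hRx hM1 hM4 (fb3_wc ha Y τ _ hf)
    have h5 := fb3_split (S := box R) (s := fun r => sm a (fun n => f n * kap n r) Y τ)
      (p := fun r => prw (Y * y) (wc a Y τ f) r) (E := C2) fun r _ =>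
        (h2 f x Y τ r hx hY hYx hf).trans
          (mul_le_of_le_one_right hC2 (inv_le_one_of_one_le₀ hx))
    have h6 : Xi R (Y * y) ≤ y * Xi R Y := Xi_mul_le (by linarith) hY.le y1
    have h7 : C3 * y ^ 9 * (Y * y * Xi R (Y * y)) * 1 ^ 2 ≤ C3 * (x ^ ε * (Y * Xi R Y)) := by
      calc C3 * y ^ 9 * (Y * y * Xi R (Y * y)) * 1 ^ 2
          ≤ C3 * y ^ 9 * (Y * y * (y * Xi R Y)) * 1 ^ 2 := by gcongr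
        _ = C3 * (y ^ 11 * (Y * Xi R Y)) := by ring
        _ ≤ _ := by gcongr
    have h8 : ((box R).card : ℝ) * C2 ^ 2 ≤ 25 * C2 ^ 2 * (x ^ ε * (Y * Xi R Y)) := by
      calc ((box R).card : ℝ) * C2 ^ 2 ≤ 25 * R * C2 ^ 2 := by gcongr
        _ = 25 * C2 ^ 2 * (1 * (1 * R)) := by ring
        _ ≤ _ := by gcongr
    nlinarith [mul_nonneg (sq_nonneg C1) hP]

theorem fb3_mom2_small {a₁ a₂ ε : ℝ} (ha₁ : 0 < a₁) (ha₂ : 0 < a₂) (hε : 0 < ε) : ∃ C : ℝ, 0 ≤ C ∧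
    ∀ (f₁ f₂ : O → ℂ) (x R Y₁ Y₂ τ₁ τ₂ : ℝ), 1 ≤ R → R ≤ x → 0 < Y₁ → Y₁ ≤ 1 → 0 < Y₂ → Y₂ ≤ x →
    (∀ n, Prim n → ‖f₁ n‖ ≤ 1) → (∀ n, Prim n → ‖f₂ n‖ ≤ 1) →
    ∑ r ∈ box R, ‖sm a₁ (fun n => f₁ n * kap n r) Y₁ τ₁ * sm a₂ (fun n => f₂ n * kap n r) Y₂ τ₂‖ ^ 2 ≤
      C * x ^ ε * (Y₁ * Y₂ * Xi R (Y₁ * Y₂)) := by
  obtain ⟨C1, hC1, h1⟩ := fb3_sm ha₁
  obtain ⟨C2, hC2, h2⟩ := mom1 ha₂ hε
  refine ⟨C1 ^ 2 * C2, by positivity,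
    fun f₁ f₂ x R Y₁ Y₂ τ₁ τ₂ hR hRx hY₁ hY₁1 hY₂ hY₂x hf₁ hf₂ => ?_⟩
  have hx : 0 < x := by linarith
  have h3 := h2 f₂ x R Y₂ τ₂ hR hRx hY₂ hY₂x hf₂
  have h4 : Xi R Y₂ ≤ Y₁⁻¹ * Xi R (Y₁ * Y₂) := by
    have := Xi_mul_le (R := R) (M := Y₁ * Y₂) (y := Y₁⁻¹) (by linarith) (by positivity)
      (one_le_inv₀ hY₁ |>.2 hY₁1)
    rwa [show Y₁ * Y₂ * Y₁⁻¹ = Y₂ by field_simp] at this
  calc ∑ r ∈ box R, ‖sm a₁ (fun n => f₁ n * kap n r) Y₁ τ₁ *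
          sm a₂ (fun n => f₂ n * kap n r) Y₂ τ₂‖ ^ 2
      ≤ ∑ r ∈ box R, (C1 * Y₁) ^ 2 * ‖sm a₂ (fun n => f₂ n * kap n r) Y₂ τ₂‖ ^ 2 := by
        refine Finset.sum_le_sum fun r _ => ?_
        rw [norm_mul, mul_pow]
        exact mul_le_mul_of_nonneg_right
          (pow_le_pow_left₀ (norm_nonneg _) (h1 f₁ Y₁ τ₁ r hY₁ hf₁) 2) (sq_nonneg _)
    _ = (C1 * Y₁) ^ 2 * ∑ r ∈ box R, ‖sm a₂ (fun n => f₂ n * kap n r) Y₂ τ₂‖ ^ 2 := by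
        rw [Finset.mul_sum]
    _ ≤ (C1 * Y₁) ^ 2 * (C2 * x ^ ε * (Y₂ * (Y₁⁻¹ * Xi R (Y₁ * Y₂)))) := by
        refine mul_le_mul_of_nonneg_left (h3.trans ?_) (sq_nonneg _)
        gcongr
    _ = _ := by field_simp

/-- If `Y₁ ≤ 1`: `‖sm a₁ ..‖ ≤ C Y₁` (`norm_sm_le`), `mom1` and
`Xi R Y₂ ≤ Y₁⁻¹ Xi R (Y₁ Y₂)` (`Xi_mul_le`); symmetrically if `Y₂ ≤ 1`. Otherwise `sm_trunc` for both
factors (`s₁ s₂ - p₁ p₂ = (s₁ - p₁) s₂ + p₁ (s₂ - p₂)`, `‖s₂‖, ‖p₁‖ ≤ C x`), `prw_mul`,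
`norm_dc_cut_le`, `ls_bdd`, `cls_all'`, `Xi_mul_le`. -/
theorem mom2 {a₁ a₂ ε : ℝ} (ha₁ : 0 < a₁) (ha₂ : 0 < a₂) (hε : 0 < ε) : ∃ C : ℝ, 0 ≤ C ∧
    ∀ (f₁ f₂ : O → ℂ) (x R Y₁ Y₂ τ₁ τ₂ : ℝ), 1 ≤ R → R ≤ x → 0 < Y₁ → Y₁ ≤ x → 0 < Y₂ → Y₂ ≤ x →
    (∀ n, Prim n → ‖f₁ n‖ ≤ 1) → (∀ n, Prim n → ‖f₂ n‖ ≤ 1) →
    ∑ r ∈ box R, ‖sm a₁ (fun n => f₁ n * kap n r) Y₁ τ₁ * sm a₂ (fun n => f₂ n * kap n r) Y₂ τ₂‖ ^ 2 ≤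
      C * x ^ ε * (Y₁ * Y₂ * Xi R (Y₁ * Y₂)) := by
  obtain ⟨δ, hδ, hy⟩ := fb3_small hε 21
  obtain ⟨A1, hA1, s1⟩ := fb3_mom2_small ha₁ ha₂ hε
  obtain ⟨A2, hA2, s2⟩ := fb3_mom2_small ha₂ ha₁ hε
  obtain ⟨B1, hB1, b1⟩ := fb3_sm ha₁
  obtain ⟨B2, hB2, b2⟩ := fb3_sm ha₂
  obtain ⟨C1, hC1, t1⟩ := fb3_trunc ha₁ hδ
  obtain ⟨C2, hC2, t2⟩ := fb3_trunc ha₂ hδ
  obtain ⟨C3, hC3, h3⟩ := fb3_ls hδ
  obtain ⟨C4, hC4, h4⟩ := norm_dc_cut_le hδ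
  set E := C1 * B2 + (B1 + C1) * C2 with hE
  refine ⟨A1 + A2 + (2 * (C3 * C4 ^ 2) + 50 * E ^ 2), by positivity,
    fun f₁ f₂ x R Y₁ Y₂ τ₁ τ₂ hR hRx hY₁ hY₁x hY₂ hY₂x hf₁ hf₂ => ?_⟩
  have hx : 1 ≤ x := hR.trans hRx
  have hx0 : 0 < x := by linarith
  obtain ⟨y1, y2, y3⟩ := hy x hx
  have hxε : 1 ≤ x ^ ε := Real.one_le_rpow hx hε.le
  have hXi : R ≤ Xi R (Y₁ * Y₂) := le_Xi (by linarith) (by positivity)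
  have hXi0 : 0 ≤ Xi R (Y₁ * Y₂) := by linarith
  have hcard : ((box R).card : ℝ) ≤ 25 * R := card_box_le (by linarith)
  have hP : 0 ≤ x ^ ε * (Y₁ * Y₂ * Xi R (Y₁ * Y₂)) := by positivity
  have hD : 0 ≤ 2 * (C3 * C4 ^ 2) + 50 * E ^ 2 := by positivity
  rcases le_total Y₁ 1 with hY1 | hY1
  · refine (s1 f₁ f₂ x R Y₁ Y₂ τ₁ τ₂ hR hRx hY₁ hY1 hY₂ hY₂x hf₁ hf₂).trans ?_
    gcongr
    linarith
  rcases le_total Y₂ 1 with hY2 | hY2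
  · have := s2 f₂ f₁ x R Y₂ Y₁ τ₂ τ₁ hR hRx hY₂ hY2 hY₁ hY₁x hf₂ hf₁
    simp only [mul_comm (sm a₂ _ Y₂ τ₂), mul_comm Y₂ Y₁] at this
    refine this.trans ?_
    gcongr
    linarith
  set y := x ^ δ with hy
  have hY12 : 1 ≤ Y₁ * Y₂ := one_le_mul_of_one_le_of_one_le hY1 hY2
  have hyy : 1 ≤ y * y := one_le_mul_of_one_le_of_one_le y1 y1
  have eM : Y₁ * y * (Y₂ * y) = Y₁ * Y₂ * (y * y) := by ring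
  have hM1 : 1 ≤ Y₁ * y * (Y₂ * y) := by
    rw [eM]; exact one_le_mul_of_one_le_of_one_le hY12 hyy
  have hM4 : Y₁ * y * (Y₂ * y) ≤ x ^ 4 := by
    calc Y₁ * y * (Y₂ * y) ≤ x * x * (x * x) := by gcongr
      _ = x ^ 4 := by ring
  have hc : ∀ n ∈ pbox (Y₁ * y * (Y₂ * y)),
      ‖dc (cutM (Y₁ * y) (wc a₁ Y₁ τ₁ f₁)) (cutM (Y₂ * y) (wc a₂ Y₂ τ₂ f₂)) n‖ ≤ C4 * y ^ 4 := by
    intro n hn
    have := h4 _ _ _ 1 1 _ _ zero_le_one zero_le_one (fb3_wc ha₁ Y₁ τ₁ (Y₁ * y) hf₁)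
      (fb3_wc ha₂ Y₂ τ₂ (Y₂ * y) hf₂) n hn
    rw [mul_one, mul_one] at this
    exact this.trans (mul_le_mul_of_nonneg_left (fb3_pow hx (by linarith) hδ.le 4 hM4) hC4)
  have h5 := h3 _ x R _ _ hR hRx hM1 hM4 hc
  have h6 := fb3_split (S := box R)
    (s := fun r => sm a₁ (fun n => f₁ n * kap n r) Y₁ τ₁ * sm a₂ (fun n => f₂ n * kap n r) Y₂ τ₂)
    (p := fun r => prw (Y₁ * y * (Y₂ * y))
      (dc (cutM (Y₁ * y) (wc a₁ Y₁ τ₁ f₁)) (cutM (Y₂ * y) (wc a₂ Y₂ τ₂ f₂))) r) (E := E) (by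
      intro r _
      rw [← prw_mul (by positivity) (by positivity)]
      have u1 := t1 f₁ x Y₁ τ₁ r hx hY₁ hY₁x hf₁
      have u2 := t2 f₂ x Y₂ τ₂ r hx hY₂ hY₂x hf₂
      have v1 := b1 f₁ Y₁ τ₁ r hY₁ hf₁
      have v2 := b2 f₂ Y₂ τ₂ r hY₂ hf₂
      rw [← hy] at u1 u2
      set s₁ := sm a₁ (fun n => f₁ n * kap n r) Y₁ τ₁
      set s₂ := sm a₂ (fun n => f₂ n * kap n r) Y₂ τ₂
      set p₁ := prw (Y₁ * y) (wc a₁ Y₁ τ₁ f₁) r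
      set p₂ := prw (Y₂ * y) (wc a₂ Y₂ τ₂ f₂) r
      have w2 : ‖s₂‖ ≤ B2 * x := v2.trans (by gcongr)
      have hxi : x⁻¹ ≤ x := (inv_le_one_of_one_le₀ hx).trans hx
      have w1 : ‖p₁‖ ≤ (B1 + C1) * x := by
        calc ‖p₁‖ = ‖s₁ - (s₁ - p₁)‖ := by congr 1; ring
          _ ≤ ‖s₁‖ + ‖s₁ - p₁‖ := norm_sub_le _ _
          _ ≤ B1 * x + C1 * x := add_le_add (v1.trans (by gcongr)) (u1.trans (by gcongr))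
          _ = _ := by ring
      calc ‖s₁ * s₂ - p₁ * p₂‖ = ‖(s₁ - p₁) * s₂ + p₁ * (s₂ - p₂)‖ := by congr 1; ring
        _ ≤ ‖s₁ - p₁‖ * ‖s₂‖ + ‖p₁‖ * ‖s₂ - p₂‖ := by
          rw [← norm_mul, ← norm_mul]; exact norm_add_le _ _
        _ ≤ (C1 * x⁻¹) * (B2 * x) + ((B1 + C1) * x) * (C2 * x⁻¹) := by gcongr
        _ = E := by rw [hE]; field_simp)
  have h7 : Xi R (Y₁ * y * (Y₂ * y)) ≤ y * y * Xi R (Y₁ * Y₂) := by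
    rw [eM]; exact Xi_mul_le (by linarith) (by positivity) hyy
  have h8 : C3 * y ^ 9 * (Y₁ * y * (Y₂ * y) * Xi R (Y₁ * y * (Y₂ * y))) * (C4 * y ^ 4) ^ 2 ≤
      C3 * C4 ^ 2 * (x ^ ε * (Y₁ * Y₂ * Xi R (Y₁ * Y₂))) := by
    calc C3 * y ^ 9 * (Y₁ * y * (Y₂ * y) * Xi R (Y₁ * y * (Y₂ * y))) * (C4 * y ^ 4) ^ 2
        ≤ C3 * y ^ 9 * (Y₁ * y * (Y₂ * y) * (y * y * Xi R (Y₁ * Y₂))) * (C4 * y ^ 4) ^ 2 := by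
          gcongr
      _ = C3 * C4 ^ 2 * (y ^ 21 * (Y₁ * Y₂ * Xi R (Y₁ * Y₂))) := by ring
      _ ≤ _ := by gcongr
  have h9 : ((box R).card : ℝ) * E ^ 2 ≤ 25 * E ^ 2 * (x ^ ε * (Y₁ * Y₂ * Xi R (Y₁ * Y₂))) := by
    calc ((box R).card : ℝ) * E ^ 2 ≤ 25 * R * E ^ 2 := by gcongr
      _ = 25 * E ^ 2 * (1 * (1 * R)) := by ring
      _ ≤ _ := by gcongr
  nlinarith [mul_nonneg hA1 hP, mul_nonneg hA2 hP]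

end Crest.Agent.R012.Far

end
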