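import Crest.Agent.R012.FB1

/-! # Row 12: the bilinear structure in the dual sum -/

set_option autoImplicit false

noncomputable section

open scoped BigOperators ComplexConjugate Topology
open Complex MeasureTheory Filter Crest.Agent.R017

namespace Crest.Agent.R012.Far

/-- `h = k y³` with `k ∈ box Z`, `y ∈ box ((H / N k)^{1/3})`; `card_box_le`, `sum_box_rpow_le`. -/
theorem card_near : ∃ C : ℝ, 0 ≤ C ∧ ∀ H Z : ℝ, 0 ≤ H → 1 ≤ Z →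
    (((box H).filter (fun h => Near Z h)).card : ℝ) ≤ C * H ^ (1 / 3 : ℝ) * Z ^ (2 / 3 : ℝ) := by
  classical
  obtain ⟨C, hC⟩ := sum_box_rpow_le (σ := 1 / 3) (by norm_num)
  refine ⟨25 * |C|, by positivity, fun H Z hH hZ => ?_⟩
  have hsub : (box H).filter (fun h => Near Z h) ⊆ (box Z).biUnion fun k =>
      (box ((H / Nr k) ^ (1 / 3 : ℝ))).image fun y => k * y ^ 3 := by
    intro h hh
    obtain ⟨hb, k, y, rfl, hk⟩ := Finset.mem_filter.1 hh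
    obtain ⟨h0, h1⟩ := mem_box.1 hb
    have hk0 : k ≠ 0 := left_ne_zero_of_mul h0
    have hy0 : y ≠ 0 := fun e => h0 (by simp [e])
    refine Finset.mem_biUnion.2 ⟨k, mem_box.2 ⟨hk0, hk⟩,
      Finset.mem_image.2 ⟨y, mem_box.2 ⟨hy0, ?_⟩, rfl⟩⟩
    rw [Nr_mul, Nr_pow] at h1
    have h2 : Nr y ^ 3 ≤ H / Nr k := by
      rw [le_div_iff₀ (Nr_pos hk0), mul_comm]
      exact h1
    calc Nr y = (Nr y ^ 3) ^ (1 / 3 : ℝ) := by
          rw [← Real.rpow_natCast, ← Real.rpow_mul (Nr_nonneg y)]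
          norm_num
      _ ≤ _ := Real.rpow_le_rpow (pow_nonneg (Nr_nonneg y) _) h2 (by norm_num)
  have h1 : (((box H).filter (fun h => Near Z h)).card : ℝ) ≤
      ∑ k ∈ box Z, 25 * H ^ (1 / 3 : ℝ) * Nr k ^ (-(1 / 3 : ℝ)) := by
    have a1 := (Finset.card_le_card hsub).trans Finset.card_biUnion_le
    have a2 : (((box H).filter (fun h => Near Z h)).card : ℝ) ≤ ∑ k ∈ box Z,
        (((box ((H / Nr k) ^ (1 / 3 : ℝ))).image fun y => k * y ^ 3).card : ℝ) := by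
      exact_mod_cast a1
    refine a2.trans (Finset.sum_le_sum fun k _ => ?_)
    have a3 : (((box ((H / Nr k) ^ (1 / 3 : ℝ))).image fun y => k * y ^ 3).card : ℝ) ≤
        (box ((H / Nr k) ^ (1 / 3 : ℝ))).card := by exact_mod_cast Finset.card_image_le
    refine a3.trans ((card_box_le (Real.rpow_nonneg (div_nonneg hH (Nr_nonneg k)) _)).trans
      (le_of_eq ?_))
    rw [Real.div_rpow hH (Nr_nonneg k), Real.rpow_neg (Nr_nonneg k), div_eq_mul_inv, mul_assoc]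
  refine h1.trans ?_
  rw [← Finset.mul_sum]
  have h2 := hC Z hZ
  rw [show (1 : ℝ) - 1 / 3 = 2 / 3 by norm_num] at h2
  have h3 : C * Z ^ (2 / 3 : ℝ) ≤ |C| * Z ^ (2 / 3 : ℝ) :=
    mul_le_mul_of_nonneg_right (le_abs_self C) (by positivity)
  calc _ ≤ 25 * H ^ (1 / 3 : ℝ) * (|C| * Z ^ (2 / 3 : ℝ)) :=
        mul_le_mul_of_nonneg_left (h2.trans h3) (by positivity)
    _ = _ := by ring

open Classical in
/-- The coefficients of the dual sum. -/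
def gb (G : O → ℂ) (c : O) (s : ℂ) (n : O) : ℂ :=
  if IsCoprime n c then conj (G (c * n) * g3 n) * (Nr n : ℂ) ^ s else 0

/-- Cauchy–Schwarz in `m`, `cls'`. -/
theorem bil_kap {ε : ℝ} (hε : 0 < ε) : ∃ C : ℝ, 0 ≤ C ∧ ∀ (L₁ L₂ : ℝ) (A B : O → ℂ), 1 ≤ L₁ → 1 ≤ L₂ →
    ‖∑ m ∈ sbox L₁, ∑ n ∈ sbox L₂, A m * B n * kap n m‖ ^ 2 ≤
      C * (L₁ * L₂) ^ ε * (L₁ + L₂ + (L₁ * L₂) ^ (2 / 3 : ℝ)) * (cl2 L₁ A * cl2 L₂ B) := by
  obtain ⟨C, hC, h⟩ := cls' hε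
  refine ⟨C, hC, fun L₁ L₂ A B h1 h2 => ?_⟩
  have e : ∑ m ∈ sbox L₁, ∑ n ∈ sbox L₂, A m * B n * kap n m = ∑ m ∈ sbox L₁, A m * cr L₂ B m := by
    refine Finset.sum_congr rfl fun m _ => ?_
    rw [cr, Finset.mul_sum]
    exact Finset.sum_congr rfl fun n _ => mul_assoc _ _ _
  have a1 : ‖∑ m ∈ sbox L₁, A m * cr L₂ B m‖ ≤ ∑ m ∈ sbox L₁, ‖A m‖ * ‖cr L₂ B m‖ :=
    (norm_sum_le _ _).trans (Finset.sum_le_sum fun m _ => (norm_mul _ _).le)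
  rw [e]
  refine (pow_le_pow_left₀ (norm_nonneg _) a1 2).trans
    ((Finset.sum_mul_sq_le_sq_mul_sq _ _ _).trans ?_)
  have a2 := mul_le_mul_of_nonneg_left (h L₁ L₂ h1 h2 B) (cl2_nonneg L₁ A)
  refine le_trans a2 (le_of_eq ?_)
  ring

/-- `norm_g3`, `s4d_cpow`, `N n^{2σ - 1} ≤ L^{2ε} / N n`, `q_sum_inv`. -/
theorem gb_l2 {ε : ℝ} (hε : 0 < ε) : ∃ C : ℝ, 0 ≤ C ∧ ∀ (L c₀ σ t : ℝ) (G : O → ℂ) (c : O), 1 ≤ L →
    Prim c → 0 < σ → σ ≤ ε → (∀ n ∈ pbox L, ‖G n‖ ≤ c₀) →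
    cl2 (L / Nr c) (gb G c (((σ - 1 / 2 : ℝ) : ℂ) + t * I)) ≤ C * L ^ (3 * ε) * c₀ ^ 2 := by
  obtain ⟨C, hC, h⟩ := q_sum_inv hε
  refine ⟨C, hC, fun L c₀ σ t G c hL hc hσ hσε hG => ?_⟩
  have hc1 : 1 ≤ Nr c := one_le_Nr hc.ne_zero
  have hL0 : 0 < L := by linarith
  have hle : L / Nr c ≤ L := div_le_self hL0.le hc1
  have h1 : ∀ n ∈ sbox (L / Nr c), ‖gb G c (((σ - 1 / 2 : ℝ) : ℂ) + t * I) n‖ ^ 2 ≤
      L ^ (2 * ε) * c₀ ^ 2 * (Nr n)⁻¹ := by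
    intro n hn
    obtain ⟨hp, hs, hN⟩ := q_mem_sbox.1 hn
    have hn0 := Nr_pos hp.ne_zero
    have hn1 := one_le_Nr hp.ne_zero
    unfold gb
    split_ifs
    · have a1 : ‖G (c * n)‖ ≤ c₀ := hG _ (mem_pbox.2 ⟨hc.mul hp, by
        rw [Nr_mul]
        rw [le_div_iff₀ (by linarith), mul_comm] at hN
        exact hN⟩)
      rw [norm_mul, RCLike.norm_conj, norm_mul, norm_g3 hp.not_lam_dvd hs, mul_one,
        s4d_cpow hp.ne_zero, mul_pow]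
      have a2 : (Nr n ^ (σ - 1 / 2)) ^ 2 = Nr n ^ (2 * σ) * (Nr n)⁻¹ := by
        rw [← Real.rpow_natCast, ← Real.rpow_mul hn0.le, ← Real.rpow_neg_one, ← Real.rpow_add hn0]
        congr 1
        push_cast
        ring
      have a3 : Nr n ^ (2 * σ) ≤ L ^ (2 * ε) :=
        (Real.rpow_le_rpow hn0.le (hN.trans hle) (by linarith)).trans
          (Real.rpow_le_rpow_of_exponent_le hL (by linarith))
      have a4 := pow_le_pow_left₀ (norm_nonneg _) a1 2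
      rw [a2]
      calc _ ≤ c₀ ^ 2 * (L ^ (2 * ε) * (Nr n)⁻¹) := by gcongr
        _ = _ := by ring
    · rw [norm_zero, zero_pow two_ne_zero]
      positivity
  refine (Finset.sum_le_sum h1).trans ?_
  rw [← Finset.mul_sum]
  have h2 : ∑ n ∈ sbox (L / Nr c), (Nr n)⁻¹ ≤ C * L ^ ε :=
    (Finset.sum_le_sum_of_subset_of_nonneg ((sbox_subset_box _).trans (box_mono hle))
      fun n _ _ => inv_nonneg.2 (Nr_nonneg n)).trans (h L hL)
  have h3 : L ^ (3 * ε) = L ^ (2 * ε) * L ^ ε := by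
    rw [← Real.rpow_add hL0]
    congr 1
    ring
  calc _ ≤ L ^ (2 * ε) * c₀ ^ 2 * (C * L ^ ε) := mul_le_mul_of_nonneg_left h2 (by positivity)
    _ = _ := by rw [h3]; ring

end Crest.Agent.R012.Far

end
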