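import Crest.Agent.R012.FC1

/-! # Row 12: the bilinear structure in the dual sum -/

set_option autoImplicit false

noncomputable section

open scoped BigOperators ComplexConjugate Topology
open Complex MeasureTheory Filter Crest.Agent.R017

namespace Crest.Agent.R012.Far

theorem fc1b_bij {L₁ L₂ M : ℝ} {F : O → O → ℂ} (hF : ∀ m n, Prim m → Prim n → F m n ≠ 0 →
    Nr m ≤ L₁ ∧ Nr n ≤ L₂ ∧ IsCoprime m n ∧ Nr (m * n) ≤ M) :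
    ∑ n ∈ sbox M, ∑ d ∈ pdiv n, F d (n / d) = ∑ m ∈ sbox L₁, ∑ n ∈ sbox L₂, F m n := by
  rw [Finset.sum_sigma', ← Finset.sum_product']
  refine (Finset.sum_bij_ne_zero (fun x _ _ => ⟨x.1 * x.2, x.1⟩) ?_ ?_ ?_ ?_).symm
  · rintro ⟨m, n⟩ hx h0
    obtain ⟨h1, h2⟩ := Finset.mem_product.1 hx
    obtain ⟨a1, a2, -⟩ := q_mem_sbox.1 h1
    obtain ⟨b1, b2, -⟩ := q_mem_sbox.1 h2
    obtain ⟨-, -, c1, c2⟩ := hF m n a1 b1 h0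
    exact Finset.mem_sigma.2 ⟨q_mem_sbox.2 ⟨a1.mul b1,
      squarefree_mul_iff.2 ⟨c1.isRelPrime, a2, b2⟩, c2⟩,
      (mem_pdiv (a1.mul b1).ne_zero).2 ⟨a1, dvd_mul_right _ _⟩⟩
  · rintro ⟨m, n⟩ hx - ⟨m', n'⟩ - - e
    obtain ⟨e1, e2⟩ := Sigma.mk.inj_iff.1 e
    have e3 : m = m' := eq_of_heq e2
    subst e3
    have h0 := (q_mem_sbox.1 (Finset.mem_product.1 hx).1).1.ne_zero
    exact Prod.ext rfl (mul_left_cancel₀ h0 e1)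
  · rintro ⟨n, d⟩ hx h0
    obtain ⟨h1, h2⟩ := Finset.mem_sigma.1 hx
    dsimp only at h0 h1 h2
    obtain ⟨a1, a2, -⟩ := q_mem_sbox.1 h1
    obtain ⟨b1, e, rfl⟩ := (mem_pdiv a1.ne_zero).1 h2
    have b2 : Prim e := b1.of_mul a1
    simp only [mul_div_cancel_left₀ _ b1.ne_zero] at h0
    obtain ⟨c1, c2, -⟩ := hF d e b1 b2 h0
    exact ⟨(d, e), Finset.mem_product.2 ⟨q_mem_sbox.2 ⟨b1, a2.of_mul_left, c1⟩,
      q_mem_sbox.2 ⟨b2, a2.of_mul_right, c2⟩⟩, h0, rfl⟩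
  · rintro ⟨m, n⟩ hx -
    have h0 := (q_mem_sbox.1 (Finset.mem_product.1 hx).1).1.ne_zero
    simp only [mul_div_cancel_left₀ _ h0]

open Classical in
/-- The coefficients of the bilinear form. -/
def fc1bA (a : O → ℂ) (c c₁ h : O) (s : ℂ) (n : O) : ℂ :=
  if IsCoprime n c then conj (a (c₁ * n) * g3 n) * (Nr n : ℂ) ^ s * kap n h else 0

theorem fc1b_term (a b : O → ℂ) (c c₁ c₂ h : O) (s : ℂ) {m n : O} (hm : Prim m) (hn : Prim n)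
    (hmn : IsCoprime m n) (hc : IsCoprime (m * n) c) :
    conj (a (c₁ * m) * b (c₂ * n) * g3 (m * n)) * (Nr (m * n) : ℂ) ^ s * kap (m * n) h =
      fc1bA a c c₁ h s m * fc1bA b c c₂ h s n * kap n m := by
  have h0 : kap n m ≠ 0 := fun h0 =>
    ((kap_eq_zero hn.ne_zero).1 h0).elim hn.not_lam_dvd fun h => h hmn.symm
  have h3 := kap_cube h0
  rw [fc1bA, fc1bA, if_pos hc.of_mul_left_left, if_pos hc.of_mul_left_right,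
    g3_mul hm.not_lam_dvd hn.not_lam_dvd hmn, cubic_recip hm hn, R017.Nr_mul, ofReal_mul,
    mul_cpow_ofReal_nonneg (R017.Nr_nonneg _) (R017.Nr_nonneg _),
    kap_mul_left hm.ne_zero hn.ne_zero]
  simp only [map_mul, conj_kap]
  linear_combination (conj (a (c₁ * m)) * conj (b (c₂ * n)) * conj (g3 m) * conj (g3 n) *
    (Nr m : ℂ) ^ s * (Nr n : ℂ) ^ s * kap m h * kap n h * kap n m) * h3

theorem fc1b_ne {L : ℝ} {α : O → ℂ} {c c₁ h n : O} {s : ℂ} (h0 : fc1bA (cutM L α) c c₁ h s n ≠ 0) :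
    Nr (c₁ * n) ≤ L := by
  by_contra h1
  simp [fc1bA, cutM, h1] at h0

theorem fc1b_eq (L₁ L₂ : ℝ) (α β : O → ℂ) {c : O} (hc : Prim c) (h : O) (s : ℂ) :
    cr (L₁ * L₂ / Nr c) (gb (dc (cutM L₁ α) (cutM L₂ β)) c s) h =
      ∑ c₁ ∈ pdiv c, ∑ m ∈ sbox L₁, ∑ n ∈ sbox L₂,
        fc1bA (cutM L₁ α) c c₁ h s m * fc1bA (cutM L₂ β) c (c / c₁) h s n * kap n m := by
  have e1 : ∀ c₁ ∈ pdiv c, ∑ m ∈ sbox L₁, ∑ n ∈ sbox L₂,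
      fc1bA (cutM L₁ α) c c₁ h s m * fc1bA (cutM L₂ β) c (c / c₁) h s n * kap n m =
      ∑ n ∈ sbox (L₁ * L₂ / Nr c), ∑ d ∈ pdiv n,
        fc1bA (cutM L₁ α) c c₁ h s d * fc1bA (cutM L₂ β) c (c / c₁) h s (n / d) * kap (n / d) d := by
    intro c₁ hc₁
    obtain ⟨b1, c₂, rfl⟩ := (mem_pdiv hc.ne_zero).1 hc₁
    have b2 : Prim c₂ := b1.of_mul hc
    rw [mul_div_cancel_left₀ _ b1.ne_zero]
    refine (fc1b_bij (F := fun m n => fc1bA (cutM L₁ α) (c₁ * c₂) c₁ h s m *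
      fc1bA (cutM L₂ β) (c₁ * c₂) c₂ h s n * kap n m) fun m n hm hn h0 => ?_).symm
    have h1 := fc1b_ne (left_ne_zero_of_mul (left_ne_zero_of_mul h0))
    have h2 := fc1b_ne (right_ne_zero_of_mul (left_ne_zero_of_mul h0))
    have h3 : IsCoprime n m := by_contra fun h3 =>
      right_ne_zero_of_mul h0 ((kap_eq_zero hn.ne_zero).2 (Or.inr h3))
    refine ⟨(Nr_le_of_dvd (b1.mul hm).ne_zero (dvd_mul_left _ _)).trans h1,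
      (Nr_le_of_dvd (b2.mul hn).ne_zero (dvd_mul_left _ _)).trans h2, h3.symm, ?_⟩
    rw [le_div_iff₀ (Nr_pos hc.ne_zero), ← R017.Nr_mul,
      show m * n * (c₁ * c₂) = c₁ * m * (c₂ * n) by ring, R017.Nr_mul]
    exact mul_le_mul h1 h2 (R017.Nr_nonneg _) ((R017.Nr_nonneg _).trans h1)
  rw [Finset.sum_congr rfl e1, Finset.sum_comm, cr]
  refine Finset.sum_congr rfl fun n hn => ?_
  obtain ⟨a1, a2, -⟩ := q_mem_sbox.1 hn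
  by_cases hnc : IsCoprime n c
  · rw [gb, if_pos hnc, dc, q_sum_pdiv_mul hc a1 hnc.symm]
    simp only [Finset.sum_mul, map_sum]
    refine Finset.sum_congr rfl fun c₁ hc₁ => Finset.sum_congr rfl fun d hd => ?_
    obtain ⟨b1, c₂, rfl⟩ := (mem_pdiv hc.ne_zero).1 hc₁
    obtain ⟨d1, e, rfl⟩ := (mem_pdiv a1.ne_zero).1 hd
    rw [mul_div_cancel_left₀ _ b1.ne_zero, mul_div_cancel_left₀ _ d1.ne_zero,
      show c₁ * c₂ * (d * e) = c₁ * d * (c₂ * e) by ring,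
      mul_div_cancel_left₀ _ (b1.mul d1).ne_zero]
    exact fc1b_term _ _ _ _ _ _ _ d1 (d1.of_mul a1) (squarefree_mul_iff.1 a2).1.isCoprime hnc
  · rw [gb, if_neg hnc, zero_mul]
    refine (Finset.sum_eq_zero fun c₁ _ => Finset.sum_eq_zero fun d hd => ?_).symm
    obtain ⟨d1, e, rfl⟩ := (mem_pdiv a1.ne_zero).1 hd
    rw [mul_div_cancel_left₀ _ d1.ne_zero]
    by_cases h1 : IsCoprime d c
    · have h2 : ¬ IsCoprime e c := fun h2 => hnc (h1.mul_left h2)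
      simp [fc1bA, h2]
    · simp [fc1bA, h1]

theorem fc1b_l2 {ε : ℝ} (hε : 0 < ε) : ∃ C : ℝ, 0 ≤ C ∧ ∀ (L σ t : ℝ) (α : O → ℂ) (c c₁ h : O),
    1 ≤ L → Prim c₁ → 0 < σ → σ ≤ ε → (∀ n ∈ pbox L, ‖α n‖ ≤ 1) →
    cl2 L (fc1bA (cutM L α) c c₁ h (((σ - 1 / 2 : ℝ) : ℂ) + t * I)) ≤ C * L ^ (3 * ε) := by
  obtain ⟨C, hC, H⟩ := gb_l2 hε
  refine ⟨C, hC, fun L σ t α c c₁ h hL hc hσ hσ' hα => ?_⟩
  have h1 := H L 1 σ t (fun n => cutM L α (c₁ * n)) 1 hL prim_one hσ hσ' fun n hn => by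
    rw [cutM]
    split_ifs with h2
    · exact hα _ (mem_pbox.2 ⟨hc.mul (mem_pbox.1 hn).1, h2⟩)
    · simp
  rw [R017.Nr_one, div_one, one_pow, mul_one] at h1
  refine (cl2_le fun n _ => ?_).trans h1
  rw [fc1bA, gb, if_pos isCoprime_one_right, one_mul]
  split_ifs
  · rw [norm_mul]
    exact mul_le_of_le_one_right (norm_nonneg _) (norm_kap_le _ _)
  · rw [norm_zero]; exact norm_nonneg _

/-- If `N c > L₁ L₂` the sum is empty. For `n` prime to `c` the divisors of `c n` are `c₁ n₁`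
(`q_sum_pdiv_mul`), and `c n / (c₁ n₁) = (c / c₁) (n / n₁)`. So the sum is
`∑_{c₁ ∈ pdiv c} ∑_{n₁ ∈ sbox L₁} ∑_{n₂ ∈ sbox L₂} A(n₁) B(n₂) kap n₂ n₁` with
`A(n₁) = [n₁ prime to c] conj (cutM L₁ α (c₁ n₁) g3 n₁) N n₁^s kap n₁ h` and `B` similarly:
`g3_mul`, `cubic_recip`, `conj_kap` give `conj (g3 (n₁ n₂)) = conj (g3 n₁ g3 n₂) kap n₂ n₁` for coprime
`n₁, n₂`; `kap n₂ n₁ = 0` otherwise (`kap_eq_zero`), and `N (n₁ n₂) ≤ L₁ L₂ / N c` follows from the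
cut-offs. Then `bil_kap`, `cl2 ≤ C L^{3ε}` as in `gb_l2`, `q_card_pdiv`. -/
theorem gb_bil {ε : ℝ} (hε : 0 < ε) : ∃ C : ℝ, 0 ≤ C ∧ ∀ (L₁ L₂ σ t : ℝ) (α β : O → ℂ) (c h : O),
    1 ≤ L₁ → 1 ≤ L₂ → Prim c → 0 < σ → σ ≤ ε → (∀ n ∈ pbox L₁, ‖α n‖ ≤ 1) →
    (∀ n ∈ pbox L₂, ‖β n‖ ≤ 1) →
    ‖cr (L₁ * L₂ / Nr c) (gb (dc (cutM L₁ α) (cutM L₂ β)) c (((σ - 1 / 2 : ℝ) : ℂ) + t * I)) h‖ ^ 2 ≤
      C * (L₁ * L₂) ^ (10 * ε) * (L₁ + L₂ + (L₁ * L₂) ^ (2 / 3 : ℝ)) := by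
  obtain ⟨C₁, hC₁, H₁⟩ := bil_kap hε
  obtain ⟨C₂, hC₂, H₂⟩ := fc1b_l2 hε
  obtain ⟨C₃, hC₃, H₃⟩ := q_card_pdiv hε
  refine ⟨C₃ ^ 2 * C₁ * C₂ ^ 2, by positivity, fun L₁ L₂ σ t α β c h h1 h2 hc hσ hσ' hα hβ => ?_⟩
  have hL : 1 ≤ L₁ * L₂ := one_le_mul_of_one_le_of_one_le h1 h2
  have hL0 : 0 < L₁ * L₂ := by linarith
  have hK : 0 ≤ L₁ + L₂ + (L₁ * L₂) ^ (2 / 3 : ℝ) := by positivity
  by_cases hN : Nr c ≤ L₁ * L₂
  swap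
  · have : sbox (L₁ * L₂ / Nr c) = ∅ := Finset.subset_empty.1 ((sbox_subset_box _).trans
      (box_eq_empty ((div_lt_one (Nr_pos hc.ne_zero)).2 (not_le.1 hN))).subset)
    rw [cr, this, Finset.sum_empty, norm_zero, zero_pow two_ne_zero]
    positivity
  rw [fc1b_eq _ _ _ _ hc]
  refine (pow_le_pow_left₀ (norm_nonneg _) (norm_sum_le _ _) 2).trans
    (sq_sum_le_card_mul_sum_sq.trans ?_)
  have h3 := H₃ _ c hc.ne_zero hN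
  have h4 := Finset.sum_le_card_nsmul (pdiv c) _
    (C₁ * (L₁ * L₂) ^ ε * (L₁ + L₂ + (L₁ * L₂) ^ (2 / 3 : ℝ)) *
      (C₂ * L₁ ^ (3 * ε) * (C₂ * L₂ ^ (3 * ε)))) fun c₁ hc₁ => by
    obtain ⟨b1, c₂, e⟩ := (mem_pdiv hc.ne_zero).1 hc₁
    have b2 : Prim (c / c₁) := by
      rw [e, mul_div_cancel_left₀ _ b1.ne_zero]
      exact b1.of_mul (e ▸ hc)
    exact (H₁ L₁ L₂ _ _ h1 h2).trans (mul_le_mul_of_nonneg_left (mul_le_mul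
      (H₂ L₁ σ t α c c₁ h h1 b1 hσ hσ' hα) (H₂ L₂ σ t β c (c / c₁) h h2 b2 hσ hσ' hβ)
      (cl2_nonneg _ _) (by positivity)) (by positivity))
  rw [nsmul_eq_mul] at h4
  have h5 : (L₁ * L₂) ^ ε * (L₁ * L₂) ^ ε * (L₁ * L₂) ^ ε * (L₁ ^ (3 * ε) * L₂ ^ (3 * ε)) ≤
      (L₁ * L₂) ^ (10 * ε) := by
    rw [← Real.mul_rpow (x := L₁) (y := L₂) (by linarith) (by linarith), ← Real.rpow_add hL0, ← Real.rpow_add hL0,
      ← Real.rpow_add hL0]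
    exact Real.rpow_le_rpow_of_exponent_le hL (by linarith)
  calc _ ≤ C₃ * (L₁ * L₂) ^ ε * (C₃ * (L₁ * L₂) ^ ε *
        (C₁ * (L₁ * L₂) ^ ε * (L₁ + L₂ + (L₁ * L₂) ^ (2 / 3 : ℝ)) *
          (C₂ * L₁ ^ (3 * ε) * (C₂ * L₂ ^ (3 * ε))))) :=
        mul_le_mul h3 (h4.trans (by gcongr)) (by positivity) (by positivity)
    _ = C₃ ^ 2 * C₁ * C₂ ^ 2 * ((L₁ * L₂) ^ ε * (L₁ * L₂) ^ ε * (L₁ * L₂) ^ ε *
        (L₁ ^ (3 * ε) * L₂ ^ (3 * ε))) * (L₁ + L₂ + (L₁ * L₂) ^ (2 / 3 : ℝ)) := by ring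
    _ ≤ _ := by gcongr

end Crest.Agent.R012.Far

end
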