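import Crest.Agent.R012.FC2a
import Crest.Agent.R012.FB2

/-! # Row 12: a large sieve with a saving for products -/

set_option autoImplicit false

noncomputable section

open scoped BigOperators ComplexConjugate Topology
open Complex MeasureTheory Filter Crest.Agent.R017

namespace Crest.Agent.R012.Far

open Classical in
theorem fc2_coef {M : ℝ} {k d : O} (hd : d ∈ sbox M) (hdk : IsCoprime d k) (G : O → ℂ) (s : ℂ)
    (h : O) :
    cr (M / Nr d) (fun n => if d * n ∈ sbox M then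
      conj ((if IsCoprime (d * n) k then G (k * (d * n)) else 0) * g3 n) * (Nr n : ℂ) ^ s else 0) h =
    cr (M / Nr d) (gb G (k * d) s) h := by
  refine Finset.sum_congr rfl fun n hn => ?_
  congr 1
  obtain ⟨d1, d2, -⟩ := q_mem_sbox.1 hd
  obtain ⟨n1, n2, n3⟩ := q_mem_sbox.1 hn
  have hN : Nr (d * n) ≤ M := by
    rw [R017.Nr_mul, mul_comm]
    exact (le_div_iff₀ (Nr_pos d1.ne_zero)).1 n3
  have e1 : d * n ∈ sbox M ↔ IsCoprime n d := by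
    rw [q_mem_sbox, squarefree_mul_iff, isRelPrime_iff_isCoprime, isCoprime_comm (x := d)]
    exact ⟨fun h => h.2.1.1, fun h => ⟨d1.mul n1, ⟨h, d2, n2⟩, hN⟩⟩
  have e2 : IsCoprime (d * n) k ↔ IsCoprime n k := by
    rw [IsCoprime.mul_left_iff]
    exact ⟨fun h => h.2, fun h => ⟨hdk, h⟩⟩
  simp only [gb, e1, e2, IsCoprime.mul_right_iff, mul_assoc]
  by_cases h1 : IsCoprime n d <;> by_cases h2 : IsCoprime n k <;> simp [h1, h2]

open Classical in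
theorem fc2_coef0 {M : ℝ} {k d : O} (hdk : ¬ IsCoprime d k) (G : O → ℂ) (s : ℂ) (h : O) :
    cr (M / Nr d) (fun n => if d * n ∈ sbox M then
      conj ((if IsCoprime (d * n) k then G (k * (d * n)) else 0) * g3 n) * (Nr n : ℂ) ^ s else 0) h =
    0 := by
  refine Finset.sum_eq_zero fun n _ => ?_
  have e2 : ¬ IsCoprime (d * n) k := fun h => hdk h.of_mul_left_left
  simp [e2]

theorem fc2_KT {K : ℝ} (hK : 0 < K) (u v : ℝ) :
    K * (K ^ (-(2 / 3) : ℝ) * u + K ^ (-(1 / 3) : ℝ) * v) =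
      K ^ (1 / 3 : ℝ) * u + K ^ (2 / 3 : ℝ) * v := by
  have h1 : K * K ^ (-(2 / 3) : ℝ) = K ^ (1 / 3 : ℝ) := by
    rw [mul_comm, ← Real.rpow_add_one hK.ne']
    norm_num
  have h2 : K * K ^ (-(1 / 3) : ℝ) = K ^ (2 / 3 : ℝ) := by
    rw [mul_comm, ← Real.rpow_add_one hK.ne']
    norm_num
  rw [mul_add, ← mul_assoc, ← mul_assoc, h1, h2]

/-- `prw_mul`, `sq_reduce`, then for each `k` `fin_pstep'` (small `ε₁ ≤ 1/2`) with `R = K`,
`M = L / N k`; for `d ∈ sbox M` the dual coefficients vanish unless `d` is prime to `k`, and then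
they agree on `sbox (L / N (k d))` with `gb G (k d) s`; `lemB_dual` with `y = (K M)^{ε₁}`,
`c = k d`; `∑_d N d^{-7/6}` is bounded (`summable_Nr_rpow`), `N k^{-7/6} ≤ N k⁻¹`;
`cl2_le_of_bdd`, `norm_dc_cut_le` for the diagonal term. -/
theorem lemB {ε : ℝ} (hε : 0 < ε) : ∃ C : ℝ, 0 ≤ C ∧
    ∀ (K L₀ L₁ L₂ : ℝ) (α β : O → ℂ), 1 ≤ L₀ → L₀ ≤ L₁ → L₀ ≤ L₂ → L₀ ^ 3 ≤ L₁ * L₂ → L₁ * L₂ ≤ K →
    (∀ n ∈ pbox L₁, ‖α n‖ ≤ 1) → (∀ n ∈ pbox L₂, ‖β n‖ ≤ 1) →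
    ∑ r ∈ box K, ‖prw L₁ α r * prw L₂ β r‖ ^ 2 ≤
      C * K ^ ε * (K * (L₁ * L₂) + K ^ (1 / 3 : ℝ) * (L₁ * L₂) ^ 2 +
        K ^ (2 / 3 : ℝ) * (L₁ * L₂) ^ (5 / 3 : ℝ) * L₀ ^ (-(1 / 6) : ℝ)) := by
  classical
  obtain ⟨e, he0, he1, he2⟩ : ∃ e : ℝ, 0 < e ∧ e ≤ 1 / 2 ∧ 25 * e ≤ ε :=
    ⟨min (1 / 2) (ε / 25), by positivity, min_le_left _ _, by
      have := min_le_right (1 / 2 : ℝ) (ε / 25); linarith⟩
  obtain ⟨Cs, hCs, hs⟩ := sq_reduce he0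
  obtain ⟨Cp, hCp, hp⟩ := fin_pstep' he0 (le_refl (0 : ℝ))
  obtain ⟨Cd, hCd, hd⟩ := lemB_dual he0
  obtain ⟨Cn, hCn, hn⟩ := norm_dc_cut_le he0
  have hsum := summable_Nr_rpow (σ := 7 / 6) (by norm_num)
  set S : ℝ := ∑' x : O, Nr x ^ (-(7 / 6) : ℝ) with hS
  have hS0 : 0 ≤ S := tsum_nonneg fun x => Real.rpow_nonneg (R017.Nr_nonneg x) _
  refine ⟨Cs * (Cp * (25 * Cn ^ 2 + Cd * S)), by positivity, ?_⟩
  intro K L₀ L₁ L₂ α β h0 h1 h2 h3 h4 hα hβ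
  have hL1 : 1 ≤ L₁ := h0.trans h1
  have hL2 : 1 ≤ L₂ := h0.trans h2
  have hL : 1 ≤ L₁ * L₂ := one_le_mul_of_one_le_of_one_le hL1 hL2
  have hK : 1 ≤ K := hL.trans h4
  have hK0 : 0 < K := by linarith
  have hL00 : 0 < L₀ := by linarith
  simp only [prw_mul (by linarith : 0 ≤ L₁) (by linarith : 0 ≤ L₂)]
  have hG : ∀ n ∈ pbox (L₁ * L₂), ‖dc (cutM L₁ α) (cutM L₂ β) n‖ ≤ Cn * K ^ e := by
    intro n hn'
    have := hn (L₁ * L₂) L₁ L₂ 1 1 α β zero_le_one zero_le_one hα hβ n hn'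
    rw [mul_one, mul_one] at this
    refine this.trans ?_
    gcongr
  have hdual := fun (c : O) (H σ t : ℝ) (hc : Prim c) => hd K L₀ L₁ L₂ (K ^ (2 * e)) H σ t α β c
    h0 h1 h2 h3 h4 (Real.one_le_rpow hK (by positivity))
    (by simpa using Real.rpow_le_rpow_of_exponent_le hK (show 2 * e ≤ 1 by linarith)) hc
  generalize dc (cutM L₁ α) (cutM L₂ β) = G at hG hdual ⊢
  generalize L₁ * L₂ = L at *
  have hL0 : 0 < L := by linarith
  set T : ℝ := K ^ (-(2 / 3) : ℝ) * L ^ 2 +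
    K ^ (-(1 / 3) : ℝ) * L ^ (5 / 3 : ℝ) * L₀ ^ (-(1 / 6) : ℝ) with hT
  have hT0 : 0 ≤ T := by positivity
  set B : ℝ := K * L + K ^ (1 / 3 : ℝ) * L ^ 2 +
    K ^ (2 / 3 : ℝ) * L ^ (5 / 3 : ℝ) * L₀ ^ (-(1 / 6) : ℝ) with hB
  have hKT : K * L + K * T = B := by
    rw [hT, hB, mul_assoc (K ^ (-(1 / 3) : ℝ)), fc2_KT hK0]
    ring
  have hB0 : 0 ≤ B := by positivity
  have key := hs (box K) L (Cp * (25 * Cn ^ 2 + Cd * S) * K ^ (24 * e) * B) G hL (by positivity)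
    (fun k hk => ?_)
  · refine key.trans ?_
    have e1 : L ^ e * K ^ (24 * e) ≤ K ^ ε := by
      calc L ^ e * K ^ (24 * e) ≤ K ^ e * K ^ (24 * e) := by gcongr
        _ = K ^ (25 * e) := by
          rw [← Real.rpow_add hK0]
          ring_nf
        _ ≤ K ^ ε := Real.rpow_le_rpow_of_exponent_le hK he2
    calc Cs * L ^ e * (Cp * (25 * Cn ^ 2 + Cd * S) * K ^ (24 * e) * B)
        = Cs * (Cp * (25 * Cn ^ 2 + Cd * S)) * (L ^ e * K ^ (24 * e)) * B := by ring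
      _ ≤ _ := by gcongr
  obtain ⟨k1, k2⟩ := mem_pbox.1 hk
  have hk1 : 1 ≤ Nr k := one_le_Nr k1.ne_zero
  have hk0 : 0 < Nr k := by linarith
  have hM : 1 ≤ L / Nr k := (one_le_div hk0).2 k2
  have hML : L / Nr k ≤ K := (div_le_self hL0.le hk1).trans h4
  set D : ℝ := Cd * K ^ (20 * e) * (K ^ (2 * e)) ^ 2 * T * Nr k ^ (-(7 / 6) : ℝ) with hD
  have hD0 : 0 ≤ D := by positivity
  have step := hp K (L / Nr k) (fun n => if IsCoprime n k then G (k * n) else 0)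
    (fun d => D * Nr d ^ (-(7 / 6) : ℝ)) hK hM
    (fun d => mul_nonneg hD0 (Real.rpow_nonneg (R017.Nr_nonneg d) _)) (fun d hd' σ t hσ hσ' => ?_)
  · refine step.trans ?_
    have c1 : cl2 (L / Nr k) (fun n => if IsCoprime n k then G (k * n) else 0) ≤
        25 * (L / Nr k) * (Cn * K ^ e) ^ 2 := by
      refine cl2_le_of_bdd (by linarith) fun n hn' => ?_
      obtain ⟨n1, -, n3⟩ := q_mem_sbox.1 hn'
      split_ifs
      · refine hG _ (mem_pbox.2 ⟨k1.mul n1, ?_⟩)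
        rw [R017.Nr_mul, mul_comm]
        exact (le_div_iff₀ hk0).1 n3
      · rw [norm_zero]
        positivity
    have c2 : ∑ d ∈ sbox (L / Nr k), D * Nr d ^ (-(7 / 6) : ℝ) ≤ D * S := by
      rw [← Finset.mul_sum]
      exact mul_le_mul_of_nonneg_left (hsum.sum_le_tsum _
        fun x _ => Real.rpow_nonneg (R017.Nr_nonneg x) _) hD0
    have c3 : (L / Nr k) ^ e * (K ^ e) ^ 2 ≤ K ^ (24 * e) := by
      calc (L / Nr k) ^ e * (K ^ e) ^ 2 ≤ K ^ e * (K ^ e) ^ 2 := by gcongr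
        _ = K ^ (3 * e) := by
          rw [← Real.rpow_natCast, ← Real.rpow_mul hK0.le, ← Real.rpow_add hK0]
          push_cast
          ring_nf
        _ ≤ _ := Real.rpow_le_rpow_of_exponent_le hK (by linarith)
    have c4 : K ^ (20 * e) * (K ^ (2 * e)) ^ 2 = K ^ (24 * e) := by
      rw [← Real.rpow_natCast, ← Real.rpow_mul hK0.le, ← Real.rpow_add hK0]
      push_cast
      ring_nf
    have c5 : Nr k ^ (-(7 / 6) : ℝ) ≤ (Nr k)⁻¹ := by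
      rw [← Real.rpow_neg_one]
      exact Real.rpow_le_rpow_of_exponent_le hk1 (by norm_num)
    have c6 : D ≤ Cd * K ^ (24 * e) * T * (Nr k)⁻¹ := by
      rw [hD, mul_assoc Cd, c4]
      gcongr
    have hKL : K * L ≤ B := by
      rw [← hKT]
      exact le_add_of_nonneg_right (by positivity)
    have hKT' : K * T ≤ B := by
      rw [← hKT]
      exact le_add_of_nonneg_left (by positivity)
    calc Cp * K * ((L / Nr k) ^ e *
          cl2 (L / Nr k) (fun n => if IsCoprime n k then G (k * n) else 0) +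
          ∑ d ∈ sbox (L / Nr k), D * Nr d ^ (-(7 / 6) : ℝ))
        ≤ Cp * K * ((L / Nr k) ^ e * (25 * (L / Nr k) * (Cn * K ^ e) ^ 2) +
          Cd * K ^ (24 * e) * T * (Nr k)⁻¹ * S) := by
          gcongr
          exact c2.trans (by gcongr)
      _ = Cp * (25 * Cn ^ 2 * ((L / Nr k) ^ e * (K ^ e) ^ 2) * (K * L) +
          Cd * S * K ^ (24 * e) * (K * T)) * (Nr k)⁻¹ := by
          rw [div_eq_mul_inv L]
          ring
      _ ≤ Cp * (25 * Cn ^ 2 * K ^ (24 * e) * B + Cd * S * K ^ (24 * e) * B) * (Nr k)⁻¹ := by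
          gcongr
      _ = _ := by
          rw [div_eq_mul_inv]
          ring
  rw [Real.rpow_zero, mul_one]
  obtain ⟨d1, -, d3⟩ := q_mem_sbox.1 hd'
  have hd0 : 0 < Nr d := Nr_pos d1.ne_zero
  by_cases hdk : IsCoprime d k
  · simp only [fc2_coef hd' hdk]
    have e1 : L / Nr k / Nr d = L / Nr (k * d) := by rw [R017.Nr_mul, div_div]
    rw [e1]
    refine (hdual (k * d) _ σ t (k1.mul d1) ?_ hσ hσ' hα hβ).trans (le_of_eq ?_)
    · have e2 : (K * (L / Nr k)) ^ e ≤ K ^ (2 * e) := by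
        calc (K * (L / Nr k)) ^ e ≤ (K * K) ^ e := by gcongr
          _ = K ^ (2 * e) := by
            rw [Real.mul_rpow hK0.le hK0.le, ← Real.rpow_add hK0]
            ring_nf
      calc (K * (L / Nr k)) ^ e * (L / Nr (k * d)) ^ 2 / K
          = (K * (L / Nr k)) ^ e * (L ^ 2 / K) / Nr (k * d) ^ 2 := by
            rw [div_pow]
            ring
        _ ≤ _ := by gcongr
    · rw [hD, R017.Nr_mul, Real.mul_rpow hk0.le hd0.le]
      ring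
  · simp only [fc2_coef0 hdk, norm_zero, ne_eq, OfNat.ofNat_ne_zero, not_false_eq_true, zero_pow,
      Finset.sum_const_zero]
    positivity

/-- As `mom_LS`: `sm_trunc`; with `M = Y x^ε`, `prw M a ^ j = prw (M^{j-1}) b * prw M a` (`prw_pow`;
rescale `b` by its bound), `lemB` with `L₁ = M^{j-1}`, `L₂ = M`, `L₀ = M^{2/3}`. -/
theorem mom_B {a ε : ℝ} (ha : 0 < a) (hε : 0 < ε) {j : ℕ} (hj : 2 ≤ j) : ∃ C : ℝ, 0 ≤ C ∧
    ∀ (f : O → ℂ) (x Y K τ : ℝ), 1 ≤ x → 0 < Y → Y ≤ x → 1 ≤ Y * x ^ ε → (Y * x ^ ε) ^ j ≤ K →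
    K ≤ x ^ 2 → (∀ n, Prim n → ‖f n‖ ≤ 1) →
    ∑ r ∈ box K, ‖sm a (fun n => f n * kap n r) Y τ‖ ^ (2 * j) ≤
      C * x ^ ε * (K * (Y * x ^ ε) ^ j + K ^ (1 / 3 : ℝ) * ((Y * x ^ ε) ^ j) ^ 2 +
        K ^ (2 / 3 : ℝ) * ((Y * x ^ ε) ^ j) ^ (5 / 3 : ℝ) * (Y * x ^ ε) ^ (-(1 / 9) : ℝ)) := by
  have he : 0 < ε / 6 := by positivity
  obtain ⟨Ct, hCt, ht⟩ := sm_trunc ha hε 0 1 le_rfl
  obtain ⟨i, rfl⟩ : ∃ i, j = i + 1 := ⟨j - 1, by omega⟩
  have hi : 1 ≤ i := by omega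
  obtain ⟨Cp, hCp, hp⟩ := prw_pow hi he
  obtain ⟨Cb, hCb, hb⟩ := lemB he
  refine ⟨2 ^ (2 * (i + 1) - 1) * (Cp ^ 2 * Cb + 25 * Ct ^ (2 * (i + 1))), by positivity, ?_⟩
  intro f x Y K τ hx hY hYx hM hMK hKx hf
  have hx0 : 0 < x := by linarith
  have htr := fun r => ht f 1 x Y τ r hx hY hYx (fun n hn => by simpa using hf n hn)
  have hw : ∀ n ∈ pbox (Y * x ^ ε), ‖wc a Y τ f n‖ ≤ 1 := fun n hn =>
    (norm_wc_le ha Y τ f (mem_pbox.1 hn).1).trans (hf n (mem_pbox.1 hn).1)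
  generalize wc a Y τ f = w at htr hw
  generalize Y * x ^ ε = M at *
  have hM0 : 0 < M := by linarith
  have hMj : 1 ≤ M ^ (i + 1) := one_le_pow₀ hM
  have hK : 1 ≤ K := hMj.trans hMK
  have hK0 : 0 < K := by linarith
  have hMK' : M ≤ K := (le_self_pow₀ hM (by omega)).trans hMK
  obtain ⟨b, hb1, hb2⟩ := hp M w hM hw
  have hc : 0 < Cp * M ^ (ε / 6) := by positivity
  have hb3 : ∀ n ∈ pbox (M ^ i), ‖b n / ((Cp * M ^ (ε / 6) : ℝ) : ℂ)‖ ≤ 1 := fun n hn => by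
    rw [norm_div, Complex.norm_real, Real.norm_of_nonneg hc.le]
    exact (div_le_one hc).2 (hb1 n hn)
  have hL0 : M ^ (2 / 3 : ℝ) ≤ M := by
    simpa using Real.rpow_le_rpow_of_exponent_le hM (show (2 / 3 : ℝ) ≤ 1 by norm_num)
  have key := hb K (M ^ (2 / 3 : ℝ)) (M ^ i) M (fun n => b n / ((Cp * M ^ (ε / 6) : ℝ) : ℂ)) w
    (Real.one_le_rpow hM (by norm_num)) (hL0.trans (le_self_pow₀ hM (by omega))) hL0
    (by
      rw [← Real.rpow_natCast, ← Real.rpow_mul hM0.le, ← pow_succ,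
        show (2 / 3 : ℝ) * ((3 : ℕ) : ℝ) = ((2 : ℕ) : ℝ) by norm_num, Real.rpow_natCast]
      exact pow_le_pow_right₀ hM (by omega))
    (by rwa [← pow_succ]) hb3 hw
  rw [← pow_succ, ← Real.rpow_mul hM0.le,
    show (2 / 3 : ℝ) * (-(1 / 6)) = -(1 / 9) by norm_num] at key
  set B : ℝ := K * M ^ (i + 1) + K ^ (1 / 3 : ℝ) * (M ^ (i + 1)) ^ 2 +
    K ^ (2 / 3 : ℝ) * (M ^ (i + 1)) ^ (5 / 3 : ℝ) * M ^ (-(1 / 9) : ℝ) with hB
  have hB1 : 1 ≤ B := by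
    have h1 : 1 ≤ K * M ^ (i + 1) := one_le_mul_of_one_le_of_one_le hK hMj
    have h2 : 0 ≤ K ^ (1 / 3 : ℝ) * (M ^ (i + 1)) ^ 2 := by positivity
    have h3 : 0 ≤ K ^ (2 / 3 : ℝ) * (M ^ (i + 1)) ^ (5 / 3 : ℝ) * M ^ (-(1 / 9) : ℝ) := by positivity
    linarith
  have hpw : ∀ r, ‖prw M w r‖ ^ (2 * (i + 1)) = (Cp * M ^ (ε / 6)) ^ 2 *
      ‖prw (M ^ i) (fun n => b n / ((Cp * M ^ (ε / 6) : ℝ) : ℂ)) r * prw M w r‖ ^ 2 := by
    intro r
    have e1 : prw (M ^ i) (fun n => b n / ((Cp * M ^ (ε / 6) : ℝ) : ℂ)) r =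
        prw (M ^ i) b r / ((Cp * M ^ (ε / 6) : ℝ) : ℂ) := by
      simp only [prw, Finset.sum_div]
      exact Finset.sum_congr rfl fun n _ => by ring
    rw [e1, ← hb2, norm_mul, norm_div, Complex.norm_real, Real.norm_of_nonneg hc.le, norm_pow]
    field_simp
    ring
  have hrow : ∀ r, ‖sm a (fun n => f n * kap n r) Y τ‖ ^ (2 * (i + 1)) ≤ 2 ^ (2 * (i + 1) - 1) *
      (‖prw M w r‖ ^ (2 * (i + 1)) + (Ct * x⁻¹) ^ (2 * (i + 1))) := by
    intro r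
    have h1 := htr r
    rw [mul_one, Real.rpow_neg_one] at h1
    have h2 : ‖sm a (fun n => f n * kap n r) Y τ‖ ≤ ‖prw M w r‖ + Ct * x⁻¹ := by
      have := norm_add_le (prw M w r) (sm a (fun n => f n * kap n r) Y τ - prw M w r)
      rw [add_sub_cancel] at this
      linarith
    exact (pow_le_pow_left₀ (norm_nonneg _) h2 _).trans
      (add_pow_le (norm_nonneg _) (by positivity) _)
  refine (Finset.sum_le_sum fun r _ => hrow r).trans ?_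
  rw [← Finset.mul_sum, Finset.sum_add_distrib, Finset.sum_const, nsmul_eq_mul]
  simp only [hpw]
  rw [← Finset.mul_sum]
  have hxe : 1 ≤ x ^ ε := Real.one_le_rpow hx hε.le
  have e1 : (M ^ (ε / 6)) ^ 2 * K ^ (ε / 6) ≤ x ^ ε := by
    calc (M ^ (ε / 6)) ^ 2 * K ^ (ε / 6) ≤ ((x ^ 2) ^ (ε / 6)) ^ 2 * (x ^ 2) ^ (ε / 6) := by
          gcongr
          exact hMK'.trans hKx
      _ = x ^ ε := by
          rw [← pow_succ, ← Real.rpow_natCast x 2, ← Real.rpow_mul hx0.le, ← Real.rpow_natCast,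
            ← Real.rpow_mul hx0.le]
          congr 1
          push_cast
          ring
  have e2 : ((box K).card : ℝ) * (Ct * x⁻¹) ^ (2 * (i + 1)) ≤ 25 * Ct ^ (2 * (i + 1)) := by
    have h1 : (x⁻¹) ^ (2 * (i + 1)) ≤ (x⁻¹) ^ 2 :=
      pow_le_pow_of_le_one (by positivity) (inv_le_one_of_one_le₀ hx) (by omega)
    calc ((box K).card : ℝ) * (Ct * x⁻¹) ^ (2 * (i + 1))
        ≤ (25 * x ^ 2) * (Ct ^ (2 * (i + 1)) * (x⁻¹) ^ 2) := by
          rw [mul_pow]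
          gcongr
          exact (card_box_le hK0.le).trans (by gcongr)
      _ = _ := by field_simp
  calc 2 ^ (2 * (i + 1) - 1) * ((Cp * M ^ (ε / 6)) ^ 2 * ∑ r ∈ box K,
        ‖prw (M ^ i) (fun n => b n / ((Cp * M ^ (ε / 6) : ℝ) : ℂ)) r * prw M w r‖ ^ 2 +
        ((box K).card : ℝ) * (Ct * x⁻¹) ^ (2 * (i + 1)))
      ≤ 2 ^ (2 * (i + 1) - 1) * ((Cp * M ^ (ε / 6)) ^ 2 * (Cb * K ^ (ε / 6) * B) +
        25 * Ct ^ (2 * (i + 1)) * (x ^ ε * B)) := by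
        have e3 := e2.trans (le_mul_of_one_le_right (by positivity)
          (one_le_mul_of_one_le_of_one_le hxe hB1))
        gcongr ?_ * (?_ * ?_ + ?_)
    _ = 2 ^ (2 * (i + 1) - 1) * (Cp ^ 2 * Cb * ((M ^ (ε / 6)) ^ 2 * K ^ (ε / 6)) * B +
        25 * Ct ^ (2 * (i + 1)) * (x ^ ε * B)) := by ring
    _ ≤ 2 ^ (2 * (i + 1) - 1) * (Cp ^ 2 * Cb * x ^ ε * B +
        25 * Ct ^ (2 * (i + 1)) * (x ^ ε * B)) := by gcongr
    _ = _ := by ring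

end Crest.Agent.R012.Far

end
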