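import Crest.Agent.R012.FC1b

/-! # Row 12: a large sieve with a saving for products -/

set_option autoImplicit false

noncomputable section

open scoped BigOperators ComplexConjugate Topology
open Complex MeasureTheory Filter Crest.Agent.R017

namespace Crest.Agent.R012.Far

/-- the main term -/
def fc2a_Y (K L₀ L y N : ℝ) : ℝ := y ^ 2 * (K ^ (-(2 / 3) : ℝ) * L ^ 2 +
  K ^ (-(1 / 3) : ℝ) * L ^ (5 / 3 : ℝ) * L₀ ^ (-(1 / 6) : ℝ)) * N ^ (-(7 / 6) : ℝ)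

theorem fc2a_real {ε K L₀ L y H N : ℝ} (hε : 0 < ε) (h0 : 1 ≤ L₀) (h1 : L₀ ^ 3 ≤ L) (h2 : L ≤ K)
    (h3 : 1 ≤ y) (h4 : y ≤ K) (h5 : 1 ≤ N) (h6 : 1 ≤ H) (h7 : H ≤ y * (L ^ 2 / K) / N ^ 2) :
    (H * (L / N)) ^ ε ≤ K ^ (3 * ε) ∧
    H + (H * (L / N)) ^ (2 / 3 : ℝ) + H ^ (1 / 3 : ℝ) * (L / N) *
      ((L₀ ^ (1 / 2 : ℝ)) ^ (-(1 / 3) : ℝ) + (K / L) ^ (-(1 / 3) : ℝ)) +
      H ^ (4 / 3 : ℝ) * (K / L) ^ (2 / 3 : ℝ) ≤ 4 * fc2a_Y K L₀ L y N ∧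
    L ^ (2 / 3 : ℝ) ≤ L / L₀ ∧
    H ^ (1 / 3 : ℝ) * (L₀ ^ (1 / 2 : ℝ)) ^ (2 / 3 : ℝ) * min (L / L₀) (L / N) ≤
      fc2a_Y K L₀ L y N := by
  have hL : 1 ≤ L := (one_le_pow₀ h0).trans h1
  obtain ⟨a, rfl⟩ : ∃ a, K = Real.exp a := ⟨_, (Real.exp_log (by linarith)).symm⟩
  obtain ⟨z, rfl⟩ : ∃ a, L₀ = Real.exp a := ⟨_, (Real.exp_log (by linarith)).symm⟩
  obtain ⟨l, rfl⟩ : ∃ a, L = Real.exp a := ⟨_, (Real.exp_log (by linarith)).symm⟩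
  obtain ⟨u, rfl⟩ : ∃ a, y = Real.exp a := ⟨_, (Real.exp_log (by linarith)).symm⟩
  obtain ⟨h, rfl⟩ : ∃ a, H = Real.exp a := ⟨_, (Real.exp_log (by linarith)).symm⟩
  obtain ⟨n, rfl⟩ : ∃ a, N = Real.exp a := ⟨_, (Real.exp_log (by linarith)).symm⟩
  simp only [fc2a_Y, mul_add, add_mul, ← Real.exp_nat_mul, ← Real.exp_mul, ← Real.exp_add,
    ← Real.exp_sub, Real.exp_le_exp, Real.one_le_exp_iff, Nat.cast_ofNat] at *
  set T₁ := Real.exp (2 * u + (a * -(2 / 3) + 2 * l) + n * -(7 / 6)) with e1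
  set T₂ := Real.exp (2 * u + (a * -(1 / 3) + l * (5 / 3) + z * -(1 / 6)) + n * -(7 / 6)) with e2
  have p1 : 0 < T₁ := Real.exp_pos _
  have p2 : 0 < T₂ := Real.exp_pos _
  refine ⟨by nlinarith, ?_, by linarith, ?_⟩
  · refine le_trans (add_le_add (add_le_add (add_le_add (b := T₁) (d := T₁) ?_ ?_)
      (add_le_add (b := T₂) (d := T₁) ?_ ?_)) (d := T₁) ?_) (by linarith) <;>
      exact Real.exp_le_exp.2 (by linarith)
  · refine le_trans ?_ (le_add_of_nonneg_left p1.le)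
    rcases le_total z n with hz | hz
    · refine (mul_le_mul_of_nonneg_left (min_le_right _ _) (Real.exp_pos _).le).trans ?_
      rw [← Real.exp_add]
      exact Real.exp_le_exp.2 (by linarith)
    · refine (mul_le_mul_of_nonneg_left (min_le_left _ _) (Real.exp_pos _).le).trans ?_
      rw [← Real.exp_add]
      exact Real.exp_le_exp.2 (by linarith)

/-- Put `L = L₁ L₂`, `M = L / N c`. If `H < 1` or `M < 1` the sum vanishes. Rows that are not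
`Near Z`, `Z = L₀^{1/2}`: `cls_far'` with `R = H`, `V = K / L`, `gb_l2`, `norm_dc_cut_le`
(`(H M)^ε ≤ K^{3ε}`; the five terms are at most
`y² K^{-2/3} L² N c^{-5/3}` or `y K^{-1/3} L^{5/3} L₀^{-1/6} N c^{-5/3}`).
Rows that are `Near Z`: `card_near` gives `≤ C y K^{-1/3} L^{2/3} N c^{-2/3} L₀^{1/3}` rows; each is at
most `C L^{10ε} L / L₀` (`gb_bil`; `L₁, L₂, L^{2/3} ≤ L / L₀`) and at most `C L^{5ε} L / N c`
(`norm_cr_sq_le`, `gb_l2`), hence at most `C L^{10 ε} L (L₀ N c)^{-1/2}`. -/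
theorem lemB_dual {ε : ℝ} (hε : 0 < ε) : ∃ C : ℝ, 0 ≤ C ∧
    ∀ (K L₀ L₁ L₂ y H σ t : ℝ) (α β : O → ℂ) (c : O), 1 ≤ L₀ → L₀ ≤ L₁ → L₀ ≤ L₂ →
    L₀ ^ 3 ≤ L₁ * L₂ → L₁ * L₂ ≤ K → 1 ≤ y → y ≤ K → Prim c →
    H ≤ y * ((L₁ * L₂) ^ 2 / K) / Nr c ^ 2 → 0 < σ → σ ≤ ε →
    (∀ n ∈ pbox L₁, ‖α n‖ ≤ 1) → (∀ n ∈ pbox L₂, ‖β n‖ ≤ 1) →
    ∑ h ∈ box H, ‖cr (L₁ * L₂ / Nr c)
      (gb (dc (cutM L₁ α) (cutM L₂ β)) c (((σ - 1 / 2 : ℝ) : ℂ) + t * I)) h‖ ^ 2 ≤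
      C * K ^ (20 * ε) * y ^ 2 * (K ^ (-(2 / 3) : ℝ) * (L₁ * L₂) ^ 2 +
        K ^ (-(1 / 3) : ℝ) * (L₁ * L₂) ^ (5 / 3 : ℝ) * L₀ ^ (-(1 / 6) : ℝ)) * Nr c ^ (-(7 / 6) : ℝ) := by
  obtain ⟨C1, hC1, H1⟩ := cls_far' hε
  obtain ⟨C2, hC2, H2⟩ := gb_l2 hε
  obtain ⟨C3, hC3, H3⟩ := norm_dc_cut_le hε
  obtain ⟨C4, hC4, H4⟩ := card_near
  obtain ⟨C5, hC5, H5⟩ := gb_bil hε
  refine ⟨4 * C1 * (C2 * C3 ^ 2) + C4 * (3 * C5 + 25 * (C2 * C3 ^ 2)), by positivity, ?_⟩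
  intro K L₀ L₁ L₂ y H σ t α β c h0 h1 h2 h3 h4 h5 h6 hc h7 s0 s1 hα hβ
  have hN : 1 ≤ Nr c := one_le_Nr hc.ne_zero
  have hL₁ : 1 ≤ L₁ := h0.trans h1
  have hL₂ : 1 ≤ L₂ := h0.trans h2
  have b5 := fun h => H5 L₁ L₂ σ t α β c h hL₁ hL₂ hc s0 s1 hα hβ
  have l1 : L₁ ≤ L₁ * L₂ / L₀ := by
    rw [le_div_iff₀ (by linarith)]
    exact mul_le_mul_of_nonneg_left h2 (by linarith)
  have l2 : L₂ ≤ L₁ * L₂ / L₀ := by
    rw [le_div_iff₀ (by linarith), mul_comm]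
    exact mul_le_mul_of_nonneg_right h1 (by linarith)
  have b3 := H3 (L₁ * L₂) L₁ L₂ 1 1 α β zero_le_one zero_le_one hα hβ
  have hL : 1 ≤ L₁ * L₂ := (one_le_pow₀ h0).trans h3
  generalize L₁ * L₂ = L at *
  have hK : 1 ≤ K := hL.trans h4
  have b2 := H2 L _ σ t _ c hL hc s0 s1 b3
  generalize gb (dc (cutM L₁ α) (cutM L₂ β)) c (((σ - 1 / 2 : ℝ) : ℂ) + t * I) = g at *
  have hY : 0 ≤ fc2a_Y K L₀ L y (Nr c) := by
    unfold fc2a_Y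
    positivity
  suffices h : ∑ h ∈ box H, ‖cr (L / Nr c) g h‖ ^ 2 ≤
      (4 * C1 * (C2 * C3 ^ 2) + C4 * (3 * C5 + 25 * (C2 * C3 ^ 2))) * K ^ (20 * ε) *
        fc2a_Y K L₀ L y (Nr c) by
    refine h.trans (le_of_eq ?_)
    unfold fc2a_Y
    ring
  by_cases hH : H < 1
  · rw [Finset.sum_eq_zero fun h hh => ?_]
    · positivity
    · rw [mem_box] at hh
      linarith [one_le_Nr hh.1, hh.2]
  by_cases hM : L / Nr c < 1
  · rw [Finset.sum_eq_zero fun h _ => ?_]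
    · positivity
    · rw [cr, Finset.sum_eq_zero fun b hb => ?_]
      · simp
      · rw [q_mem_sbox] at hb
        linarith [one_le_Nr hb.1.ne_zero, hb.2.2]
  rw [not_lt] at hH hM
  obtain ⟨r1, r2, r3, r4⟩ := fc2a_real hε h0 h3 h4 h5 h6 hN hH h7
  have hZ : 1 ≤ L₀ ^ (1 / 2 : ℝ) := Real.one_le_rpow h0 (by norm_num)
  have hV : 1 ≤ K / L := by
    rw [le_div_iff₀ (by linarith)]
    linarith
  have hpow : ∀ a b : ℝ, 0 ≤ a → a ≤ b → L ^ (a * ε) ≤ K ^ (b * ε) := fun a b ha hab =>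
    (Real.rpow_le_rpow (by linarith) h4 (by positivity)).trans
      (Real.rpow_le_rpow_of_exponent_le hK (mul_le_mul_of_nonneg_right hab hε.le))
  have b2' : ∀ b : ℝ, 5 ≤ b → cl2 (L / Nr c) g ≤ C2 * C3 ^ 2 * K ^ (b * ε) := fun b hb => by
    refine b2.trans (le_trans (le_of_eq ?_)
      (mul_le_mul_of_nonneg_left (hpow 5 b (by norm_num) hb) (by positivity)))
    rw [show 5 * ε = 3 * ε + ε + ε by ring, Real.rpow_add (by linarith) (3 * ε + ε),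
      Real.rpow_add (by linarith) (3 * ε)]
    ring
  have far : ∑ h ∈ (box H).filter (fun r => ¬ Near (L₀ ^ (1 / 2 : ℝ)) r),
      ‖cr (L / Nr c) g h‖ ^ 2 ≤ 4 * C1 * (C2 * C3 ^ 2) * K ^ (20 * ε) * fc2a_Y K L₀ L y (Nr c) := by
    refine (H1 H _ _ _ hH hM hZ hV g).trans ((mul_le_mul (mul_le_mul
      (mul_le_mul_of_nonneg_left r1 hC1) r2 (by positivity) (by positivity))
      (b2' 17 (by norm_num)) (cl2_nonneg _ _) (by positivity)).trans (le_of_eq ?_))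
    rw [show 20 * ε = 3 * ε + 17 * ε by ring, Real.rpow_add (by linarith)]
    ring
  have row : ∀ h, ‖cr (L / Nr c) g h‖ ^ 2 ≤
      (3 * C5 + 25 * (C2 * C3 ^ 2)) * K ^ (20 * ε) * min (L / L₀) (L / Nr c) := by
    intro h
    have k0 : 0 ≤ K ^ (20 * ε) := by positivity
    rcases min_choice (L / L₀) (L / Nr c) with e | e <;> rw [e]
    · refine (b5 h).trans ((mul_le_mul (mul_le_mul_of_nonneg_left (hpow 10 20 (by norm_num)
        (by norm_num)) hC5) (d := 3 * (L / L₀)) (by linarith) (by positivity)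
        (by positivity)).trans ?_)
      have : 0 ≤ 25 * (C2 * C3 ^ 2) * K ^ (20 * ε) * (L / L₀) := by positivity
      nlinarith
    · refine (norm_cr_sq_le (by linarith) g h).trans
        ((mul_le_mul_of_nonneg_left (b2' 20 (by norm_num)) (by positivity)).trans ?_)
      have : 0 ≤ 3 * C5 * K ^ (20 * ε) * (L / Nr c) := by positivity
      nlinarith
  have near : ∑ h ∈ (box H).filter (fun r => Near (L₀ ^ (1 / 2 : ℝ)) r),
      ‖cr (L / Nr c) g h‖ ^ 2 ≤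
      C4 * (3 * C5 + 25 * (C2 * C3 ^ 2)) * K ^ (20 * ε) * fc2a_Y K L₀ L y (Nr c) := by
    refine (Finset.sum_le_card_nsmul _ _ _ fun h _ => row h).trans ?_
    rw [nsmul_eq_mul]
    have m0 : 0 ≤ min (L / L₀) (L / Nr c) := le_min (by positivity) (by positivity)
    refine (mul_le_mul_of_nonneg_right (H4 H _ (by linarith) hZ) (by positivity)).trans
      (le_trans (le_of_eq ?_) (mul_le_mul_of_nonneg_left r4 (by positivity)))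
    ring
  rw [← Finset.sum_filter_add_sum_filter_not (box H) (fun r => Near (L₀ ^ (1 / 2 : ℝ)) r)]
  linarith

end Crest.Agent.R012.Far

end
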