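import Crest.Agent.R012.FB3
import Crest.Agent.R017.T4AuxB

/-! # Row 12: reflected moments and the leaves -/

set_option autoImplicit false

noncomputable section

open scoped BigOperators ComplexConjugate Topology
open Complex MeasureTheory Filter Crest.Agent.R017

namespace Crest.Agent.R012.Far

/-- Reflect the first factor: `reflect_az` (`a / 2`, `η = kc (r t)`, `q = 9 rad (r t)` of norm
`≤ 81 Q`, parameter `81 x`; `sm_ch_eq`, `isCh_kc`, `princ_kc`); enlarge the range of integration to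
`[0, Λ]`, `Λ = max 0 (log (81 Q / X₁) + ε₁ log (81 x))`, which does not depend on `r`;
Cauchy–Schwarz in the integral (`continuous_sm`; compare the use of `reflect` in `R017/T41*.lean`,
`R017/T2Small*.lean`); `mom1` and `mom2` with `f n = kap n t * az l n` (`ch_row_mul`) and a larger
ambient parameter; `Xi_mono`, `Xi_mul_le`; `Λ ≤ C x^{ε₁}`. -/
theorem refl_mom {a b ε : ℝ} (ha : 0 < a) (hb : 0 < b) (hε : 0 < ε) (l : ℤ) : ∃ C : ℝ, 0 ≤ C ∧
    ∀ (S : Finset O) (t : O) (x R Q X₁ X₂ τ : ℝ), 1 ≤ R → R ≤ x → 1 ≤ Q → Q ≤ x → S ⊆ box R → t ≠ 0 →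
    (∀ r ∈ S, Nr (rad (r * t)) ≤ Q ∧ (l ≠ 0 ∨ ¬ IsCube (r * t))) → 1 ≤ X₁ → 0 < X₂ → X₂ ≤ x →
    ∑ r ∈ S, ‖sm a (ch l (r * t)) X₁ τ * sm b (ch l (r * t)) X₂ τ‖ ^ 2 ≤
      C * x ^ ε * (1 + |τ|) ^ C * (X₁ * X₂ * Xi R (X₂ + Q * X₂ / X₁)) := by
  set e : ℝ := min (ε / 7) 1 with he
  have he0 : 0 < e := lt_min (by positivity) one_pos
  have he1 : e ≤ 1 := min_le_right _ _
  have he7 : 7 * e ≤ ε := by have := min_le_left (ε / 7) 1; linarith
  obtain ⟨C₁, hC₁, H₁⟩ := reflect_az (half_pos ha) he0 l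
  obtain ⟨C₂, hC₂, H₂⟩ := mom1 hb he0
  obtain ⟨C₃, hC₃, H₃⟩ := mom2 (half_pos ha) hb he0
  set D : ℝ := 2 * C₁ ^ 2 * (C₂ + (2 / e) ^ 2 * (81 * C₃)) * 81 ^ ε with hD
  have hD0 : 0 ≤ D := by positivity
  refine ⟨D + 2 * C₁, by positivity,
    fun S t x R Q X₁ X₂ τ hR hRx hQ hQx hS ht hrow hX₁ hX₂ hX₂x => ?_⟩
  have hx : 1 ≤ x := hR.trans hRx
  have hX₁0 : 0 < X₁ := by linarith
  set z : ℝ := 81 * x with hz
  have hz1 : 1 ≤ z := by linarith
  have hz0 : 0 < z := by linarith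
  set w : ℝ := z ^ e with hw
  have hw1 : 1 ≤ w := Real.one_le_rpow hz1 he0.le
  have hwz : w ≤ z := by simpa using Real.rpow_le_rpow_of_exponent_le hz1 he1
  set M : ℝ := X₂ + Q * X₂ / X₁ with hM
  have hM1 : 0 ≤ Q * X₂ / X₁ := by positivity
  have hM0 : 0 ≤ M := by positivity
  have hXi : 0 ≤ Xi R M := Xi_nonneg (by linarith) hM0
  set U : ℝ := max 0 (Real.log (81 * Q) - Real.log X₁ + e * Real.log z) with hU
  have hU0 : 0 ≤ U := le_max_left _ _
  have hexp : Real.exp (Real.log (81 * Q) - Real.log X₁ + e * Real.log z) = 81 * Q / X₁ * w := by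
    rw [Real.exp_add, Real.exp_sub, Real.exp_log (by positivity), Real.exp_log hX₁0, hw,
      Real.rpow_def_of_pos hz0, mul_comm e]
  have hQX : Q / X₁ ≤ x := (div_le_self (by linarith) hX₁).trans hQx
  have hup : ∀ u, u ≤ U → Real.exp u ≤ z ^ 2 ∧ Real.exp u * X₂ ≤ M * (81 * w) := by
    intro u hu
    have h1 : Real.exp u ≤ Real.exp U := Real.exp_le_exp.2 hu
    rcases le_total 0 (Real.log (81 * Q) - Real.log X₁ + e * Real.log z) with h | h
    · rw [hU, max_eq_right h, hexp] at h1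
      constructor
      · refine h1.trans ?_
        rw [mul_div_assoc, sq]
        exact mul_le_mul (by linarith) hwz (by linarith) hz0.le
      · refine (mul_le_mul_of_nonneg_right h1 hX₂.le).trans ?_
        have e1 : 81 * Q / X₁ * w * X₂ = Q * X₂ / X₁ * (81 * w) := by ring
        rw [e1]
        exact mul_le_mul_of_nonneg_right (by linarith) (by positivity)
    · rw [hU, max_eq_left h, Real.exp_zero] at h1
      constructor
      · exact h1.trans (one_le_pow₀ hz1)
      · refine (mul_le_mul_of_nonneg_right h1 hX₂.le).trans ?_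
        rw [one_mul]
        exact (show X₂ ≤ M by linarith).trans (le_mul_of_one_le_right hM0 (by linarith))
  have hUw : U ≤ 2 / e * w := by
    have h1 := (hup U le_rfl).1
    have h2 : U ≤ Real.log (z ^ 2) := by
      rw [← Real.log_exp U]; exact Real.log_le_log (Real.exp_pos _) h1
    have h3 := Real.log_le_rpow_div hz0.le he0
    rw [Real.log_pow] at h2
    calc U ≤ 2 * Real.log z := by exact_mod_cast h2
      _ ≤ 2 * (w / e) := by linarith
      _ = _ := by ring
  have hf : ∀ n, Prim n → ‖kap n t * az l n‖ ≤ 1 := fun n _ => norm_ch_le l t n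
  have hch : ∀ r : O, ch l (r * t) = fun n => kap n t * az l n * kap n r := fun r =>
    funext fun n => ch_row_mul l r t n
  have hτ : 1 ≤ 1 + |τ| := by linarith [abs_nonneg τ]
  have key := t4_refl S (fun r => ‖sm b (ch l (r * t)) X₂ τ‖ ^ 2)
    (fun r => ‖sm a (ch l (r * t)) X₁ τ‖ * Real.exp (-Real.log X₁ / 2))
    (fun r => max 0 (Real.log (Nr (9 * rad (r * t))) - Real.log X₁ + e * Real.log z))
    (fun r u => ‖sm (a / 2) (ch l (r * t)) (Real.exp u) τ‖ * Real.exp (-u / 2))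
    (E := C₁ * w * (1 + |τ|) ^ C₁) (U := U) (H₀ := C₂ * w * (X₂ * Xi R M))
    (H₁ := C₃ * w ^ 2 * (X₂ * (81 * w * Xi R M)))
    (fun r _ => by positivity) (fun r _ => by positivity)
    (fun r _ => by
      have := continuous_sm (half_pos ha) (c := ch l (r * t)) (K := 1) (A := 0)
        (fun n _ => by simpa using norm_ch_le l (r * t) n)
      have h2 : Continuous fun u : ℝ => sm (a / 2) (ch l (r * t)) (Real.exp u) τ :=
        this.comp (f := fun u : ℝ => (u, τ)) (by fun_prop)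
      exact h2.norm.mul (by fun_prop))
    (fun r _ u => by positivity) (by positivity) hU0 (fun r _ => le_max_left _ _)
    (fun r hr => by
      refine max_le_max le_rfl ?_
      have h9 : Nr (9 : O) = 81 := by
        have := Nr_natCast 9
        norm_num at this
        exact this
      have h1 : Nr (9 * rad (r * t)) ≤ 81 * Q := by
        rw [Nr_mul, h9]; linarith [(hrow r hr).1]
      have h2 := Real.log_le_log (Nr_pos (mul_ne_zero (by decide) (rad_ne_zero (r * t)))) h1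
      linarith)
    (fun r hr => by
      have hr0 : r * t ≠ 0 := mul_ne_zero (mem_box.1 (hS hr)).1 ht
      have h9 : Nr (9 : O) = 81 := by
        have := Nr_natCast 9
        norm_num at this
        exact this
      have h1 : Nr (9 * rad (r * t)) ≤ z := by
        rw [Nr_mul, h9]; linarith [(hrow r hr).1]
      have h2 := H₁ z _ _ hz1 (isCh_kc hr0)
        ((hrow r hr).2.imp_right fun h h' => h ((princ_kc hr0).1 h')) h1 (Real.log X₁) τ
      rw [Real.exp_log hX₁0, mul_div_cancel₀ a two_ne_zero] at h2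
      simp only [sm_ch_eq]
      exact h2)
    (by
      refine (Finset.sum_le_sum_of_subset_of_nonneg hS fun _ _ _ => by positivity).trans ?_
      simp only [hch]
      refine (H₂ _ z R X₂ τ hR (by linarith) hX₂ (by linarith) hf).trans ?_
      have := Xi_mono (show 0 ≤ R by linarith) hX₂.le (show X₂ ≤ M by linarith)
      gcongr)
    (fun u _ hu => by
      obtain ⟨h1, h2⟩ := hup u hu
      have hz2 : z ≤ z ^ 2 := by nlinarith
      have h3 := H₃ _ _ (z ^ 2) R (Real.exp u) X₂ τ τ hR (by linarith) (Real.exp_pos u) h1 hX₂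
        (by linarith) hf hf
      have e1 : (z ^ 2) ^ e = w ^ 2 := by
        rw [sq, Real.mul_rpow hz0.le hz0.le, sq]
      have e2 : Real.exp (-u / 2) ^ 2 * Real.exp u = 1 := by
        rw [← Real.exp_nat_mul, ← Real.exp_add, Real.exp_eq_one_iff]; push_cast; ring
      have h4 : Xi R (Real.exp u * X₂) ≤ 81 * w * Xi R M :=
        (Xi_mono (by linarith) (by positivity) h2).trans
          (Xi_mul_le (by linarith) hM0 (by linarith))
      rw [e1] at h3
      calc ∑ r ∈ S, ‖sm b (ch l (r * t)) X₂ τ‖ ^ 2 *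
            (‖sm (a / 2) (ch l (r * t)) (Real.exp u) τ‖ * Real.exp (-u / 2)) ^ 2
          ≤ ∑ r ∈ box R, ‖sm b (ch l (r * t)) X₂ τ‖ ^ 2 *
            (‖sm (a / 2) (ch l (r * t)) (Real.exp u) τ‖ * Real.exp (-u / 2)) ^ 2 :=
            Finset.sum_le_sum_of_subset_of_nonneg hS fun _ _ _ => by positivity
        _ = Real.exp (-u / 2) ^ 2 * ∑ r ∈ box R,
            ‖sm (a / 2) (ch l (r * t)) (Real.exp u) τ * sm b (ch l (r * t)) X₂ τ‖ ^ 2 := by
            rw [Finset.mul_sum]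
            exact Finset.sum_congr rfl fun r _ => by rw [norm_mul]; ring
        _ ≤ Real.exp (-u / 2) ^ 2 * (C₃ * w ^ 2 * (Real.exp u * X₂ * (81 * w * Xi R M))) := by
            refine mul_le_mul_of_nonneg_left ?_ (by positivity)
            simp only [hch]
            refine h3.trans ?_
            gcongr
        _ = (Real.exp (-u / 2) ^ 2 * Real.exp u) * (C₃ * w ^ 2 * (X₂ * (81 * w * Xi R M))) := by
            ring
        _ = _ := by rw [e2, one_mul])
  have e3 : Real.exp (-Real.log X₁ / 2) ^ 2 * X₁ = 1 := by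
    nth_rewrite 2 [← Real.exp_log hX₁0]
    rw [← Real.exp_nat_mul, ← Real.exp_add, Real.exp_eq_one_iff]; push_cast; ring
  have e4 : ∑ r ∈ S, ‖sm a (ch l (r * t)) X₁ τ * sm b (ch l (r * t)) X₂ τ‖ ^ 2 =
      X₁ * ∑ r ∈ S, ‖sm b (ch l (r * t)) X₂ τ‖ ^ 2 *
        (‖sm a (ch l (r * t)) X₁ τ‖ * Real.exp (-Real.log X₁ / 2)) ^ 2 := by
    rw [Finset.mul_sum]
    refine Finset.sum_congr rfl fun r _ => ?_
    rw [norm_mul]
    linear_combination (-(‖sm a (ch l (r * t)) X₁ τ‖ * ‖sm b (ch l (r * t)) X₂ τ‖) ^ 2) * e3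
  have hw7 : w ^ 7 ≤ 81 ^ ε * x ^ ε := by
    rw [← Real.mul_rpow (by norm_num) (by linarith), hw, ← Real.rpow_natCast,
      ← Real.rpow_mul hz0.le]
    exact Real.rpow_le_rpow_of_exponent_le hz1 (by push_cast; linarith)
  have hτ2 : ((1 + |τ|) ^ C₁) ^ 2 ≤ (1 + |τ|) ^ (D + 2 * C₁) := by
    rw [← Real.rpow_natCast, ← Real.rpow_mul (by linarith)]
    exact Real.rpow_le_rpow_of_exponent_le hτ (by push_cast; linarith)
  have hw5 : w ≤ w ^ 5 := by simpa using pow_le_pow_right₀ hw1 (show 1 ≤ 5 by norm_num)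
  have hw0 : 0 ≤ w := by linarith
  rw [e4]
  calc _ ≤ X₁ * (2 * (C₁ * w * (1 + |τ|) ^ C₁) ^ 2 * (C₂ * w ^ 5 * (X₂ * Xi R M) +
        (2 / e * w) ^ 2 * (C₃ * w ^ 2 * (X₂ * (81 * w * Xi R M))))) := by
        refine mul_le_mul_of_nonneg_left (key.trans ?_) hX₁0.le
        gcongr
    _ = 2 * C₁ ^ 2 * (C₂ + (2 / e) ^ 2 * (81 * C₃)) * w ^ 7 * ((1 + |τ|) ^ C₁) ^ 2 *
        (X₁ * X₂ * Xi R M) := by ring
    _ ≤ 2 * C₁ ^ 2 * (C₂ + (2 / e) ^ 2 * (81 * C₃)) * (81 ^ ε * x ^ ε) *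
        (1 + |τ|) ^ (D + 2 * C₁) * (X₁ * X₂ * Xi R M) := by gcongr
    _ = D * x ^ ε * (1 + |τ|) ^ (D + 2 * C₁) * (X₁ * X₂ * Xi R M) := by rw [hD]; ring
    _ ≤ _ := by
        have : D ≤ D + 2 * C₁ := by linarith
        gcongr

end Crest.Agent.R012.Far

end
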