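import Crest.Agent.R012.F0

/-! # Row 12: from moments to counts -/

set_option autoImplicit false

noncomputable section

open scoped BigOperators ComplexConjugate Topology
open Complex MeasureTheory Filter Crest.Agent.R017

namespace Crest.Agent.R012.Far

/-- Copy `ct_circle` (`R017/CountAux1.lean`) for a general `a` (`norm_sm_le_circle`). -/
theorem ct_circle' {a : ℝ} (ha : 0 < a) (p : ℕ) : ∃ C : ℝ, 0 < C ∧ ∀ (S : Finset O) (c : O → O → ℂ)
    (U T V B : ℝ), (∀ r ∈ S, ∀ n, Prim n → ‖c r n‖ ≤ 1) → 0 < V →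
    (∀ r ∈ S, ∃ u τ, |u - U| ≤ 1 ∧ |τ - T| ≤ 1 ∧ V ≤ ‖sm a (c r) (Real.exp u) τ‖) →
    (∀ u τ, |u - U| ≤ 2 + 4 * a → |τ - T| ≤ 2 + 1 / a →
      ∑ r ∈ S, ‖sm a (c r) (Real.exp u) τ‖ ^ (p + 1) ≤ B) →
    S.card * V ^ (p + 1) ≤ C * B := by
  obtain ⟨C₀, h₀⟩ := norm_sm_le_circle ha
  set C₁ := max C₀ 1 with hC₁
  have hC₁0 : 0 < C₁ := lt_of_lt_of_le one_pos (le_max_right _ _)
  have hpi := Real.pi_pos
  refine ⟨2 * C₁ * (4 * Real.pi * C₁) ^ p * (2 * Real.pi), by positivity, ?_⟩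
  intro S c U T V B hc hV hS hB
  let g : O → ℝ → ℝ := fun r θ => ‖sm a (c r) (Real.exp (U + (2 + 4 * a) * Real.cos θ))
    (T - (2 + 4 * a) * Real.sin θ / (2 * a))‖
  have hc' : ∀ r ∈ S, ∀ n, Prim n → ‖c r n‖ ≤ 1 * Nr n ^ (0 : ℝ) := fun r hr n hn => by
    simpa using hc r hr n hn
  have hg : ∀ r ∈ S, Continuous (g r) := fun r hr =>
    ((continuous_sm ha (hc' r hr)).comp (f := fun θ : ℝ =>
      (U + (2 + 4 * a) * Real.cos θ, T - (2 + 4 * a) * Real.sin θ / (2 * a))) (by fun_prop)).norm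
  have hg0 : ∀ r θ, 0 ≤ g r θ := fun r θ => norm_nonneg _
  set m := V / (4 * Real.pi * C₁) with hm
  have hm0 : 0 < m := by positivity
  have key : ∀ r ∈ S, V ^ (p + 1) ≤
      2 * C₁ * (4 * Real.pi * C₁) ^ p * ∫ θ in (0 : ℝ)..(2 * Real.pi), g r θ ^ (p + 1) := by
    intro r hr
    obtain ⟨u, τ, hu, hτ, hle⟩ := hS r hr
    have h1 := hle.trans (h₀ (c r) 1 0 U T u τ (hc' r hr) hu hτ)
    have hI0 : 0 ≤ ∫ θ in (0 : ℝ)..(2 * Real.pi), g r θ :=
      intervalIntegral.integral_nonneg (by positivity) fun θ _ => hg0 r θ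
    have h2 : V ≤ C₁ * ∫ θ in (0 : ℝ)..(2 * Real.pi), g r θ :=
      h1.trans (mul_le_mul_of_nonneg_right (le_max_left _ _) hI0)
    have hi1 : IntervalIntegrable (fun θ => g r θ ^ (p + 1) / m ^ p) volume 0 (2 * Real.pi) :=
      (((hg r hr).pow _).div_const _).intervalIntegrable _ _
    have h3 : ∫ θ in (0 : ℝ)..(2 * Real.pi), g r θ ≤
        ∫ θ in (0 : ℝ)..(2 * Real.pi), (g r θ ^ (p + 1) / m ^ p + m) := by
      refine intervalIntegral.integral_mono_on (by positivity) ((hg r hr).intervalIntegrable _ _)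
        (hi1.add intervalIntegrable_const) fun θ _ => ?_
      rcases le_total (g r θ) m with h | h
      · exact h.trans (le_add_of_nonneg_left (div_nonneg (pow_nonneg (hg0 r θ) _) (by positivity)))
      · refine le_trans ?_ (le_add_of_nonneg_right hm0.le)
        rw [le_div_iff₀ (by positivity), pow_succ']
        exact mul_le_mul_of_nonneg_left (pow_le_pow_left₀ hm0.le h p) (hg0 r θ)
    rw [intervalIntegral.integral_add hi1 intervalIntegrable_const, intervalIntegral.integral_div,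
      intervalIntegral.integral_const, sub_zero, smul_eq_mul] at h3
    have h4 := h2.trans (mul_le_mul_of_nonneg_left h3 hC₁0.le)
    have e1 : C₁ * (2 * Real.pi * m) = V / 2 := by rw [hm]; field_simp; norm_num
    rw [mul_add, e1] at h4
    have h5 : V * m ^ p ≤ 2 * C₁ * ∫ θ in (0 : ℝ)..(2 * Real.pi), g r θ ^ (p + 1) := by
      rw [← le_div_iff₀ (by positivity), mul_assoc, mul_div_assoc, mul_div_assoc]
      linarith
    have e2 : V ^ (p + 1) = V * m ^ p * (4 * Real.pi * C₁) ^ p := by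
      rw [mul_assoc, ← mul_pow, hm, div_mul_cancel₀ _ (by positivity), pow_succ']
    rw [e2]
    calc _ ≤ (2 * C₁ * ∫ θ in (0 : ℝ)..(2 * Real.pi), g r θ ^ (p + 1)) * (4 * Real.pi * C₁) ^ p :=
          mul_le_mul_of_nonneg_right h5 (by positivity)
      _ = _ := by ring
  have hint : ∀ r ∈ S, IntervalIntegrable (fun θ => g r θ ^ (p + 1)) volume 0 (2 * Real.pi) :=
    fun r hr => ((hg r hr).pow _).intervalIntegrable _ _
  calc (S.card : ℝ) * V ^ (p + 1) = ∑ _r ∈ S, V ^ (p + 1) := by simp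
    _ ≤ ∑ r ∈ S, (2 * C₁ * (4 * Real.pi * C₁) ^ p *
          ∫ θ in (0 : ℝ)..(2 * Real.pi), g r θ ^ (p + 1)) := Finset.sum_le_sum key
    _ = 2 * C₁ * (4 * Real.pi * C₁) ^ p *
          ∫ θ in (0 : ℝ)..(2 * Real.pi), ∑ r ∈ S, g r θ ^ (p + 1) := by
        rw [intervalIntegral.integral_finsetSum hint, Finset.mul_sum]
    _ ≤ 2 * C₁ * (4 * Real.pi * C₁) ^ p * ∫ _θ in (0 : ℝ)..(2 * Real.pi), B := by
        refine mul_le_mul_of_nonneg_left (intervalIntegral.integral_mono_on (by positivity)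
          (by simpa only [Finset.sum_fn] using IntervalIntegrable.sum S hint)
          intervalIntegrable_const fun θ _ => hB _ _ ?_ ?_) (by positivity)
        · rw [add_sub_cancel_left, abs_mul, abs_of_pos (show 0 < 2 + 4 * a by positivity)]
          exact mul_le_of_le_one_right (by positivity) (Real.abs_cos_le_one θ)
        · rw [sub_sub_cancel_left, abs_neg, abs_div, abs_mul,
            abs_of_pos (show 0 < 2 + 4 * a by positivity), abs_of_pos (show 0 < 2 * a by positivity),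
            show 2 + 1 / a = (2 + 4 * a) / (2 * a) by field_simp; ring]
          exact div_le_div_of_nonneg_right
            (mul_le_of_le_one_right (by positivity) (Real.abs_sin_le_one θ)) (by positivity)
    _ = _ := by rw [intervalIntegral.integral_const, sub_zero, smul_eq_mul]; ring

/-- Classes `e^i Y₁ ≤ Y ≤ e^{i+1} Y₁`, `0 ≤ i ≤ ⌊log (Y₂ / Y₁)⌋₊` (`ct_classes` with `f = 1`); in a
class use `ct_circle'` with `U = log Y₁ + i`, `V = K e^{σ U}`, and the largest of the finitely many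
constants. -/
theorem cnt_big {a : ℝ} (ha : 0 < a) (P : ℕ) : ∃ C : ℝ, 0 ≤ C ∧ ∀ (S : Finset O) (c : O → O → ℂ)
    (K σ τ Y₁ Y₂ E : ℝ), (∀ r ∈ S, ∀ n, Prim n → ‖c r n‖ ≤ 1) → 0 < K → 0 ≤ σ → 1 ≤ Y₁ → Y₁ ≤ Y₂ →
    0 ≤ E → (∀ r ∈ S, Big a K σ τ Y₁ Y₂ (c r)) →
    (∀ Y : ℝ, Y₁ ≤ Y → Y ≤ Y₂ → ∃ p : ℕ, 1 ≤ p ∧ p ≤ P ∧ ∀ Y' τ' : ℝ,
      Y * Real.exp (-(2 + 4 * a)) ≤ Y' → Y' ≤ Y * Real.exp (2 + 4 * a) → |τ' - τ| ≤ 2 + 1 / a →
      ∑ r ∈ S, ‖sm a (c r) Y' τ'‖ ^ p ≤ E * (K * Y ^ σ) ^ p) →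
    (S.card : ℝ) ≤ C * (1 + Real.log Y₂) * E := by
  choose C hC0 hC using fun p => ct_circle' ha p
  refine ⟨∑ q ∈ Finset.range P, C q, Finset.sum_nonneg fun q _ => (hC0 q).le, ?_⟩
  intro S c K σ τ Y₁ Y₂ E hc hK hσ hY₁ hY₂ hE hS hM
  have hY0 : 0 < Y₁ := by linarith
  have hY0' : 0 < Y₂ := by linarith
  have hl1 : 0 ≤ Real.log Y₁ := Real.log_nonneg hY₁
  have hl2 : Real.log Y₁ ≤ Real.log Y₂ := Real.log_le_log hY0 hY₂
  have hmain := ct_classes (Finset.range (⌊Real.log Y₂ - Real.log Y₁⌋₊ + 1)) S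
    (fun i r => ∃ u τ', |u - (Real.log Y₁ + i)| ≤ 1 ∧ |τ' - τ| ≤ 1 ∧
      K * Real.exp (Real.log Y₁ + i) ^ σ ≤ ‖sm a (c r) (Real.exp u) τ'‖) (fun _ => 1)
    (B := (∑ q ∈ Finset.range P, C q) * E) (fun r hr => by
      obtain ⟨Y, τ', a1, a2, a3, a4⟩ := hS r hr
      have hY : 0 < Y := by linarith
      have b1 : Real.log Y₁ ≤ Real.log Y := Real.log_le_log hY0 a1
      have b2 : Real.log Y ≤ Real.log Y₂ := Real.log_le_log hY a2
      have b3 := Nat.floor_le (sub_nonneg.2 b1)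
      have b4 := Nat.lt_floor_add_one (Real.log Y - Real.log Y₁)
      refine ⟨⌊Real.log Y - Real.log Y₁⌋₊, Finset.mem_range.2 (Nat.lt_succ_of_le
        (Nat.floor_le_floor (by linarith))), Real.log Y, τ', abs_le.2 ⟨by linarith, by linarith⟩,
        a3, ?_⟩
      rw [Real.exp_log hY]
      refine le_trans (mul_le_mul_of_nonneg_left (Real.rpow_le_rpow (Real.exp_pos _).le ?_ hσ)
        hK.le) a4.le
      rw [← Real.le_log_iff_exp_le hY]
      linarith) (fun i hi S' hS' hP => by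
      have b1 : (i : ℝ) ≤ Real.log Y₂ - Real.log Y₁ :=
        (Nat.le_floor_iff (sub_nonneg.2 hl2)).1 (Nat.lt_succ_iff.1 (Finset.mem_range.1 hi))
      have b0 : (0 : ℝ) ≤ i := Nat.cast_nonneg i
      obtain ⟨p, hp1, hpP, hp⟩ := hM (Real.exp (Real.log Y₁ + i))
        (by rw [← Real.log_le_iff_le_exp hY0]; linarith)
        (by rw [← Real.le_log_iff_exp_le hY0']; linarith)
      obtain ⟨q, rfl⟩ : ∃ q, p = q + 1 := ⟨p - 1, by omega⟩
      have hV : 0 < K * Real.exp (Real.log Y₁ + i) ^ σ :=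
        mul_pos hK (Real.rpow_pos_of_pos (Real.exp_pos _) _)
      have h1 := hC q S' c _ τ _ (E * (K * Real.exp (Real.log Y₁ + i) ^ σ) ^ (q + 1))
        (fun r hr => hc r (hS' hr)) hV hP fun u τ' hu hτ => le_trans
          (Finset.sum_le_sum_of_subset_of_nonneg hS' fun r _ _ => by positivity)
          (hp _ _ (by rw [← Real.exp_add, Real.exp_le_exp]; linarith [abs_le.1 hu])
            (by rw [← Real.exp_add, Real.exp_le_exp]; linarith [abs_le.1 hu]) hτ)
      rw [← mul_assoc] at h1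
      have h2 := le_of_mul_le_mul_right h1 (pow_pos hV _)
      simp only [Finset.sum_const, nsmul_eq_mul, mul_one]
      refine h2.trans (mul_le_mul_of_nonneg_right ?_ hE)
      exact Finset.single_le_sum (f := C) (fun q _ => (hC0 q).le) (Finset.mem_range.2 hpP))
  simp only [Finset.sum_const, nsmul_eq_mul, mul_one, Finset.card_range] at hmain
  have b1 := Nat.floor_le (sub_nonneg.2 hl2)
  have b2 : 0 ≤ (∑ q ∈ Finset.range P, C q) * E :=
    mul_nonneg (Finset.sum_nonneg fun q _ => (hC0 q).le) hE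
  push_cast at hmain
  calc _ ≤ _ := hmain
    _ ≤ (1 + Real.log Y₂) * ((∑ q ∈ Finset.range P, C q) * E) :=
        mul_le_mul_of_nonneg_right (by linarith) b2
    _ = _ := by ring

/-- Classify the rows by the least `i` with `¬ Bd i r` (`Nat.find`, `ct_classes`). -/
theorem level_sum (S : Finset O) (P : O → ℝ) (Bd : ℕ → O → Prop) (I : ℕ) (w : ℕ → ℝ) {E y : ℝ}
    (hE : 0 ≤ E) (hy : 1 ≤ y) (hw : ∀ i, 0 ≤ w i) (hw' : ∀ i, w (i + 1) ≤ y * w i)
    (hI : ∀ r ∈ S, ¬ Bd I r) (hP : ∀ i ≤ I, ∀ r ∈ S, ¬ Bd i r → P r ≤ w i)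
    (h0 : S.card * w 0 ≤ E)
    (h1 : ∀ i < I, ∀ S' ⊆ S, (∀ r ∈ S', Bd i r) → S'.card * w i ≤ E) :
    ∑ r ∈ S, P r ≤ (I + 1) * y * E := by
  classical
  have hmain := ct_classes (Finset.range (I + 1)) S (fun k r => ¬ Bd k r ∧ ∀ i < k, Bd i r) P
    (B := y * E) (fun r hr => by
      have hex : ∃ k, ¬ Bd k r := ⟨I, hI r hr⟩
      exact ⟨Nat.find hex, Finset.mem_range.2 (Nat.lt_succ_of_le (Nat.find_min' hex (hI r hr))),
        Nat.find_spec hex, fun i hi => not_not.1 (Nat.find_min hex hi)⟩) (fun k hk S' hS' h => by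
      have hk' : k ≤ I := Nat.lt_succ_iff.1 (Finset.mem_range.1 hk)
      have h2 : ∑ r ∈ S', P r ≤ S'.card * w k := by
        rw [← nsmul_eq_mul]
        exact Finset.sum_le_card_nsmul _ _ _ fun r hr => hP k hk' r (hS' hr) (h r hr).1
      refine h2.trans ?_
      rcases k with _ | i
      · have : (S'.card : ℝ) ≤ S.card := by exact_mod_cast Finset.card_le_card hS'
        exact ((mul_le_mul_of_nonneg_right this (hw 0)).trans h0).trans
          (le_mul_of_one_le_left hE hy)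
      · have h3 := h1 i hk' S' hS' fun r hr => (h r hr).2 i (Nat.lt_succ_self i)
        calc (S'.card : ℝ) * w (i + 1) ≤ S'.card * (y * w i) :=
              mul_le_mul_of_nonneg_left (hw' i) (Nat.cast_nonneg _)
          _ = y * (S'.card * w i) := by ring
          _ ≤ y * E := mul_le_mul_of_nonneg_left h3 (by linarith))
  rw [Finset.card_range] at hmain
  push_cast at hmain
  rwa [mul_assoc]

/-- Constants and logarithms are absorbed by small powers. -/
theorem ev_log (C : ℝ) {η : ℝ} (hη : 0 < η) :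
    ∀ᶠ x : ℝ in atTop, 1 ≤ x ∧ C * (1 + Real.log x) ≤ x ^ η := by
  have l1 : Tendsto (fun x : ℝ => C * ((x ^ η)⁻¹ + Real.log x / x ^ η)) atTop (𝓝 (C * (0 + 0))) :=
    (((tendsto_rpow_atTop hη).inv_tendsto_atTop).add
      (isLittleO_log_rpow_atTop hη).tendsto_div_nhds_zero).const_mul C
  rw [add_zero, mul_zero] at l1
  filter_upwards [l1.eventually (gt_mem_nhds one_pos), eventually_ge_atTop 1] with x hx hx1
  have hP : 0 < x ^ η := Real.rpow_pos_of_pos (by linarith) _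
  refine ⟨hx1, ?_⟩
  rw [inv_eq_one_div, ← add_div, ← mul_div_assoc, div_lt_one hP] at hx
  exact hx.le

/-- The height is harmless. -/
theorem ev_height {C η : ℝ} (hC : 0 ≤ C) (hη : 0 < η) (D : ℝ) : ∃ s : ℝ, 0 < s ∧
    ∀ᶠ x : ℝ in atTop, 1 ≤ x ∧ ∀ τ : ℝ, |τ| ≤ x ^ s + D → C * (1 + |τ|) ^ C ≤ x ^ η := by
  refine ⟨η / (2 * (C + 1)), by positivity, ?_⟩
  filter_upwards [(tendsto_rpow_atTop (half_pos hη)).eventually_ge_atTop (C * (2 + |D|) ^ C),
    eventually_ge_atTop 1] with x hx hx1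
  refine ⟨hx1, fun τ hτ => ?_⟩
  have hx0 : 0 < x := by linarith
  have h1 : 1 ≤ x ^ (η / (2 * (C + 1))) := Real.one_le_rpow hx1 (by positivity)
  have h2 : 1 + |τ| ≤ (2 + |D|) * x ^ (η / (2 * (C + 1))) := by
    have := le_abs_self D
    have := abs_nonneg D
    nlinarith
  have h3 := Real.rpow_le_rpow (by positivity) h2 hC
  rw [Real.mul_rpow (by positivity) (by positivity), ← Real.rpow_mul hx0.le] at h3
  have h4 : x ^ (η / (2 * (C + 1)) * C) ≤ x ^ (η / 2) := by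
    refine Real.rpow_le_rpow_of_exponent_le hx1 ?_
    rw [div_mul_eq_mul_div, div_le_div_iff₀ (by positivity) (by positivity)]
    nlinarith
  calc C * (1 + |τ|) ^ C ≤ C * ((2 + |D|) ^ C * x ^ (η / (2 * (C + 1)) * C)) :=
        mul_le_mul_of_nonneg_left h3 hC
    _ = C * (2 + |D|) ^ C * x ^ (η / (2 * (C + 1)) * C) := by ring
    _ ≤ x ^ (η / 2) * x ^ (η / 2) := mul_le_mul hx h4 (by positivity) (by positivity)
    _ = x ^ η := by rw [← Real.rpow_add hx0, add_halves]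

end Crest.Agent.R012.Far

end
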