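import Crest.Agent.R012.FIm

/-! # Row 12: counting rows with a large short sum -/

set_option autoImplicit false

noncomputable section

open scoped BigOperators ComplexConjugate Topology
open Complex MeasureTheory Filter Crest.Agent.R017

namespace Crest.Agent.R012.Far

/-- The choice of the moment. Here `Y = x^ν`, the sums are cut at `x^μ`, and `λ = j μ`.
* `ν ≤ 10⁻⁴`: `j = ⌈1 / ν⌉₊` if `ν ≥ 10⁻⁸`, and `j = 10⁸` otherwise; first alternative, using the gain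
  `2 j / 10⁸ ≥ 2 · 10⁻⁴`.
* `ν ≥ 10⁻⁴`, `5/3 - 2σ ≤ -1/90000`: `j ν ∈ [3/2, 2 - 1/1000]`, first alternative.
* `ν ≥ 10⁻⁴`, otherwise: `j ν ∈ [1/2 + 1/2000, 1 - 1/2000]`, second alternative.
(An interval of length `≥ ν` contains a multiple of `ν`: `j = ⌈α / ν⌉₊`.) -/
theorem cntA_num {ν σ : ℝ} (hν : 0 ≤ ν) (hν1 : ν ≤ 1 / 2 - 1 / 1000) (hσ : 3 / 5 ≤ σ) (hσ1 : σ ≤ 1) :
    ∃ j : ℕ, 1 ≤ j ∧ j ≤ 10 ^ 8 ∧ ∀ μ : ℝ, ν ≤ μ → μ ≤ ν + 1 / 10 ^ 17 → j * μ ≤ 3 ∧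
      ((j * μ + 1 ≤ 7 / 3 - 4 / 10 ^ 6 - 2 * σ + 2 * j * (1 / 10 ^ 8 + σ * ν) ∧
        j * μ + j * μ ≤ 7 / 3 - 4 / 10 ^ 6 - 2 * σ + 2 * j * (1 / 10 ^ 8 + σ * ν) ∧
        j * μ + 2 / 3 * (1 + j * μ) ≤ 7 / 3 - 4 / 10 ^ 6 - 2 * σ + 2 * j * (1 / 10 ^ 8 + σ * ν)) ∨
      (2 ≤ j ∧ j * μ ≤ 1 ∧
        1 + j * μ ≤ 7 / 3 - 4 / 10 ^ 6 - 2 * σ + 2 * j * (σ * ν) ∧
        1 / 3 + 2 * (j * μ) ≤ 7 / 3 - 4 / 10 ^ 6 - 2 * σ + 2 * j * (σ * ν) ∧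
        2 / 3 + 5 / 3 * (j * μ) - μ / 9 ≤ 7 / 3 - 4 / 10 ^ 6 - 2 * σ + 2 * j * (σ * ν))) := by
  have key : ∀ j : ℕ, (j : ℝ) ≤ 10 ^ 8 → ∀ μ : ℝ, ν ≤ μ → μ ≤ ν + 1 / 10 ^ 17 →
      j * μ ≤ j * ν + 1 / 10 ^ 9 := fun j hj μ _ h2 => by
    have : (0 : ℝ) ≤ j := by positivity
    nlinarith
  have e2 : ∀ j : ℕ, 2 * j * (1 / 10 ^ 8 + σ * ν) = 2 * j / 10 ^ 8 + 2 * σ * (j * ν) := fun j => by ring
  have e3 : ∀ j : ℕ, 2 * j * (σ * ν) = 2 * σ * (j * ν) := fun j => by ring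
  rcases lt_or_ge ν (2 / 10 ^ 8) with h | h
  · refine ⟨10 ^ 8, by norm_num, le_rfl, fun μ h1 h2 => ?_⟩
    push_cast
    refine ⟨by linarith, Or.inl ⟨by nlinarith, by nlinarith, by nlinarith⟩⟩
  rcases le_total ν (1 / 10 ^ 4) with h' | h'
  · obtain ⟨j, h1, h2, h3, h4⟩ := ex_mult (ν := ν) (α := 1) (β := 5 * 10 ^ 7) (by linarith)
      (by norm_num) (by linarith) (by norm_num)
    have hj : (j : ℝ) ≤ 10 ^ 8 := by linarith
    refine ⟨j, h1, by exact_mod_cast hj, fun μ h5 h6 => ?_⟩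
    have e1 := key j hj μ h5 h6
    have e4 : (10 : ℝ) ^ 4 ≤ j := by nlinarith
    rw [e2]
    generalize j * ν = l at *
    generalize j * μ = m at *
    refine ⟨by linarith, Or.inl ⟨by nlinarith, by nlinarith, by nlinarith⟩⟩
  rcases le_total (5 / 6 + 1 / 180000) σ with hs | hs
  · obtain ⟨j, h1, h2, h3, h4⟩ := ex_mult (ν := ν) (α := 3 / 2) (β := 15000) (by linarith)
      (by norm_num) (by linarith) (by norm_num)
    have hj : (j : ℝ) ≤ 10 ^ 8 := by linarith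
    refine ⟨j, h1, by exact_mod_cast hj, fun μ h5 h6 => ?_⟩
    have e1 := key j hj μ h5 h6
    have : 0 ≤ 2 * (j : ℝ) / 10 ^ 8 := by positivity
    rw [e2]
    generalize j * ν = l at *
    generalize j * μ = m at *
    refine ⟨by linarith, Or.inl ⟨by nlinarith, by nlinarith, by nlinarith⟩⟩
  · obtain ⟨j, h1, h2, h3, h4⟩ := ex_mult (ν := ν) (α := 1 / 2 + 1 / 2000) (β := 15000) (by linarith)
      (by norm_num) (by linarith) (by norm_num)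
    have hj : (j : ℝ) ≤ 10 ^ 8 := by linarith
    refine ⟨j, h1, by exact_mod_cast hj, fun μ h5 h6 => ?_⟩
    have e1 := key j hj μ h5 h6
    have h2j : 2 ≤ j := by
      by_contra hc
      have : j = 1 := by omega
      subst this
      push_cast at h3
      linarith
    rw [e3]
    generalize j * ν = l at *
    generalize j * μ = m at *
    refine ⟨by linarith, Or.inr ⟨h2j, by linarith, by nlinarith, by nlinarith, by nlinarith⟩⟩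

end Crest.Agent.R012.Far

end
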