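import Crest.Agent.R012.FC2
import Crest.Agent.R012.FH
import Crest.Agent.R012.FIn

/-! # Row 12: counting rows with a large short sum -/

set_option autoImplicit false

noncomputable section

open scoped BigOperators ComplexConjugate Topology
open Complex MeasureTheory Filter Crest.Agent.R017

namespace Crest.Agent.R012.Far

theorem fi_ev (C : ℕ → ℝ) (N : ℕ) {η : ℝ} (hη : 0 < η) :
    ∀ᶠ x : ℝ in atTop, ∀ j ≤ N, C j ≤ x ^ η := by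
  have := (Filter.eventually_all_finset (Finset.range (N + 1))).2 fun j _ =>
    (tendsto_rpow_atTop hη).eventually_ge_atTop (C j)
  filter_upwards [this] with x hx j hj
  exact hx j (Finset.mem_range.2 (Nat.lt_succ_of_le hj))

/-- The moment bound required by `cnt_big`. Write `Y = x^ν`, take `j` from `cntA_num`,
`ε = 10⁻¹⁸`; for large `x`, `Y' x^ε = x^{μ'}` with `ν ≤ μ' ≤ ν + 10⁻¹⁷` might fail below by a bounded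
factor, so use `ε' = 2 · 10⁻¹⁸` and `e^{2 + 4a} ≤ x^ε`: then `Y' x^{ε'} = x^μ` with
`ν ≤ μ ≤ ν + 10⁻¹⁷`. First alternative: `mom_LS` with `LSA`; second: `mom_B` with
`K = x^{1 + 10⁻⁸}`. The constants are bounded over `j ≤ 10⁸` (`eventually_all_finset`). -/
theorem momA {a : ℝ} (ha : 0 < a) : ∀ᶠ x : ℝ in atTop, ∀ (S : Finset O) (f : O → ℂ) (σ Y : ℝ),
    S ⊆ box (x ^ (1 + 1 / 10 ^ 8 : ℝ)) → LSA S x → (∀ n, Prim n → ‖f n‖ ≤ 1) → 3 / 5 ≤ σ → σ ≤ 1 →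
    1 ≤ Y → Y ≤ x ^ (1 / 2 - 1 / 1000 : ℝ) → ∃ p : ℕ, 1 ≤ p ∧ p ≤ 2 * 10 ^ 8 ∧ ∀ Y' τ' : ℝ,
      Y * Real.exp (-(2 + 4 * a)) ≤ Y' → Y' ≤ Y * Real.exp (2 + 4 * a) →
      ∑ r ∈ S, ‖sm a (fun n => f n * kap n r) Y' τ'‖ ^ p ≤
        x ^ (7 / 3 - 3 / 10 ^ 6 - 2 * σ) * (x ^ (1 / 10 ^ 8 : ℝ) * Y ^ σ) ^ p := by
  obtain ⟨ε, hε, hε1⟩ : ∃ ε : ℝ, 0 < ε ∧ ε ≤ 1 / 10 ^ 18 := ⟨1 / 10 ^ 18, by norm_num, le_rfl⟩
  have H1 : ∀ j : ℕ, ∃ C : ℝ, 0 ≤ C ∧ (1 ≤ j → ∀ (S : Finset O) (f : O → ℂ) (x Y τ Λ : ℝ), 1 ≤ x →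
      0 < Y → Y ≤ x → 1 ≤ Y * x ^ ε → (S.card : ℝ) ≤ x ^ 2 → 0 ≤ Λ → (∀ n, Prim n → ‖f n‖ ≤ 1) →
      LSb S ((Y * x ^ ε) ^ j) Λ → ∑ r ∈ S, ‖sm a (fun n => f n * kap n r) Y τ‖ ^ (2 * j) ≤
        C * (x ^ ε * Λ * (Y * x ^ ε) ^ j + 1)) := fun j => by
    by_cases hj : 1 ≤ j
    · obtain ⟨C, hC, h⟩ := mom_LS ha hε hj
      exact ⟨C, hC, fun _ => h⟩
    · exact ⟨0, le_rfl, fun h => absurd h hj⟩
  have H2 : ∀ j : ℕ, ∃ C : ℝ, 0 ≤ C ∧ (2 ≤ j → ∀ (f : O → ℂ) (x Y K τ : ℝ), 1 ≤ x → 0 < Y → Y ≤ x →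
      1 ≤ Y * x ^ ε → (Y * x ^ ε) ^ j ≤ K → K ≤ x ^ 2 → (∀ n, Prim n → ‖f n‖ ≤ 1) →
      ∑ r ∈ box K, ‖sm a (fun n => f n * kap n r) Y τ‖ ^ (2 * j) ≤
        C * x ^ ε * (K * (Y * x ^ ε) ^ j + K ^ (1 / 3 : ℝ) * ((Y * x ^ ε) ^ j) ^ 2 +
          K ^ (2 / 3 : ℝ) * ((Y * x ^ ε) ^ j) ^ (5 / 3 : ℝ) * (Y * x ^ ε) ^ (-(1 / 9) : ℝ))) :=
    fun j => by
    by_cases hj : 2 ≤ j
    · obtain ⟨C, hC, h⟩ := mom_B ha hε hj
      exact ⟨C, hC, fun _ => h⟩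
    · exact ⟨0, le_rfl, fun h => absurd h hj⟩
  choose C1 hC1 h1 using H1
  choose C2 hC2 h2 using H2
  filter_upwards [fi_ev (fun j => 4 * C1 j) (10 ^ 8) (show (0 : ℝ) < 1 / 10 ^ 7 by norm_num),
    fi_ev (fun j => 3 * C2 j) (10 ^ 8) (show (0 : ℝ) < 1 / 10 ^ 7 by norm_num),
    eventually_gt_atTop 1, (tendsto_rpow_atTop hε).eventually_ge_atTop (Real.exp (2 + 4 * a)),
    (tendsto_rpow_atTop (show (0 : ℝ) < 1 / 2 by norm_num)).eventually_ge_atTop 25]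
    with x e1 e2 hx hexp h25
  intro S f σ Y hS hLS hf hσ hσ1 hY hY1
  have hx0 : 0 < x := by linarith
  have hY0 : 0 < Y := by linarith
  obtain ⟨ν, hν⟩ : ∃ ν : ℝ, x ^ ν = Y := ⟨Real.logb x Y, Real.rpow_logb hx0 hx.ne' hY0⟩
  have mono : ∀ {s t : ℝ}, s ≤ t → x ^ s ≤ x ^ t := fun h => Real.rpow_le_rpow_of_exponent_le hx.le h
  have one_le : ∀ {s : ℝ}, 0 ≤ s → 1 ≤ x ^ s := fun h => Real.one_le_rpow hx.le h
  have ν0 : 0 ≤ ν := (Real.rpow_le_rpow_left_iff hx).1 (by rw [Real.rpow_zero, hν]; exact hY)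
  have ν1 : ν ≤ 1 / 2 - 1 / 1000 := (Real.rpow_le_rpow_left_iff hx).1 (by rw [hν]; exact hY1)
  obtain ⟨j, hj1, hj2, hj⟩ := cntA_num ν0 ν1 hσ hσ1
  refine ⟨2 * j, by omega, by omega, fun Y' τ' hl hu => ?_⟩
  have hY'0 : 0 < Y' := lt_of_lt_of_le (by positivity) hl
  have hxe : 0 < x ^ ε := Real.rpow_pos_of_pos hx0 _
  obtain ⟨μ, hμ⟩ : ∃ μ : ℝ, x ^ μ = Y' * x ^ ε :=
    ⟨Real.logb x (Y' * x ^ ε), Real.rpow_logb hx0 hx.ne' (by positivity)⟩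
  have μ0 : ν ≤ μ := (Real.rpow_le_rpow_left_iff hx).1 (by
    rw [hν, hμ]
    calc Y = Y * Real.exp (-(2 + 4 * a)) * Real.exp (2 + 4 * a) := by
          rw [mul_assoc, ← Real.exp_add]; simp
      _ ≤ Y' * x ^ ε := by gcongr)
  have μ1 : μ ≤ ν + 1 / 10 ^ 17 := by
    have : x ^ μ ≤ x ^ (ν + ε + ε) := by
      rw [Real.rpow_add hx0, Real.rpow_add hx0, hν, hμ]
      exact mul_le_mul_of_nonneg_right (hu.trans (by gcongr)) hxe.le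
    have := (Real.rpow_le_rpow_left_iff hx).1 this
    linarith
  obtain ⟨hj3, halt⟩ := hj μ μ0 μ1
  have μ2 : 0 ≤ μ := ν0.trans μ0
  have hjμ : 0 ≤ j * μ := by positivity
  have hY'x : Y' ≤ x := by
    calc Y' ≤ Y' * x ^ ε := le_mul_of_one_le_right hY'0.le (one_le hε.le)
      _ = x ^ μ := hμ.symm
      _ ≤ x ^ (1 : ℝ) := mono (by linarith)
      _ = x := Real.rpow_one x
  have hM1 : 1 ≤ Y' * x ^ ε := by rw [← hμ]; exact one_le μ2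
  have hL : (Y' * x ^ ε) ^ j = x ^ (j * μ) := by
    rw [← hμ, ← Real.rpow_natCast, ← Real.rpow_mul hx0.le, mul_comm]
  set E : ℝ := 7 / 3 - 4 / 10 ^ 6 - 2 * σ + 2 * j * (1 / 10 ^ 8 + σ * ν) with hE
  have hR : x ^ (7 / 3 - 3 / 10 ^ 6 - 2 * σ) * (x ^ (1 / 10 ^ 8 : ℝ) * Y ^ σ) ^ (2 * j) =
      x ^ (E + 1 / 10 ^ 6) := by
    rw [← hν, ← Real.rpow_mul hx0.le, ← Real.rpow_add hx0, ← Real.rpow_mul_natCast hx0.le,
      ← Real.rpow_add hx0]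
    congr 1
    rw [hE]; push_cast; ring
  rw [hR]
  have hK2 : x ^ (1 + 1 / 10 ^ 8 : ℝ) ≤ x ^ 2 := by
    rw [← Real.rpow_natCast x 2]; exact mono (by norm_num)
  rcases halt with ⟨a1, a2, a3⟩ | ⟨b0, b1, b2, b3, b4⟩
  · have hcard : (S.card : ℝ) ≤ x ^ 2 := by
      calc (S.card : ℝ) ≤ (box (x ^ (1 + 1 / 10 ^ 8 : ℝ))).card := by
            exact_mod_cast Finset.card_le_card hS
        _ ≤ 25 * x ^ (1 + 1 / 10 ^ 8 : ℝ) := card_box_le (by positivity)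
        _ ≤ x ^ (1 / 2 : ℝ) * x ^ (1 + 1 / 10 ^ 8 : ℝ) := by gcongr
        _ = x ^ (1 / 2 + (1 + 1 / 10 ^ 8) : ℝ) := (Real.rpow_add hx0 _ _).symm
        _ ≤ x ^ ((2 : ℕ) : ℝ) := mono (by norm_num)
        _ = x ^ 2 := Real.rpow_natCast x 2
    have hL3 : x ^ (j * μ) ≤ x ^ 3 := by
      rw [← Real.rpow_natCast x 3]; exact mono (by exact_mod_cast hj3)
    have hLS' := hLS (x ^ (j * μ)) (one_le hjμ) hL3
    have := h1 j hj1 S f x Y' τ'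
      (x ^ (1 / 10 ^ 8 : ℝ) * (x + x ^ (j * μ) + (x * x ^ (j * μ)) ^ (2 / 3 : ℝ)))
      hx.le hY'0 hY'x hM1 hcard (by positivity) hf (by rw [hL]; exact hLS')
    rw [hL] at this
    refine this.trans ?_
    have t1 : x * x ^ (j * μ) ≤ x ^ E := by
      rw [mul_comm, ← Real.rpow_add_one hx0.ne']; exact mono a1
    have t2 : x ^ (j * μ) * x ^ (j * μ) ≤ x ^ E := by
      rw [← Real.rpow_add hx0]; exact mono a2
    have t3 : (x * x ^ (j * μ)) ^ (2 / 3 : ℝ) * x ^ (j * μ) ≤ x ^ E := by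
      rw [mul_comm x, ← Real.rpow_add_one hx0.ne', ← Real.rpow_mul hx0.le, ← Real.rpow_add hx0]
      exact mono (by linarith)
    have t4 : 1 ≤ x ^ E := one_le (by linarith)
    have t5 : 1 ≤ x ^ ε * x ^ (1 / 10 ^ 8 : ℝ) :=
      one_le_mul_of_one_le_of_one_le (one_le hε.le) (one_le (by norm_num))
    have t6 : x ^ ε * (x ^ (1 / 10 ^ 8 : ℝ) * (x + x ^ (j * μ) + (x * x ^ (j * μ)) ^ (2 / 3 : ℝ))) *
        x ^ (j * μ) + 1 ≤ 4 * (x ^ ε * x ^ (1 / 10 ^ 8 : ℝ) * x ^ E) := by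
      have : x ^ ε * (x ^ (1 / 10 ^ 8 : ℝ) * (x + x ^ (j * μ) + (x * x ^ (j * μ)) ^ (2 / 3 : ℝ))) *
          x ^ (j * μ) = x ^ ε * x ^ (1 / 10 ^ 8 : ℝ) * (x * x ^ (j * μ) + x ^ (j * μ) * x ^ (j * μ) +
            (x * x ^ (j * μ)) ^ (2 / 3 : ℝ) * x ^ (j * μ)) := by ring
      rw [this]
      have u1 : x ^ ε * x ^ (1 / 10 ^ 8 : ℝ) * (x * x ^ (j * μ) + x ^ (j * μ) * x ^ (j * μ) +
            (x * x ^ (j * μ)) ^ (2 / 3 : ℝ) * x ^ (j * μ)) ≤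
          x ^ ε * x ^ (1 / 10 ^ 8 : ℝ) * (3 * x ^ E) :=
        mul_le_mul_of_nonneg_left (by linarith) (by positivity)
      have u2 : 1 ≤ x ^ ε * x ^ (1 / 10 ^ 8 : ℝ) * x ^ E := one_le_mul_of_one_le_of_one_le t5 t4
      linarith
    calc _ ≤ C1 j * (4 * (x ^ ε * x ^ (1 / 10 ^ 8 : ℝ) * x ^ E)) :=
          mul_le_mul_of_nonneg_left t6 (hC1 j)
      _ = 4 * C1 j * (x ^ ε * x ^ (1 / 10 ^ 8 : ℝ) * x ^ E) := by ring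
      _ ≤ x ^ (1 / 10 ^ 7 : ℝ) * (x ^ ε * x ^ (1 / 10 ^ 8 : ℝ) * x ^ E) :=
          mul_le_mul_of_nonneg_right (e1 j hj2) (by positivity)
      _ = x ^ (1 / 10 ^ 7 + (ε + 1 / 10 ^ 8 + E)) := by
          rw [Real.rpow_add hx0 (1 / 10 ^ 7), Real.rpow_add hx0 _ E, Real.rpow_add hx0 ε]
      _ ≤ x ^ (E + 1 / 10 ^ 6) := mono (by linarith)
  · have hjR : (0 : ℝ) ≤ j := Nat.cast_nonneg j
    have hE' : 7 / 3 - 4 / 10 ^ 6 - 2 * σ + 2 * j * (σ * ν) ≤ E := by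
      rw [hE]; nlinarith
    have hLK : (Y' * x ^ ε) ^ j ≤ x ^ (1 + 1 / 10 ^ 8 : ℝ) := by
      rw [hL]; exact mono (by linarith)
    have := h2 j b0 f x Y' _ τ' hx.le hY'0 hY'x hM1 hLK hK2 hf
    rw [hL, ← hμ] at this
    refine ((Finset.sum_le_sum_of_subset_of_nonneg hS fun _ _ _ => by positivity).trans this).trans ?_
    have t1 : x ^ (1 + 1 / 10 ^ 8 : ℝ) * x ^ (j * μ) ≤ x ^ (E + 1 / 10 ^ 8) := by
      rw [← Real.rpow_add hx0]; exact mono (by linarith)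
    have t2 : (x ^ (1 + 1 / 10 ^ 8 : ℝ)) ^ (1 / 3 : ℝ) * (x ^ (j * μ)) ^ 2 ≤ x ^ (E + 1 / 10 ^ 8) := by
      rw [← Real.rpow_mul_natCast hx0.le, ← Real.rpow_mul hx0.le, ← Real.rpow_add hx0]
      exact mono (by push_cast; linarith)
    have t3 : (x ^ (1 + 1 / 10 ^ 8 : ℝ)) ^ (2 / 3 : ℝ) * (x ^ (j * μ)) ^ (5 / 3 : ℝ) *
        (x ^ μ) ^ (-(1 / 9) : ℝ) ≤ x ^ (E + 1 / 10 ^ 8) := by
      rw [← Real.rpow_mul hx0.le, ← Real.rpow_mul hx0.le, ← Real.rpow_mul hx0.le,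
        ← Real.rpow_add hx0, ← Real.rpow_add hx0]
      exact mono (by linarith)
    calc _ ≤ C2 j * x ^ ε * (3 * x ^ (E + 1 / 10 ^ 8)) :=
          mul_le_mul_of_nonneg_left (by linarith) (mul_nonneg (hC2 j) hxe.le)
      _ = 3 * C2 j * (x ^ ε * x ^ (E + 1 / 10 ^ 8)) := by ring
      _ ≤ x ^ (1 / 10 ^ 7 : ℝ) * (x ^ ε * x ^ (E + 1 / 10 ^ 8)) :=
          mul_le_mul_of_nonneg_right (e2 j hj2) (by positivity)
      _ = x ^ (1 / 10 ^ 7 + (ε + (E + 1 / 10 ^ 8))) := by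
          rw [Real.rpow_add hx0 (1 / 10 ^ 7), Real.rpow_add hx0 ε]
      _ ≤ x ^ (E + 1 / 10 ^ 6) := mono (by linarith)

/-- `cnt_big`, `momA`, `ev_log`. -/
theorem cntA {a : ℝ} (ha : 0 < a) : ∀ᶠ x : ℝ in atTop, ∀ (S : Finset O) (f : O → ℂ) (σ τ : ℝ),
    S ⊆ box (x ^ (1 + 1 / 10 ^ 8 : ℝ)) → LSA S x → (∀ n, Prim n → ‖f n‖ ≤ 1) → 3 / 5 ≤ σ → σ ≤ 1 →
    (∀ r ∈ S, Big a (x ^ (1 / 10 ^ 8 : ℝ)) σ τ 1 (x ^ (1 / 2 - 1 / 1000 : ℝ)) (fun n => f n * kap n r)) →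
    S.card * x ^ (2 * σ) ≤ x ^ (7 / 3 - 1 / 10 ^ 6 : ℝ) := by
  obtain ⟨C, hC, h⟩ := cnt_big ha (2 * 10 ^ 8)
  filter_upwards [momA ha, ev_log C (show (0 : ℝ) < 2 / 10 ^ 6 by norm_num)] with x hm hl
  intro S f σ τ hS hLS hf hσ hσ1 hB
  obtain ⟨hx, hl⟩ := hl
  have hx0 : 0 < x := by linarith
  have hY : 1 ≤ x ^ (1 / 2 - 1 / 1000 : ℝ) := Real.one_le_rpow hx (by norm_num)
  have h1 := h S (fun r n => f n * kap n r) (x ^ (1 / 10 ^ 8 : ℝ)) σ τ 1 (x ^ (1 / 2 - 1 / 1000 : ℝ))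
    (x ^ (7 / 3 - 3 / 10 ^ 6 - 2 * σ))
    (fun r _ n hn => by
      rw [norm_mul]; exact mul_le_one₀ (hf n hn) (norm_nonneg _) (norm_kap_le _ _))
    (by positivity) (by linarith) le_rfl hY (by positivity) hB
    (fun Y hY1 hY2 => by
      obtain ⟨p, p1, p2, hp⟩ := hm S f σ Y hS hLS hf hσ hσ1 hY1 hY2
      exact ⟨p, p1, p2, fun Y' τ' a1 a2 _ => hp Y' τ' a1 a2⟩)
  have h2 : Real.log (x ^ (1 / 2 - 1 / 1000 : ℝ)) ≤ Real.log x := by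
    rw [Real.log_rpow hx0]
    have := Real.log_nonneg hx
    nlinarith
  have h3 : C * (1 + Real.log (x ^ (1 / 2 - 1 / 1000 : ℝ))) ≤ x ^ (2 / 10 ^ 6 : ℝ) :=
    (mul_le_mul_of_nonneg_left (by linarith) hC).trans hl
  calc (S.card : ℝ) * x ^ (2 * σ)
      ≤ x ^ (2 / 10 ^ 6 : ℝ) * x ^ (7 / 3 - 3 / 10 ^ 6 - 2 * σ) * x ^ (2 * σ) :=
        mul_le_mul_of_nonneg_right (h1.trans (mul_le_mul_of_nonneg_right h3 (by positivity)))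
          (by positivity)
    _ = _ := by
        rw [← Real.rpow_add hx0, ← Real.rpow_add hx0]
        congr 1
        ring

end Crest.Agent.R012.Far

end
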