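import Crest.Agent.R012.F0

/-! # Row 12: counting rows of medium conductor -/

set_option autoImplicit false

noncomputable section

open scoped BigOperators ComplexConjugate Topology
open Complex MeasureTheory Filter Crest.Agent.R017

namespace Crest.Agent.R012.Far

theorem ex_mult {ν α β : ℝ} (hν : 0 < ν) (hα : 0 < α) (hβ : α / β ≤ ν) (hβ0 : 0 < β) :
    ∃ j : ℕ, 1 ≤ j ∧ (j : ℝ) ≤ β + 1 ∧ α ≤ j * ν ∧ j * ν ≤ α + ν := by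
  have h0 : 0 < α / ν := by positivity
  have h1 := Nat.le_ceil (α / ν)
  have h2 := (Nat.ceil_lt_add_one h0.le).le
  have h3 : α / ν ≤ β := by
    rw [div_le_iff₀ hν]
    rw [div_le_iff₀ hβ0] at hβ
    linarith
  refine ⟨⌈α / ν⌉₊, Nat.ceil_pos.2 h0, by linarith, ?_, ?_⟩
  · rwa [div_le_iff₀ hν] at h1
  · have := mul_le_mul_of_nonneg_right h2 hν.le
    rwa [add_mul, div_mul_cancel₀ _ hν.ne', one_mul] at this

/-- `j = 2 · 10⁸` if `ν < 10⁻⁸`; otherwise `j ν ∈ [6/5, 19/10]` (`j = ⌈(6/5) / ν⌉₊`). -/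
theorem cntB_num {ν σ : ℝ} (hν : 0 ≤ ν) (hν1 : ν ≤ 7 / 10) (hσ : 82 / 100 ≤ σ) (hσ1 : σ ≤ 1) :
    ∃ j : ℕ, 1 ≤ j ∧ j ≤ 2 * 10 ^ 8 ∧ ∀ μ : ℝ, ν ≤ μ → μ ≤ ν + 1 / 10 ^ 17 → j * μ ≤ 3 ∧
      j * μ + j * μ ≤ 7 / 3 - 2 / 1000 - 2 * σ + 2 * j * (1 / 10 ^ 8 + σ * ν) ∧
      j * μ + 4 / 3 ≤ 7 / 3 - 2 / 1000 - 2 * σ + 2 * j * (1 / 10 ^ 8 + σ * ν) := by
  rcases lt_or_ge ν (1 / 10 ^ 8) with h | h
  · refine ⟨2 * 10 ^ 8, by norm_num, le_rfl, fun μ h1 h2 => ?_⟩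
    push_cast
    refine ⟨by linarith, by nlinarith, by nlinarith⟩
  · obtain ⟨j, h1, h2, h3, h4⟩ := ex_mult (ν := ν) (α := 6 / 5) (β := 15 * 10 ^ 7) (by linarith)
      (by norm_num) (by linarith) (by norm_num)
    refine ⟨j, h1, by exact_mod_cast (show (j : ℝ) ≤ 2 * 10 ^ 8 by linarith), fun μ h5 h6 => ?_⟩
    have hj : (0 : ℝ) ≤ j := by positivity
    have e1 : j * μ ≤ j * ν + 1 / 10 ^ 8 := by nlinarith
    have e2 : 2 * j * (1 / 10 ^ 8 + σ * ν) = 2 * j / 10 ^ 8 + 2 * σ * (j * ν) := by ring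
    rw [e2]
    generalize j * ν = l at *
    generalize j * μ = m at *
    have : 0 ≤ 2 * (j : ℝ) / 10 ^ 8 := by positivity
    refine ⟨by linarith, by nlinarith, by nlinarith⟩

end Crest.Agent.R012.Far

end
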