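import Crest.Agent.R012.FB2
import Crest.Agent.R012.FH
import Crest.Agent.R012.FIm

/-! # Row 12: counting rows of medium conductor -/

set_option autoImplicit false

noncomputable section

open scoped BigOperators ComplexConjugate Topology
open Complex MeasureTheory Filter Crest.Agent.R017

namespace Crest.Agent.R012.Far

theorem FI2_bdd (C : ℕ → ℝ) (N : ℕ) : ∃ M : ℝ, ∀ j ≤ N, C j ≤ M := by
  obtain ⟨M, hM⟩ := ((Set.finite_le_nat N).image C).bddAbove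
  exact ⟨M, fun j hj => hM ⟨j, hj, rfl⟩⟩

theorem FI2_ev (M : ℝ) {η : ℝ} (hη : 0 < η) : ∀ᶠ x : ℝ in atTop, M ≤ x ^ η :=
  (tendsto_rpow_atTop hη).eventually_ge_atTop M

/-- Write `Y = x^ν`, take `j` from `cntB_num`, `ε = 2 · 10⁻¹⁸` and `e^{2 + 4a} ≤ x^{ε/2}`; then
`Y' x^ε = x^μ` with `ν ≤ μ ≤ ν + 10⁻¹⁷`; `mom_LS` with `LSB`. The constants are bounded over
`j ≤ 2 · 10⁸` (`eventually_all_finset`). -/
theorem momB {a : ℝ} (ha : 0 < a) : ∀ᶠ x : ℝ in atTop, ∀ (S : Finset O) (f : O → ℂ) (σ Y : ℝ),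
    (S.card : ℝ) ≤ x ^ 2 → LSB S x → (∀ n, Prim n → ‖f n‖ ≤ 1) → 82 / 100 ≤ σ → σ ≤ 1 →
    1 ≤ Y → Y ≤ x ^ (7 / 10 : ℝ) → ∃ p : ℕ, 1 ≤ p ∧ p ≤ 4 * 10 ^ 8 ∧ ∀ Y' τ' : ℝ,
      Y * Real.exp (-(2 + 4 * a)) ≤ Y' → Y' ≤ Y * Real.exp (2 + 4 * a) →
      ∑ r ∈ S, ‖sm a (fun n => f n * kap n r) Y' τ'‖ ^ p ≤
        x ^ (7 / 3 - 3 / 10 ^ 6 - 2 * σ) * (x ^ (1 / 10 ^ 8 : ℝ) * Y ^ σ) ^ p := by
  have hε : (0 : ℝ) < 2 / 10 ^ 18 := by norm_num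
  choose C hC0 hC using fun j : ℕ => mom_LS ha hε (j := j + 1) (by omega)
  obtain ⟨M, hM⟩ := FI2_bdd C (2 * 10 ^ 8)
  filter_upwards [eventually_gt_atTop (1 : ℝ), FI2_ev (Real.exp (2 + 4 * a)) hε,
    FI2_ev (3 * M) (show (0 : ℝ) < 1 / 10 ^ 4 by norm_num)] with x hx hx1 hx2
  intro S f σ Y hS hL hf hσ hσ1 hY1 hY2
  have hx0 : 0 < x := by linarith
  have hY0 : 0 < Y := by linarith
  obtain ⟨ν, rfl⟩ : ∃ ν : ℝ, Y = x ^ ν := ⟨Real.logb x Y, (Real.rpow_logb hx0 hx.ne' hY0).symm⟩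
  have hν0 : 0 ≤ ν := by
    rw [← Real.rpow_zero x] at hY1
    exact (Real.rpow_le_rpow_left_iff hx).1 hY1
  have hν1 : ν ≤ 7 / 10 := (Real.rpow_le_rpow_left_iff hx).1 hY2
  obtain ⟨j, hj1, hj2, hj⟩ := cntB_num hν0 hν1 hσ hσ1
  refine ⟨2 * j, by omega, by omega, fun Y' τ' h1 h2 => ?_⟩
  have he := Real.exp_pos (2 + 4 * a)
  have hY' : 0 < Y' := lt_of_lt_of_le (by positivity) h1
  have hxe : 0 < x ^ (2 / 10 ^ 18 : ℝ) := by positivity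
  obtain ⟨μ, hμ⟩ : ∃ μ : ℝ, Y' * x ^ (2 / 10 ^ 18 : ℝ) = x ^ μ :=
    ⟨Real.logb x _, (Real.rpow_logb hx0 hx.ne' (by positivity)).symm⟩
  have hμ1 : ν ≤ μ := by
    rw [← Real.rpow_le_rpow_left_iff hx, ← hμ]
    rw [Real.exp_neg, ← div_eq_mul_inv, div_le_iff₀ he] at h1
    exact h1.trans (by gcongr)
  have hμ2 : μ ≤ ν + 1 / 10 ^ 17 := by
    have h3 : x ^ μ ≤ x ^ (ν + 2 / 10 ^ 18 + 2 / 10 ^ 18) := by
      rw [← hμ, Real.rpow_add hx0, Real.rpow_add hx0]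
      gcongr
      exact h2.trans (by gcongr)
    have := (Real.rpow_le_rpow_left_iff hx).1 h3
    linarith
  obtain ⟨h3, h4, h5⟩ := hj μ hμ1 hμ2
  have hμ0 : 0 ≤ μ := hν0.trans hμ1
  have hjμ : 0 ≤ (j : ℝ) * μ := by positivity
  have hpow : (x ^ μ) ^ j = x ^ ((j : ℝ) * μ) := by
    rw [← Real.rpow_natCast, ← Real.rpow_mul hx0.le, mul_comm]
  have hL1 : 1 ≤ x ^ ((j : ℝ) * μ) := Real.one_le_rpow hx.le hjμ
  have hL3 : x ^ ((j : ℝ) * μ) ≤ x ^ 3 := by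
    rw [← Real.rpow_natCast]
    exact Real.rpow_le_rpow_of_exponent_le hx.le (by exact_mod_cast h3)
  have hYx : Y' ≤ x := by
    calc Y' ≤ Y' * x ^ (2 / 10 ^ 18 : ℝ) :=
          le_mul_of_one_le_right hY'.le (Real.one_le_rpow hx.le hε.le)
      _ = x ^ μ := hμ
      _ ≤ x ^ (1 : ℝ) := Real.rpow_le_rpow_of_exponent_le hx.le (by linarith)
      _ = x := Real.rpow_one x
  obtain ⟨i, rfl⟩ : ∃ i, j = i + 1 := ⟨j - 1, by omega⟩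
  have h6 := hC i S f x Y' τ'
    (x ^ (1 / 1000 : ℝ) * (x ^ (((i + 1 : ℕ) : ℝ) * μ) + x ^ (4 / 3 : ℝ))) hx.le hY' hYx
    (by rw [hμ]; exact Real.one_le_rpow hx.le hμ0) hS
    (by positivity) hf (by rw [hμ, hpow]; exact hL _ hL1 hL3)
  rw [hμ, hpow] at h6
  refine h6.trans ?_
  set E : ℝ := 7 / 3 - 2 / 1000 - 2 * σ + 2 * ((i + 1 : ℕ) : ℝ) * (1 / 10 ^ 8 + σ * ν) with hE
  set t : ℝ := ((i + 1 : ℕ) : ℝ) * μ with ht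
  have h7 : x ^ (2 / 10 ^ 18 : ℝ) * (x ^ (1 / 1000 : ℝ) * (x ^ t + x ^ (4 / 3 : ℝ))) * x ^ t =
      x ^ (2 / 10 ^ 18 + 1 / 1000 + (t + t)) + x ^ (2 / 10 ^ 18 + 1 / 1000 + (t + 4 / 3)) := by
    simp only [Real.rpow_add hx0]
    ring
  have h8 : x ^ (2 / 10 ^ 18 + 1 / 1000 + (t + t)) ≤ x ^ (2 / 10 ^ 18 + 1 / 1000 + E) :=
    Real.rpow_le_rpow_of_exponent_le hx.le (by linarith)
  have h9 : x ^ (2 / 10 ^ 18 + 1 / 1000 + (t + 4 / 3)) ≤ x ^ (2 / 10 ^ 18 + 1 / 1000 + E) :=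
    Real.rpow_le_rpow_of_exponent_le hx.le (by linarith)
  have h10 : 1 ≤ x ^ (2 / 10 ^ 18 + 1 / 1000 + E) := Real.one_le_rpow hx.le (by linarith)
  have h11 : C i ≤ M := hM i (by omega)
  have h12 := hC0 i
  have h13 : (x ^ (1 / 10 ^ 8 : ℝ) * (x ^ ν) ^ σ) ^ (2 * (i + 1)) =
      x ^ (2 * ((i + 1 : ℕ) : ℝ) * (1 / 10 ^ 8 + σ * ν)) := by
    rw [← Real.rpow_mul hx0.le, ← Real.rpow_add hx0, ← Real.rpow_natCast, ← Real.rpow_mul hx0.le]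
    congr 1
    push_cast
    ring
  rw [h7, h13, ← Real.rpow_add hx0]
  calc C i * (x ^ (2 / 10 ^ 18 + 1 / 1000 + (t + t)) +
        x ^ (2 / 10 ^ 18 + 1 / 1000 + (t + 4 / 3)) + 1)
      ≤ M * (3 * x ^ (2 / 10 ^ 18 + 1 / 1000 + E)) :=
        mul_le_mul h11 (by linarith) (by positivity) (h12.trans h11)
    _ = 3 * M * x ^ (2 / 10 ^ 18 + 1 / 1000 + E) := by ring
    _ ≤ x ^ (1 / 10 ^ 4 : ℝ) * x ^ (2 / 10 ^ 18 + 1 / 1000 + E) := by gcongr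
    _ = x ^ (1 / 10 ^ 4 + (2 / 10 ^ 18 + 1 / 1000 + E)) := (Real.rpow_add hx0 _ _).symm
    _ ≤ _ := Real.rpow_le_rpow_of_exponent_le hx.le (by rw [hE]; linarith)

/-- `cnt_big`, `momB`, `ev_log`. -/
theorem cntB {a : ℝ} (ha : 0 < a) : ∀ᶠ x : ℝ in atTop, ∀ (S : Finset O) (f : O → ℂ) (σ τ : ℝ),
    (S.card : ℝ) ≤ x ^ 2 → LSB S x → (∀ n, Prim n → ‖f n‖ ≤ 1) → 82 / 100 ≤ σ → σ ≤ 1 →
    (∀ r ∈ S, Big a (x ^ (1 / 10 ^ 8 : ℝ)) σ τ 1 (x ^ (7 / 10 : ℝ)) (fun n => f n * kap n r)) →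
    S.card * x ^ (2 * σ) ≤ x ^ (7 / 3 - 1 / 10 ^ 6 : ℝ) := by
  obtain ⟨C, hC0, hC⟩ := cnt_big ha (4 * 10 ^ 8)
  filter_upwards [momB ha, ev_log C (show (0 : ℝ) < 2 / 10 ^ 6 by norm_num)] with x hm hx
  obtain ⟨hx, hx1⟩ := hx
  intro S f σ τ hS hL hf hσ hσ1 hB
  have hx0 : 0 < x := by linarith
  have h1 := hC S (fun r n => f n * kap n r) (x ^ (1 / 10 ^ 8 : ℝ)) σ τ 1 (x ^ (7 / 10 : ℝ))
    (x ^ (7 / 3 - 3 / 10 ^ 6 - 2 * σ))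
    (fun r _ n hn => by
      rw [norm_mul]
      exact mul_le_one₀ (hf n hn) (norm_nonneg _) (norm_kap_le _ _))
    (by positivity) (by linarith) le_rfl (Real.one_le_rpow hx (by norm_num)) (by positivity) hB
    fun Y h1 h2 => by
      obtain ⟨p, hp1, hp2, hp⟩ := hm S f σ Y hS hL hf hσ hσ1 h1 h2
      exact ⟨p, hp1, hp2, fun Y' τ' h3 h4 _ => hp Y' τ' h3 h4⟩
  have h2 : Real.log (x ^ (7 / 10 : ℝ)) ≤ Real.log x := by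
    rw [Real.log_rpow hx0]
    have := Real.log_nonneg hx
    linarith
  calc (S.card : ℝ) * x ^ (2 * σ)
      ≤ x ^ (2 / 10 ^ 6 : ℝ) * x ^ (7 / 3 - 3 / 10 ^ 6 - 2 * σ) * x ^ (2 * σ) := by
        gcongr
        refine h1.trans ?_
        gcongr
        exact le_trans (by gcongr) hx1
    _ = _ := by
        rw [← Real.rpow_add hx0, ← Real.rpow_add hx0]
        congr 1
        ring

end Crest.Agent.R012.Far

end
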