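import Crest.Agent.R012.FH

/-! # Row 12: sums of middle and large length -/

set_option autoImplicit false

noncomputable section

open scoped BigOperators ComplexConjugate Topology
open Complex MeasureTheory Filter Crest.Agent.R017

namespace Crest.Agent.R012.Far

theorem fj_ev (C : ℝ) {η : ℝ} (hη : 0 < η) : ∀ᶠ x : ℝ in atTop, C ≤ x ^ η :=
  (tendsto_rpow_atTop hη).eventually_ge_atTop C

theorem fj_Nr_mod (h : O) : Nr (9 * rad h) = 81 * Nr (rad h) := by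
  have h9 : Nr (9 : O) = 81 := by
    have := Nr_natCast 9
    norm_num at this
    exact this
  rw [Nr_mul, h9]

/-- Contrapositive: `reflect_az` with `a = 1/3`, `η = kc r`, `q = 9 rad r`, parameter `x²`,
`ε = 10⁻¹⁰` (`sm_ch_eq`, `isCh_kc`, `princ_kc`). The dual lengths lie in `[1, x^{1/2 - 1/1000}]`, so
the integrand is at most `x^e (x^{1/2})^{σ - 1/2} ≤ x^e Y^{σ - 1/2}` on an interval of length
`≤ log x`; `ev_height`, `ev_log`. -/
theorem big_long (l : ℤ) : ∃ s : ℝ, 0 < s ∧ ∀ᶠ x : ℝ in atTop, ∀ (r : O) (σ τ Y₂ : ℝ), |τ| ≤ x ^ s →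
    r ∈ box (x ^ (1 + 1 / 10 ^ 8 : ℝ)) → ¬ IsCube r → 1 / 2 ≤ σ → σ ≤ 1 →
    Big (2 / 3) (x ^ (2 / 10 ^ 8 : ℝ)) σ τ (x ^ (1 / 2 + 1 / 500 : ℝ)) Y₂ (ch l r) →
    Big (1 / 3) (x ^ (1 / 10 ^ 8 : ℝ)) σ τ 1 (x ^ (1 / 2 - 1 / 1000 : ℝ)) (ch l r) := by
  obtain ⟨C, hC, H⟩ := reflect_az (a := 1 / 3) (ε := 1 / 10 ^ 10) (by norm_num) (by norm_num) l
  obtain ⟨s, hs, hh⟩ := ev_height hC (η := 1 / (3 * 10 ^ 8)) (by norm_num) 1
  refine ⟨s, hs, ?_⟩
  filter_upwards [hh, ev_log 1 (η := 1 / (3 * 10 ^ 8)) (by norm_num),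
    fj_ev 81 (η := 1 / 2000) (by norm_num)] with x ⟨hx1, hh⟩ ⟨_, hl⟩ h81 r σ τ Y₂ hτ hr hc hσ _ hB
  by_contra hn
  obtain ⟨Y, t, hY, -, ht, hlt⟩ := hB
  have hx0 : 0 < x := by linarith
  obtain ⟨hr0, hrN⟩ := mem_box.1 hr
  have hlog : 0 ≤ Real.log x := Real.log_nonneg hx1
  have hY1 : 1 ≤ Y := (Real.one_le_rpow hx1 (by norm_num)).trans hY
  have hY0 : 0 < Y := by linarith
  have hq : Nr (9 * rad r) ≤ x ^ (1 + 1 / 10 ^ 8 + 1 / 2000 : ℝ) := by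
    rw [Real.rpow_add hx0]
    exact ((Nr_mod_kc hr0).trans (mul_le_mul h81 hrN (Nr_nonneg _) (by positivity))).trans_eq
      (mul_comm _ _)
  have hq2 : Nr (9 * rad r) ≤ x ^ (2 : ℝ) :=
    hq.trans (Real.rpow_le_rpow_of_exponent_le hx1 (by norm_num))
  have hqpos : 0 < Nr (9 * rad r) := Nr_pos (isCh_kc hr0).ne
  have key := H (x ^ (2 : ℝ)) (9 * rad r) (kc r) (Real.one_le_rpow hx1 (by norm_num)) (isCh_kc hr0)
    (Or.inr fun hp => hc ((princ_kc hr0).1 hp)) hq2 (Real.log Y) t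
  simp only [← sm_ch_eq] at key
  rw [Real.exp_log hY0, show (2 * (1 / 3) : ℝ) = 2 / 3 by norm_num] at key
  set L := max 0 (Real.log (Nr (9 * rad r)) - Real.log Y + 1 / 10 ^ 10 * Real.log (x ^ (2 : ℝ)))
    with hL
  have hL0 : 0 ≤ L := le_max_left _ _
  have hL1 : L ≤ (1 / 2 - 1 / 1000) * Real.log x := by
    refine max_le (by positivity) ?_
    have h1 := Real.log_le_log hqpos hq
    have h2 := Real.log_le_log (by positivity) hY
    rw [Real.log_rpow hx0] at h1 h2 ⊢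
    nlinarith
  set B := x ^ (1 / 10 ^ 8 : ℝ) * Y ^ (σ - 1 / 2) with hBdef
  have hB1 : 1 ≤ B := one_le_mul_of_one_le_of_one_le (Real.one_le_rpow hx1 (by norm_num))
    (Real.one_le_rpow hY1 (by linarith))
  have hint : ∫ u in (0 : ℝ)..L, ‖sm (1 / 3) (ch l r) (Real.exp u) t‖ * Real.exp (-u / 2) ≤
      B * Real.log x := by
    have h1 : ‖∫ u in (0 : ℝ)..L, ‖sm (1 / 3) (ch l r) (Real.exp u) t‖ * Real.exp (-u / 2)‖ ≤
        B * |L - 0| := by
      refine intervalIntegral.norm_integral_le_of_norm_le_const fun u hu => ?_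
      rw [Set.uIoc_of_le hL0] at hu
      have hu1 : 1 ≤ Real.exp u := Real.one_le_exp hu.1.le
      have hu2 : Real.exp u ≤ x ^ (1 / 2 - 1 / 1000 : ℝ) := by
        rw [Real.rpow_def_of_pos hx0, Real.exp_le_exp, mul_comm]
        exact hu.2.trans hL1
      have h2 : ‖sm (1 / 3) (ch l r) (Real.exp u) t‖ ≤ x ^ (1 / 10 ^ 8 : ℝ) * Real.exp u ^ σ :=
        not_lt.1 fun h => hn ⟨Real.exp u, t, hu1, hu2, ht, h⟩
      have hu3 : Real.exp u ≤ Y :=
        (hu2.trans (Real.rpow_le_rpow_of_exponent_le hx1 (by norm_num))).trans hY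
      rw [Real.norm_of_nonneg (by positivity)]
      refine (mul_le_mul_of_nonneg_right h2 (Real.exp_pos _).le).trans ?_
      rw [mul_assoc, hBdef]
      refine mul_le_mul_of_nonneg_left ?_ (by positivity)
      have e : Real.exp u ^ σ * Real.exp (-u / 2) = Real.exp u ^ (σ - 1 / 2) := by
        rw [← Real.exp_mul, ← Real.exp_mul, ← Real.exp_add]
        congr 1
        ring
      rw [e]
      exact Real.rpow_le_rpow (Real.exp_pos _).le hu3 (by linarith)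
    rw [sub_zero, abs_of_nonneg hL0] at h1
    refine (le_abs_self _).trans (h1.trans (mul_le_mul_of_nonneg_left ?_ (by linarith)))
    nlinarith
  have ht' : |t| ≤ x ^ s + 1 := by
    have := abs_add_le (t - τ) τ
    rw [sub_add_cancel] at this
    linarith
  have h3 := hh t ht'
  have h4 : (x ^ (2 : ℝ)) ^ (1 / 10 ^ 10 : ℝ) ≤ x ^ (1 / (3 * 10 ^ 8) : ℝ) := by
    rw [← Real.rpow_mul hx0.le]
    exact Real.rpow_le_rpow_of_exponent_le hx1 (by norm_num)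
  set y := x ^ (1 / (3 * 10 ^ 8) : ℝ) with hy
  have hy0 : 0 ≤ y := by positivity
  have hy3 : y * y * y = x ^ (1 / 10 ^ 8 : ℝ) := by
    rw [hy, ← Real.rpow_add hx0, ← Real.rpow_add hx0]
    norm_num
  have h5 : 1 + ∫ u in (0 : ℝ)..L, ‖sm (1 / 3) (ch l r) (Real.exp u) t‖ * Real.exp (-u / 2) ≤
      y * B := by
    nlinarith
  have h6 : C * (x ^ (2 : ℝ)) ^ (1 / 10 ^ 10 : ℝ) * (1 + |t|) ^ C ≤ y * y := by
    rw [mul_right_comm]
    exact mul_le_mul h3 h4 (by positivity) hy0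
  have h7 : ‖sm (2 / 3) (ch l r) Y t‖ * Real.exp (-Real.log Y / 2) ≤ y * y * (y * B) :=
    key.trans ((mul_le_mul_of_nonneg_left h5 (by positivity)).trans
      (mul_le_mul_of_nonneg_right h6 (by positivity)))
  have e1 : Real.exp (-Real.log Y / 2) = Y ^ (-(1 / 2) : ℝ) := by
    rw [Real.rpow_def_of_pos hY0]
    congr 1
    ring
  have e2 : y * y * (y * B) = x ^ (2 / 10 ^ 8 : ℝ) * Y ^ σ * Y ^ (-(1 / 2) : ℝ) := by
    rw [← mul_assoc, hy3, hBdef, ← mul_assoc, ← Real.rpow_add hx0, mul_assoc, ← Real.rpow_add hY0,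
      sub_eq_add_neg]
    norm_num
  rw [e1, e2] at h7
  exact absurd (le_of_mul_le_mul_right h7 (by positivity)) (not_le.2 hlt)

/-- `sm_decay_az` with `A = 100`. -/
theorem nobig_long (l : ℤ) : ∃ s : ℝ, 0 < s ∧ ∀ᶠ x : ℝ in atTop, ∀ (r : O) (σ τ Y₂ : ℝ), |τ| ≤ x ^ s →
    r ≠ 0 → Nr (rad r) ≤ x ^ (68 / 100 : ℝ) → ¬ IsCube r → 0 ≤ σ →
    ¬ Big (2 / 3) 1 σ τ (x ^ (7 / 10 : ℝ)) Y₂ (ch l r) := by
  obtain ⟨C, hC, H⟩ := sm_decay_az (a := 2 / 3) (by norm_num) 100 (by norm_num) l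
  obtain ⟨s, hs, hh⟩ := ev_height hC (η := 1 / 10) (by norm_num) 1
  refine ⟨s, hs, ?_⟩
  filter_upwards [hh, fj_ev 81 (η := 1 / 100) (by norm_num)] with x ⟨hx1, hh⟩ h81 r σ τ Y₂ hτ hr0 hr
    hc hσ hB
  obtain ⟨Y, t, hY, -, ht, hlt⟩ := hB
  have hx0 : 0 < x := by linarith
  have hY1 : 1 ≤ Y := (Real.one_le_rpow hx1 (by norm_num)).trans hY
  have hY0 : 0 < Y := by linarith
  have key := H (9 * rad r) (kc r) (isCh_kc hr0) (Or.inr fun hp => hc ((princ_kc hr0).1 hp)) Y t hY0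
  rw [← sm_ch_eq] at key
  have ht' : |t| ≤ x ^ s + 1 := by
    have := abs_add_le (t - τ) τ
    rw [sub_add_cancel] at this
    linarith
  have h3 := hh t ht'
  have hq0 := Nr_nonneg (9 * rad r)
  have hq : Nr (9 * rad r) ≤ x ^ (69 / 100 : ℝ) := by
    rw [fj_Nr_mod, show (69 / 100 : ℝ) = 1 / 100 + 68 / 100 by norm_num, Real.rpow_add hx0]
    exact mul_le_mul h81 hr (Nr_nonneg _) (by positivity)
  have hq1 : Nr (9 * rad r) / Y ≤ x ^ (-(1 / 100) : ℝ) := by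
    rw [div_le_iff₀ hY0]
    refine hq.trans (le_trans ?_ (mul_le_mul_of_nonneg_left hY (by positivity)))
    rw [← Real.rpow_add hx0]
    norm_num
  have hq2 : (Nr (9 * rad r) / Y) ^ (100 : ℝ) ≤ x ^ (-1 : ℝ) := by
    refine (Real.rpow_le_rpow (by positivity) hq1 (by norm_num)).trans ?_
    rw [← Real.rpow_mul hx0.le]
    norm_num
  have h4 : C * (1 + |t|) ^ C * Nr (9 * rad r) * (Nr (9 * rad r) / Y) ^ (100 : ℝ) ≤
      x ^ (1 / 10 : ℝ) * x ^ (69 / 100 : ℝ) * x ^ (-1 : ℝ) :=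
    mul_le_mul (mul_le_mul h3 hq hq0 (by positivity)) hq2 (by positivity) (by positivity)
  have h5 : x ^ (1 / 10 : ℝ) * x ^ (69 / 100 : ℝ) * x ^ (-1 : ℝ) ≤ 1 := by
    rw [← Real.rpow_add hx0, ← Real.rpow_add hx0]
    exact Real.rpow_le_one_of_one_le_of_nonpos hx1 (by norm_num)
  have h6 : 1 ≤ Y ^ σ := Real.one_le_rpow hY1 hσ
  linarith

/-- At most `25 U` terms, each at most `C (U / Y)^{10}` (`W_le_rpow`, `tsum_eq_sum`). -/
theorem nobig_mu : ∀ᶠ x : ℝ in atTop, ∀ (χ : O → ℂ) (σ τ Y₂ : ℝ), (∀ n, ‖χ n‖ ≤ 1) → 0 ≤ σ →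
    ¬ Big (2 / 3) 1 σ τ (x ^ (2 / 5 : ℝ)) Y₂ (fun n => muU (x ^ (17 / 50 : ℝ)) n * χ n) := by
  filter_upwards [eventually_ge_atTop (1 : ℝ),
    fj_ev (25 * Real.exp (2 / 3 * 10 ^ 2)) (η := 1 / 5) (by norm_num)] with x hx1 hE χ σ τ Y₂ hχ hσ hB
  obtain ⟨Y, t, hY, -, -, hlt⟩ := hB
  have hx0 : 0 < x := by linarith
  have hY1 : 1 ≤ Y := (Real.one_le_rpow hx1 (by norm_num)).trans hY
  have hY0 : 0 < Y := by linarith
  set U := x ^ (17 / 50 : ℝ) with hU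
  have hU0 : 0 < U := by positivity
  have hUY : U / Y ≤ x ^ (-(3 / 50) : ℝ) := by
    rw [div_le_iff₀ hY0]
    refine le_trans ?_ (mul_le_mul_of_nonneg_left hY (by positivity))
    rw [← Real.rpow_add hx0, hU]
    norm_num
  have hUY2 : (U / Y) ^ (10 : ℝ) ≤ x ^ (-(3 / 5) : ℝ) := by
    refine (Real.rpow_le_rpow (by positivity) hUY (by norm_num)).trans ?_
    rw [← Real.rpow_mul hx0.le]
    norm_num
  have h1 : ‖sm (2 / 3) (fun n => muU U n * χ n) Y t‖ ≤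
      (box U).card • (Real.exp (2 / 3 * 10 ^ 2) * x ^ (-(3 / 5) : ℝ)) := by
    unfold sm
    rw [tsum_eq_sum (s := box U)]
    · refine (norm_sum_le _ _).trans (Finset.sum_le_card_nsmul _ _ _ fun n hn => ?_)
      obtain ⟨hn0, hnU⟩ := mem_box.1 hn
      split_ifs with hp
      · rw [w2_norm_term (c := fun n => muU U n * χ n) hp]
        have h2 : ‖muU U n * χ n‖ ≤ 1 := by
          rw [norm_mul]
          exact mul_le_one₀ (norm_muU_le _ _) (norm_nonneg _) (hχ n)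
        refine (mul_le_of_le_one_left (W_pos _ _).le h2).trans ?_
        refine (W_le_rpow (by norm_num) (div_pos (Nr_pos hn0) hY0) 10).trans ?_
        refine mul_le_mul_of_nonneg_left (le_trans ?_ hUY2) (Real.exp_pos _).le
        exact Real.rpow_le_rpow (div_nonneg (Nr_nonneg _) hY0.le)
          (div_le_div_of_nonneg_right hnU hY0.le) (by norm_num)
      · rw [norm_zero]
        positivity
    · intro n hn
      split_ifs with hp
      · have : ¬ Nr n ≤ U := fun h => hn (mem_box.2 ⟨hp.ne_zero, h⟩)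
        simp [muU, this]
      · rfl
  rw [nsmul_eq_mul] at h1
  have h2 : ((box U).card : ℝ) * (Real.exp (2 / 3 * 10 ^ 2) * x ^ (-(3 / 5) : ℝ)) ≤
      x ^ (1 / 5 : ℝ) * U * x ^ (-(3 / 5) : ℝ) := by
    refine (mul_le_mul_of_nonneg_right (card_box_le hU0.le) (by positivity)).trans ?_
    calc 25 * U * (Real.exp (2 / 3 * 10 ^ 2) * x ^ (-(3 / 5) : ℝ))
        = 25 * Real.exp (2 / 3 * 10 ^ 2) * U * x ^ (-(3 / 5) : ℝ) := by ring
      _ ≤ _ := by gcongr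
  have h5 : x ^ (1 / 5 : ℝ) * U * x ^ (-(3 / 5) : ℝ) ≤ 1 := by
    rw [hU, ← Real.rpow_add hx0, ← Real.rpow_add hx0]
    exact Real.rpow_le_one_of_one_le_of_nonpos hx1 (by norm_num)
  have h6 : 1 ≤ Y ^ σ := Real.one_le_rpow hY1 hσ
  linarith

/-- `norm_sm_le`. -/
theorem not_bad_one (l : ℤ) : ∀ᶠ x : ℝ in atTop, ∀ (τ : ℝ) (r : O), ¬ Bad l x τ 1 r := by
  obtain ⟨C, H⟩ := norm_sm_le (a := 2 / 3) (by norm_num) 1
  filter_upwards [fj_ev C (η := 2 / 10 ^ 8) (by norm_num)] with x hx τ r hB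
  have key : ∀ (c : O → ℂ) (Y₂ : ℝ), (∀ n, Prim n → ‖c n‖ ≤ 1) →
      ¬ Big (2 / 3) (x ^ (2 / 10 ^ 8 : ℝ)) 1 τ 1 Y₂ c := by
    rintro c Y₂ hc ⟨Y, t, hY, -, -, hlt⟩
    have hY0 : 0 < Y := by linarith
    have h1 := H c Y t hY0 hc (Or.inl le_rfl)
    exact absurd (h1.trans (mul_le_mul_of_nonneg_right hx (by positivity))) (not_le.2 hlt)
  rcases hB with ⟨Y₂, h⟩ | ⟨Y₂, h⟩
  · refine key _ Y₂ (fun n _ => ?_) h
    rw [norm_mul]
    exact mul_le_one₀ (norm_muU_le _ _) (norm_nonneg _) (norm_ch_le _ _ _)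
  · exact key _ Y₂ (fun n _ => norm_ch_le _ _ _) h

end Crest.Agent.R012.Far

end
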