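import Crest.Agent.R012.F4c
import Crest.Agent.R012.FH

/-! # Row 12: sums of middle and large length -/

set_option autoImplicit false

noncomputable section

open scoped BigOperators ComplexConjugate Topology
open Complex MeasureTheory Filter Crest.Agent.R017

namespace Crest.Agent.R012.Far

theorem FJ1_br {x N : ℝ} (hx : 1 ≤ x) (hN0 : 0 ≤ N) (hN : N ≤ x ^ (503 / 1000 : ℝ)) :
    x ^ (1 + 1 / 10 ^ 8 : ℝ) + N ^ 2 * x ^ (1 / 10 : ℝ) +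
      x ^ (1 / 10 : ℝ) * Xi0 (x ^ (1 + 1 / 10 ^ 8 : ℝ) / x ^ (1 / 10 : ℝ)) N N (x ^ (1 / 10 : ℝ)) +
      Xi (x ^ (1 + 1 / 10 ^ 8 : ℝ))
        (N / x ^ (1 / 10 : ℝ) + x ^ (1 + 1 / 10 ^ 8 : ℝ) / (x ^ (1 / 10 : ℝ)) ^ 2) ≤
      12 * x ^ (1301 / 1000 : ℝ) := by
  have hx0 : 0 < x := by linarith
  have hp : ∀ {u v : ℝ}, u ≤ v → x ^ u ≤ x ^ v := fun h => Real.rpow_le_rpow_of_exponent_le hx h
  have hm : ∀ u v : ℝ, x ^ u * x ^ v = x ^ (u + v) := fun u v => (Real.rpow_add hx0 u v).symm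
  have hr : ∀ u v : ℝ, (x ^ u) ^ v = x ^ (u * v) := fun u v => (Real.rpow_mul hx0.le u v).symm
  have h1 : x ^ (1 + 1 / 10 ^ 8 : ℝ) ≤ x ^ (1301 / 1000 : ℝ) := hp (by norm_num)
  have h2 : N ^ 2 * x ^ (1 / 10 : ℝ) ≤ x ^ (1301 / 1000 : ℝ) := by
    calc _ ≤ (x ^ (503 / 1000 : ℝ)) ^ 2 * x ^ (1 / 10 : ℝ) := by gcongr
      _ ≤ _ := by rw [sq, hm, hm]; exact hp (by norm_num)
  have h3 : x ^ (1 / 10 : ℝ) * Xi0 (x ^ (1 + 1 / 10 ^ 8 : ℝ) / x ^ (1 / 10 : ℝ)) N N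
      (x ^ (1 / 10 : ℝ)) ≤ 4 * x ^ (1301 / 1000 : ℝ) := by
    rw [← Real.rpow_sub hx0, Xi0, hr, hr, mul_add, hm, ← mul_assoc, hm]
    have a1 : 1 ≤ x ^ (603 / 1000 : ℝ) := Real.one_le_rpow hx (by norm_num)
    have a2 : N ≤ x ^ (603 / 1000 : ℝ) := hN.trans (hp (by norm_num))
    have a3 : N * x ^ (1 / 10 : ℝ) ≤ x ^ (603 / 1000 : ℝ) := by
      calc _ ≤ x ^ (503 / 1000 : ℝ) * x ^ (1 / 10 : ℝ) := by gcongr
        _ = _ := by rw [hm]; norm_num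
    have a4 : x ^ (1 / 10 + (1 + 1 / 10 ^ 8 - 1 / 10) * (4 / 3) : ℝ) ≤ x ^ (1301 / 1000 : ℝ) :=
      hp (by norm_num)
    have a5 : x ^ (1 / 10 + (1 + 1 / 10 ^ 8 - 1 / 10) * (1 / 3) : ℝ) * x ^ (603 / 1000 : ℝ) ≤
        x ^ (1301 / 1000 : ℝ) := by rw [hm]; exact hp (by norm_num)
    have a6 : x ^ (1 / 10 + (1 + 1 / 10 ^ 8 - 1 / 10) * (1 / 3) : ℝ) *
        (1 + N + N * x ^ (1 / 10 : ℝ)) ≤
        x ^ (1 / 10 + (1 + 1 / 10 ^ 8 - 1 / 10) * (1 / 3) : ℝ) * (3 * x ^ (603 / 1000 : ℝ)) :=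
      mul_le_mul_of_nonneg_left (by linarith) (by positivity)
    linarith
  have h4 : N / x ^ (1 / 10 : ℝ) + x ^ (1 + 1 / 10 ^ 8 : ℝ) / (x ^ (1 / 10 : ℝ)) ^ 2 ≤
      x ^ (801 / 1000 : ℝ) * 2 := by
    have a1 : N / x ^ (1 / 10 : ℝ) ≤ x ^ (801 / 1000 : ℝ) :=
      (div_le_self hN0 (Real.one_le_rpow hx (by norm_num))).trans (hN.trans (hp (by norm_num)))
    have a2 : x ^ (1 + 1 / 10 ^ 8 : ℝ) / (x ^ (1 / 10 : ℝ)) ^ 2 ≤ x ^ (801 / 1000 : ℝ) := by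
      rw [sq, hm, ← Real.rpow_sub hx0]
      exact hp (by norm_num)
    linarith
  have h5 : Xi (x ^ (1 + 1 / 10 ^ 8 : ℝ)) (x ^ (801 / 1000 : ℝ)) ≤ 3 * x ^ (1301 / 1000 : ℝ) := by
    rw [Xi, hm, hr, hr, hm]
    have a1 : x ^ ((1 + 1 / 10 ^ 8) * (1 / 3) + 801 / 1000 : ℝ) ≤ x ^ (1301 / 1000 : ℝ) :=
      hp (by norm_num)
    have a2 : x ^ ((1 + 1 / 10 ^ 8 + 801 / 1000) * (2 / 3) : ℝ) ≤ x ^ (1301 / 1000 : ℝ) :=
      hp (by norm_num)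
    linarith
  have h6 := (Xi_mono (R := x ^ (1 + 1 / 10 ^ 8 : ℝ)) (by positivity) (by positivity) h4).trans
    (Xi_mul_le (by positivity) (by positivity) one_le_two)
  linarith

/-- `cnt_big` with `p = 4`, `E = x^{7/3 - 1/100 - 2σ}`; `four3` with ambient parameter `x²`,
`K = x^{1 + 10⁻⁸}`, `T = U = x^{1/10}`, `N = Y'`, `ε = 1/1000`: the bracket is at most
`C x^{4/3 - 1/30 + 10⁻⁷}`, and `Y² ≤ Y^{4σ} x^{1 - 2σ + 2/1000}`; `ev_height`, `ev_log`. -/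
theorem cnt_mid {a : ℝ} (ha : 0 < a) (l : ℤ) : ∃ s : ℝ, 0 < s ∧ ∀ᶠ x : ℝ in atTop,
    ∀ (S : Finset O) (σ τ : ℝ), |τ| ≤ x ^ s → S ⊆ box (x ^ (1 + 1 / 10 ^ 8 : ℝ)) →
    (∀ r ∈ S, ¬ IsCube r) → 3 / 5 ≤ σ → σ ≤ 1 →
    (∀ r ∈ S, Big a 1 σ τ (x ^ (1 / 2 - 1 / 1000 : ℝ)) (x ^ (1 / 2 + 1 / 500 : ℝ)) (ch l r)) →
    S.card * x ^ (2 * σ) ≤ x ^ (7 / 3 - 1 / 10 ^ 6 : ℝ) := by
  obtain ⟨C₁, hC₁, h₁⟩ := cnt_big ha 4
  obtain ⟨C₂, hC₂, h₂⟩ := four3 ha (ε := 1 / 1000) (by norm_num) l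
  obtain ⟨s, hs, h₃⟩ := ev_height hC₂ (η := 1 / 1000) (by norm_num) (2 + 1 / a)
  refine ⟨s, hs, ?_⟩
  filter_upwards [h₃, ev_log C₁ (η := 1 / 1000) (by norm_num),
    (tendsto_rpow_atTop (y := 1 / 1000) (by norm_num)).eventually_ge_atTop 12,
    (tendsto_rpow_atTop (y := 1 / 1000) (by norm_num)).eventually_ge_atTop
      (Real.exp (2 + 4 * a))] with x ⟨hx, h₄⟩ ⟨_, h₅⟩ h₆ h₇
  intro S σ τ hτ hS hcube hσ hσ1 hbig
  have hx0 : 0 < x := by linarith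
  have hp : ∀ {u v : ℝ}, u ≤ v → x ^ u ≤ x ^ v := fun h => Real.rpow_le_rpow_of_exponent_le hx h
  have hm : ∀ u v : ℝ, x ^ u * x ^ v = x ^ (u + v) := fun u v => (Real.rpow_add hx0 u v).symm
  have hr : ∀ u v : ℝ, (x ^ u) ^ v = x ^ (u * v) := fun u v => (Real.rpow_mul hx0.le u v).symm
  have hone : ∀ {u : ℝ}, 0 ≤ u → 1 ≤ x ^ u := fun h => Real.one_le_rpow hx h
  have hsq : ∀ {u : ℝ}, u ≤ 2 → x ^ u ≤ x ^ 2 := fun h => by
    simpa only [Real.rpow_two] using hp h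
  have key := h₁ S (ch l) 1 σ τ (x ^ (1 / 2 - 1 / 1000 : ℝ)) (x ^ (1 / 2 + 1 / 500 : ℝ))
    (x ^ (7 / 3 - 1 / 100 - 2 * σ : ℝ)) (fun r _ n _ => norm_ch_le l r n) one_pos (by linarith)
    (hone (by norm_num)) (hp (by norm_num)) (by positivity) hbig (by
      intro Y hY1 hY2
      refine ⟨4, by norm_num, le_rfl, fun Y' τ' hY3 hY4 hτ' => ?_⟩
      have hY0 : 0 < Y := lt_of_lt_of_le (by positivity) hY1
      have b1 : Y' ≤ Y * x ^ (1 / 1000 : ℝ) := hY4.trans (by gcongr)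
      have b2 : Y' ≤ x ^ (503 / 1000 : ℝ) := by
        refine b1.trans ?_
        calc _ ≤ x ^ (1 / 2 + 1 / 500 : ℝ) * x ^ (1 / 1000 : ℝ) := by gcongr
          _ = _ := by rw [hm]; norm_num
      have b3 : 1 ≤ Y' := by
        refine le_trans ?_ hY3
        rw [Real.exp_neg, ← div_eq_mul_inv, le_div_iff₀ (Real.exp_pos _), one_mul]
        exact h₇.trans ((hp (by norm_num)).trans hY1)
      have b4 : Y' * x ^ (1 / 10 : ℝ) ≤ x ^ 2 := by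
        calc _ ≤ x ^ (503 / 1000 : ℝ) * x ^ (1 / 10 : ℝ) := by gcongr
          _ ≤ _ := by rw [hm]; exact hsq (by norm_num)
      have b5 := h₂ S (x ^ 2) (x ^ (1 + 1 / 10 ^ 8 : ℝ)) (x ^ (1 / 10 : ℝ)) Y' (x ^ (1 / 10 : ℝ)) τ'
        (hone (by norm_num)) (hsq (by norm_num)) (hone (by norm_num)) (hsq (by norm_num))
        (hone (by norm_num)) b3 b4 hS hcube
      have b6 := h₄ τ' (by
        have := abs_sub_abs_le_abs_sub τ' τ
        linarith)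
      have b7 := FJ1_br hx (by linarith) b2
      have b8 : Y ^ 2 ≤ (Y ^ σ) ^ 4 * x ^ (1 - 2 * σ + 2 / 1000 : ℝ) := by
        have c1 : Y ^ 2 = (Y ^ σ) ^ 4 * Y ^ (2 - 4 * σ : ℝ) := by
          rw [← Real.rpow_natCast (Y ^ σ), ← Real.rpow_mul hY0.le, ← Real.rpow_add hY0,
            ← Real.rpow_two]
          congr 1
          push_cast
          ring
        rw [c1]
        refine mul_le_mul_of_nonneg_left ?_ (by positivity)
        refine (Real.rpow_le_rpow_of_nonpos (by positivity) hY1 (by linarith)).trans ?_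
        rw [hr]
        exact hp (by linarith)
      have b9 : (x ^ 2) ^ (1 / 1000 : ℝ) = x ^ (2 / 1000 : ℝ) := by
        rw [← Real.rpow_two, hr]
        norm_num
      refine b5.trans ?_
      rw [b9, mul_right_comm C₂, one_mul]
      calc _ ≤ x ^ (1 / 1000 : ℝ) * x ^ (2 / 1000 : ℝ) * ((Y * x ^ (1 / 1000 : ℝ)) ^ 2 *
            (x ^ (1 / 1000 : ℝ) * x ^ (1301 / 1000 : ℝ))) := by
            have := Xi_nonneg (R := x ^ (1 + 1 / 10 ^ 8 : ℝ)) (M := Y' / x ^ (1 / 10 : ℝ) +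
              x ^ (1 + 1 / 10 ^ 8 : ℝ) / (x ^ (1 / 10 : ℝ)) ^ 2) (by positivity) (by positivity)
            refine mul_le_mul (by gcongr) (mul_le_mul (by gcongr) (b7.trans (by gcongr)) ?_
              (by positivity)) ?_ (by positivity)
            · unfold Xi0
              positivity
            · unfold Xi0
              positivity
        _ = Y ^ 2 * x ^ (1307 / 1000 : ℝ) := by
            rw [mul_pow, sq (x ^ (1 / 1000 : ℝ)), hm, hm, hm, mul_assoc, mul_left_comm, hm, hm]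
            norm_num
        _ ≤ (Y ^ σ) ^ 4 * x ^ (1 - 2 * σ + 2 / 1000 : ℝ) * x ^ (1307 / 1000 : ℝ) := by gcongr
        _ ≤ _ := by
            rw [mul_assoc, hm, mul_comm]
            exact mul_le_mul_of_nonneg_right (hp (by linarith)) (by positivity))
  have c1 : Real.log (x ^ (1 / 2 + 1 / 500 : ℝ)) ≤ Real.log x :=
    Real.log_le_log (by positivity) (by
      simpa only [Real.rpow_one] using hp (show (1 / 2 + 1 / 500 : ℝ) ≤ 1 by norm_num))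
  have c2 : C₁ * (1 + Real.log (x ^ (1 / 2 + 1 / 500 : ℝ))) ≤ x ^ (1 / 1000 : ℝ) :=
    le_trans (by gcongr) h₅
  calc _ ≤ x ^ (1 / 1000 : ℝ) * x ^ (7 / 3 - 1 / 100 - 2 * σ : ℝ) * x ^ (2 * σ) := by
        gcongr
        exact key.trans (by gcongr)
    _ ≤ _ := by
        rw [hm, hm]
        exact hp (by norm_num; linarith)

end Crest.Agent.R012.Far

end
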