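import Crest.Agent.R012.FA3
import Crest.Agent.R012.FI
import Crest.Agent.R012.FI2
import Crest.Agent.R012.FJ
import Crest.Agent.R012.FJ1

/-! # Row 12: the two families -/

set_option autoImplicit false

noncomputable section

open scoped BigOperators ComplexConjugate Topology
open Complex MeasureTheory Filter Crest.Agent.R017

namespace Crest.Agent.R012.Far

theorem fk_four {S : Finset O} (P₀ P₁ P₂ P₃ : O → Prop) {w B : ℝ}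
    (h : ∀ r ∈ S, P₀ r ∨ P₁ r ∨ P₂ r ∨ P₃ r)
    (h₀ : ∀ S' ⊆ S, (∀ r ∈ S', P₀ r) → S'.card * w ≤ B)
    (h₁ : ∀ S' ⊆ S, (∀ r ∈ S', P₁ r) → S'.card * w ≤ B)
    (h₂ : ∀ S' ⊆ S, (∀ r ∈ S', P₂ r) → S'.card * w ≤ B)
    (h₃ : ∀ S' ⊆ S, (∀ r ∈ S', P₃ r) → S'.card * w ≤ B) : S.card * w ≤ 4 * B := by
  have := ct_classes (Finset.univ : Finset (Fin 4)) S ![P₀, P₁, P₂, P₃] (fun _ => w) (B := B)
    (fun r hr => by
      rcases h r hr with h | h | h | h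
      exacts [⟨0, Finset.mem_univ _, h⟩, ⟨1, Finset.mem_univ _, h⟩, ⟨2, Finset.mem_univ _, h⟩,
        ⟨3, Finset.mem_univ _, h⟩])
    (fun k _ S' hS' hk => by
      rw [Finset.sum_const, nsmul_eq_mul]
      fin_cases k
      exacts [h₀ S' hS' hk, h₁ S' hS' hk, h₂ S' hS' hk, h₃ S' hS' hk])
  simpa using this

theorem fk_mu {x : ℝ} (hx : 1 ≤ x) {l : ℤ} {σ τ Y₂ β : ℝ} {r : O} (hβ : 2 / 5 ≤ β)
    (hn : ¬ Big (2 / 3) 1 σ τ (x ^ (2 / 5 : ℝ)) Y₂ (fun n => muU (x ^ (17 / 50 : ℝ)) n * ch l r n))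
    (h : Big (2 / 3) (x ^ (2 / 10 ^ 8 : ℝ)) σ τ 1 Y₂
      (fun n => muU (x ^ (17 / 50 : ℝ)) n * ch l r n)) :
    Big (2 / 3) (x ^ (1 / 10 ^ 8 : ℝ)) σ τ 1 (x ^ β)
      (fun n => (muU (x ^ (17 / 50 : ℝ)) n * az l n) * kap n r) := by
  rcases h.split (x ^ (2 / 5 : ℝ)) with h | h
  · exact (h.mono zero_le_one (Real.rpow_le_rpow_of_exponent_le hx (by norm_num)) le_rfl
      (Real.rpow_le_rpow_of_exponent_le hx hβ)).congr fun n _ => by rw [ch]; ring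
  · exact absurd (h.mono (by positivity) (Real.one_le_rpow hx (by norm_num)) le_rfl le_rfl) hn

theorem fk_mu_le (U : ℝ) (l : ℤ) (n : O) : ‖muU U n * az l n‖ ≤ 1 := by
  rw [norm_mul]
  exact mul_le_one₀ (norm_muU_le _ _) (norm_nonneg _) (norm_az_le _ _)

theorem fk_const (C : ℝ) (hC : 0 ≤ C) {η : ℝ} (hη : 0 < η) : ∀ᶠ x : ℝ in atTop, 1 ≤ x ∧ C ≤ x ^ η :=
  (ev_log C hη).mono fun x h => ⟨h.1, le_trans (le_mul_of_one_le_right hC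
    (le_add_of_nonneg_right (Real.log_nonneg h.1))) h.2⟩

theorem fk_fam {l : ℤ} {x τ σ₀ : ℝ} {S : Finset O} (I : ℕ) (hx : 1 ≤ x) (hσ : 1 / 2 ≤ σ₀)
    (hI : σ₀ + I / 10 ^ 8 = 1) (hC : (I + 1) * 4 ≤ x ^ (23 / 10 ^ 8 : ℝ))
    (hpw : ∀ (σ : ℝ) (r : O), 1 / 2 ≤ σ → σ ≤ 1 → ¬ Bad l x τ σ r →
      ‖Pr l x τ r‖ ^ 2 ≤ x ^ (25 / 10 ^ 8 : ℝ) * x ^ (2 * σ))
    (hnb : ∀ r, ¬ Bad l x τ 1 r) (h0 : S.card * x ^ (2 * σ₀) ≤ 4 * x ^ (7 / 3 - 1 / 10 ^ 6 : ℝ))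
    (hbad : ∀ σ, σ₀ ≤ σ → σ ≤ 1 → ∀ S' ⊆ S, (∀ r ∈ S', Bad l x τ σ r) →
      S'.card * x ^ (2 * σ) ≤ 4 * x ^ (7 / 3 - 1 / 10 ^ 6 : ℝ)) :
    ∑ r ∈ S, ‖Pr l x τ r‖ ^ 2 ≤ x ^ (7 / 3 - 1 / (2 * 10 ^ 6) : ℝ) := by
  have hx0 : 0 < x := by linarith
  have lo : ∀ i : ℕ, σ₀ ≤ σ₀ + i / 10 ^ 8 := fun i => le_add_of_nonneg_right (by positivity)
  have hi : ∀ i ≤ I, σ₀ + (i : ℝ) / 10 ^ 8 ≤ 1 := fun i h => by
    rw [← hI]; gcongr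
  refine (level_sum S (fun r => ‖Pr l x τ r‖ ^ 2) (fun i r => Bad l x τ (σ₀ + i / 10 ^ 8) r) I
    (fun i => x ^ (25 / 10 ^ 8 : ℝ) * x ^ (2 * (σ₀ + i / 10 ^ 8)))
    (E := x ^ (25 / 10 ^ 8 : ℝ) * (4 * x ^ (7 / 3 - 1 / 10 ^ 6 : ℝ))) (y := x ^ (2 / 10 ^ 8 : ℝ))
    (by positivity) (Real.one_le_rpow hx (by norm_num)) (fun i => by positivity)
    (fun i => le_of_eq ?_) (fun r _ => by rw [hI]; exact hnb r)
    (fun i h r _ hb => hpw _ r (hσ.trans (lo i)) (hi i h) hb) ?_ (fun i h S' hS' hb => ?_)).trans ?_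
  · rw [mul_left_comm, ← Real.rpow_add hx0 (2 / 10 ^ 8)]
    push_cast
    ring_nf
  · rw [mul_left_comm, Nat.cast_zero, zero_div, add_zero]
    exact mul_le_mul_of_nonneg_left h0 (by positivity)
  · rw [mul_left_comm]
    exact mul_le_mul_of_nonneg_left (hbad _ (lo i) (hi i h.le) S' hS' hb) (by positivity)
  · calc ((I : ℝ) + 1) * x ^ (2 / 10 ^ 8 : ℝ) *
          (x ^ (25 / 10 ^ 8 : ℝ) * (4 * x ^ (7 / 3 - 1 / 10 ^ 6 : ℝ)))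
        = (I + 1) * 4 * (x ^ (2 / 10 ^ 8 : ℝ) * x ^ (25 / 10 ^ 8 : ℝ) *
            x ^ (7 / 3 - 1 / 10 ^ 6 : ℝ)) := by ring
      _ ≤ x ^ (23 / 10 ^ 8 : ℝ) * (x ^ (2 / 10 ^ 8 : ℝ) * x ^ (25 / 10 ^ 8 : ℝ) *
            x ^ (7 / 3 - 1 / 10 ^ 6 : ℝ)) := by gcongr
      _ = _ := by
        rw [← Real.rpow_add hx0, ← Real.rpow_add hx0, ← Real.rpow_add hx0]
        norm_num

/-- `Big.split`, `Big.mono`, `Big.congr`: a bad row is of one of four kinds (`ct_classes` or a union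
bound): a Möbius sum of length `≤ x^{2/5}` (`nobig_mu`, `cntA` with `f = muU * az l`), a plain sum of
short length (`cntA`, `f = az l`), of middle length (`cnt_mid`), or long (`big_long`, `cntA` with
`a = 1/3`). `LSA` passes to subsets (`LSb.mono`). -/
theorem badA (l : ℤ) : ∃ s : ℝ, 0 < s ∧ ∀ᶠ x : ℝ in atTop, ∀ (S : Finset O) (σ τ : ℝ), |τ| ≤ x ^ s →
    S ⊆ box (x ^ (1 + 1 / 10 ^ 8 : ℝ)) → LSA S x → (∀ r ∈ S, ¬ IsCube r) → 3 / 5 ≤ σ → σ ≤ 1 →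
    (∀ r ∈ S, Bad l x τ σ r) → S.card * x ^ (2 * σ) ≤ 4 * x ^ (7 / 3 - 1 / 10 ^ 6 : ℝ) := by
  obtain ⟨s₁, hs₁, H₁⟩ := cnt_mid (a := 2 / 3) (by norm_num) l
  obtain ⟨s₂, hs₂, H₂⟩ := big_long l
  refine ⟨min s₁ s₂, lt_min hs₁ hs₂, ?_⟩
  filter_upwards [H₁, H₂, cntA (a := 2 / 3) (by norm_num), cntA (a := 1 / 3) (by norm_num),
    nobig_mu, eventually_ge_atTop 1] with x h₁ h₂ h₃ h₄ h₅ hx S σ τ hτ hS hL hc hσ hσ1 hb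
  have t₁ := hτ.trans (Real.rpow_le_rpow_of_exponent_le hx (min_le_left s₁ s₂))
  have t₂ := hτ.trans (Real.rpow_le_rpow_of_exponent_le hx (min_le_right s₁ s₂))
  have hL' : ∀ S' ⊆ S, LSA S' x := fun S' h L a b => (hL L a b).mono h le_rfl
  refine fk_four _ _ _ _ (fun r hr => ?_)
    (fun S' h => h₃ S' _ σ τ (h.trans hS) (hL' S' h) (fun n _ => fk_mu_le (x ^ (17 / 50 : ℝ)) l n)
      hσ hσ1)
    (fun S' h => h₃ S' _ σ τ (h.trans hS) (hL' S' h) (fun n _ => norm_az_le l n) hσ hσ1)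
    (fun S' h => h₁ S' σ τ t₁ (h.trans hS) (fun r hr => hc r (h hr)) hσ hσ1)
    (fun S' h => h₄ S' _ σ τ (h.trans hS) (hL' S' h) (fun n _ => norm_az_le l n) hσ hσ1)
  rcases hb r hr with ⟨Y₂, h⟩ | ⟨Y₂, h⟩
  · exact Or.inl (fk_mu hx (by norm_num) (h₅ _ σ τ Y₂ (norm_ch_le l r) (by linarith)) h)
  rcases h.split (x ^ (1 / 2 - 1 / 1000 : ℝ)) with h | h
  · exact Or.inr (Or.inl ((h.mono zero_le_one (Real.rpow_le_rpow_of_exponent_le hx (by norm_num))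
      le_rfl le_rfl).congr fun n _ => mul_comm _ _))
  rcases h.split (x ^ (1 / 2 + 1 / 500 : ℝ)) with h | h
  · exact Or.inr (Or.inr (Or.inl (h.mono (by positivity) (Real.one_le_rpow hx (by norm_num))
      le_rfl le_rfl)))
  · exact Or.inr (Or.inr (Or.inr ((h₂ r σ τ Y₂ t₂ (hS hr) (hc r hr) (by linarith) hσ1 h).congr
      fun n _ => mul_comm _ _)))

/-- The same with `cntB`, `nobig_mu`, `nobig_long`. -/
theorem badB (l : ℤ) : ∃ s : ℝ, 0 < s ∧ ∀ᶠ x : ℝ in atTop, ∀ (S : Finset O) (σ τ : ℝ), |τ| ≤ x ^ s →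
    (S.card : ℝ) ≤ x ^ 2 → LSB S x →
    (∀ r ∈ S, r ≠ 0 ∧ ¬ IsCube r ∧ Nr (rad r) ≤ x ^ (68 / 100 : ℝ)) → 82 / 100 ≤ σ → σ ≤ 1 →
    (∀ r ∈ S, Bad l x τ σ r) → S.card * x ^ (2 * σ) ≤ 4 * x ^ (7 / 3 - 1 / 10 ^ 6 : ℝ) := by
  obtain ⟨s, hs, H⟩ := nobig_long l
  refine ⟨s, hs, ?_⟩
  filter_upwards [H, cntB (a := 2 / 3) (by norm_num), nobig_mu, eventually_ge_atTop 1]
    with x h₁ h₃ h₅ hx S σ τ hτ hS hL hc hσ hσ1 hb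
  have hL' : ∀ S' ⊆ S, LSB S' x := fun S' h L a b => (hL L a b).mono h le_rfl
  have hS' : ∀ S' ⊆ S, (S'.card : ℝ) ≤ x ^ 2 := fun S' h =>
    le_trans (by exact_mod_cast Finset.card_le_card h) hS
  have k₀ := fun S' (h : S' ⊆ S) => h₃ S' _ σ τ (hS' S' h) (hL' S' h)
    (fun n _ => fk_mu_le (x ^ (17 / 50 : ℝ)) l n) hσ hσ1
  have k₁ := fun S' (h : S' ⊆ S) => h₃ S' _ σ τ (hS' S' h) (hL' S' h)
    (fun n _ => norm_az_le l n) hσ hσ1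
  refine fk_four _ _ _ _ (fun r hr => ?_) k₀ k₁ k₁ k₁
  rcases hb r hr with ⟨Y₂, h⟩ | ⟨Y₂, h⟩
  · exact Or.inl (fk_mu hx (by norm_num) (h₅ _ σ τ Y₂ (norm_ch_le l r) (by linarith)) h)
  rcases h.split (x ^ (7 / 10 : ℝ)) with h | h
  · exact Or.inr (Or.inl ((h.mono zero_le_one (Real.rpow_le_rpow_of_exponent_le hx (by norm_num))
      le_rfl le_rfl).congr fun n _ => mul_comm _ _))
  · obtain ⟨c₁, c₂, c₃⟩ := hc r hr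
    exact absurd (h.mono (by positivity) (Real.one_le_rpow hx (by norm_num)) le_rfl le_rfl)
      (h₁ r σ τ Y₂ hτ c₁ c₃ c₂ (by linarith))

/-- `level_sum` with `σ_i = 3/5 + i / 10⁸`, `I = 4 · 10⁷`, `w i = x^{25 / 10⁸} x^{2 σ_i}`,
`y = x^{2 / 10⁸}`; `pw_bad`, `not_bad_one`, `badA`, `card_box_le`. -/
theorem famA (l : ℤ) : ∃ s : ℝ, 0 < s ∧ ∀ᶠ x : ℝ in atTop, ∀ (S : Finset O) (τ : ℝ), |τ| ≤ x ^ s →
    S ⊆ box (x ^ (1 + 1 / 10 ^ 8 : ℝ)) → LSA S x → (∀ r ∈ S, ¬ IsCube r) →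
    ∑ r ∈ S, ‖Pr l x τ r‖ ^ 2 ≤ x ^ (7 / 3 - 1 / (2 * 10 ^ 6) : ℝ) := by
  obtain ⟨s, hs, H⟩ := badA l
  refine ⟨s, hs, ?_⟩
  filter_upwards [H, pw_bad l, not_bad_one l, fk_const 25 (by norm_num) (η := 1 / 10) (by norm_num),
    fk_const (((4 * 10 ^ 7 : ℕ) + 1) * 4) (by positivity) (η := 23 / 10 ^ 8) (by norm_num)]
    with x h₁ h₂ h₃ h₄ h₅ S τ hτ hS hL hc
  have hx0 : 0 < x := by linarith [h₄.1]
  refine fk_fam (σ₀ := 3 / 5) (4 * 10 ^ 7) h₄.1 (by norm_num) (by norm_num) h₅.2 (h₂ τ) (h₃ τ) ?_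
    fun σ a b S' h => h₁ S' σ τ hτ (h.trans hS) (fun L c d => (hL L c d).mono h le_rfl)
      (fun r hr => hc r (h hr)) a b
  have h6 : (S.card : ℝ) ≤ 25 * x ^ (1 + 1 / 10 ^ 8 : ℝ) :=
    le_trans (by exact_mod_cast Finset.card_le_card hS) (card_box_le (by positivity))
  calc (S.card : ℝ) * x ^ (2 * (3 / 5) : ℝ)
      ≤ x ^ (1 / 10 : ℝ) * x ^ (1 + 1 / 10 ^ 8 : ℝ) * x ^ (2 * (3 / 5) : ℝ) := by
        gcongr
        exact h6.trans (mul_le_mul_of_nonneg_right h₄.2 (by positivity))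
    _ ≤ x ^ (7 / 3 - 1 / 10 ^ 6 : ℝ) := by
        rw [← Real.rpow_add hx0, ← Real.rpow_add hx0]
        exact Real.rpow_le_rpow_of_exponent_le h₄.1 (by norm_num)
    _ ≤ _ := le_mul_of_one_le_left (by positivity) (by norm_num)

/-- `level_sum` with `σ_i = 82/100 + i / 10⁸`, `I = 18 · 10⁶`; `badB`. -/
theorem famB (l : ℤ) : ∃ s : ℝ, 0 < s ∧ ∀ᶠ x : ℝ in atTop, ∀ (S : Finset O) (τ : ℝ), |τ| ≤ x ^ s →
    (S.card : ℝ) ≤ x ^ (68 / 100 : ℝ) → LSB S x →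
    (∀ r ∈ S, r ≠ 0 ∧ ¬ IsCube r ∧ Nr (rad r) ≤ x ^ (68 / 100 : ℝ)) →
    ∑ r ∈ S, ‖Pr l x τ r‖ ^ 2 ≤ x ^ (7 / 3 - 1 / (2 * 10 ^ 6) : ℝ) := by
  obtain ⟨s, hs, H⟩ := badB l
  refine ⟨s, hs, ?_⟩
  filter_upwards [H, pw_bad l, not_bad_one l,
    fk_const (((18 * 10 ^ 6 : ℕ) + 1) * 4) (by positivity) (η := 23 / 10 ^ 8) (by norm_num)]
    with x h₁ h₂ h₃ h₅ S τ hτ hS hL hc
  have hx0 : 0 < x := by linarith [h₅.1]
  have h6 : x ^ (68 / 100 : ℝ) ≤ x ^ 2 := by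
    rw [← Real.rpow_two]
    exact Real.rpow_le_rpow_of_exponent_le h₅.1 (by norm_num)
  refine fk_fam (σ₀ := 82 / 100) (18 * 10 ^ 6) h₅.1 (by norm_num) (by norm_num) h₅.2 (h₂ τ) (h₃ τ)
    ?_ fun σ a b S' h => h₁ S' σ τ hτ
      (le_trans (by exact_mod_cast Finset.card_le_card h) (hS.trans h6))
      (fun L c d => (hL L c d).mono h le_rfl) (fun r hr => hc r (h hr)) a b
  calc (S.card : ℝ) * x ^ (2 * (82 / 100) : ℝ)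
      ≤ x ^ (68 / 100 : ℝ) * x ^ (2 * (82 / 100) : ℝ) := by gcongr
    _ ≤ x ^ (7 / 3 - 1 / 10 ^ 6 : ℝ) := by
        rw [← Real.rpow_add hx0]
        exact Real.rpow_le_rpow_of_exponent_le h₅.1 (by norm_num)
    _ ≤ _ := le_mul_of_one_le_left (by positivity) (by norm_num)

end Crest.Agent.R012.Far

end
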