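import Crest.Agent.R012.F0
import Crest.Agent.R012.FH

/-! # Row 12: the trichotomy of blocks -/

set_option autoImplicit false

noncomputable section

open scoped BigOperators ComplexConjugate Topology
open Complex MeasureTheory Filter Crest.Agent.R017

namespace Crest.Agent.R012.Far

/-- The block of rows of size `R`. -/
def bk (R X Y : ℝ) : Finset O := blk X Y ((8 * R / (X * Y ^ 2)) ^ (1 / 3 : ℝ))

/-- `mem_blk`. -/
theorem bk_subset {R X Y : ℝ} (hR : 0 ≤ R) (hX : 0 < X) (hY : 0 < Y) : bk R X Y ⊆ box (72 * R) := by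
  intro r hr
  obtain ⟨s, j, k₁, k₂, hs, hj, h1, h2, -, rfl⟩ := mem_blk.1 hr
  obtain ⟨hs0, hs⟩ := mem_box.1 hs
  obtain ⟨hj0, hj⟩ := mem_box.1 hj
  obtain ⟨p1, -, h1⟩ := q_mem_sbox.1 h1
  obtain ⟨p2, -, h2⟩ := q_mem_sbox.1 h2
  refine mem_box.2 ⟨mul_ne_zero (mul_ne_zero hs0 (pow_ne_zero _ hj0))
    (mul_ne_zero p1.ne_zero (pow_ne_zero _ p2.ne_zero)), ?_⟩
  have h3 : Nr j ^ 3 ≤ 8 * R / (X * Y ^ 2) := by
    refine (pow_le_pow_left₀ (Nr_nonneg _) hj 3).trans (le_of_eq ?_)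
    rw [← Real.rpow_natCast, ← Real.rpow_mul (by positivity)]
    norm_num
  rw [Nr_mul, Nr_mul, Nr_mul, Nr_pow, Nr_pow]
  have := Nr_nonneg s
  have := Nr_nonneg j
  have := Nr_nonneg k₁
  have := Nr_nonneg k₂
  calc _ ≤ 9 * (8 * R / (X * Y ^ 2)) * (X * Y ^ 2) := by gcongr
    _ = 72 * R := by field_simp; ring

/-- `rad_mul_dvd`, `rad_pow`, `rad_dvd`. -/
theorem blk_rad {X Y J : ℝ} {r : O} (h : r ∈ blk X Y J) : Nr (rad r) ≤ 9 * (X * Y * J) := by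
  obtain ⟨s, j, k₁, k₂, hs, hj, h1, h2, -, rfl⟩ := mem_blk.1 h
  obtain ⟨hs0, hs⟩ := mem_box.1 hs
  obtain ⟨hj0, hj⟩ := mem_box.1 hj
  obtain ⟨p1, -, h1⟩ := q_mem_sbox.1 h1
  obtain ⟨p2, -, h2⟩ := q_mem_sbox.1 h2
  have h0 : s * (k₁ * k₂ * j) ≠ 0 := mul_ne_zero hs0 (mul_ne_zero (mul_ne_zero p1.ne_zero p2.ne_zero) hj0)
  have hd : rad (s * j ^ 3 * (k₁ * k₂ ^ 2)) ∣ s * (k₁ * k₂ * j) := by
    refine (rad_dvd_rad (pow_ne_zero 3 h0) ⟨s ^ 2 * k₁ ^ 2 * k₂, by ring⟩).trans ?_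
    rw [rad_pow (by norm_num)]
    exact rad_dvd h0
  refine (Nr_le_of_dvd h0 hd).trans ?_
  rw [Nr_mul, Nr_mul, Nr_mul]
  have := Nr_nonneg s
  have := Nr_nonneg j
  have := Nr_nonneg k₁
  have := Nr_nonneg k₂
  have : 0 ≤ X := by linarith
  have : 0 ≤ Y := by linarith
  gcongr

end Crest.Agent.R012.Far

end
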