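import Crest.Agent.R012.Defs

/-! # Row 12: basic properties of the coefficients -/

set_option autoImplicit false

noncomputable section

open scoped BigOperators ComplexConjugate Topology
open Complex MeasureTheory Filter Set Crest.Agent.R017

namespace Crest.Agent.R012

theorem emb_sq3 : emb sq3 = (Real.sqrt 3 : ℂ) * I := by
  apply Complex.ext
  · simp [emb, sq3, omC]
    norm_num
  · simp [emb, sq3, omC]
    ring

theorem sq3_sq : sq3 ^ 2 = -3 := by
  decide

theorem sq3_eq : sq3 = om * lam := by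
  decide

theorem Nr_sq3 : Nr sq3 = 3 := by
  rw [b1_Nr_eq]
  norm_num [nz, sq3]

theorem gt_kap_sq3_ne {n : O} (hn : Prim n) : kap n sq3 ≠ 0 := by
  rw [Ne, kap_eq_zero hn.ne_zero, not_or, not_not]
  exact ⟨hn.not_lam_dvd, (coprime_three_iff.2 hn.not_lam_dvd).of_isCoprime_of_dvd_right
    ⟨-sq3, by decide⟩⟩

theorem kap_sq3_cube {n : O} (hn : Prim n) : kap n (sq3 ^ 3) = 1 := by
  rw [kap_pow_right n sq3 (by norm_num), kap_cube (gt_kap_sq3_ne hn)]

theorem norm_kap_sq3 {n : O} (hn : Prim n) : ‖kap n sq3‖ = 1 := by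
  exact norm_kap (gt_kap_sq3_ne hn)

theorem gt_of_not {n : O} (h : ¬ Squarefree n) : gt n = 0 := by
  rw [gt, if_neg h]

theorem md_of_not {n : O} (h : ¬ Squarefree n) : md n = 0 := by
  rw [md, if_neg h]

theorem FF_of_not {n : O} (h : ¬ Squarefree n) : FF n = 0 := by
  rw [FF, gt_of_not h, md_of_not h, mul_zero, sub_zero]

theorem gt_gs {n : O} (hn : Prim n) (hs : Squarefree n) (h : O) :
    gs (kap n) n h = conj (kap n h) * gs (kap n) n 1 := by
  simpa only [pow_one] using gs_kap_pow hn.not_lam_dvd hs (k := 1) (by norm_num) h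

theorem gt_eq {n : O} (hn : Prim n) (hs : Squarefree n) : gt n = conj (kap n sq3) * g3 n := by
  rw [gt, if_pos hs, gt_gs hn hs, g3, mul_div_assoc]

theorem g3_eq {n : O} (hn : Prim n) (hs : Squarefree n) : g3 n = kap n sq3 * gt n := by
  rw [gt_eq hn hs, ← mul_assoc, mul_comm (kap n sq3), g1_conj_mul (norm_kap_sq3 hn), one_mul]

theorem gt_one : gt 1 = 1 := by
  rw [gt_eq prim_one squarefree_one, kap_unit_left isUnit_one, g3_one, map_one, one_mul]

theorem norm_gt {n : O} (hn : Prim n) (hs : Squarefree n) : ‖gt n‖ = 1 := by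
  rw [gt_eq hn hs, norm_mul, RCLike.norm_conj, norm_kap_sq3 hn, norm_g3 hn.not_lam_dvd hs, one_mul]

theorem norm_gt_le {n : O} (hn : Prim n) : ‖gt n‖ ≤ 1 := by
  by_cases hs : Squarefree n
  · exact (norm_gt hn hs).le
  · rw [gt_of_not hs, norm_zero]
    exact zero_le_one

/-- Twisted multiplicativity, valid for all primary `a`, `b` (both sides vanish unless `a b` is
squarefree). -/
theorem gt_mul {a b : O} (ha : Prim a) (hb : Prim b) : gt (a * b) = gt a * gt b * conj (kap a b) := by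
  by_cases hs : Squarefree (a * b)
  · obtain ⟨hc, h1, h2⟩ := squarefree_mul_iff.1 hs
    rw [gt_eq (ha.mul hb) hs, gt_eq ha h1, gt_eq hb h2,
      g3_mul ha.not_lam_dvd hb.not_lam_dvd hc.isCoprime, kap_mul_left ha.ne_zero hb.ne_zero,
      cubic_recip hb ha, conj_kap a b, map_mul]
    ring
  · rw [gt_of_not hs]
    by_cases h1 : Squarefree a
    · by_cases h2 : Squarefree b
      · have hc : ¬ IsCoprime a b := fun hc => hs (squarefree_mul_iff.2 ⟨hc.isRelPrime, h1, h2⟩)
        rw [(kap_eq_zero ha.ne_zero).2 (Or.inr hc), map_zero, mul_zero]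
      · rw [gt_of_not h2, mul_zero, zero_mul]
    · rw [gt_of_not h1, zero_mul, zero_mul]

theorem gt_mul' {a b : O} (ha : Prim a) (hb : Prim b) : gt (a * b) = gt a * gt b * conj (kap b a) := by
  rw [gt_mul ha hb, cubic_recip ha hb]

open Classical in
theorem md_mul {a b : O} (ha : Prim a) (hb : Prim b) :
    md (a * b) = if IsCoprime a b then md a * md b else 0 := by
  by_cases hs : Squarefree (a * b)
  · obtain ⟨hc, h1, h2⟩ := squarefree_mul_iff.1 hs
    rw [if_pos hc.isCoprime, md, md, md, if_pos hs, if_pos h1, if_pos h2, Nr_mul,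
      Real.mul_rpow (Nr_nonneg a) (Nr_nonneg b), Complex.ofReal_mul]
  · rw [md_of_not hs]
    split_ifs with hc
    · by_cases h1 : Squarefree a
      · have h2 : ¬ Squarefree b := fun h2 => hs (squarefree_mul_iff.2 ⟨hc.isRelPrime, h1, h2⟩)
        rw [md_of_not h2, mul_zero]
      · rw [md_of_not h1, zero_mul]
    · rfl

theorem norm_md_le {n : O} (hn : n ≠ 0) : ‖md n‖ ≤ Nr n ^ (-(1 / 6) : ℝ) := by
  have h0 : 0 ≤ Nr n ^ (-(1 / 6) : ℝ) := Real.rpow_nonneg (Nr_pos hn).le _
  rw [md]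
  split_ifs
  · rw [Complex.norm_real, Real.norm_of_nonneg h0]
  · rwa [norm_zero]

theorem norm_md_le_one {n : O} (hn : n ≠ 0) : ‖md n‖ ≤ 1 := by
  exact (norm_md_le hn).trans (Real.rpow_le_one_of_one_le_of_nonpos (one_le_Nr hn) (by norm_num))

theorem cst_pos : 0 < cst := by
  have := Real.Gamma_pos_of_pos (show (0 : ℝ) < 2 / 3 by norm_num)
  have := Real.pi_pos
  unfold cst
  positivity

theorem norm_FF_le {n : O} (hn : Prim n) : ‖FF n‖ ≤ 1 + cst := by
  refine (norm_sub_le _ _).trans (add_le_add (norm_gt_le hn) ?_)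
  rw [norm_mul, Complex.norm_real, Real.norm_of_nonneg cst_pos.le]
  exact mul_le_of_le_one_right cst_pos.le (norm_md_le_one hn.ne_zero)

theorem az_mul (l : ℤ) (a b : O) : az l (a * b) = az l a * az l b := by
  rw [az, az, az, ← mul_zpow, ang, ang, ang, map_mul, norm_mul, Complex.ofReal_mul,
    mul_div_mul_comm]

theorem az_one (l : ℤ) : az l 1 = 1 := by
  simp [az, ang]

theorem az_zero (n : O) : az 0 n = 1 := by
  rw [az, zpow_zero]

theorem gt_norm_ang {n : O} (hn : n ≠ 0) : ‖ang n‖ = 1 := by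
  have h : emb n ≠ 0 := (map_ne_zero_iff emb emb_injective).2 hn
  rw [ang, norm_div, Complex.norm_real, norm_norm, div_self (norm_ne_zero_iff.2 h)]

theorem norm_az (l : ℤ) {n : O} (hn : n ≠ 0) : ‖az l n‖ = 1 := by
  rw [az, norm_zpow, gt_norm_ang hn, one_zpow]

theorem conj_az (l : ℤ) (n : O) : conj (az l n) = az (-l) n := by
  have h : conj (ang n) = (ang n)⁻¹ := by
    rcases eq_or_ne n 0 with rfl | hn
    · simp [ang]
    · exact eq_inv_of_mul_eq_one_left (g1_conj_mul (gt_norm_ang hn))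
  rw [az, az, map_zpow₀, h, inv_zpow']

theorem norm_Lp_le {n : O} (hn : n ≠ 0) : ‖Lp n‖ ≤ Real.log (Nr n) := by
  have h0 : 0 ≤ Real.log (Nr n) := Real.log_nonneg (one_le_Nr hn)
  rw [Lp]
  split_ifs
  · rw [Complex.norm_real, Real.norm_of_nonneg h0]
  · rwa [norm_zero]

theorem norm_rg_le (w : ℝ) (n : O) : ‖rg w n‖ ≤ 1 := by
  rw [rg]
  split_ifs <;> simp

theorem Rough.mono {w w' : ℝ} (h : w ≤ w') {n : O} (hn : Rough w' n) : Rough w n := by
  exact fun p hp hd => h.trans_lt (hn p hp hd)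

theorem rough_mul {w : ℝ} {a b : O} : Rough w (a * b) ↔ Rough w a ∧ Rough w b := by
  exact ⟨fun h => ⟨fun p hp hd => h p hp (hd.mul_right _), fun p hp hd => h p hp (hd.mul_left _)⟩,
    fun h p hp hd => (hp.dvd_or_dvd hd).elim (h.1 p hp) (h.2 p hp)⟩

theorem smth_mul {w : ℝ} {a b : O} : Smth w (a * b) ↔ Smth w a ∧ Smth w b := by
  exact ⟨fun h => ⟨fun p hp hd => h p hp (hd.mul_right _), fun p hp hd => h p hp (hd.mul_left _)⟩,
    fun h p hp hd => (hp.dvd_or_dvd hd).elim (h.1 p hp) (h.2 p hp)⟩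

theorem Near.mono {Z Z' : ℝ} (h : Z ≤ Z') {r : O} (hr : Near Z r) : Near Z' r := by
  obtain ⟨k, y, h1, h2⟩ := hr
  exact ⟨k, y, h1, h2.trans h⟩

theorem dv_nonneg (n : O) : 0 ≤ dv n := by
  exact Nat.cast_nonneg _

theorem one_le_dv {n : O} (hn : n ≠ 0) : 1 ≤ dv n := by
  exact Nat.one_le_cast.2 (Finset.card_pos.2 ⟨1, (mem_pdiv hn).2 ⟨prim_one, one_dvd _⟩⟩)

/-- The divisor bound. -/
theorem dv_le {ε : ℝ} (hε : 0 < ε) : ∃ C : ℝ, 0 ≤ C ∧ ∀ n : O, n ≠ 0 → dv n ≤ C * Nr n ^ ε := by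
  obtain ⟨C, hC⟩ := card_pdiv_le hε
  refine ⟨C, ?_, hC⟩
  have := (Nat.cast_nonneg _).trans (hC 1 one_ne_zero)
  rwa [Nr_one, Real.one_rpow, mul_one] at this

theorem SWH.mono {M M' Z Z' B τ : ℝ} {β : O → ℂ} (h : SWH M Z B τ β) (hM : 0 ≤ M) (hMM : M ≤ M')
    (hZ : 0 < Z') (hZZ : Z' ≤ Z) (hB : 0 ≤ B) : SWH M' Z' B τ β := by
  intro r hr hN hc u t hu ht
  refine (h r hr (hN.trans hZZ) hc u t hu (ht.trans hZZ)).trans ?_
  have := hM.trans hMM
  gcongr

theorem Env.nonneg {M B : ℝ} {β : O → ℂ} (h : Env M B β) (hB : 0 < B) : 0 ≤ M := by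
  have h1 := (norm_nonneg _).trans (h 1 prim_one)
  rw [Nr_one] at h1
  exact nonneg_of_mul_nonneg_left h1 (by positivity)

theorem Env.poly {M B : ℝ} {β : O → ℂ} (h : Env M B β) (hB : 0 < B) (n : O) (hn : Prim n) :
    ‖β n‖ ≤ M * (1 + B⁻¹) * Nr n ^ (1 : ℝ) := by
  refine (h n hn).trans ?_
  rw [Real.rpow_one, mul_assoc]
  refine mul_le_mul_of_nonneg_left ?_ (h.nonneg hB)
  have := one_le_Nr hn.ne_zero
  rw [div_eq_inv_mul]
  linarith

theorem cn_nonneg (a B : ℝ) (β : O → ℂ) : 0 ≤ cn a B β := by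
  refine tsum_nonneg fun b => ?_
  have := W_pos a (Nr b / B)
  split_ifs <;> positivity

theorem cn2_nonneg (a B : ℝ) (β : O → ℂ) : 0 ≤ cn2 a B β := by
  refine tsum_nonneg fun b => ?_
  have := W_pos a (Nr b / B)
  have := dv_nonneg b
  split_ifs <;> positivity

theorem DD_nonneg (G : O → ℂ) (θ A B τ : ℝ) (β : O → ℂ) : 0 ≤ DD G θ A B τ β := by
  refine tsum_nonneg fun b => ?_
  have := W_pos (4 * θ) (Nr b / A)
  split_ifs <;> positivity

/-- Complex conjugation. -/
theorem emb_star (x : O) : emb (star x) = conj (emb x) := by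
  exact R017.emb_star x

theorem Nr_star (x : O) : Nr (star x) = Nr x := by
  exact R017.Nr_star x

theorem prim_star {x : O} : Prim (star x) ↔ Prim x := by
  exact ⟨fun h => by simpa only [star_star] using h.star, Prim.star⟩

theorem kap_star (n x : O) : kap (star n) (star x) = conj (kap n x) := by
  exact R017.kap_star n x

theorem gt_sqf_star {n : O} (h : Squarefree n) : Squarefree (star n) := by
  intro x hx
  have h1 := r1_star_dvd hx
  rw [star_star, star_mul] at h1
  exact isUnit_star.1 (h _ h1)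

theorem gt_eO_star (x n : O) : eO (star x) (star n) = conj (eO x n) := by
  rw [← eO_neg, eO, eO, emb_star, emb_star, ← map_div₀, map_neg, neg_div, ec, ec, conj_im, neg_im]

theorem gt_gs_star {n : O} (hn : n ≠ 0) (h : O) :
    gs (kap (star n)) (star n) (star h) = conj (gs (kap n) n h) := by
  have hn' : star n ≠ 0 := star_ne_zero.2 hn
  rw [gs, gs, map_sum, b3_sum_map hn' _
    (g1_per (fun x y hxy => kap_congr' hn' hxy) dvd_rfl (star h)) (reps n) star]
  · refine Finset.sum_congr rfl fun x _ => ?_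
    rw [kap_star, map_mul, ← gt_eO_star, star_mul, mul_comm (star x)]
  · intro y
    refine ⟨b3_r n (star y), b3_r_mem hn _, ?_⟩
    simpa only [star_sub, star_star] using r1_star_dvd (b3_r_dvd n (star y))
  · intro s hs t ht hst
    refine b3_eq_of_dvd hn hs ht ?_
    simpa only [star_sub, star_star] using r1_star_dvd hst

theorem gt_star {n : O} (hn : Prim n) : gt (star n) = conj (gt n) := by
  by_cases hs : Squarefree n
  · have e : star (-sq3) = sq3 := by decide
    have h1 := gt_gs_star hn.ne_zero (-sq3)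
    rw [e, gt_gs hn hs, kap_neg_right, ← gt_gs hn hs] at h1
    rw [gt, gt, if_pos hs, if_pos (gt_sqf_star hs), h1, Nr_star, map_div₀, conj_ofReal]
  · rw [gt_of_not hs, gt_of_not, map_zero]
    exact fun h => hs (by simpa only [star_star] using gt_sqf_star h)

end Crest.Agent.R012

end
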