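import Crest.Agent.R012.SDefs
import Crest.Agent.R017.Reflect
import Crest.Agent.R017.PointwiseAux

/-! # Row 12: continuation and size of `L` near the line `Re s = 1` -/

set_option autoImplicit false

noncomputable section

open scoped BigOperators ComplexConjugate Topology
open Complex MeasureTheory Filter Set Crest.Agent.R017

namespace Crest.Agent.R012

theorem san_int_le {f : ℝ → ℂ} {K b : ℝ} (hb : 0 < b)
    (hf : ∀ u, ‖f u‖ ≤ K * Real.exp (-b * |u|)) : ‖∫ u, f u‖ ≤ 2 * K / b := by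
  have h1 : ∫ u : ℝ, Real.exp (-b * |u|) = 2 / b := by
    rw [integral_comp_abs (f := fun x => Real.exp (-b * x)),
      integral_exp_mul_Ioi (by linarith : -b < 0)]
    simp only [mul_zero, Real.exp_zero]
    field_simp
  have h2 : Integrable fun u : ℝ => Real.exp (-b * |u|) :=
    Integrable.of_integral_ne_zero (by rw [h1]; positivity)
  refine (norm_integral_le_of_norm_le (h2.const_mul K) (Eventually.of_forall hf)).trans ?_
  rw [integral_const_mul, h1]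
  exact le_of_eq (by ring)

theorem san_norm (z : ℂ) (σ u : ℝ) : ‖z * cexp (-(σ * u))‖ = ‖z‖ * Real.exp (-(σ * u)) := by
  rw [norm_mul, Complex.norm_exp]
  simp

theorem san_Wh (σ : ℝ) : 1 ≤ ‖Wh 1 σ‖ := by
  have h := norm_Wh one_pos σ 0
  simp only [ofReal_zero, zero_mul, add_zero] at h
  rw [h]
  have h1 : 1 ≤ Real.sqrt (4 * Real.pi * 1) :=
    Real.one_le_sqrt.2 (by linarith [Real.pi_gt_three])
  exact one_le_mul_of_one_le_of_one_le h1 (Real.one_le_exp (by nlinarith [sq_nonneg σ]))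

theorem san_le (σ : ℝ) : ∃ K : ℝ, 0 ≤ K ∧ ∀ (c : O → ℂ) (u τ : ℝ), (∀ n, Prim n → ‖c n‖ ≤ 1) →
    1 ≤ σ → ‖sm 1 c (Real.exp u) τ‖ ≤ K * Real.exp (σ * u) := by
  obtain ⟨K, hK⟩ := norm_sm_le one_pos σ
  refine ⟨|K|, abs_nonneg _, fun c u τ hc hσ => (hK c _ τ (Real.exp_pos u) hc (Or.inl hσ)).trans ?_⟩
  rw [← Real.exp_mul, mul_comm u σ]
  exact mul_le_mul_of_nonneg_right (le_abs_self _) (Real.exp_pos _).le

/-- For every `τ`, `F τ s = ∫ sm 1 c (e^u) τ e^(-s u) du` is holomorphic on `0 < re s`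
(differentiation under the integral; `‖sm‖ ≤ C e^(A u)` for `u ≤ 0` by `norm_sm_le`, decay for
`u ≥ 0`, `continuous_sm`). -/
theorem sa_diff {C D : ℝ} {c : O → ℂ} (hc : ∀ n, Prim n → ‖c n‖ ≤ 1) (h : Dec C D c) (τ : ℝ) :
    DifferentiableOn ℂ (fun s : ℂ => ∫ u : ℝ, sm 1 c (Real.exp u) τ * cexp (-(s * u)))
      {s | 0 < s.re} := by
  intro s hs
  have hs' : 0 < s.re := hs
  have hcont : ContinuousOn (fun X : ℝ => sm 1 c X τ) (Set.Ioi 0) := by
    have h1 := continuous_sm one_pos (c := c) (K := 1) (A := 0) (fun n hn => by simpa using hc n hn)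
    have h2 : ContinuousOn (fun X : ℝ => ((Real.log X, τ) : ℝ × ℝ)) (Set.Ioi 0) :=
      (Real.continuousOn_log.mono (fun x hx => ne_of_gt hx)).prodMk continuousOn_const
    refine (h1.comp_continuousOn h2).congr (fun X hX => ?_)
    simp [Real.exp_log hX]
  obtain ⟨K, hK⟩ := norm_sm_le one_pos (s.re + 1)
  have hd : DifferentiableAt ℂ (mellin (fun X => sm 1 c X τ)) (-s) := by
    refine mellin_differentiableAt_of_isBigO_rpow (a := 0) (b := -(s.re + 1))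
      (hcont.locallyIntegrableOn measurableSet_Ioi) ?_ (by simp [hs']) ?_ (by simp)
    · refine Asymptotics.IsBigO.of_bound (D * (1 + |τ|) ^ C) ?_
      filter_upwards [Filter.eventually_ge_atTop (1 : ℝ)] with X hX
      rw [neg_zero, Real.rpow_zero, norm_one, mul_one]
      exact (h X τ (by linarith)).trans
        (div_le_self (mul_nonneg h.nonneg (Real.rpow_nonneg (by positivity) _)) hX)
    · refine Asymptotics.IsBigO.of_bound K ?_
      filter_upwards [Ioc_mem_nhdsGT (zero_lt_one : (0 : ℝ) < 1)] with X hX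
      rw [neg_neg, Real.norm_of_nonneg (Real.rpow_nonneg hX.1.le _)]
      exact hK c X τ hX.1 hc (Or.inr hX.2)
  have h3 := (hd.comp s differentiableAt_id.neg).differentiableWithinAt (s := {s : ℂ | 0 < s.re})
  refine h3.congr (fun z _ => ?_) ?_
  · exact (pe_mellin_eq (fun X => sm 1 c X τ) z).symm
  · exact (pe_mellin_eq (fun X => sm 1 c X τ) s).symm

/-- Split at `u = 0` and `u = Λ`: `‖sm‖ ≤ C e^(4u)`, `≤ C e^u`, `≤ e^(Λ - u)`. -/
theorem sa_bound : ∃ C₁ : ℝ, 1 ≤ C₁ ∧ ∀ (C D Λ σ τ : ℝ) (c : O → ℂ), (∀ n, Prim n → ‖c n‖ ≤ 1) →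
    Dec C D c → 1 ≤ Λ → D * (1 + |τ|) ^ C ≤ Real.exp Λ → 1 - 1 / Λ ≤ σ → σ ≤ 3 →
    ‖∫ u : ℝ, sm 1 c (Real.exp u) τ * cexp (-(σ * u))‖ ≤ C₁ * Λ := by
  obtain ⟨K1, h1, hK1⟩ := san_le 1
  obtain ⟨K4, h4, hK4⟩ := san_le 4
  have he : 1 ≤ Real.exp 2 := Real.one_le_exp (by norm_num)
  refine ⟨2 * ((K1 + K4 + 1) * Real.exp 2), by nlinarith, fun C D Λ σ τ c hc h hΛ hD hσ hσ3 => ?_⟩
  have hΛ0 : 0 < Λ := by linarith
  have hb : 0 < 1 / Λ := by positivity
  have hb1 : 1 / Λ ≤ 1 := (div_le_one hΛ0).2 hΛ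
  have hbΛ : 1 / Λ * Λ = 1 := by field_simp
  have key : ∀ (u K x : ℝ), 0 ≤ K → K ≤ K1 + K4 + 1 → ‖sm 1 c (Real.exp u) τ‖ ≤ K * Real.exp x →
      x - σ * u ≤ 2 - 1 / Λ * |u| → ‖sm 1 c (Real.exp u) τ * cexp (-(σ * u))‖ ≤
        (K1 + K4 + 1) * Real.exp 2 * Real.exp (-(1 / Λ) * |u|) := by
    intro u K x hK0 hK hx hle
    rw [san_norm, mul_assoc, ← Real.exp_add]
    refine (mul_le_mul_of_nonneg_right hx (Real.exp_pos _).le).trans ?_
    rw [mul_assoc, ← Real.exp_add]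
    exact mul_le_mul hK (Real.exp_le_exp.2 (by linarith)) (Real.exp_pos _).le (by linarith)
  refine (san_int_le hb (K := (K1 + K4 + 1) * Real.exp 2) fun u => ?_).trans (le_of_eq ?_)
  · set b := 1 / Λ
    rcases le_total u 0 with hu | hu
    · refine key u K4 _ h4 (by linarith) (hK4 c u τ hc (by norm_num)) ?_
      rw [abs_of_nonpos hu]
      nlinarith
    rcases le_total u Λ with hu' | hu'
    · refine key u K1 _ h1 (by linarith) (hK1 c u τ hc le_rfl) ?_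
      rw [abs_of_nonneg hu]
      nlinarith
    · refine key u 1 (Λ - u) zero_le_one (by linarith) ?_ ?_
      · rw [one_mul, Real.exp_sub]
        exact (h _ τ (Real.exp_pos u)).trans (div_le_div_of_nonneg_right hD (Real.exp_pos u).le)
      · rw [abs_of_nonneg hu]
        nlinarith [mul_nonneg (sub_nonneg.2 hb1) (sub_nonneg.2 hu'), mul_nonneg hu (sub_nonneg.2 hσ)]
  · field_simp

/-- `L s = F 0 s / Wh 1 s`; `L (s + τ I) Wh 1 s = F τ s` on `0 < re s` by `rf_mellin_sm` and the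
identity theorem; `‖Wh 1 σ‖ ≥ 1`. -/
theorem s_cont : ∃ C₁ : ℝ, 1 ≤ C₁ ∧ ∀ (C D : ℝ) (c : O → ℂ), (∀ n, Prim n → ‖c n‖ ≤ 1) →
    Dec C D c → ∃ L : ℂ → ℂ, DifferentiableOn ℂ L {s | 0 < s.re} ∧
      (∀ s : ℂ, 1 < s.re → L s = Dser c s) ∧
      ∀ (Λ : ℝ) (s : ℂ), 2 ≤ Λ → D * (1 + |s.im|) ^ C ≤ Real.exp Λ → 1 - 1 / Λ ≤ s.re → s.re ≤ 3 →
        ‖L s‖ ≤ C₁ * Λ := by
  obtain ⟨C₁, h1, hC₁⟩ := sa_bound
  refine ⟨C₁, h1, fun C D c hc h => ?_⟩
  set F : ℝ → ℂ → ℂ := fun τ s => ∫ u : ℝ, sm 1 c (Real.exp u) τ * cexp (-(s * u)) with hF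
  have hW : Differentiable ℂ (Wh 1) := by unfold Wh; fun_prop
  have hL : DifferentiableOn ℂ (fun s => F 0 s / Wh 1 s) {s | 0 < s.re} :=
    (sa_diff hc h 0).div hW.differentiableOn fun s _ => rf_Wh_ne one_pos s
  have hLD : ∀ s : ℂ, 1 < s.re → F 0 s / Wh 1 s = Dser c s := fun s hs => by
    rw [div_eq_iff (rf_Wh_ne one_pos s)]
    simpa using rf_mellin_sm one_pos hc hs 0
  refine ⟨fun s => F 0 s / Wh 1 s, hL, hLD, fun Λ s hΛ hD hs hs3 => ?_⟩
  have hU : IsOpen {s : ℂ | 0 < s.re} := isOpen_lt continuous_const Complex.continuous_re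
  have a1 : AnalyticOnNhd ℂ (fun z => F 0 (z + s.im * I) / Wh 1 (z + s.im * I) * Wh 1 z)
      {s : ℂ | 0 < s.re} := by
    refine DifferentiableOn.analyticOnNhd (DifferentiableOn.mul ?_ hW.differentiableOn) hU
    exact hL.comp (g := fun s => F 0 s / Wh 1 s) (f := fun z : ℂ => z + s.im * I)
      (by fun_prop) fun z hz => by simpa using hz
  have a2 : AnalyticOnNhd ℂ (F s.im) {s : ℂ | 0 < s.re} := (sa_diff hc h s.im).analyticOnNhd hU
  have h3 : (2 : ℂ) ∈ {s : ℂ | 0 < s.re} := by simp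
  have h4 : {s : ℂ | 1 < s.re} ∈ nhds (2 : ℂ) :=
    (isOpen_lt continuous_const Complex.continuous_re).mem_nhds (by simp)
  have h5 : 1 / Λ ≤ 1 / 2 := one_div_le_one_div_of_le (by norm_num) hΛ
  have h6 : ((s.re : ℝ) : ℂ) ∈ {s : ℂ | 0 < s.re} := by
    simp only [Set.mem_ofPred_eq, ofReal_re]; linarith
  have h7 := a1.eqOn_of_preconnected_of_eventuallyEq a2
    (convex_halfSpace_re_gt 0).isPreconnected h3 (by
      filter_upwards [h4] with z hz
      rw [hLD _ (by simpa using hz)]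
      exact (rf_mellin_sm one_pos hc hz s.im).symm) h6
  simp only [re_add_im] at h7
  have h8 := hC₁ C D Λ s.re s.im c hc h (by linarith) hD hs hs3
  have h9 : ‖F s.im s.re‖ ≤ C₁ * Λ := h8
  rw [← h7, norm_mul] at h9
  exact (le_mul_of_one_le_right (norm_nonneg _) (san_Wh _)).trans h9

/-- `rf_mellin_sm` with `c = 1`, `τ = 0`: `‖sm‖ ≤ C e^(3u)` for `u ≤ 0`, `≤ C e^u` for `u ≥ 0`. -/
theorem zeta_le : ∃ C : ℝ, 1 ≤ C ∧ ∀ σ : ℝ, 1 < σ → σ ≤ 2 →
    ‖Dser (fun _ => 1) σ‖ ≤ C / (σ - 1) := by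
  obtain ⟨K1, h1, hK1⟩ := san_le 1
  obtain ⟨K3, h3, hK3⟩ := san_le 3
  refine ⟨2 * (K1 + K3 + 1), by linarith, fun σ hσ hσ2 => ?_⟩
  have hc : ∀ n : O, Prim n → ‖(fun _ : O => (1 : ℂ)) n‖ ≤ 1 := fun _ _ => by simp
  have h := rf_mellin_sm one_pos hc (s := σ) (by simpa using hσ) 0
  simp only [ofReal_zero, zero_mul, add_zero] at h
  refine (le_mul_of_one_le_right (norm_nonneg _) (san_Wh σ)).trans ?_
  rw [← norm_mul, ← h]
  refine san_int_le (by linarith) fun u => ?_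
  have key : ∀ K x : ℝ, K ≤ K1 + K3 + 1 →
      ‖sm 1 (fun _ => 1) (Real.exp u) 0‖ ≤ K * Real.exp x → x - σ * u ≤ -(σ - 1) * |u| →
      ‖sm 1 (fun _ => 1) (Real.exp u) 0 * cexp (-(σ * u))‖ ≤
        (K1 + K3 + 1) * Real.exp (-(σ - 1) * |u|) := by
    intro K x hK hx hle
    rw [san_norm]
    refine (mul_le_mul_of_nonneg_right hx (Real.exp_pos _).le).trans ?_
    rw [mul_assoc, ← Real.exp_add]
    exact mul_le_mul hK (Real.exp_le_exp.2 (by linarith)) (Real.exp_pos _).le (by linarith)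
  rcases le_total u 0 with hu | hu
  · refine key K3 _ (by linarith) (hK3 _ u 0 hc (by norm_num)) ?_
    rw [abs_of_nonpos hu]
    nlinarith
  · refine key K1 _ (by linarith) (hK1 _ u 0 hc le_rfl) ?_
    rw [abs_of_nonneg hu]
    nlinarith

end Crest.Agent.R012

end
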