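import Crest.Agent.R012.Gt

/-! # Row 12: Siegel–Walfisz (definitions) -/

set_option autoImplicit false

noncomputable section

open scoped BigOperators ComplexConjugate Topology
open Complex MeasureTheory Filter Set Crest.Agent.R017

namespace Crest.Agent.R012

/-- Completely multiplicative on primary elements and bounded by one. -/
structure CMu (c : O → ℂ) : Prop where
  one : c 1 = 1
  mul : ∀ m n, Prim m → Prim n → c (m * n) = c m * c n
  le : ∀ n, Prim n → ‖c n‖ ≤ 1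

/-- Long smooth sums decay. -/
def Dec (C D : ℝ) (c : O → ℂ) : Prop :=
  ∀ X t : ℝ, 0 < X → ‖sm 1 c X t‖ ≤ D * (1 + |t|) ^ C / X

/-- Primary elements of norm at most `Y`. -/
def pbox (Y : ℝ) : Finset O := (box Y).filter Prim

/-- Sharp partial sums. -/
def psum (a : O → ℂ) (Y : ℝ) : ℂ := ∑ n ∈ pbox Y, a n

/-- Collecting the elements of norm `k`. -/
def nf (b : O → ℂ) (k : ℕ) : ℂ := ∑ n ∈ (pbox k).filter (fun n => nm n = k), b n

/-- The twisted character. -/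
def sc (l : ℤ) (h : O) (τ : ℝ) (n : O) : ℂ := kap n h * az l n * (Nr n : ℂ) ^ (-(τ * I))

theorem mem_pbox {Y : ℝ} {n : O} : n ∈ pbox Y ↔ Prim n ∧ Nr n ≤ Y := by
  rw [pbox, Finset.mem_filter, mem_box]
  exact ⟨fun h => ⟨h.2, h.1.2⟩, fun h => ⟨⟨h.1.ne_zero, h.2⟩, h.1⟩⟩

theorem psum_of_lt (a : O → ℂ) {Y : ℝ} (h : Y < 1) : psum a Y = 0 := by
  rw [psum, pbox, box_eq_empty h, Finset.filter_empty, Finset.sum_empty]

theorem psum_congr {a b : O → ℂ} (h : ∀ n, Prim n → a n = b n) (Y : ℝ) : psum a Y = psum b Y :=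
  Finset.sum_congr rfl fun n hn => h n (mem_pbox.1 hn).1

theorem norm_psum_le {a : O → ℂ} {M Y : ℝ} (hY : 0 ≤ Y) (hM : 0 ≤ M)
    (h : ∀ n, Prim n → Nr n ≤ Y → ‖a n‖ ≤ M) : ‖psum a Y‖ ≤ 25 * Y * M := by
  refine (norm_sum_le _ _).trans ((Finset.sum_le_card_nsmul _ _ M fun n hn =>
    h n (mem_pbox.1 hn).1 (mem_pbox.1 hn).2).trans ?_)
  rw [nsmul_eq_mul]
  refine mul_le_mul_of_nonneg_right (le_trans ?_ (card_box_le hY)) hM
  exact_mod_cast Finset.card_filter_le _ _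

theorem CMu.sq {c : O → ℂ} (h : CMu c) : CMu (fun n => c n ^ 2) :=
  ⟨by simp [h.one], fun m n hm hn => by rw [h.mul m n hm hn, mul_pow], fun n hn => by
    rw [norm_pow]; exact pow_le_one₀ (norm_nonneg _) (h.le n hn)⟩

theorem cmu_one : CMu (fun _ => 1) := ⟨rfl, fun _ _ _ _ => (mul_one _).symm, fun _ _ => by simp⟩

theorem Dec.nonneg {C D : ℝ} {c : O → ℂ} (h : Dec C D c) : 0 ≤ D := by
  have := (norm_nonneg _).trans (h 1 0 one_pos)
  simpa using this

end Crest.Agent.R012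

end
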