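import Crest.Agent.R026.Perron

/-! # Row 12: partial sums from analytic continuation up to a power of the logarithm -/

set_option autoImplicit false

namespace Crest.Agent.R012

open Finset Filter Crest.Agent.R008 Crest.Agent.R026

/-- `R026.perron_core` with a free height `T`. -/
theorem sper_core {R M l σ L T : ℝ} (hT : 0 < T) {k : ℕ} (hk : 1 ≤ k) (hl : 3 ≤ l) (hσ : 0 < σ) (hR : 0 < R)
    {a : ℕ → ℂ} {Φ : ℂ → ℂ} (ha : ∀ n, ‖a n‖ ≤ 1 + Real.log n)
    (hΦ : ∀ s : ℂ, 1 < s.re → Φ s = LSeries a s)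
    (hb : ∀ τ : ℝ, |τ| ≤ T →
      DifferentiableOn ℂ Φ (Metric.ball (1 + 1 / l + τ * Complex.I) R) ∧
      ∀ s ∈ Metric.ball (1 + 1 / l + τ * Complex.I : ℂ) R, ‖Φ s‖ ≤ M)
    {t y y' : ℝ} (ht : t = 0) (hy : 2 * Real.exp k ≤ y) (hL0 : 0 < L)
    (hL : 2 * Real.exp L ≤ y) (hyl : y ≤ Real.exp l) (hyy : y ≤ y') (hyy' : y' ≤ 2 * y) :
    ‖DP (natIoc y y') a t‖ ≤ 2 * (σ * (k.factorial * M / (R / 2) ^ k +
      2 * ((1 + 2 * (k + 1) * l) ^ (k + 1) * (1 + 2 * l)) * σ / T) +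
      2 * ((1 + 2 * (k + 1) * l) ^ (k + 1) * (1 + 2 * l) * Real.exp (-(σ / 2)) +
        (2 * l) ^ (k + 1) * (4 / y + 32 / σ))) * (12 * y / L ^ k) := by
  have hl0 : 0 < l := by linarith
  have hη : 0 < 1 / l := by positivity
  have hk' : (1 : ℝ) ≤ k := by exact_mod_cast hk
  have hek : 1 ≤ Real.exp k := Real.one_le_exp (by linarith)
  have hy0 : 0 < y := by linarith
  have hm₀ : y / 2 ≤ ⌊y⌋₊ := by linarith [Nat.lt_floor_add_one y]
  have hm₁ : (⌊y'⌋₊ : ℝ) ≤ 2 * y := (Nat.floor_le (by linarith)).trans hyy'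
  have h01 : ⌊y⌋₊ ≤ ⌊y'⌋₊ := Nat.floor_mono hyy
  rw [DP, natIoc]
  generalize ⌊y⌋₊ = m₀ at *
  generalize ⌊y'⌋₊ = m₁ at *
  have hm₀1 : 1 ≤ m₀ := by exact_mod_cast (show (1 : ℝ) ≤ m₀ by linarith)
  set b : ℕ → ℂ := fun n =>
    a n * ((Real.log n ^ k * (n : ℝ) ^ (-(1 + 1 / l)) : ℝ) : ℂ) * pit n (-t) with hbd
  have hbn : ∀ n, ‖b n‖ ≤ (1 + Real.log n) ^ (k + 1) * (n : ℝ) ^ (-(1 + 1 / l)) := fun n => by
    have := Real.log_natCast_nonneg n
    rw [hbd, norm_mul, norm_mul, norm_pit, mul_one, Complex.norm_real,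
      Real.norm_of_nonneg (by positivity), pow_succ', mul_assoc]
    gcongr
    · exact ha n
    · linarith
  obtain ⟨hs1, hs2⟩ := perron_sum k hη
  have hbs : Summable fun n => ‖b n‖ := Summable.of_nonneg_of_le (fun _ => norm_nonneg _) hbn hs1
  have hδ₂ : ∑' n, ‖b n‖ ≤ (1 + 2 * (k + 1) * l) ^ (k + 1) * (1 + 2 * l) := by
    refine (hbs.tsum_le_tsum hbn hs1).trans (hs2.trans (le_of_eq ?_))
    simp only [div_div_eq_mul_div, div_one]
  have hb0 : b 0 = 0 := by simp [hbd, show k ≠ 0 by omega]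
  have hS := perron_S hbs (fun n => Real.log n) hσ hT hδ₂
    (δ₁ := k.factorial * M / (R / 2) ^ k) fun ξ hξ => by
      obtain ⟨a1, a2⟩ := hb (t - ξ) (by rwa [ht, zero_sub, abs_neg])
      refine le_of_eq_of_le (congrArg _ (tsum_congr fun n => ?_))
        (perron_deriv ha hΦ hη hR (τ := t - ξ) (by simpa using a1) (by simpa using a2) k)
      rw [hbd, neg_sub, sub_eq_neg_add, pit_add, ← mul_assoc]
      rfl
  have hE : ∀ m : ℕ, m₀ ≤ m → m ≤ m₁ →
      ∑' n, ‖b n‖ * Real.exp (-(σ * |Real.log n - Real.log m|)) ≤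
        (1 + 2 * (k + 1) * l) ^ (k + 1) * (1 + 2 * l) * Real.exp (-(σ / 2)) +
          (2 * l) ^ (k + 1) * (4 / y + 32 / σ) := fun m h1 h2 => by
    have a1 : (m₀ : ℝ) ≤ m := by exact_mod_cast h1
    have a2 : (m : ℝ) ≤ m₁ := by exact_mod_cast h2
    refine (perron_edge hbs hb0 hσ hδ₂ (hm₀1.trans h1) (β := (2 * l) ^ (k + 1) * (4 / y))
      (by positivity) fun n b1 b2 => (hbn n).trans ?_).trans (add_le_add_right ?_ _)
    · have b3 : (0 : ℝ) < n := by linarith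
      have b4 : Real.log n ≤ l + 2 := by
        rw [Real.log_le_iff_le_exp b3, Real.exp_add]
        have : (4 : ℝ) ≤ Real.exp 2 := by
          have := Real.add_one_le_exp 1
          rw [show (2 : ℝ) = 1 + 1 by norm_num, Real.exp_add]
          nlinarith
        nlinarith
      have b5 : (1 : ℝ) ≤ n := by exact_mod_cast (Nat.cast_pos.1 b3)
      have b6 := Real.log_nonneg b5
      refine mul_le_mul (pow_le_pow_left₀ (by linarith) (by linarith) _) ?_ (by positivity)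
        (by positivity)
      refine (Real.rpow_le_rpow_of_exponent_le b5 (show -(1 + 1 / l) ≤ -1 by linarith)).trans ?_
      rw [Real.rpow_neg_one, inv_eq_one_div, div_le_div_iff₀ b3 hy0]
      linarith
    · rw [mul_assoc]
      refine mul_le_mul_of_nonneg_left ?_ (by positivity)
      have : 4 / y * (4 * m / σ) ≤ 32 / σ := by
        rw [div_mul_div_comm, div_le_div_iff₀ (by positivity) hσ]
        nlinarith
      linarith
  have hw : ∀ m : ℕ, m₀ ≤ m → (m : ℝ) ^ (1 + 1 / l) / Real.log m ^ k =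
      ((Real.log m / (m : ℝ) ^ ((1 + 1 / l) / k)) ^ k)⁻¹ := fun m hm => by
    rw [div_pow, inv_div, ← Real.rpow_natCast ((m : ℝ) ^ _), ← Real.rpow_mul (Nat.cast_nonneg _),
      div_mul_cancel₀ _ (by positivity)]
  have hlog : ∀ m : ℕ, m₀ ≤ m → L ≤ Real.log m := fun m hm => by
    have a1 : (m₀ : ℝ) ≤ m := by exact_mod_cast hm
    rw [Real.le_log_iff_exp_le (by linarith)]
    linarith
  have h1 := perron_abel b (fun n => (n : ℝ) ^ (1 + 1 / l) / Real.log n ^ k) h01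
    (fun m h1 h2 => by
      have a1 : (m₀ : ℝ) ≤ m := by exact_mod_cast h1
      have a2 : (m : ℝ) ≤ m₁ := by exact_mod_cast h2
      have a3 : (0 : ℝ) < m₀ := by linarith
      refine (perron_short hbs (fun n => Real.log n) hσ (Real.log_le_log a3 a1) ?_ hS (Ioc m₀ m)
        fun n => ?_).trans (add_le_add_right ((add_le_add (hE m₀ le_rfl h01) (hE m h1 h2)).trans
          (two_mul _).ge) _)
      · rw [Real.log_le_iff_le_exp (by linarith), Real.exp_add, Real.exp_log a3]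
        have : (4 : ℝ) ≤ Real.exp 2 := by
          have := Real.add_one_le_exp 1
          rw [show (2 : ℝ) = 1 + 1 by norm_num, Real.exp_add]
          nlinarith
        nlinarith
      · rcases Nat.eq_zero_or_pos n with rfl | hn
        · simp [(Real.log_natCast_nonneg m₀).not_gt]
        · have hn' : (0 : ℝ) < n := by exact_mod_cast hn
          rw [Real.log_lt_log_iff a3 hn', Real.log_le_log_iff hn' (by linarith), mem_Ioc,
            Nat.cast_lt, Nat.cast_le])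
    (by have := Real.log_natCast_nonneg m₀; positivity) fun m hm => by
      have a1 : (m₀ : ℝ) ≤ m := by exact_mod_cast hm
      have a2 : Real.exp ((1 + 1 / l) / k)⁻¹ ≤ m := by
        refine le_trans (Real.exp_le_exp.2 ?_) (show Real.exp k ≤ m by linarith)
        rw [inv_div]
        exact div_le_self (by linarith) (by linarith)
      have a3 : (m : ℝ) ≤ (m + 1 : ℕ) := by exact_mod_cast Nat.le_succ m
      have a4 := Real.log_div_self_rpow_antitoneOn (a := (1 + 1 / l) / k) (by positivity)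
        a2 (a2.trans a3) a3
      have a5 := hL0.trans_le (hlog (m + 1) (by omega))
      have a6 : 0 < Real.log (m + 1 : ℕ) / ((m + 1 : ℕ) : ℝ) ^ ((1 + 1 / l) / k) := by positivity
      simp only [hw m hm, hw (m + 1) (by omega)]
      exact inv_anti₀ (pow_pos a6 _) (pow_le_pow_left₀ a6.le a4 _)
  have h2 : ∀ n ∈ Ioc m₀ m₁, a n * pit n (-t) =
      b n * (((n : ℝ) ^ (1 + 1 / l) / Real.log n ^ k : ℝ) : ℂ) := fun n hn => by
    have a1 := (hL0.trans_le (hlog n (mem_Ioc.1 hn).1.le)).ne'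
    have a2 : (0 : ℝ) < n := by exact_mod_cast (show 0 < n by have := (mem_Ioc.1 hn).1; omega)
    have a3 : Real.log n ^ k * (n : ℝ) ^ (-(1 + 1 / l)) *
        ((n : ℝ) ^ (1 + 1 / l) / Real.log n ^ k) = 1 := by
      rw [Real.rpow_neg a2.le]
      field_simp
    rw [hbd, mul_right_comm, mul_assoc (a n), ← Complex.ofReal_mul, a3, Complex.ofReal_one, mul_one]
  rw [sum_congr rfl h2]
  refine h1.trans (mul_le_mul_of_nonneg_left ?_ (mul_nonneg zero_le_two (add_nonneg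
    (mul_nonneg hσ.le ((norm_nonneg _).trans (hS 0))) (by positivity))))
  refine div_le_div₀ (by positivity) ?_ (by positivity) (pow_le_pow_left₀ hL0.le (hlog _ h01) _)
  refine (Real.rpow_le_rpow (Nat.cast_nonneg _) hm₁ (by positivity)).trans ?_
  have a1 : (2 * y) ^ (1 / l) ≤ 6 := by
    refine (Real.rpow_le_rpow (by positivity) (show 2 * y ≤ Real.exp (1 + l) by
      rw [Real.exp_add]
      nlinarith [Real.add_one_le_exp 1]) hη.le).trans ?_
    rw [← Real.exp_mul]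
    have a2 : (1 + l) * (1 / l) ≤ 1 + 1 / 2 := by
      rw [mul_one_div, div_le_iff₀ hl0]
      linarith
    refine (Real.exp_le_exp.2 a2).trans ?_
    have a3 := Real.exp_one_lt_d9
    have a4 : Real.exp (1 / 2) * Real.exp (1 / 2) = Real.exp 1 := by
      rw [← Real.exp_add]; norm_num
    have a5 : Real.exp (1 / 2) ≤ 2 := by nlinarith [Real.exp_pos (1 / 2)]
    rw [Real.exp_add]
    nlinarith [Real.exp_pos (1 / 2)]
  rw [Real.rpow_add (by positivity), Real.rpow_one]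
  nlinarith

/-- `R026.perron` with height a power of `l`. -/
theorem sper_dyadic (θ ε : ℝ) (hθ1 : θ < 1) (hε : 0 < ε) (C K : ℕ) :
    ∃ (A : ℕ) (l₀ : ℝ), ∀ l : ℝ, l₀ ≤ l → ∀ (a : ℕ → ℂ) (Φ : ℂ → ℂ),
      (∀ n, ‖a n‖ ≤ 1 + Real.log n) → (∀ s : ℂ, 1 < s.re → Φ s = LSeries a s) →
      (∀ τ : ℝ, |τ| ≤ l ^ A →
        DifferentiableOn ℂ Φ (Metric.ball (1 + 1 / l + τ * Complex.I) (l ^ (-θ))) ∧
        ∀ s ∈ Metric.ball (1 + 1 / l + τ * Complex.I : ℂ) (l ^ (-θ)), ‖Φ s‖ ≤ l ^ C) →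
      ∀ y y' : ℝ, Real.exp (ε * l) ≤ y → y ≤ Real.exp l → y ≤ y' →
        y' ≤ 2 * y → ‖DP (natIoc y y') a 0‖ ≤ y / l ^ K := by
  obtain ⟨k, hk⟩ := exists_nat_ge ((2 * K + C + 3) / (1 - θ))
  rw [div_le_iff₀ (by linarith)] at hk
  have hk1 : 1 ≤ k := by
    rcases Nat.eq_zero_or_pos k with rfl | h
    · have : (0 : ℝ) ≤ 2 * K + C := by positivity
      simp only [Nat.cast_zero, zero_mul] at hk
      linarith
    · exact h
  obtain ⟨c, hc0, hc⟩ : ∃ c : ℝ, 0 < c ∧ c = 24 * (2 / ε) ^ k := ⟨_, by positivity, rfl⟩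
  obtain ⟨c₂, hc₂0, hc₂⟩ : ∃ c₂ : ℝ, 0 < c₂ ∧ c₂ = (1 + 2 * (k + 1)) ^ (k + 1) * 3 :=
    ⟨_, by positivity, rfl⟩
  refine ⟨K + (k + 2) + 2 * (K + 2) + 1, eventually_atTop.1 ?_⟩
  filter_upwards [eventually_ge_atTop 3, eventually_ge_atTop (5 * c * (k.factorial * 2 ^ k)),
    eventually_ge_atTop (320 * c * 2 ^ (k + 1)),
    eventually_ge_atTop (10 * c * c₂), perron_poly 1 (K + (k + 2) + 2 * (K + 2) + 1) one_pos,
    perron_poly (40 * c * 2 ^ (k + 1)) (K + (k + 1)) hε,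
    perron_poly (2 * Real.exp k) 0 hε, perron_poly 2 0 (half_pos hε)]
    with l l1 l2 l3 l4' l8 l5 l6 l7 a Φ ha hΦ hb y y' hy hyl hyy hyy'
  have hl0 : 0 < l := by linarith
  have hl1 : 1 ≤ l := by linarith
  have hy0 : 0 < y := (Real.exp_pos _).trans_le hy
  rw [pow_zero, mul_one] at l6 l7
  rw [one_mul, one_mul] at l8
  have l4 : 10 * c * c₂ * l ^ (K + (k + 2) + 2 * (K + 2)) ≤ l ^ (K + (k + 2) + 2 * (K + 2) + 1) := by
    rw [pow_succ']
    exact mul_le_mul_of_nonneg_right l4' (by positivity)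
  have hT0 : 0 < l ^ (K + (k + 2) + 2 * (K + 2) + 1) := by positivity
  generalize l ^ (K + (k + 2) + 2 * (K + 2) + 1) = T at *
  refine (sper_core (σ := l ^ (K + 2)) (L := ε / 2 * l) hT0 hk1 l1 (by positivity) (by positivity)
    ha hΦ hb rfl (l6.trans hy) (by positivity) (le_trans ?_ hy) hyl hyy hyy').trans ?_
  · rw [show ε * l = ε / 2 * l + ε / 2 * l by ring, Real.exp_add]
    exact mul_le_mul_of_nonneg_right l7 (Real.exp_pos _).le
  have hδ : (1 + 2 * (k + 1) * l) ^ (k + 1) * (1 + 2 * l) ≤ c₂ * l ^ (k + 2) := by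
    rw [hc₂, pow_succ l (k + 1), mul_mul_mul_comm, ← mul_pow]
    gcongr <;> linarith
  have hδ0 : 0 ≤ (1 + 2 * (k + 1) * l) ^ (k + 1) * (1 + 2 * l) := by positivity
  generalize (1 + 2 * (k + 1) * l) ^ (k + 1) * (1 + 2 * l) = δ at *
  have hσ1 : 1 ≤ l ^ (K + 2) := one_le_pow₀ hl1
  have hlk : 1 ≤ l ^ k := one_le_pow₀ hl1
  have t1 : c * l ^ K * (l ^ (K + 2) * (k.factorial * l ^ C / (l ^ (-θ) / 2) ^ k)) ≤ l ^ k / 5 := by
    have a1 : l * (l ^ (2 * K + 2 + C) * l ^ (θ * k)) ≤ l ^ k := by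
      rw [← mul_assoc, ← pow_succ', ← Real.rpow_natCast, ← Real.rpow_add hl0, ← Real.rpow_natCast]
      refine Real.rpow_le_rpow_of_exponent_le hl1 ?_
      push_cast
      linarith
    have a2 : c * l ^ K * (l ^ (K + 2) * (k.factorial * l ^ C / (l ^ (-θ) / 2) ^ k)) =
        c * (k.factorial * 2 ^ k) * (l ^ (2 * K + 2 + C) * l ^ (θ * k)) := by
      rw [Real.rpow_mul hl0.le, Real.rpow_natCast, Real.rpow_neg hl0.le, div_pow, inv_pow]
      field_simp
      ring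
    rw [a2]
    nlinarith [mul_le_mul_of_nonneg_right l2
      (show 0 ≤ l ^ (2 * K + 2 + C) * l ^ (θ * k) by positivity)]
  have t2 : c * l ^ K * (l ^ (K + 2) * (2 * δ * l ^ (K + 2) / T)) ≤ 1 / 5 := by
    rw [← mul_div_assoc, ← mul_div_assoc, div_le_iff₀ hT0]
    have := mul_le_mul_of_nonneg_left hδ
      (show 0 ≤ 2 * c * l ^ K * l ^ (K + 2) * l ^ (K + 2) by positivity)
    rw [pow_add, pow_add, two_mul (K + 2), pow_add l (K + 2)] at l4
    linarith
  have t3 : 2 * (δ * Real.exp (-(l ^ (K + 2) / 2))) ≤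
      l ^ (K + 2) * (2 * δ * l ^ (K + 2) / T) := by
    have a1 : Real.exp (-(l ^ (K + 2) / 2)) ≤ T⁻¹ := by
      refine le_trans ?_ (inv_anti₀ hT0 l8)
      rw [← Real.exp_neg]
      refine Real.exp_le_exp.2 ?_
      have : l ^ 2 ≤ l ^ (K + 2) := pow_le_pow_right₀ hl1 (by omega)
      nlinarith
    have a2 := mul_le_mul_of_nonneg_left a1 hδ0
    have a3 : 1 ≤ l ^ (K + 2) * l ^ (K + 2) := one_le_mul_of_one_le_of_one_le hσ1 hσ1
    have a4 := le_mul_of_one_le_left (show 0 ≤ δ * T⁻¹ by positivity) a3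
    rw [div_eq_mul_inv (2 * δ * _)]
    linarith
  have t4 : c * l ^ K * (2 * ((2 * l) ^ (k + 1) * (4 / y))) ≤ 1 / 5 := by
    rw [← mul_div_assoc, ← mul_div_assoc, ← mul_div_assoc, div_le_iff₀ hy0, mul_pow]
    rw [pow_add l] at l5
    linarith
  have t5 : c * l ^ K * (2 * ((2 * l) ^ (k + 1) * (32 / l ^ (K + 2)))) ≤ l ^ k / 5 := by
    have a1 : c * l ^ K * (2 * ((2 * l) ^ (k + 1) * (32 / l ^ (K + 2)))) =
        64 * c * 2 ^ (k + 1) * l ^ k / l := by
      field_simp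
      ring
    rw [a1, div_le_iff₀ hl0]
    nlinarith [mul_le_mul_of_nonneg_right l3 (show 0 ≤ l ^ k by positivity)]
  have t6 := mul_le_mul_of_nonneg_left t3 (show 0 ≤ c * l ^ K by positivity)
  have e : 12 * y / (ε / 2 * l) ^ k = c / 2 * y / l ^ k := by
    rw [hc, mul_pow, div_pow, div_pow]
    field_simp
    norm_num
  rw [e, ← mul_div_assoc, div_le_div_iff₀ (by positivity) (by positivity)]
  refine le_of_eq_of_le ?_ (mul_le_mul_of_nonneg_left
    ((add_le_add (add_le_add t1 t2) (add_le_add (t6.trans t2) (add_le_add t4 t5))).trans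
      (show _ ≤ l ^ k by linarith)) hy0.le)
  ring

theorem perron_psum (C K : ℕ) :
    ∃ (A : ℕ) (l₀ : ℝ), ∀ l : ℝ, l₀ ≤ l → ∀ (a : ℕ → ℂ) (Φ : ℂ → ℂ),
      (∀ n, ‖a n‖ ≤ 1 + Real.log n) → (∀ s : ℂ, 1 < s.re → Φ s = LSeries a s) →
      (∀ τ : ℝ, |τ| ≤ l ^ A →
        DifferentiableOn ℂ Φ (Metric.ball (1 + 1 / l + τ * Complex.I) (l ^ (-(1 / 2) : ℝ))) ∧
        ∀ s ∈ Metric.ball (1 + 1 / l + τ * Complex.I : ℂ) (l ^ (-(1 / 2) : ℝ)), ‖Φ s‖ ≤ l ^ C) →
      ‖∑ n ∈ Ioc 0 ⌊Real.exp l⌋₊, a n‖ ≤ Real.exp l / l ^ K := by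
  obtain ⟨A, l₁, H⟩ := sper_dyadic (1 / 2) (1 / 2) (by norm_num) (by norm_num) C (K + 1)
  refine ⟨A, eventually_atTop.1 ?_⟩
  filter_upwards [eventually_ge_atTop l₁, eventually_ge_atTop 2,
    perron_poly 8 (K + 1) (ε := 1 / 2) (by norm_num)] with l l1 l2 l3 a Φ ha hΦ hb
  have hl0 : 0 < l := by linarith
  have hS : ∀ j : ℕ, Real.exp (1 / 2 * l) ≤ Real.exp l / 2 ^ j →
      ‖∑ n ∈ Ioc ⌊Real.exp l / 2 ^ j⌋₊ ⌊Real.exp l⌋₊, a n‖ ≤
        (Real.exp l - Real.exp l / 2 ^ j) / l ^ (K + 1) := by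
    intro j
    induction j with
    | zero => intro _; simp
    | succ j ih =>
      intro hj
      have e : Real.exp l / 2 ^ j = 2 * (Real.exp l / 2 ^ (j + 1)) := by
        rw [pow_succ]; field_simp
      have hp : 0 < Real.exp l / 2 ^ (j + 1) := by positivity
      have h1 : Real.exp l / 2 ^ j ≤ Real.exp l :=
        div_le_self (Real.exp_pos l).le (one_le_pow₀ one_le_two)
      have h2 := H l l1 a Φ ha hΦ hb (Real.exp l / 2 ^ (j + 1)) (Real.exp l / 2 ^ j) hj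
        (by linarith) (by linarith) e.le
      have h3 := ih (by linarith)
      rw [← sum_Ioc_consecutive a (Nat.floor_mono (show Real.exp l / 2 ^ (j + 1) ≤
        Real.exp l / 2 ^ j by linarith)) (Nat.floor_mono h1)]
      simp only [DP, natIoc, pit, neg_zero, zero_mul, Complex.ofReal_zero, mul_zero,
        Complex.exp_zero, mul_one] at h2
      refine (norm_add_le _ _).trans ((add_le_add h2 h3).trans (le_of_eq ?_))
      rw [e]; ring
  have hex : ∃ j : ℕ, Real.exp l / 2 ^ (j + 1) < Real.exp (1 / 2 * l) := by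
    obtain ⟨j, hj⟩ := pow_unbounded_of_one_lt (Real.exp l) (one_lt_two (α := ℝ))
    refine ⟨j, lt_of_lt_of_le ?_ (Real.one_le_exp (by positivity))⟩
    rw [div_lt_one (by positivity), pow_succ]
    nlinarith [Real.exp_pos l]
  classical
  have hj := Nat.find_spec hex
  have hj' : Real.exp (1 / 2 * l) ≤ Real.exp l / 2 ^ Nat.find hex := by
    rcases Nat.eq_zero_or_pos (Nat.find hex) with h | h
    · rw [h, pow_zero, div_one]
      exact Real.exp_le_exp.2 (by linarith)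
    · have := Nat.find_min hex (Nat.sub_lt h one_pos)
      rwa [show Nat.find hex - 1 + 1 = Nat.find hex by omega, not_lt] at this
  generalize Nat.find hex = j at hj hj'
  set y := Real.exp l / 2 ^ j with hy
  have hy0 : 0 < y := by positivity
  have h1 : y ≤ Real.exp l := div_le_self (Real.exp_pos l).le (one_le_pow₀ one_le_two)
  have hy2 : y ≤ 2 * Real.exp (1 / 2 * l) := by
    have e : y = 2 * (Real.exp l / 2 ^ (j + 1)) := by rw [hy, pow_succ]; field_simp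
    linarith
  have h2 : ‖∑ n ∈ Ioc 0 ⌊y⌋₊, a n‖ ≤ y * (2 * l) := by
    refine (norm_sum_le _ _).trans ((sum_le_card_nsmul _ _ (2 * l) fun n hn => ?_).trans ?_)
    · have h3 : (n : ℝ) ≤ Real.exp l :=
        le_trans (by exact_mod_cast (mem_Ioc.1 hn).2) ((Nat.floor_le hy0.le).trans h1)
      have h4 : (0 : ℝ) < n := by exact_mod_cast (mem_Ioc.1 hn).1
      have h5 := (Real.log_le_iff_le_exp h4).2 h3
      linarith [ha n]
    · rw [Nat.card_Ioc, Nat.sub_zero, nsmul_eq_mul]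
      exact mul_le_mul_of_nonneg_right (Nat.floor_le hy0.le) (by positivity)
  have h3 := hS j hj'
  rw [← sum_Ioc_consecutive a (Nat.zero_le ⌊y⌋₊) (Nat.floor_mono h1)]
  refine (norm_add_le _ _).trans ((add_le_add h2 h3).trans ?_)
  have e : Real.exp l = Real.exp (1 / 2 * l) * Real.exp (1 / 2 * l) := by
    rw [← Real.exp_add]; congr 1; ring
  have hK : 0 < l ^ K := by positivity
  have h4 : y * (2 * l) ≤ Real.exp l / l ^ K / 2 := by
    rw [le_div_iff₀ two_pos, le_div_iff₀ hK, e]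
    rw [pow_succ] at l3
    calc y * (2 * l) * 2 * l ^ K = y * (4 * (l ^ K * l)) := by ring
      _ ≤ (2 * Real.exp (1 / 2 * l)) * (4 * (l ^ K * l)) := by gcongr
      _ = Real.exp (1 / 2 * l) * (8 * (l ^ K * l)) := by ring
      _ ≤ _ := by gcongr
  have h5 : (Real.exp l - y) / l ^ (K + 1) ≤ Real.exp l / l ^ K / 2 := by
    rw [div_div, pow_succ]
    exact div_le_div₀ (Real.exp_pos l).le (by linarith) (by positivity) (by gcongr)
  linarith

end Crest.Agent.R012
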