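import Crest.Agent.R012.SZF
import Crest.Agent.R012.SPer

/-! # Row 12: the prime number theorem for twisted characters -/

set_option autoImplicit false

noncomputable section

open scoped BigOperators ComplexConjugate Topology
open Complex MeasureTheory Filter Set Crest.Agent.R017

namespace Crest.Agent.R012

theorem spnt_norm_vm (n : O) : ((‖vm n‖ : ℝ) : ℂ) = vm n := by
  by_cases h : ∃ p : O, Prime p ∧ ∃ k : ℕ, 0 < k ∧ Associated n (p ^ k)
  · obtain ⟨p, hp, k, hk, h⟩ := h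
    rw [l2_vm_assoc hp hk h, Complex.norm_real,
      Real.norm_of_nonneg (Real.log_nonneg (one_le_Nr hp.ne_zero))]
  · rw [l2_vm_zero h, norm_zero, ofReal_zero]

theorem spnt_prime {n : O} (hp : Prime n) : vm n = Lp n := by
  rw [Lp, if_pos hp, ← vm_prime_pow hp one_pos, pow_one]

/-- Sum over the fibres of `nm`. -/
theorem nf_LSeries {b : O → ℂ} {s : ℂ}
    (hb : Summable (fun n : O => if Prim n then b n * (Nr n : ℂ) ^ (-s) else 0)) :
    LSeries (nf b) s = Dser b s := by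
  have h := hb.hasSum.tsum_fiberwise nm
  rw [LSeries, Dser, ← h.tsum_eq]
  refine tsum_congr fun k => ?_
  rw [tsum_subtype (nm ⁻¹' {k}) (fun n : O => if Prim n then b n * (Nr n : ℂ) ^ (-s) else 0),
    tsum_eq_sum (s := (pbox k).filter (fun n => nm n = k))]
  · rcases Nat.eq_zero_or_pos k with rfl | hk
    · rw [LSeries.term_zero, pbox, box_eq_empty (by simp)]
      simp
    · rw [LSeries.term_of_ne_zero hk.ne', nf, Finset.sum_div]
      refine Finset.sum_congr rfl fun n hn => ?_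
      obtain ⟨h1, h2⟩ := Finset.mem_filter.1 hn
      rw [Set.indicator_of_mem (by simpa using h2), if_pos (mem_pbox.1 h1).1, Nr, h2, cpow_neg,
        div_eq_mul_inv, ofReal_natCast]
  · intro n hn
    by_cases h2 : nm n = k
    · rw [Set.indicator_of_mem (by simpa using h2), if_neg]
      intro h1
      exact hn (Finset.mem_filter.2 ⟨mem_pbox.2 ⟨h1, by rw [Nr, h2]⟩, h2⟩)
    · exact Set.indicator_of_notMem (by simpa using h2) _

/-- If `3 ∤ k`, one of `±k` is primary, every `n` of norm `k` divides it (`r1_nm_cast`), `vm ≥ 0`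
and `l2_sum_vm`; if `3 ∣ k` the sum is empty (`Prim.nm_mod_three`). -/
theorem norm_nf_vm {c : O → ℂ} (hc : ∀ n, Prim n → ‖c n‖ ≤ 1) (k : ℕ) :
    ‖nf (fun n => vm n * c n) k‖ ≤ 2 * Real.log k := by
  by_cases hk : k % 3 = 1
  · have hp : Prim (k : O) := by
      refine ⟨((k / 3 : ℕ) : O), ?_⟩
      have e : k = 3 * (k / 3) + 1 := by omega
      conv_lhs => rw [e]
      push_cast
      ring
    have hsub : (pbox k).filter (fun n => nm n = k) ⊆ pdiv (k : O) := fun n hn => by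
      obtain ⟨h1, h2⟩ := Finset.mem_filter.1 hn
      refine (mem_pdiv hp.ne_zero).2 ⟨(mem_pbox.1 h1).1, star n, ?_⟩
      rw [← h2, r1_nm_cast]
    have e : ∑ d ∈ pdiv (k : O), ‖vm d‖ = 2 * Real.log k := by
      have h1 := l2_sum_vm hp
      rw [Nr_natCast, Real.log_pow] at h1
      have h2 : ((∑ d ∈ pdiv (k : O), ‖vm d‖ : ℝ) : ℂ) = ∑ d ∈ pdiv (k : O), vm d := by
        rw [ofReal_sum]
        exact Finset.sum_congr rfl fun d _ => spnt_norm_vm d
      rw [← h2] at h1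
      exact_mod_cast h1
    rw [← e]
    refine (norm_sum_le _ _).trans (le_trans (Finset.sum_le_sum fun n hn => ?_)
      (Finset.sum_le_sum_of_subset_of_nonneg hsub fun _ _ _ => norm_nonneg _))
    rw [norm_mul]
    exact mul_le_of_le_one_right (norm_nonneg _) (hc n (mem_pbox.1 (Finset.mem_filter.1 hn).1).1)
  · rw [nf, Finset.sum_eq_zero, norm_zero]
    · exact mul_nonneg zero_le_two (Real.log_natCast_nonneg k)
    · intro n hn
      obtain ⟨h1, h2⟩ := Finset.mem_filter.1 hn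
      exact absurd (h2 ▸ (mem_pbox.1 h1).1.nm_mod_three) hk

theorem psum_eq_nf (b : O → ℂ) (Y : ℝ) : psum b Y = ∑ k ∈ Finset.Ioc 0 ⌊Y⌋₊, nf b k := by
  rw [psum, ← Finset.sum_fiberwise_of_maps_to (g := nm) (t := Finset.Ioc 0 ⌊Y⌋₊)]
  · refine Finset.sum_congr rfl fun k hk => ?_
    rw [nf]
    refine Finset.sum_congr ?_ fun _ _ => rfl
    obtain ⟨h0, h1⟩ := Finset.mem_Ioc.1 hk
    have hY : (k : ℝ) ≤ Y := (Nat.le_floor_iff' h0.ne').1 h1
    ext n
    simp only [Finset.mem_filter, mem_pbox]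
    refine and_congr_left fun h2 => and_congr_right fun _ => ?_
    rw [Nr, h2]
    exact ⟨fun _ => le_rfl, fun _ => hY⟩
  · intro n hn
    obtain ⟨h1, h2⟩ := mem_pbox.1 hn
    have h3 := Nr_pos h1.ne_zero
    exact Finset.mem_Ioc.2 ⟨Nat.cast_pos.1 h3, Nat.le_floor h2⟩

/-- Higher prime powers are `Pow2` (`pow2_sum_le` with `σ = 2/3`). -/
theorem psum_vm_sub_Lp : ∃ C : ℝ, 0 ≤ C ∧ ∀ (c : O → ℂ) (Y : ℝ), (∀ n, Prim n → ‖c n‖ ≤ 1) → 1 ≤ Y →
    ‖psum (fun n => vm n * c n) Y - psum (fun n => Lp n * c n) Y‖ ≤ C * Y ^ (3 / 4 : ℝ) := by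
  classical
  obtain ⟨C, hC⟩ := pow2_sum_le (σ := 2 / 3) (by norm_num)
  have hC0 : 0 ≤ C := by simpa using hC ∅ (by simp)
  refine ⟨12 * C, by positivity, fun c Y hc hY => ?_⟩
  have hY0 : 0 ≤ Y ^ (3 / 4 : ℝ) := by positivity
  rw [psum, psum, ← Finset.sum_sub_distrib,
    ← Finset.sum_filter_add_sum_filter_not (pbox Y) Pow2,
    Finset.sum_eq_zero (s := (pbox Y).filter (fun n => ¬ Pow2 n)), add_zero]
  · refine (norm_sum_le _ _).trans ((Finset.sum_le_sum
      (g := fun n => 12 * Y ^ (3 / 4 : ℝ) * Nr n ^ (-(2 / 3 : ℝ))) fun n hn => ?_).trans ?_)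
    · obtain ⟨h1, h2⟩ := mem_pbox.1 (Finset.mem_filter.1 hn).1
      have h0 := Nr_pos h1.ne_zero
      have a1 : ‖vm n * c n - Lp n * c n‖ ≤ Real.log (Nr n) := by
        rw [← sub_mul, norm_mul]
        refine (mul_le_of_le_one_right (norm_nonneg _) (hc n h1)).trans ?_
        by_cases hp : Prime n
        · rw [spnt_prime hp, sub_self, norm_zero]
          exact Real.log_nonneg (one_le_Nr h1.ne_zero)
        · rw [Lp, if_neg hp, sub_zero]
          exact norm_vm_le h1.ne_zero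
      have a2 := Real.log_le_rpow_div h0.le (ε := 1 / 12) (by norm_num)
      have a3 : Nr n ^ (1 / 12 : ℝ) = Nr n ^ (3 / 4 : ℝ) * Nr n ^ (-(2 / 3 : ℝ)) := by
        rw [← Real.rpow_add h0]
        norm_num
      have a4 : Nr n ^ (3 / 4 : ℝ) ≤ Y ^ (3 / 4 : ℝ) := Real.rpow_le_rpow h0.le h2 (by norm_num)
      have a5 := mul_le_mul_of_nonneg_right a4 (Real.rpow_nonneg h0.le (-(2 / 3 : ℝ)))
      rw [a3] at a2
      linarith
    · rw [← Finset.mul_sum]
      have := hC ((pbox Y).filter Pow2) fun x hx =>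
        ⟨(mem_pbox.1 (Finset.mem_filter.1 hx).1).1.ne_zero, (Finset.mem_filter.1 hx).2⟩
      have := mul_le_mul_of_nonneg_left this hY0
      linarith
  · intro n hn
    have h2 := (Finset.mem_filter.1 hn).2
    by_cases hp : Prime n
    · rw [spnt_prime hp, sub_self]
    · rw [Lp, if_neg hp, l2_vm_zero, sub_self]
      rintro ⟨p, hp', k, hk, h⟩
      refine h2 fun q hq hqn => ?_
      have h3 : 2 ≤ k := by
        by_contra h4
        obtain rfl : k = 1 := by omega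
        rw [pow_one] at h
        exact hp (h.symm.prime hp')
      have h5 : q ∣ p := hq.dvd_of_dvd_pow (hqn.trans h.dvd)
      exact ((pow_dvd_pow_of_dvd h5 2).trans (pow_dvd_pow p h3)).trans h.symm.dvd

/-- `perron_psum 1 (⌈K⌉₊ + 1)` with `l = log Y`, `a = nf (vm c) / 2`, `Φ / 2` from `s_zf` with
`T = l ^ A + 1`, `Λ = c₃ log l` (`C₂ Λ⁹ ≤ √l` for large `l`). -/
theorem pnt_sharp {C : ℝ} (hC : 0 ≤ C) (K : ℝ) : ∃ Y₀ : ℝ, ∀ (Y D : ℝ) (c : O → ℂ), Y₀ ≤ Y →
    CMu c → Dec C D c → Dec C D (fun n => c n ^ 2) → D ≤ Real.log Y ^ K →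
    ‖psum (fun n => Lp n * c n) Y‖ ≤ Y / Real.log Y ^ K := by
  obtain ⟨C₂, hC₂, hz⟩ := s_zf
  obtain ⟨C₄, hC₄, h4⟩ := psum_vm_sub_Lp
  obtain ⟨A, l₀, hP⟩ := perron_psum 1 (⌈K⌉₊ + 1)
  obtain ⟨c₃, hc₃⟩ : ∃ c₃ : ℝ, c₃ = ⌈K⌉₊ + (A + 1) * C + 2 := ⟨_, rfl⟩
  have hc₃2 : 2 ≤ c₃ := by
    have : 0 ≤ (⌈K⌉₊ : ℝ) + (A + 1) * C := by positivity
    linarith
  have e1 := (isLittleO_log_rpow_rpow_atTop (9 : ℝ) (s := 1 / 2) (by norm_num)).bound
    (c := 1 / (C₂ * c₃ ^ 9)) (by positivity)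
  have e2 := (isLittleO_pow_exp_pos_mul_atTop ⌈K⌉₊ (b := 1 / 4) (by norm_num)).bound
    (c := 1 / (2 * C₄ + 1)) (by positivity)
  obtain ⟨l₁, hl₁⟩ := eventually_atTop.1
    (e1.and (e2.and ((eventually_ge_atTop l₀).and (eventually_ge_atTop (7 : ℝ)))))
  refine ⟨Real.exp l₁, fun Y D c hY hc hD hD2 hDK => ?_⟩
  have hY0 : 0 < Y := (Real.exp_pos _).trans_le hY
  obtain ⟨l, rfl⟩ : ∃ l, Y = Real.exp l := ⟨Real.log Y, (Real.exp_log hY0).symm⟩
  rw [Real.log_exp] at hDK ⊢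
  obtain ⟨a1, a2, a3, a4⟩ := hl₁ l (Real.exp_le_exp.1 hY)
  have hl0 : 0 < l := by linarith
  have hl1 : 1 ≤ l := by linarith
  have hlog : 1 ≤ Real.log l := by
    rw [Real.le_log_iff_exp_le hl0]
    linarith [Real.exp_one_lt_d9]
  have hK : l ^ K ≤ l ^ ⌈K⌉₊ := by
    rw [← Real.rpow_natCast]
    exact Real.rpow_le_rpow_of_exponent_le hl1 (Nat.le_ceil K)
  have hlA : 1 ≤ l ^ A := one_le_pow₀ hl1
  -- the zero-free region
  obtain ⟨Φ, hΦ, hΦb⟩ := hz C D c hC hc hD hD2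
  obtain ⟨hd, hb⟩ := hΦb (c₃ * Real.log l) (l ^ A + 1) (by nlinarith) (by positivity) (by
    have b1 : 3 + 2 * (l ^ A + 1) ≤ l ^ (A + 1) := by
      rw [pow_succ]
      nlinarith
    have b2 : (3 + 2 * (l ^ A + 1)) ^ C ≤ (l ^ (A + 1)) ^ C :=
      Real.rpow_le_rpow (by positivity) b1 hC
    have b3 : l ^ ⌈K⌉₊ * (l ^ (A + 1)) ^ C = Real.exp ((c₃ - 2) * Real.log l) := by
      rw [← Real.rpow_natCast, ← Real.rpow_natCast, ← Real.rpow_mul hl0.le, ← Real.rpow_add hl0,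
        Real.rpow_def_of_pos hl0, hc₃]
      congr 1
      push_cast
      ring
    refine (mul_le_mul (hDK.trans hK) b2 (by positivity) (by positivity)).trans ?_
    rw [b3, Real.exp_le_exp]
    nlinarith)
  have hs : C₂ * (c₃ * Real.log l) ^ 9 ≤ l ^ (1 / 2 : ℝ) := by
    rw [Real.norm_of_nonneg (by positivity), Real.norm_of_nonneg (by positivity), one_div,
      ← div_eq_inv_mul, le_div_iff₀ (by positivity)] at a1
    have : Real.log l ^ (9 : ℝ) = Real.log l ^ 9 := by exact_mod_cast Real.rpow_natCast _ 9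
    rw [this] at a1
    refine le_of_eq_of_le ?_ a1
    ring
  have hpos : 0 < C₂ * (c₃ * Real.log l) ^ 9 := by positivity
  have hr1 : l ^ (-(1 / 2) : ℝ) ≤ 1 / (C₂ * (c₃ * Real.log l) ^ 9) := by
    rw [Real.rpow_neg hl0.le, ← one_div]
    exact one_div_le_one_div_of_le hpos hs
  have hr2 : l ^ (-(1 / 2) : ℝ) ≤ 1 / 2 := by
    rw [Real.rpow_neg hl0.le, ← one_div, ← Real.sqrt_eq_rpow]
    refine one_div_le_one_div_of_le two_pos ?_
    exact Real.le_sqrt_of_sq_le (by linarith)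
  have hr3 : l ^ (1 / 2 : ℝ) ≤ l := by
    conv_rhs => rw [← Real.rpow_one l]
    exact Real.rpow_le_rpow_of_exponent_le hl1 (by norm_num)
  have hr4 : 1 / l ≤ 1 / 2 := one_div_le_one_div_of_le two_pos (by linarith)
  have hr5 : 0 < 1 / l := by positivity
  have hball : ∀ τ : ℝ, |τ| ≤ l ^ A →
      ∀ s ∈ Metric.ball (1 + 1 / l + τ * I : ℂ) (l ^ (-(1 / 2) : ℝ)),
      1 - 1 / (C₂ * (c₃ * Real.log l) ^ 9) < s.re ∧ s.re < 2 ∧ |s.im| < l ^ A + 1 := by
    intro τ hτ s hs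
    rw [Metric.mem_ball, dist_eq_norm] at hs
    have b1 := abs_lt.1 ((abs_re_le_norm _).trans_lt hs)
    have b2 := (abs_im_le_norm _).trans_lt hs
    have r1 : (s - (1 + 1 / l + τ * I)).re = s.re - (1 + 1 / l) := by
      rw [show (1 / l : ℂ) = ((1 / l : ℝ) : ℂ) by push_cast; rfl]
      simp only [sub_re, add_re, one_re, ofReal_re, mul_re, I_re, I_im, ofReal_im]
      ring
    have r2 : (s - (1 + 1 / l + τ * I)).im = s.im - τ := by
      rw [show (1 / l : ℂ) = ((1 / l : ℝ) : ℂ) by push_cast; rfl]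
      simp only [sub_im, add_im, one_im, ofReal_re, mul_im, I_re, I_im, ofReal_im]
      ring
    rw [r1] at b1
    rw [r2] at b2
    have b3 := abs_add_le (s.im - τ) τ
    rw [sub_add_cancel] at b3
    exact ⟨by linarith [b1.1], by linarith [b1.2], by linarith⟩
  have key := hP l a3 ((1 / 2 : ℂ) • nf (fun n => vm n * c n)) (fun s => 1 / 2 * Φ s)
    (fun n => by
      have := norm_nf_vm hc.le n
      rw [Pi.smul_apply, norm_smul]
      norm_num
      linarith)
    (fun s hs => by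
      rw [LSeries_smul, hΦ s hs, nf_LSeries (l2_summable_log (fun n hn => ?_) hs)]
      rw [norm_mul]
      exact (mul_le_of_le_one_right (norm_nonneg _) (hc.le n hn)).trans (norm_vm_le hn.ne_zero))
    (fun τ hτ => ⟨(hd.mono fun s hs => hball τ hτ s hs).const_mul _, fun s hs => by
      obtain ⟨b1, b2, b3⟩ := hball τ hτ s hs
      have := hb s b1 b2 b3
      rw [norm_mul, pow_one]
      norm_num
      linarith⟩)
  simp only [Pi.smul_apply, ← Finset.smul_sum] at key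
  rw [← psum_eq_nf, norm_smul] at key
  have k2 := h4 c (Real.exp l) hc.le (Real.one_le_exp hl0.le)
  have k3 := norm_sub_le (psum (fun n => vm n * c n) (Real.exp l))
    (psum (fun n => vm n * c n) (Real.exp l) - psum (fun n => Lp n * c n) (Real.exp l))
  rw [sub_sub_cancel] at k3
  have hlK : 0 < l ^ ⌈K⌉₊ := by positivity
  have k4 : Real.exp l / l ^ (⌈K⌉₊ + 1) ≤ Real.exp l / l ^ ⌈K⌉₊ / 4 := by
    rw [pow_succ, ← div_div]
    exact div_le_div_of_nonneg_left (by positivity) (by norm_num) (by linarith)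
  have k5 : C₄ * Real.exp l ^ (3 / 4 : ℝ) ≤ Real.exp l / l ^ ⌈K⌉₊ / 2 := by
    rw [Real.norm_of_nonneg (by positivity), Real.norm_of_nonneg (by positivity), one_div,
      ← div_eq_inv_mul, le_div_iff₀ (by positivity)] at a2
    have b1 : Real.exp l = Real.exp l ^ (3 / 4 : ℝ) * Real.exp (1 / 4 * l) := by
      rw [← Real.exp_mul, ← Real.exp_add]
      congr 1
      ring
    have b2 : 0 ≤ Real.exp l ^ (3 / 4 : ℝ) := by positivity
    rw [div_div, le_div_iff₀ (by positivity)]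
    have b3 := mul_le_mul_of_nonneg_left a2 b2
    rw [← b1] at b3
    nlinarith [mul_nonneg b2 hlK.le]
  have k6 : Real.exp l / l ^ ⌈K⌉₊ ≤ Real.exp l / l ^ K :=
    div_le_div_of_nonneg_left (by positivity) (by positivity) hK
  norm_num at key
  linarith

end Crest.Agent.R012

end
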