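import Crest.Agent.R012.SLay

/-! # Row 12: from primes to rough numbers -/

set_option autoImplicit false

noncomputable section

open scoped BigOperators ComplexConjugate Topology
open Complex MeasureTheory Filter Set Crest.Agent.R017

namespace Crest.Agent.R012

theorem sum_pdiv_Lp {n : O} (hn : Prim n) (hs : Squarefree n) :
    ∑ p ∈ pdiv n, Lp p = (Real.log (Nr n) : ℂ) := by
  rw [← l2_sum_vm hn]
  refine Finset.sum_congr rfl fun d hd => ?_
  obtain ⟨-, hdn⟩ := (mem_pdiv hn.ne_zero).1 hd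
  unfold Lp
  split_ifs with hp
  · have := vm_prime_pow hp (k := 1) one_pos
    rw [pow_one] at this
    exact this.symm
  · symm
    refine l2_vm_zero ?_
    rintro ⟨p, hp', k, hk, hdk⟩
    have hsq : Squarefree (p ^ k) := hdk.squarefree_iff.1 (hs.squarefree_of_dvd hdn)
    have hk1 : k = 1 := by
      by_contra hk1
      have h2 : p * p ∣ p ^ k := by
        rw [← pow_two]
        exact pow_dvd_pow p (by omega)
      exact hp'.not_unit (hsq p h2)
    rw [hk1, pow_one] at hdk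
    exact hp (hdk.symm.prime hp')

theorem psum_pdiv (F : O → O → ℂ) (Y : ℝ) :
    ∑ n ∈ pbox Y, ∑ d ∈ pdiv n, F d (n / d) = ∑ m ∈ pbox Y, ∑ d ∈ pbox (Y / Nr m), F d m := by
  rw [Finset.sum_sigma', Finset.sum_sigma']
  refine Finset.sum_bij' (fun x _ => ⟨x.1 / x.2, x.2⟩) (fun x _ => ⟨x.2 * x.1, x.2⟩) ?_ ?_ ?_ ?_ ?_
  · rintro ⟨n, d⟩ hx
    simp only [Finset.mem_sigma, mem_pbox] at hx ⊢
    obtain ⟨⟨hn, hnY⟩, hd⟩ := hx
    obtain ⟨hd1, ⟨m, rfl⟩⟩ := (mem_pdiv hn.ne_zero).1 hd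
    rw [mul_div_cancel_left₀ _ hd1.ne_zero]
    have hm : Prim m := hd1.of_mul hn
    rw [Nr_mul] at hnY
    have h1 := one_le_Nr hd1.ne_zero
    have h2 := Nr_pos hm.ne_zero
    exact ⟨⟨hm, by nlinarith⟩, hd1, by rwa [le_div_iff₀ h2]⟩
  · rintro ⟨m, d⟩ hx
    simp only [Finset.mem_sigma, mem_pbox] at hx ⊢
    obtain ⟨⟨hm, -⟩, hd, hdY⟩ := hx
    rw [le_div_iff₀ (Nr_pos hm.ne_zero)] at hdY
    exact ⟨⟨hd.mul hm, by rwa [Nr_mul]⟩,
      (mem_pdiv (hd.mul hm).ne_zero).2 ⟨hd, dvd_mul_right _ _⟩⟩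
  · rintro ⟨n, d⟩ hx
    simp only [Finset.mem_sigma, mem_pbox] at hx
    obtain ⟨⟨hn, -⟩, hd⟩ := hx
    obtain ⟨hd1, ⟨m, rfl⟩⟩ := (mem_pdiv hn.ne_zero).1 hd
    simp only [mul_div_cancel_left₀ _ hd1.ne_zero]
  · rintro ⟨m, d⟩ hx
    simp only [Finset.mem_sigma, mem_pbox] at hx
    obtain ⟨-, hd, -⟩ := hx
    simp only [mul_div_cancel_left₀ _ hd.ne_zero]
  · rintro ⟨n, d⟩ _
    rfl

/-- `1 / max 1 (log y)`. -/
def sr_psi (y : ℝ) : ℝ := 1 / max 1 (Real.log y)

theorem sr_psi_nonneg (y : ℝ) : 0 ≤ sr_psi y := by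
  unfold sr_psi
  positivity

theorem sr_psi_le (y : ℝ) : sr_psi y ≤ 1 := by
  unfold sr_psi
  rw [div_le_one (by positivity)]
  exact le_max_left _ _

theorem sr_psi_anti {x y : ℝ} (hx : 0 < x) (h : x ≤ y) : sr_psi y ≤ sr_psi x := by
  unfold sr_psi
  exact one_div_le_one_div_of_le (by positivity) (max_le_max le_rfl (Real.log_le_log hx h))

theorem sr_psi_log {x y : ℝ} (hx : 0 < x) (h : x ≤ y) : Real.log x * sr_psi y ≤ 1 := by
  unfold sr_psi
  rw [mul_one_div, div_le_one (by positivity)]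
  exact (Real.log_le_log hx h).trans (le_max_right _ _)

theorem sr_psi_mul {n : O} (hn : Prim n) (h1 : n ≠ 1) : Real.log (Nr n) * sr_psi (Nr n) = 1 := by
  obtain ⟨p, m, hp, hp', hm, rfl, -⟩ := b1_factor hn h1
  have h4 : 4 ≤ Nr (p * m) :=
    (four_le_Nr_prime hp hp'.not_lam_dvd).trans (Nr_le_of_dvd hn.ne_zero (dvd_mul_right _ _))
  have h5 : 1 ≤ Real.log (Nr (p * m)) := by
    rw [Real.le_log_iff_exp_le (by linarith)]
    linarith [Real.exp_one_lt_d9]
  unfold sr_psi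
  rw [max_eq_right h5, mul_one_div, div_self (by linarith)]

theorem sr_rough_prime {w : ℝ} {p : O} (hp : Prime p) : Rough w p ↔ w < Nr p := by
  refine ⟨fun h => h p hp dvd_rfl, fun h q hq hqp => ?_⟩
  rwa [Nr_eq_of_associated (hq.associated_of_dvd hp hqp)]

open Classical in
theorem sr_rg_mul {w : ℝ} {p : O} (hp : Prime p) (m : O) :
    rg w (p * m) = if p ∣ m then 0 else if w < Nr p then rg w m else 0 := by
  unfold rg
  by_cases h1 : p ∣ m
  · rw [if_pos h1, if_neg]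
    rintro ⟨hs, -⟩
    exact hp.not_unit (hs p (mul_dvd_mul_left p h1))
  · have hc : IsCoprime p m := (hp.coprime_iff_not_dvd).2 h1
    have hs : Squarefree (p * m) ↔ Squarefree m := by
      rw [squarefree_mul_iff]
      exact ⟨fun h => h.2.2, fun h => ⟨hc.isRelPrime, hp.squarefree, h⟩⟩
    rw [if_neg h1]
    simp only [hs, rough_mul, sr_rough_prime hp]
    by_cases h2 : w < Nr p <;> simp [h2]

open Classical in
theorem sr_g {g : O → ℂ} {w : ℝ} (hg : g = rg w ∨ g = fun n => mu n * rg w n) :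
    ∃ ε : ℂ, ‖ε‖ = 1 ∧ (∀ n, ‖g n‖ ≤ 1) ∧ (∀ n, ¬ Squarefree n → g n = 0) ∧
      ∀ d m, Lp d * g (d * m) =
        if d ∣ m then 0 else if w < Nr d then ε * g m * Lp d else 0 := by
  have h0 : ∀ n, ¬ Squarefree n → rg w n = 0 := fun n hn => by simp [rg, hn]
  rcases hg with rfl | rfl
  · refine ⟨1, norm_one, norm_rg_le w, h0, fun d m => ?_⟩
    by_cases hp : Prime d
    · rw [sr_rg_mul hp]
      split_ifs <;> ring
    · simp [Lp, hp]
  · refine ⟨-1, by simp, fun n => ?_, fun n hn => by simp [h0 n hn], fun d m => ?_⟩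
    · rw [norm_mul]
      exact mul_le_one₀ (norm_mu_le n) (norm_nonneg _) (norm_rg_le w n)
    · by_cases hp : Prime d
      · simp only [sr_rg_mul hp]
        split_ifs with h1 h2
        · ring
        · rw [mu_mul ((hp.coprime_iff_not_dvd).2 h1), mu_prime hp]
          ring
        · ring
      · simp [Lp, hp]

open Classical in
theorem sr_cnt {d : O} (hd : d ≠ 0) {Y : ℝ} (hY : 0 ≤ Y) :
    (((pbox Y).filter (fun m => d ∣ m ∧ Nr d ≤ Y / Nr m)).card : ℝ) ≤ 25 * (Y / Nr d ^ 2) := by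
  refine le_trans ?_ (card_box_le (by positivity))
  have hd0 := Nr_pos hd
  refine Nat.cast_le.2 (Finset.card_le_card_of_injOn (fun m => m / d) ?_ ?_)
  · intro m hm
    obtain ⟨hm1, ⟨k, rfl⟩, hm3⟩ := Finset.mem_filter.1 hm
    have hm0 := (mem_pbox.1 hm1).1.ne_zero
    simp only [mul_div_cancel_left₀ _ hd, Finset.mem_coe, mem_box]
    refine ⟨right_ne_zero_of_mul hm0, ?_⟩
    rw [le_div_iff₀ (Nr_pos hm0), Nr_mul] at hm3
    rw [le_div_iff₀ (by positivity)]
    nlinarith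
  · intro m hm m' hm' h
    obtain ⟨-, ⟨k, rfl⟩, -⟩ := Finset.mem_filter.1 hm
    obtain ⟨-, ⟨k', rfl⟩, -⟩ := Finset.mem_filter.1 hm'
    simp only [mul_div_cancel_left₀ _ hd] at h
    rw [h]

/-- For `n ≠ 1` write `g n c n = ∑_{p ∣ n} Lp p · g n c n / log N n`, `n = p m`,
`g (p m) = ± g m 1[w < N p] 1[p ∤ m]`.  Without the condition `p ∤ m` the sum over `p` is at most
`δ Y / N m` (`psum_anti` with `φ y = 1 / max 1 (log (N m · y))`; primary primes have norm `≥ 4`),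
then `sum_box_inv_le`.  The pairs with `p ∣ m` number at most `∑_{N p > w} 25 Y / N p²`
(`card_box_le`, `tsum_tail_rpow_le`) and contribute at most `1` each. -/
theorem rough_psum : ∃ C : ℝ, 0 ≤ C ∧ ∀ (c g : O → ℂ) (w δ Y : ℝ), CMu c → 1 ≤ w → 0 ≤ δ → 1 ≤ Y →
    (g = rg w ∨ g = fun n => mu n * rg w n) →
    (∀ y, 0 ≤ y → y ≤ Y → ‖psum (cut (Ioi w) (fun n => Lp n * c n)) y‖ ≤ δ * y) →
    ‖psum (fun n => g n * c n) Y‖ ≤ 1 + C * Y * (δ * (1 + Real.log Y) + 1 / w) := by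
  classical
  obtain ⟨C₁, hC₁⟩ := sum_box_inv_le
  obtain ⟨C₂, hC₂0, hC₂⟩ := b2_tail (σ := 2) one_lt_two
  refine ⟨|C₁| + 25 * C₂, by positivity, fun c g w δ Y hc hw hδ hY hg hP => ?_⟩
  obtain ⟨ε, hε, hgl, hg0, hgm⟩ := sr_g hg
  have hY0 : 0 ≤ Y := by linarith
  have hlog : 0 ≤ Real.log Y := Real.log_nonneg hY
  set a : O → ℂ := cut (Ioi w) (fun n => Lp n * c n) with ha
  set F : O → O → ℂ := fun d m => Lp d * g (d * m) * c (d * m) * (sr_psi (Nr (d * m)) : ℂ) with hF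
  -- step 1: insert the logarithm
  have h1 : psum (fun n => g n * c n) Y
      = (∑ n ∈ pbox Y, if n = 1 then g n * c n else 0) +
        ∑ n ∈ pbox Y, ∑ d ∈ pdiv n, F d (n / d) := by
    rw [psum, ← Finset.sum_add_distrib]
    refine Finset.sum_congr rfl fun n hn => ?_
    have hn' := (mem_pbox.1 hn).1
    have e : ∑ d ∈ pdiv n, F d (n / d) = (∑ d ∈ pdiv n, Lp d) * (g n * c n * (sr_psi (Nr n) : ℂ)) := by
      rw [Finset.sum_mul]
      refine Finset.sum_congr rfl fun d hd => ?_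
      obtain ⟨hd1, ⟨m, rfl⟩⟩ := (mem_pdiv hn'.ne_zero).1 hd
      simp only [hF, mul_div_cancel_left₀ _ hd1.ne_zero]
      ring
    rw [e]
    by_cases hs : Squarefree n
    · rw [sum_pdiv_Lp hn' hs]
      split_ifs with h1
      · subst h1
        simp [Nr_one]
      · have := sr_psi_mul hn' h1
        rw [zero_add]
        calc g n * c n = g n * c n * ((Real.log (Nr n) * sr_psi (Nr n) : ℝ) : ℂ) := by
              rw [this]; simp
          _ = _ := by push_cast; ring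
    · simp [hg0 n hs]
  have h2 : ‖∑ n ∈ pbox Y, if n = 1 then g n * c n else 0‖ ≤ 1 := by
    rw [Finset.sum_ite_eq']
    split_ifs
    · rw [hc.one, mul_one]
      exact hgl 1
    · simp
  -- step 2: split the inner sum
  have h3 : ∀ m ∈ pbox Y, ‖∑ d ∈ pbox (Y / Nr m), F d m‖ ≤ δ * Y * (Nr m)⁻¹ +
      ∑ d ∈ pbox Y, if (d ∣ m ∧ Nr d ≤ Y / Nr m) ∧ w < Nr d then (1 : ℝ) else 0 := by
    intro m hm
    have hm' := (mem_pbox.1 hm).1
    have hm1 := one_le_Nr hm'.ne_zero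
    have hYm : Y / Nr m ≤ Y := div_le_self hY0 hm1
    have e : ∑ d ∈ pbox (Y / Nr m), F d m
        = ε * g m * c m * psum (fun d => a d * (sr_psi (Nr m * Nr d) : ℂ)) (Y / Nr m)
          - ∑ d ∈ pbox (Y / Nr m),
              if d ∣ m then ε * g m * c m * (a d * (sr_psi (Nr m * Nr d) : ℂ)) else 0 := by
      rw [psum, Finset.mul_sum, ← Finset.sum_sub_distrib]
      refine Finset.sum_congr rfl fun d hd => ?_
      have hd' := (mem_pbox.1 hd).1
      simp only [hF, ha, cut, Set.mem_Ioi]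
      rw [hgm d m, hc.mul d m hd' hm', Nr_mul, mul_comm (Nr d) (Nr m)]
      by_cases h1 : d ∣ m <;> by_cases h2 : w < Nr d <;> simp [h1, h2]
      ring
    have hcoef : ‖ε * g m * c m‖ ≤ 1 := by
      rw [norm_mul, norm_mul, hε, one_mul]
      exact mul_le_one₀ (hgl m) (norm_nonneg _) (hc.le m hm')
    rw [e]
    refine (norm_sub_le _ _).trans (add_le_add ?_ ?_)
    · rw [norm_mul]
      refine (mul_le_of_le_one_left (norm_nonneg _) hcoef).trans ?_
      refine psum_anti (φ := fun y => sr_psi (Nr m * y)) (fun y hy => ?_) ?_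
        (fun y _ => ⟨sr_psi_nonneg _, sr_psi_le _⟩)
      · rcases lt_or_ge y 0 with h0 | h0
        · rw [psum_of_lt _ (by linarith), norm_zero]
          positivity
        · refine (hP y h0 (hy.trans hYm)).trans ?_
          rw [mul_assoc, ← div_eq_mul_inv]
          exact mul_le_mul_of_nonneg_left hy hδ
      · intro x hx y hy hxy
        have hx' : (1 : ℝ) ≤ x := hx
        exact sr_psi_anti (by nlinarith) (by nlinarith)
    · refine (norm_sum_le _ _).trans ?_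
      have hsub : pbox (Y / Nr m) ⊆ pbox Y := fun d hd =>
        mem_pbox.2 ⟨(mem_pbox.1 hd).1, (mem_pbox.1 hd).2.trans hYm⟩
      refine le_trans (Finset.sum_le_sum fun d hd => ?_)
        (Finset.sum_le_sum_of_subset_of_nonneg hsub fun d _ _ => by split_ifs <;> norm_num)
      obtain ⟨hd', hdY⟩ := mem_pbox.1 hd
      by_cases h1 : d ∣ m
      · by_cases h2 : w < Nr d
        · rw [if_pos h1, if_pos ⟨⟨h1, hdY⟩, h2⟩, norm_mul]
          refine mul_le_one₀ hcoef (norm_nonneg _) ?_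
          simp only [ha, cut, Set.mem_Ioi, if_pos h2, norm_mul, Complex.norm_real,
            Real.norm_eq_abs, abs_of_nonneg (sr_psi_nonneg _)]
          have h5 := norm_Lp_le hd'.ne_zero
          have h6 := hc.le d hd'
          have hd1 := one_le_Nr hd'.ne_zero
          have h7 : Real.log (Nr d) * sr_psi (Nr m * Nr d) ≤ 1 :=
            sr_psi_log (by linarith) (by nlinarith)
          have h8 : ‖Lp d‖ * ‖c d‖ ≤ Real.log (Nr d) :=
            (mul_le_of_le_one_right (norm_nonneg _) h6).trans h5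
          exact (mul_le_mul_of_nonneg_right h8 (sr_psi_nonneg _)).trans h7
        · simp [ha, cut, h2]
      · simp [h1]
  have h4 : ∑ m ∈ pbox Y, δ * Y * (Nr m)⁻¹ ≤ |C₁| * Y * (δ * (1 + Real.log Y)) := by
    rw [← Finset.mul_sum]
    have h5 : ∑ m ∈ pbox Y, (Nr m)⁻¹ ≤ |C₁| * (1 + Real.log Y) := by
      refine le_trans (Finset.sum_le_sum_of_subset_of_nonneg (Finset.filter_subset _ _)
        fun m _ _ => inv_nonneg.2 (Nr_nonneg m)) ((hC₁ Y hY).trans ?_)
      exact mul_le_mul_of_nonneg_right (le_abs_self _) (by linarith)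
    calc _ ≤ δ * Y * (|C₁| * (1 + Real.log Y)) := mul_le_mul_of_nonneg_left h5 (by positivity)
      _ = _ := by ring
  have h5 : ∑ m ∈ pbox Y, ∑ d ∈ pbox Y,
      (if (d ∣ m ∧ Nr d ≤ Y / Nr m) ∧ w < Nr d then (1 : ℝ) else 0) ≤ 25 * C₂ * Y * (1 / w) := by
    rw [Finset.sum_comm]
    have h6 : ∀ d ∈ pbox Y, ∑ m ∈ pbox Y,
        (if (d ∣ m ∧ Nr d ≤ Y / Nr m) ∧ w < Nr d then (1 : ℝ) else 0)
          ≤ 25 * Y * (if w < Nr d then Nr d ^ (-(2 : ℝ)) else 0) := by
      intro d hd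
      have hd' := (mem_pbox.1 hd).1
      by_cases h2 : w < Nr d
      · simp only [h2, and_true, if_true]
        rw [Finset.sum_boole]
        refine (sr_cnt hd'.ne_zero hY0).trans (le_of_eq ?_)
        rw [Real.rpow_neg (Nr_nonneg d), Real.rpow_two]
        ring
      · simp [h2]
    refine (Finset.sum_le_sum h6).trans ?_
    rw [← Finset.mul_sum]
    have h7 := hC₂ w (by linarith) (pbox Y)
    rw [show (1 : ℝ) - 2 = -1 by norm_num, Real.rpow_neg_one] at h7
    calc _ ≤ 25 * Y * (C₂ * w⁻¹) := mul_le_mul_of_nonneg_left h7 (by positivity)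
      _ = _ := by ring
  rw [h1, psum_pdiv]
  refine (norm_add_le _ _).trans (add_le_add h2 ?_)
  refine (norm_sum_le _ _).trans ((Finset.sum_le_sum h3).trans ?_)
  rw [Finset.sum_add_distrib]
  refine (add_le_add h4 h5).trans ?_
  have p1 : 0 ≤ |C₁| * Y * (1 / w) := by positivity
  have p2 : 0 ≤ 25 * C₂ * Y * (δ * (1 + Real.log Y)) := by positivity
  nlinarith

end Crest.Agent.R012

end
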