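import Crest.Agent.R012.Ang
import Crest.Agent.R012.Chr
import Crest.Agent.R012.SPnt
import Crest.Agent.R012.SRough

/-! # Row 12: Siegel–Walfisz, sharp form -/

set_option autoImplicit false

noncomputable section

open scoped BigOperators ComplexConjugate Topology
open Complex MeasureTheory Filter Set Crest.Agent.R017

namespace Crest.Agent.R012

theorem cmu_sc (l : ℤ) (h : O) (τ : ℝ) : CMu (sc l h τ) := by
  refine ⟨?_, fun m n hm hn => ?_, fun n hn => ?_⟩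
  · simp [sc, kap_unit_left isUnit_one, az_one, Nr_one]
  · simp only [sc]
    rw [kap_mul_left hm.ne_zero hn.ne_zero, az_mul, Nr_mul, Complex.ofReal_mul,
      Complex.mul_cpow_ofReal_nonneg (Nr_nonneg m) (Nr_nonneg n)]
    ring
  · simp only [sc]
    rw [norm_mul, norm_mul, norm_az l hn.ne_zero,
      Complex.norm_cpow_eq_rpow_re_of_pos (Nr_pos hn.ne_zero)]
    simpa using norm_kap_le n h

theorem SFin_sm {c c' : O → ℂ} {τ : ℝ} (h : ∀ n, Prim n → c n = c' n * (Nr n : ℂ) ^ (-(τ * I)))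
    (X t : ℝ) : sm 1 c X t = sm 1 c' X (t + τ) := by
  unfold sm
  refine tsum_congr fun n => ?_
  split_ifs with hn
  · have h0 : (Nr n : ℂ) ≠ 0 := Complex.ofReal_ne_zero.2 (Nr_pos hn.ne_zero).ne'
    rw [h n hn, show (-(((t + τ : ℝ) : ℂ) * I)) = -(τ * I) + -(t * I) by push_cast; ring,
      Complex.cpow_add _ _ h0]
    ring
  · rfl

theorem SFin_dec (l : ℤ) : ∃ C : ℝ, 1 ≤ C ∧ ∀ (q : O) (η c : O → ℂ) (τ H T C' : ℝ), IsCh q η →
    ¬ Princ η → Nr q ≤ 81 * H → 1 ≤ H → 1 ≤ T → 1 + |τ| ≤ 2 * T → C ≤ C' →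
    (∀ n, Prim n → c n = η n * az l n * (Nr n : ℂ) ^ (-(τ * I))) →
    Dec C' (C' * (H * T) ^ C') c := by
  obtain ⟨C, hC, h⟩ := sm_decay_az one_pos 1 zero_le_one l
  have h2 : 0 ≤ C * 81 ^ 2 * 2 ^ C := by positivity
  refine ⟨2 + C + C * 81 ^ 2 * 2 ^ C, by linarith, ?_⟩
  intro q η c τ H T C' hq hη hH hH1 hT hτ hC' hc X t hX
  rw [SFin_sm hc]
  refine (h q η hq (Or.inr hη) X (t + τ) hX).trans ?_
  rw [Real.rpow_one]
  have hq0 := Nr_nonneg q
  have ht := abs_nonneg t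
  have h3 : (1 + |t + τ|) ^ C ≤ (1 + |t|) ^ C' * (2 ^ C * T ^ C') := by
    have h4 : 1 + |t + τ| ≤ (1 + |t|) * (2 * T) := by
      have := abs_add_le t τ
      have := abs_nonneg τ
      nlinarith
    calc (1 + |t + τ|) ^ C ≤ ((1 + |t|) * (2 * T)) ^ C :=
          Real.rpow_le_rpow (by positivity) h4 hC
      _ = (1 + |t|) ^ C * (2 ^ C * T ^ C) := by
          rw [Real.mul_rpow (by positivity) (by positivity),
            Real.mul_rpow (by positivity) (by positivity)]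
      _ ≤ _ := by
          gcongr
          · linarith
          · linarith
          · linarith
  have h5 : H ^ 2 ≤ H ^ C' := by
    rw [← Real.rpow_natCast]
    exact Real.rpow_le_rpow_of_exponent_le hH1 (by push_cast; linarith)
  rw [Real.mul_rpow (by positivity) (by positivity)]
  calc C * (1 + |t + τ|) ^ C * Nr q * (Nr q / X)
      ≤ C * ((1 + |t|) ^ C' * (2 ^ C * T ^ C')) * (81 * H) * (81 * H / X) := by gcongr
    _ = C * 81 ^ 2 * 2 ^ C * (H ^ 2 * T ^ C') * (1 + |t|) ^ C' / X := by ring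
    _ ≤ C' * (H ^ C' * T ^ C') * (1 + |t|) ^ C' / X := by
        have h6 : C * 81 ^ 2 * 2 ^ C ≤ C' := by linarith
        have h7 : 0 ≤ C' := by linarith
        gcongr

/-- `sm_decay_az` with `a = 1`, `A = 1`, `η = kc h` (`isCh_kc`, `princ_kc`, `Nr_mod_kc`), `sm_rpow`;
for the square `η = conj (kc h)` (`conj_kap`, `IsCh.conj`, `princ_conj`), `2 l`, `2 τ`. -/
theorem dec_sc (l : ℤ) : ∃ C : ℝ, 1 ≤ C ∧ ∀ (h : O) (τ : ℝ), h ≠ 0 → ¬ IsCube h →
    Dec C (C * (Nr h * (1 + |τ|)) ^ C) (sc l h τ) ∧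
    Dec C (C * (Nr h * (1 + |τ|)) ^ C) (fun n => sc l h τ n ^ 2) := by
  obtain ⟨C₁, h1, hd1⟩ := SFin_dec l
  obtain ⟨C₂, h2, hd2⟩ := SFin_dec (2 * l)
  refine ⟨C₁ + C₂, by linarith, fun h τ hh hc => ⟨?_, ?_⟩⟩
  · refine hd1 (9 * rad h) (kc h) _ τ (Nr h) (1 + |τ|) _ (isCh_kc hh) (by rwa [princ_kc hh])
      (Nr_mod_kc hh) (one_le_Nr hh) (by linarith [abs_nonneg τ]) (by linarith [abs_nonneg τ])
      (by linarith) fun n hn => ?_
    rw [sc, kc_prim hn]
  · refine hd2 (9 * rad h) (fun n => conj (kc h n)) _ (2 * τ) (Nr h) (1 + |τ|) _ (isCh_kc hh).conj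
      (by rwa [princ_conj, princ_kc hh]) (Nr_mod_kc hh) (one_le_Nr hh)
      (by linarith [abs_nonneg τ]) (by rw [abs_mul, abs_two]; linarith) (by linarith)
      fun n hn => ?_
    have h0 : (Nr n : ℂ) ≠ 0 := Complex.ofReal_ne_zero.2 (Nr_pos hn.ne_zero).ne'
    rw [sc, kc_prim hn, conj_kap, az, az, mul_comm 2 l, zpow_mul,
      show (-(((2 * τ : ℝ) : ℂ) * I)) = -(τ * I) + -(τ * I) by push_cast; ring,
      Complex.cpow_add _ _ h0, zpow_ofNat]
    ring

theorem SFin_sqrt {A L : ℝ} (_hA : 0 ≤ A) (h : A ^ 2 ≤ L) : A ≤ Real.sqrt L :=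
  Real.le_sqrt_of_sq_le h

theorem SFin_rpow {L : ℝ} (hL : 0 ≤ L) (κ : ℝ) : L ^ κ = Real.sqrt L ^ (2 * κ) := by
  rw [Real.rpow_mul (Real.sqrt_nonneg L), Real.rpow_two, Real.sq_sqrt hL]

/-- `pnt_sharp`: for `Y ≥ exp √L` we have `log Y ≥ √L`. -/
theorem sw_primes (l : ℤ) (K : ℝ) : ∃ L₀ : ℝ, ∀ (L τ Y : ℝ) (h : O), L₀ ≤ L → h ≠ 0 → ¬ IsCube h →
    Nr h ≤ L ^ K → |τ| ≤ L ^ K → Real.exp (Real.sqrt L) ≤ Y →
    ‖psum (fun n => Lp n * sc l h τ n) Y‖ ≤ Y / L ^ K := by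
  obtain ⟨C, hC, hd⟩ := dec_sc l
  set κ := max K 0 with hκ
  have hκ0 : 0 ≤ κ := le_max_right _ _
  obtain ⟨Y₀, hY₀⟩ := pnt_sharp (C := C) (by linarith) (4 * κ * C + 2 * κ + 1)
  have hA0 : 0 ≤ C * 2 ^ C := by positivity
  refine ⟨(|Y₀| + C * 2 ^ C + 1) ^ 2, fun L τ Y h hL hh hc hN hτ hY => ?_⟩
  have hs := SFin_sqrt (by positivity) hL
  have hY0 := abs_nonneg Y₀
  have hL1 : 1 ≤ L := le_trans (by nlinarith) hL
  have hYp : 0 < Y := (Real.exp_pos _).trans_le hY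
  have hl : Real.sqrt L ≤ Real.log Y := (Real.le_log_iff_exp_le hYp).2 hY
  have hl1 : 1 ≤ Real.log Y := by linarith
  have hK : L ^ K ≤ Real.log Y ^ (2 * κ) := by
    calc L ^ K ≤ L ^ κ := Real.rpow_le_rpow_of_exponent_le hL1 (le_max_left _ _)
      _ = Real.sqrt L ^ (2 * κ) := SFin_rpow (by linarith) κ
      _ ≤ _ := Real.rpow_le_rpow (Real.sqrt_nonneg _) hl (by linarith)
  have h1 : 1 ≤ Real.log Y ^ (2 * κ) := Real.one_le_rpow hl1 (by linarith)
  have hκC : 0 ≤ 4 * κ * C := by positivity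
  have hD : C * (Nr h * (1 + |τ|)) ^ C ≤ Real.log Y ^ (4 * κ * C + 2 * κ + 1) := by
    have h2 : Nr h * (1 + |τ|) ≤ 2 * Real.log Y ^ (4 * κ) := by
      rw [show 4 * κ = 2 * κ + 2 * κ by ring, Real.rpow_add (by linarith)]
      have h3 : Nr h ≤ Real.log Y ^ (2 * κ) := hN.trans hK
      have h4 : 1 + |τ| ≤ 2 * Real.log Y ^ (2 * κ) := by linarith [hτ.trans hK]
      calc Nr h * (1 + |τ|) ≤ Real.log Y ^ (2 * κ) * (2 * Real.log Y ^ (2 * κ)) := by gcongr
        _ = _ := by ring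
    have hN0 := Nr_nonneg h
    calc C * (Nr h * (1 + |τ|)) ^ C ≤ C * (2 * Real.log Y ^ (4 * κ)) ^ C := by gcongr
      _ = C * 2 ^ C * Real.log Y ^ (4 * κ * C) := by
          rw [Real.mul_rpow (by positivity) (by positivity), ← Real.rpow_mul (by linarith)]
          ring
      _ ≤ Real.log Y * Real.log Y ^ (4 * κ * C) := by gcongr; linarith
      _ = Real.log Y ^ (4 * κ * C + 1) := by
          rw [Real.rpow_add (by linarith), Real.rpow_one, mul_comm]
      _ ≤ _ := Real.rpow_le_rpow_of_exponent_le hl1 (by linarith)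
  have hYY : Y₀ ≤ Y := by
    have := Real.add_one_le_exp (Real.sqrt L)
    linarith [le_abs_self Y₀]
  refine (hY₀ Y _ (sc l h τ) hYY (cmu_sc l h τ) (hd h τ hh hc).1 (hd h τ hh hc).2 hD).trans ?_
  refine div_le_div_of_nonneg_left hYp.le (Real.rpow_pos_of_pos (by linarith) _) ?_
  exact hK.trans (Real.rpow_le_rpow_of_exponent_le hl1 (by linarith))

theorem SFin_cut (f : O → ℂ) {w y : ℝ} (h : w ≤ y) :
    psum (cut (Ioi w) f) y = psum f y - psum f w := by
  have h1 : pbox w = (pbox y).filter fun n => Nr n ≤ w := by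
    ext n
    rw [Finset.mem_filter, mem_pbox, mem_pbox]
    exact ⟨fun hn => ⟨⟨hn.1, hn.2.trans h⟩, hn.2⟩, fun hn => ⟨hn.1.1, hn.2⟩⟩
  rw [psum, psum, psum, h1, Finset.sum_filter, ← Finset.sum_sub_distrib]
  refine Finset.sum_congr rfl fun n _ => ?_
  rw [cut]
  by_cases hn : Nr n ≤ w
  · rw [if_pos hn, if_neg (by simpa using hn), sub_self]
  · rw [if_neg hn, if_pos (by simpa using hn), sub_zero]

theorem SFin_cut_zero (f : O → ℂ) {w y : ℝ} (h : y ≤ w) : psum (cut (Ioi w) f) y = 0 := by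
  refine Finset.sum_eq_zero fun n hn => ?_
  rw [cut, if_neg (by simpa using (mem_pbox.1 hn).2.trans h)]

theorem SFin_exp (A κ : ℝ) : ∃ s₀ : ℝ, 10 ≤ s₀ ∧ ∀ s, s₀ ≤ s → A * s ^ κ ≤ Real.exp s := by
  obtain ⟨s₁, h⟩ := Filter.eventually_atTop.1
    ((tendsto_exp_div_rpow_atTop κ).eventually_ge_atTop A)
  refine ⟨max s₁ 10, le_max_right _ _, fun s hs => ?_⟩
  have h1 := h s (le_of_max_le_left hs)
  have h2 : 0 < s := by linarith [le_of_max_le_right hs]
  rwa [le_div_iff₀ (Real.rpow_pos_of_pos h2 _)] at h1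

/-- Primes: `sw_primes`, trivial bound (`norm_psum_le`) for `Y ≤ exp √L`, `Y ≤ X + Y² / X`.
Rough numbers: the sum over primes in `(w, y]` is `psum y - psum w` (zero for `y ≤ w`);
`rough_psum`, `log Y ≤ log X + Y / X`. -/
theorem sw_sharp (l : ℤ) (K : ℝ) : ∃ L₀ : ℝ, ∀ (L τ X w Y : ℝ) (h : O) (g : O → ℂ), L₀ ≤ L → h ≠ 0 →
    ¬ IsCube h → Nr h ≤ L ^ K → |τ| ≤ L ^ K → Real.exp (L / 5) ≤ X → X ≤ Real.exp (2 * L) →
    Real.exp (Real.sqrt L) ≤ w → (g = Lp ∨ g = rg w ∨ g = fun n => mu n * rg w n) → 0 ≤ Y →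
    ‖psum (fun n => g n * sc l h τ n) Y‖ ≤ (L ^ K)⁻¹ * (X + Y ^ 2 / X) := by
  set κ := max K 0 with hκ
  have hκ0 : 0 ≤ κ := le_max_right _ _
  obtain ⟨L₁, hL₁⟩ := sw_primes l (κ + 2)
  obtain ⟨C, hC, hR⟩ := rough_psum
  obtain ⟨s₀, hs₀, hE⟩ := SFin_exp (25 + 3 * C) (2 * κ + 1)
  refine ⟨|L₁| + 24 * C + s₀ ^ 2, fun L τ X w Y h g hL hh hc hN hτ hX hX' hw hg hY => ?_⟩
  have hL0 := abs_nonneg L₁
  have hs : s₀ ≤ Real.sqrt L := SFin_sqrt (by linarith) (by linarith)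
  have hL1 : 1 ≤ L := by nlinarith
  have hLL : L₁ ≤ L := by nlinarith [le_abs_self L₁]
  have hLC : 24 * C ≤ L := by nlinarith
  set s := Real.sqrt L with hsdef
  have hs2 : s ^ 2 = L := Real.sq_sqrt (by linarith)
  have hs1 : 1 ≤ s := by linarith
  have hP : 0 < L ^ κ := Real.rpow_pos_of_pos (by linarith) _
  have hE1 : (25 + 3 * C) * (s * L ^ κ) ≤ Real.exp s := by
    have := hE s hs
    rwa [Real.rpow_add (by linarith), Real.rpow_one, ← SFin_rpow (by linarith), mul_comm _ s] at this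
  have hE2 : Real.exp s * Real.exp s ≤ X := by
    rw [← Real.exp_add]
    refine le_trans (Real.exp_le_exp.2 ?_) hX
    nlinarith
  have hes : 1 ≤ Real.exp s := Real.one_le_exp (by linarith)
  have hXp : 0 < X := (Real.exp_pos _).trans_le hX
  have hK2 : L ^ (κ + 2) = L ^ κ * L ^ 2 := by
    rw [Real.rpow_add (by linarith), Real.rpow_two]
  have hKK : L ^ K ≤ L ^ κ := Real.rpow_le_rpow_of_exponent_le hL1 (le_max_left _ _)
  have hKK2 : L ^ κ ≤ L ^ (κ + 2) := Real.rpow_le_rpow_of_exponent_le hL1 (by linarith)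
  have hpr : ∀ y, Real.exp s ≤ y → ‖psum (fun n => Lp n * sc l h τ n) y‖ ≤ y / L ^ (κ + 2) :=
    fun y hy => hL₁ L τ y h hLL hh hc (hN.trans (hKK.trans hKK2)) (hτ.trans (hKK.trans hKK2)) hy
  have hYX : 0 ≤ Y ^ 2 / X := by positivity
  have hYZ : Y ≤ X + Y ^ 2 / X := by
    have : X + Y ^ 2 / X - 2 * Y = (X - Y) ^ 2 / X := by field_simp; ring
    have : 0 ≤ (X - Y) ^ 2 / X := by positivity
    linarith
  set Z := X + Y ^ 2 / X with hZ
  have hXZ : X ≤ Z := by linarith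
  have hZ0 : 0 < Z := by linarith
  refine le_trans ?_ (mul_le_mul_of_nonneg_right
    (inv_anti₀ (Real.rpow_pos_of_pos (by linarith) _) hKK) hZ0.le)
  rw [← div_eq_inv_mul, le_div_iff₀ hP]
  have hsP : L ^ κ ≤ s * L ^ κ := le_mul_of_one_le_left hP.le hs1
  have hCP : 0 ≤ C * (s * L ^ κ) := by positivity
  rcases hg with rfl | hg
  · rcases le_total (Real.exp s) Y with hy | hy
    · rw [← le_div_iff₀ hP]
      exact (hpr Y hy).trans (div_le_div₀ hZ0.le hYZ hP hKK2)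
    · have h1 : ‖psum (fun n => Lp n * sc l h τ n) Y‖ ≤ 25 * Y * s := by
        refine norm_psum_le hY (by linarith) fun n hn hnY => ?_
        rw [norm_mul]
        refine (mul_le_of_le_one_right (norm_nonneg _) ((cmu_sc l h τ).le n hn)).trans ?_
        refine (norm_Lp_le hn.ne_zero).trans ?_
        rw [Real.log_le_iff_le_exp (Nr_pos hn.ne_zero)]
        exact hnY.trans hy
      calc ‖psum (fun n => Lp n * sc l h τ n) Y‖ * L ^ κ ≤ 25 * Real.exp s * s * L ^ κ := by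
            gcongr
            exact h1.trans (by gcongr)
        _ = 25 * (s * L ^ κ) * Real.exp s := by ring
        _ ≤ Real.exp s * Real.exp s := by gcongr; linarith
        _ ≤ Z := hE2.trans hXZ
  · rcases lt_or_ge Y 1 with hY1 | hY1
    · rw [psum_of_lt _ hY1, norm_zero, zero_mul]
      exact hZ0.le
    have hw1 : 1 ≤ w := hes.trans hw
    have hP2 : 0 < L ^ (κ + 2) := hP.trans_le hKK2
    have h1 := hR (sc l h τ) g w (2 / L ^ (κ + 2)) Y (cmu_sc l h τ) hw1 (by positivity) hY1 hg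
      fun y hy0 _ => by
        rcases le_total y w with hyw | hyw
        · rw [SFin_cut_zero _ hyw, norm_zero]
          positivity
        · rw [SFin_cut _ hyw]
          refine (norm_sub_le _ _).trans ?_
          have h2 := hpr y (hw.trans hyw)
          have h3 := (hpr w hw).trans (div_le_div_of_nonneg_right hyw hP2.le)
          calc _ ≤ y / L ^ (κ + 2) + y / L ^ (κ + 2) := add_le_add h2 h3
            _ = _ := by ring
    have hYp : 0 < Y := by linarith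
    have h4 : Real.log Y ≤ 2 * L + Y / X := by
      have h5 : Real.log X ≤ 2 * L := by rwa [Real.log_le_iff_le_exp hXp]
      have h6 := Real.log_le_sub_one_of_pos (div_pos hYp hXp)
      rw [Real.log_div hYp.ne' hXp.ne'] at h6
      linarith
    have h7 : Y * (1 + Real.log Y) ≤ 4 * L * Z := by
      calc Y * (1 + Real.log Y) ≤ Y * (1 + (2 * L + Y / X)) := by gcongr
        _ = (1 + 2 * L) * Y + Y ^ 2 / X := by ring
        _ ≤ (1 + 2 * L) * Z + Z := by gcongr; linarith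
        _ ≤ 4 * L * Z := by nlinarith
    have h8 : 3 * L ^ κ ≤ Z := by nlinarith
    have h9 : C * Y * (2 / L ^ (κ + 2) * (1 + Real.log Y)) * L ^ κ ≤ Z / 3 := by
      have e : C * Y * (2 / L ^ (κ + 2) * (1 + Real.log Y)) * L ^ κ =
          2 * C * (Y * (1 + Real.log Y)) / L ^ 2 := by
        rw [hK2]; field_simp
      rw [e, div_le_iff₀ (by positivity)]
      calc 2 * C * (Y * (1 + Real.log Y)) ≤ 2 * C * (4 * L * Z) := by gcongr
        _ = 24 * C * (L * Z / 3) := by ring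
        _ ≤ L * (L * Z / 3) := by gcongr
        _ = _ := by ring
    have h10 : C * Y * (1 / w) * L ^ κ ≤ Z / 3 := by
      have e : C * Y * (1 / w) * L ^ κ = 3 * (C * L ^ κ) * (Y / 3) / w := by ring
      rw [e, div_le_iff₀ (by positivity)]
      have h11 : C * L ^ κ ≤ C * (s * L ^ κ) := by gcongr
      calc 3 * (C * L ^ κ) * (Y / 3) ≤ w * (Z / 3) := by
            gcongr
            nlinarith
        _ = _ := by ring
    calc ‖psum (fun n => g n * sc l h τ n) Y‖ * L ^ κ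
        ≤ (1 + C * Y * (2 / L ^ (κ + 2) * (1 + Real.log Y) + 1 / w)) * L ^ κ := by gcongr
      _ = L ^ κ + C * Y * (2 / L ^ (κ + 2) * (1 + Real.log Y)) * L ^ κ +
          C * Y * (1 / w) * L ^ κ := by ring
      _ ≤ Z := by linarith

end Crest.Agent.R012

end
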