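import Crest.Agent.R012.SDefs

/-! # Row 12: partial summation by level sets -/

set_option autoImplicit false

noncomputable section

open scoped BigOperators ComplexConjugate Topology
open Complex MeasureTheory Filter Set Crest.Agent.R017

namespace Crest.Agent.R012

theorem SLay_int (c : ℂ) {t : ℝ} (h0 : 0 ≤ t) (h1 : t ≤ 1) :
    ∫ v in Ioo (0 : ℝ) 1, (if v < t then c else 0) = c * (t : ℂ) := by
  have e1 : (fun v : ℝ => if v < t then c else 0) = (Iio t).indicator (fun _ => c) := by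
    ext v; simp [indicator]
  have e2 : Iio t ∩ Ioo (0 : ℝ) 1 = Ioo 0 t := by
    ext v
    simp only [mem_inter_iff, mem_Iio, mem_Ioo]
    exact ⟨fun h => ⟨h.2.1, h.1⟩, fun h => ⟨h.2, h.1, h.2.trans_le h1⟩⟩
  rw [e1, integral_indicator measurableSet_Iio, Measure.restrict_restrict measurableSet_Iio, e2,
    setIntegral_const, Real.volume_real_Ioo_of_le h0, sub_zero, Complex.real_smul, mul_comm]

theorem SLay_intg (c : ℂ) (t : ℝ) :
    IntegrableOn (fun v : ℝ => if v < t then c else 0) (Ioo (0 : ℝ) 1) := by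
  have e1 : (fun v : ℝ => if v < t then c else 0) = (Iio t).indicator (fun _ => c) := by
    ext v; simp [indicator]
  rw [e1]
  exact Integrable.indicator (integrableOn_const (by simp)) measurableSet_Iio

/-- Sums over the primary elements whose norm lies in an interval. -/
theorem SLay_seg {a : O → ℂ} {E Y : ℝ} {J : Set ℝ} (hJ : J.OrdConnected) (hE : 0 ≤ E)
    [DecidablePred (· ∈ J)]
    (h : ∀ n ∈ pbox Y, Nr n ∈ J → ∀ y, y ≤ Nr n → ‖psum a y‖ ≤ E) :
    ‖∑ n ∈ (pbox Y).filter (fun n => Nr n ∈ J), a n‖ ≤ 2 * E := by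
  classical
  rcases ((pbox Y).filter (fun n => Nr n ∈ J)).eq_empty_or_nonempty with hT | hT
  · rw [hT, Finset.sum_empty, norm_zero]; positivity
  obtain ⟨n₁, hn₁, hmin⟩ := Finset.exists_min_image _ Nr hT
  obtain ⟨n₂, hn₂, hmax⟩ := Finset.exists_max_image _ Nr hT
  have h12 : Nr n₁ ≤ Nr n₂ := hmin _ hn₂
  obtain ⟨hn₁Y, hn₁J⟩ := Finset.mem_filter.1 hn₁
  obtain ⟨hn₂Y, hn₂J⟩ := Finset.mem_filter.1 hn₂
  have e : (pbox Y).filter (fun n => Nr n ∈ J) = pbox (Nr n₂) \ pbox (Nr n₁ - 1 / 2) := by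
    ext n
    constructor
    · intro hn
      have h1 := hmin n hn
      have h2 := hmax n hn
      obtain ⟨hY, -⟩ := Finset.mem_filter.1 hn
      refine Finset.mem_sdiff.2 ⟨mem_pbox.2 ⟨(mem_pbox.1 hY).1, h2⟩, fun h' => ?_⟩
      have := (mem_pbox.1 h').2
      linarith
    · intro hn
      obtain ⟨h1, h2⟩ := Finset.mem_sdiff.1 hn
      obtain ⟨hp, hle⟩ := mem_pbox.1 h1
      have h3 : Nr n₁ - 1 / 2 < Nr n := by
        by_contra h3
        exact h2 (mem_pbox.2 ⟨hp, not_lt.1 h3⟩)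
      have h4 : Nr n₁ ≤ Nr n := by
        by_contra h4
        have h5 : nm n + 1 ≤ nm n₁ := by
          have : Nr n < Nr n₁ := not_le.1 h4
          unfold Nr at this
          exact_mod_cast this
        have h6 : Nr n + 1 ≤ Nr n₁ := by
          unfold Nr
          exact_mod_cast h5
        linarith
      exact Finset.mem_filter.2 ⟨mem_pbox.2 ⟨hp, hle.trans (mem_pbox.1 hn₂Y).2⟩,
        hJ.out hn₁J hn₂J ⟨h4, hle⟩⟩
  have hsub : pbox (Nr n₁ - 1 / 2) ⊆ pbox (Nr n₂) := fun n hn =>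
    mem_pbox.2 ⟨(mem_pbox.1 hn).1, by linarith [(mem_pbox.1 hn).2]⟩
  rw [e, Finset.sum_sdiff_eq_sub hsub]
  have h1 := h n₂ hn₂Y hn₂J _ le_rfl
  have h2 := h n₂ hn₂Y hn₂J (Nr n₁ - 1 / 2) (by linarith)
  refine (norm_sub_le _ _).trans ?_
  unfold psum at h1 h2
  linarith

theorem SLay_level (X v : ℝ) (hX : 0 < X) :
    ({y : ℝ | 0 < y ∧ v < W 2 (y / X)} : Set ℝ).OrdConnected := by
  refine ⟨fun y₁ h₁ y₂ h₂ y hy => ⟨h₁.1.trans_le hy.1, ?_⟩⟩
  have hy0 : 0 < y := h₁.1.trans_le hy.1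
  have l1 : Real.log (y₁ / X) ≤ Real.log (y / X) :=
    Real.log_le_log (div_pos h₁.1 hX) (div_le_div_of_nonneg_right hy.1 hX.le)
  have l2 : Real.log (y / X) ≤ Real.log (y₂ / X) :=
    Real.log_le_log (div_pos hy0 hX) (div_le_div_of_nonneg_right hy.2 hX.le)
  rcases le_total 0 (Real.log (y / X)) with h | h
  · refine h₂.2.trans_le ?_
    unfold W
    refine Real.exp_le_exp.2 (div_le_div_of_nonneg_right ?_ (by norm_num))
    nlinarith
  · refine h₁.2.trans_le ?_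
    unfold W
    refine Real.exp_le_exp.2 (div_le_div_of_nonneg_right ?_ (by norm_num))
    nlinarith

theorem SLay_sq {X v y : ℝ} (hX : 0 < X) (hv : 0 < v) (hy : 0 < y) (h : v < W 2 (y / X)) :
    y ^ 2 / X ≤ X * (Real.exp 16 * v ^ (-1 / 2 : ℝ)) := by
  have hq : 0 < y / X := div_pos hy hX
  have h1 := h.trans_le (W_le_rpow (a := 2) two_pos hq (-4))
  have e1 : (y / X) ^ (-4 : ℝ) = ((y / X) ^ 4)⁻¹ := by
    rw [Real.rpow_neg hq.le]
    norm_num
  have e2 : Real.exp (2 * (-4) ^ 2) = Real.exp 16 ^ 2 := by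
    rw [← Real.exp_nat_mul]; norm_num
  rw [e1, e2, ← div_eq_mul_inv, lt_div_iff₀ (by positivity)] at h1
  have hw : 0 < v ^ (-1 / 2 : ℝ) := Real.rpow_pos_of_pos hv _
  have e3 : (v ^ (-1 / 2 : ℝ)) ^ 2 * v = 1 := by
    rw [← Real.rpow_natCast, ← Real.rpow_mul hv.le]
    have : (-1 / 2 : ℝ) * ((2 : ℕ) : ℝ) = -1 := by norm_num
    rw [this, Real.rpow_neg_one, inv_mul_cancel₀ hv.ne']
  have h2 : (y / X) ^ 2 ≤ Real.exp 16 * v ^ (-1 / 2 : ℝ) := by
    refine (pow_le_pow_iff_left₀ (by positivity) (by positivity) two_ne_zero).1 ?_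
    calc ((y / X) ^ 2) ^ 2 = (v ^ (-1 / 2 : ℝ)) ^ 2 * (v * (y / X) ^ 4) := by
          rw [← mul_assoc, e3]; ring
      _ ≤ (v ^ (-1 / 2 : ℝ)) ^ 2 * Real.exp 16 ^ 2 :=
          mul_le_mul_of_nonneg_left h1.le (by positivity)
      _ = _ := by ring
  calc y ^ 2 / X = X * (y / X) ^ 2 := by field_simp
    _ ≤ _ := mul_le_mul_of_nonneg_left h2 hX.le

/-- `φ n = ∫_0^1 1[v < φ n] dv`. -/
theorem layer_cake (S : Finset O) (a : O → ℂ) (φ : O → ℝ) (h01 : ∀ n ∈ S, 0 ≤ φ n ∧ φ n ≤ 1)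
    {E : ℝ → ℝ} (hE : IntegrableOn E (Ioo 0 1))
    (h : ∀ v ∈ Ioo (0 : ℝ) 1, ‖∑ n ∈ S.filter (fun n => v < φ n), a n‖ ≤ E v) :
    ‖∑ n ∈ S, a n * (φ n : ℂ)‖ ≤ ∫ v in Ioo (0 : ℝ) 1, E v := by
  have e : ∑ n ∈ S, a n * (φ n : ℂ) =
      ∫ v in Ioo (0 : ℝ) 1, ∑ n ∈ S, (if v < φ n then a n else 0) := by
    rw [integral_finsetSum _ fun n _ => SLay_intg (a n) (φ n)]
    exact Finset.sum_congr rfl fun n hn => (SLay_int _ (h01 n hn).1 (h01 n hn).2).symm
  rw [e]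
  refine norm_integral_le_of_norm_le hE ?_
  refine (ae_restrict_iff' measurableSet_Ioo).2 (Eventually.of_forall fun v hv => ?_)
  rw [← Finset.sum_filter]
  exact h v hv

/-- The norms are integers: with the smallest norm `y₁` and the largest norm `y₂` that occur, the
sum is `psum a y₂ - psum a (y₁ - 1/2)`. -/
theorem psum_cut {a : O → ℂ} {E Y : ℝ} (h : ∀ y, y ≤ Y → ‖psum a y‖ ≤ E) {J : Set ℝ}
    (hJ : J.OrdConnected) : ‖psum (cut J a) Y‖ ≤ 2 * E := by
  classical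
  have hE : 0 ≤ E := (norm_nonneg _).trans (h Y le_rfl)
  have := SLay_seg (a := a) (Y := Y) hJ hE fun n hn _ y hy => h y (hy.trans (mem_pbox.1 hn).2)
  rw [Finset.sum_filter] at this
  unfold psum cut
  convert this

/-- The level sets are initial segments. -/
theorem psum_anti {a : O → ℂ} {E Y : ℝ} (h : ∀ y, y ≤ Y → ‖psum a y‖ ≤ E) {φ : ℝ → ℝ}
    (hφ : AntitoneOn φ (Ici 1)) (h01 : ∀ y, 1 ≤ y → 0 ≤ φ y ∧ φ y ≤ 1) :
    ‖psum (fun n => a n * (φ (Nr n) : ℂ)) Y‖ ≤ E := by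
  have hE : 0 ≤ E := (norm_nonneg _).trans (h Y le_rfl)
  have := layer_cake (pbox Y) a (fun n => φ (Nr n))
    (fun n hn => h01 _ (one_le_Nr (mem_pbox.1 hn).1.ne_zero)) (E := fun _ => E)
    (integrableOn_const (by simp)) (fun v _ => by
      rcases ((pbox Y).filter (fun n => v < φ (Nr n))).eq_empty_or_nonempty with hT | hT
      · rw [hT, Finset.sum_empty, norm_zero]; exact hE
      obtain ⟨m, hm, hmax⟩ := Finset.exists_max_image _ Nr hT
      obtain ⟨hmY, hmv⟩ := Finset.mem_filter.1 hm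
      have e : (pbox Y).filter (fun n => v < φ (Nr n)) = pbox (Nr m) := by
        ext n
        constructor
        · intro hn
          exact mem_pbox.2 ⟨(mem_pbox.1 (Finset.mem_filter.1 hn).1).1, hmax n hn⟩
        · intro hn
          obtain ⟨hp, hle⟩ := mem_pbox.1 hn
          refine Finset.mem_filter.2 ⟨mem_pbox.2 ⟨hp, hle.trans (mem_pbox.1 hmY).2⟩, ?_⟩
          exact hmv.trans_le (hφ (one_le_Nr hp.ne_zero)
            (one_le_Nr (mem_pbox.1 hmY).1.ne_zero) hle)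
      rw [e]
      exact h _ (mem_pbox.1 hmY).2)
  rw [setIntegral_const, Real.volume_real_Ioo_of_le zero_le_one, sub_zero, one_smul] at this
  exact this

/-- `sm` is the limit of the sums over `pbox Y` (`summable_sm`); the level set
`{y > 0 | v < W 2 (y / X)}` is an interval contained in `y² ≤ e^16 X² v^(-1/2)` (`W_le_rpow` with
exponent `-4`); `layer_cake`, `psum_cut`. -/
theorem sm_cut_le : ∃ C : ℝ, 0 ≤ C ∧ ∀ (a : O → ℂ) (J : Set ℝ) (X δ K A : ℝ), J.OrdConnected →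
    0 < X → (∀ n, Prim n → ‖a n‖ ≤ K * Nr n ^ A) →
    (∀ Y, 0 ≤ Y → ‖psum a Y‖ ≤ δ * (X + Y ^ 2 / X)) → ‖sm 2 (cut J a) X 0‖ ≤ C * δ * X := by
  classical
  have hint : IntegrableOn (fun v : ℝ => 2 * (1 + Real.exp 16 * v ^ (-1 / 2 : ℝ))) (Ioo 0 1) := by
    have h1 : IntegrableOn (fun v : ℝ => v ^ (-1 / 2 : ℝ)) (Ioo 0 1) :=
      (intervalIntegral.intervalIntegrable_rpow' (a := 0) (b := 1)
        (by norm_num : (-1 : ℝ) < -1 / 2)).1.mono_set Ioo_subset_Ioc_self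
    exact (Integrable.add (integrableOn_const (by simp)) (h1.const_mul _)).const_mul _
  refine ⟨∫ v in Ioo (0 : ℝ) 1, 2 * (1 + Real.exp 16 * v ^ (-1 / 2 : ℝ)),
    setIntegral_nonneg measurableSet_Ioo fun v hv => by
      have := hv.1.le
      positivity, fun a J X δ K A hJ hX hK hδ => ?_⟩
  have hδ0 : 0 ≤ δ := by
    have := (norm_nonneg _).trans (hδ 0 le_rfl)
    have h2 : 0 ≤ δ * X := by simpa using this
    exact nonneg_of_mul_nonneg_left h2 hX
  have hc : ∀ n, Prim n → ‖cut J a n‖ ≤ |K| * Nr n ^ A := fun n hn => by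
    have h0 : 0 ≤ Nr n ^ A := Real.rpow_nonneg (Nr_nonneg n) _
    unfold cut
    split_ifs
    · exact (hK n hn).trans (mul_le_mul_of_nonneg_right (le_abs_self K) h0)
    · rw [norm_zero]; positivity
  have hs := (summable_sm (a := 2) two_pos hX hc 0).hasSum
  have key : ∀ Y : ℝ, ‖∑ n ∈ pbox Y, cut J a n * (W 2 (Nr n / X) : ℂ)‖ ≤
      (∫ v in Ioo (0 : ℝ) 1, 2 * (1 + Real.exp 16 * v ^ (-1 / 2 : ℝ))) * δ * X := fun Y => by
    rw [mul_assoc, ← integral_mul_const]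
    refine layer_cake (pbox Y) (cut J a) (fun n => W 2 (Nr n / X))
      (fun n _ => ⟨(W_pos _ _).le, W_le_one two_pos _⟩) (hint.mul_const _) fun v hv => ?_
    have hw : 0 < v ^ (-1 / 2 : ℝ) := Real.rpow_pos_of_pos hv.1 _
    have h1 := SLay_seg (a := a) (Y := Y) (E := δ * (X + X * (Real.exp 16 * v ^ (-1 / 2 : ℝ))))
      (hJ.inter (SLay_level X v hX)) (by positivity) fun n hn hnJ y hy => by
        rcases lt_or_ge y 0 with h0 | h0
        · rw [psum_of_lt a (by linarith), norm_zero]; positivity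
        refine (hδ y h0).trans (mul_le_mul_of_nonneg_left ?_ hδ0)
        have h2 := SLay_sq hX hv.1 hnJ.2.1 hnJ.2.2
        have h3 : y ^ 2 / X ≤ Nr n ^ 2 / X :=
          div_le_div_of_nonneg_right (pow_le_pow_left₀ h0 hy 2) hX.le
        linarith
    have e : ∑ n ∈ (pbox Y).filter (fun n => v < W 2 (Nr n / X)), cut J a n =
        ∑ n ∈ (pbox Y).filter (fun n => Nr n ∈ J ∩ {y : ℝ | 0 < y ∧ v < W 2 (y / X)}), a n := by
      rw [Finset.sum_filter, Finset.sum_filter]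
      refine Finset.sum_congr rfl fun n hn => ?_
      have hp := Nr_pos (mem_pbox.1 hn).1.ne_zero
      unfold cut
      by_cases h1 : v < W 2 (Nr n / X) <;> by_cases h2 : Nr n ∈ J <;> simp [h1, h2, hp]
    rw [e]
    exact h1.trans (le_of_eq (by ring))
  have ht : Tendsto (fun S : Finset O => ‖∑ n ∈ S, (if Prim n then
      cut J a n * (Nr n : ℂ) ^ (-(((0 : ℝ) : ℂ) * I)) * (W 2 (Nr n / X) : ℂ) else 0)‖) atTop
      (𝓝 ‖sm 2 (cut J a) X 0‖) := Tendsto.norm hs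
  refine isClosed_Iic.mem_of_frequently_of_tendsto (frequently_atTop.2 fun S => ?_) ht
  refine ⟨S ∪ pbox (∑ n ∈ S, Nr n), Finset.subset_union_left, ?_⟩
  have e : ∑ n ∈ S ∪ pbox (∑ n ∈ S, Nr n), (if Prim n then
      cut J a n * (Nr n : ℂ) ^ (-(((0 : ℝ) : ℂ) * I)) * (W 2 (Nr n / X) : ℂ) else 0) =
      ∑ n ∈ pbox (∑ n ∈ S, Nr n), cut J a n * (W 2 (Nr n / X) : ℂ) := by
    symm
    refine Finset.sum_subset_zero_on_sdiff Finset.subset_union_right (fun n hn => ?_)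
      fun n hn => ?_
    · obtain ⟨h1, h2⟩ := Finset.mem_sdiff.1 hn
      rw [if_neg]
      intro hp
      refine h2 (mem_pbox.2 ⟨hp, ?_⟩)
      rcases Finset.mem_union.1 h1 with h | h
      · exact Finset.single_le_sum (fun m _ => Nr_nonneg m) h
      · exact (mem_pbox.1 h).2
    · rw [if_pos (mem_pbox.1 hn).1]
      simp
  rw [mem_Iic, e]
  exact key _

end Crest.Agent.R012

end
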