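import Crest.Agent.R012.Ang
import Crest.Agent.R012.SFin

/-! # Row 12: Siegel–Walfisz for cubic characters with angular twists (interface) -/

set_option autoImplicit false

noncomputable section

open scoped BigOperators ComplexConjugate Topology
open Complex MeasureTheory Filter Set Crest.Agent.R017

namespace Crest.Agent.R012

/-- The three sequences are `log N p` on primes, the squarefree `w`-rough elements and the Möbius
function on them; `I` is an interval. -/
theorem swh (l : ℤ) (K : ℝ) : ∃ x₀ : ℝ, ∀ (x B τ w : ℝ) (I : Set ℝ) (g : O → ℂ), x₀ ≤ x →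
    x ^ (1 / 4 : ℝ) ≤ B → B ≤ x → |τ| ≤ Real.log x ^ K → Real.exp (Real.sqrt (Real.log x)) ≤ w →
    I.OrdConnected → (g = Lp ∨ g = rg w ∨ g = fun n => mu n * rg w n) →
    SWH 1 (Real.log x ^ K) B τ (cut I (fun b => g b * az l b)) := by
  obtain ⟨C, hC, HC⟩ := sm_cut_le
  obtain ⟨L₀, H⟩ := sw_sharp l (K + 1)
  refine ⟨Real.exp (max (max L₀ 200) (C * Real.exp 10)),
    fun x B τ w J g hx hB1 hB2 hτ hw hJ hg h hh hN hc u t hu ht => ?_⟩
  have hx0 : 0 < x := (Real.exp_pos _).trans_le hx
  have hL := (Real.le_log_iff_exp_le hx0).2 hx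
  obtain ⟨L, hLx⟩ : ∃ L, L = Real.log x := ⟨_, rfl⟩
  rw [← hLx] at hL hτ hw hN ht ⊢
  have ex : x = Real.exp L := by rw [hLx, Real.exp_log hx0]
  have l1 : L₀ ≤ L := ((le_max_left _ _).trans (le_max_left _ _)).trans hL
  have l2 : 200 ≤ L := ((le_max_right _ _).trans (le_max_left _ _)).trans hL
  have l3 : C * Real.exp 10 ≤ L := (le_max_right _ _).trans hL
  have hL0 : 0 < L := by linarith
  have hZ : 0 < L ^ K := Real.rpow_pos_of_pos hL0 K
  have e1 : L ^ (K + 1) = L ^ K * L := Real.rpow_add_one hL0.ne' K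
  have hB0 : 0 < B := (Real.rpow_pos_of_pos hx0 _).trans_le hB1
  obtain ⟨u1, u2⟩ := abs_le.1 hu
  have hX0 : 0 < B * Real.exp u := by positivity
  have hX1 : Real.exp (L / 5) ≤ B * Real.exp u := by
    rw [ex, ← Real.exp_mul] at hB1
    calc _ ≤ Real.exp (L * (1 / 4)) * Real.exp u := by
          rw [← Real.exp_add]; exact Real.exp_le_exp.2 (by linarith)
      _ ≤ _ := by gcongr
  have hX2 : B * Real.exp u ≤ Real.exp (2 * L) := by
    calc _ ≤ Real.exp L * Real.exp u := by rw [← ex]; gcongr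
      _ ≤ _ := by rw [← Real.exp_add]; exact Real.exp_le_exp.2 (by linarith)
  have hgb : ∀ n, Prim n → ‖g n * sc l h (τ + t) n‖ ≤ 1 * Nr n ^ (1 : ℝ) := by
    intro n hn
    have h1 := one_le_Nr hn.ne_zero
    rw [norm_mul, one_mul, Real.rpow_one]
    refine (mul_le_of_le_one_right (norm_nonneg _) ((cmu_sc l h _).le n hn)).trans ?_
    rcases hg with rfl | rfl | rfl
    · exact (norm_Lp_le hn.ne_zero).trans ((Real.log_le_sub_one_of_pos (by linarith)).trans
        (by linarith))
    · exact (norm_rg_le w n).trans h1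
    · rw [norm_mul]
      exact (mul_le_one₀ (norm_mu_le n) (norm_nonneg _) (norm_rg_le w n)).trans h1
  have h1 := HC (fun n => g n * sc l h (τ + t) n) J (B * Real.exp u) (L ^ (K + 1))⁻¹ 1 1 hJ hX0 hgb
    fun Y hY => H L (τ + t) _ w Y h g l1 hh hc (by rw [e1]; nlinarith)
      ((abs_add_le _ _).trans (by rw [e1]; nlinarith)) hX1 hX2 hw hg hY
  have e2 : sm 2 (fun b => cut J (fun b => g b * az l b) b * kap b h) (B * Real.exp u) (τ + t) =
      sm 2 (cut J fun n => g n * sc l h (τ + t) n) (B * Real.exp u) 0 := by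
    unfold sm
    refine tsum_congr fun n => ?_
    split_ifs with hn
    · by_cases hn' : Nr n ∈ J
      · simp only [cut, sc, if_pos hn', ofReal_zero, zero_mul, neg_zero, cpow_zero, mul_one]
        ring
      · simp only [cut, if_neg hn', zero_mul]
    · rfl
  rw [e2]
  refine h1.trans ?_
  rw [e1, one_mul, le_div_iff₀ hZ]
  have h2 : Real.exp u ≤ Real.exp 10 := Real.exp_le_exp.2 u2
  calc _ = B * (C * Real.exp u) / L := by field_simp
    _ ≤ B * L / L := by gcongr; exact (mul_le_mul_of_nonneg_left h2 hC).trans l3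
    _ = B := by field_simp

end Crest.Agent.R012

end
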