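import Crest.Agent.R012.SAn

/-! # Row 12: zero-free region -/

set_option autoImplicit false

noncomputable section

open scoped BigOperators ComplexConjugate Topology
open Complex MeasureTheory Filter Set Crest.Agent.R017

namespace Crest.Agent.R012

theorem SZF_summable {c : O → ℂ} (h : CMu c) {s : ℂ} (hs : 1 < s.re) :
    Summable (fun n : O => if Prim n then vm n * c n * (Nr n : ℂ) ^ (-s) else 0) :=
  l2_summable_log (fun n hn => by
    rw [norm_mul]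
    exact (mul_le_of_le_one_right (norm_nonneg _) (h.le n hn)).trans (norm_vm_le hn.ne_zero)) hs

/-- As `l2_vm_mul`, `l2_hasDerivAt`. -/
theorem CMu.hasDerivAt {c : O → ℂ} (h : CMu c) {s : ℂ} (hs : 1 < s.re) :
    HasDerivAt (Dser c) (-(Dser (fun n => vm n * c n) s * Dser c s)) s := by
  have e : Dser (fun n => vm n * c n) s * Dser c s =
      Dser (fun n => (Real.log (Nr n) : ℂ) * c n) s := by
    rw [l2_conv (SZF_summable h hs) (l2_summable h.le hs)]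
    refine l2_congr (fun n hn => ?_) s
    rw [← l2_sum_vm hn, Finset.sum_mul]
    refine Finset.sum_congr rfl fun d hd => ?_
    obtain ⟨hd1, m, rfl⟩ := (mem_pdiv hn.ne_zero).1 hd
    rw [mul_div_cancel_left₀ m hd1.ne_zero, h.mul _ _ hd1 (hd1.of_mul hn), mul_assoc]
  rw [e]
  exact l2_hasDerivAt h.le hs

theorem SZF_vm (n : O) : ∃ v : ℝ, 0 ≤ v ∧ vm n = v := by
  by_cases h : ∃ p : O, Prime p ∧ ∃ k : ℕ, 0 < k ∧ Associated n (p ^ k)
  · obtain ⟨p, hp, k, hk, h⟩ := h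
    exact ⟨_, Real.log_nonneg (one_le_Nr hp.ne_zero), l2_vm_assoc hp hk h⟩
  · exact ⟨0, le_rfl, by rw [l2_vm_zero h, ofReal_zero]⟩

theorem SZF_re_nonneg {c : O → ℂ} (h : CMu c) {x : ℝ} (hx : 1 < x) :
    0 ≤ (3 * Dser (fun n => vm n * 1) x + 4 * Dser (fun n => vm n * c n) x +
      Dser (fun n => vm n * c n ^ 2) x).re := by
  have hx' : 1 < (x : ℂ).re := hx
  have H := (((SZF_summable cmu_one hx').hasSum.mul_left 3).add
    ((SZF_summable h hx').hasSum.mul_left 4)).add (SZF_summable h.sq hx').hasSum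
  refine (hasSum_re H).nonneg fun n => ?_
  split_ifs with hn
  · obtain ⟨v, hv, e⟩ := SZF_vm n
    have e2 : (Nr n : ℂ) ^ (-(x : ℂ)) = ((Nr n ^ (-x) : ℝ) : ℂ) := by
      rw [ofReal_cpow (Nr_nonneg n), ofReal_neg]
    have e3 : 3 * (vm n * 1 * (Nr n : ℂ) ^ (-(x : ℂ))) + 4 * (vm n * c n * (Nr n : ℂ) ^ (-(x : ℂ))) +
        vm n * c n ^ 2 * (Nr n : ℂ) ^ (-(x : ℂ)) =
        ((v * Nr n ^ (-x) : ℝ) : ℂ) * (3 + 4 * c n + c n ^ 2) := by
      rw [e, e2]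
      push_cast
      ring
    rw [e3, re_ofReal_mul]
    refine mul_nonneg (mul_nonneg hv (Real.rpow_nonneg (Nr_nonneg n) _)) ?_
    have h1 : (c n).re ^ 2 + (c n).im ^ 2 ≤ 1 := by
      have := pow_le_one₀ (n := 2) (norm_nonneg _) (h.le n hn)
      rw [Complex.sq_norm, normSq_apply] at this
      nlinarith
    simp only [add_re, mul_re, sq, re_ofNat, im_ofNat]
    nlinarith [sq_nonneg (1 + (c n).re)]
  · simp

theorem SZF_341 {c : O → ℂ} (h : CMu c) {σ : ℝ} (hσ : 1 < σ) :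
    1 ≤ ‖Dser (fun _ => 1) σ‖ ^ 3 * ‖Dser c σ‖ ^ 4 * ‖Dser (fun n => c n ^ 2) σ‖ := by
  set F : ℂ → ℂ := fun s => Dser (fun _ => 1) s ^ 3 * Dser c s ^ 4 * Dser (fun n => c n ^ 2) s
    with hF
  set A : ℂ → ℂ := fun s => 3 * Dser (fun n => vm n * 1) s + 4 * Dser (fun n => vm n * c n) s +
      Dser (fun n => vm n * c n ^ 2) s with hA
  have hd : ∀ s : ℂ, 1 < s.re → HasDerivAt F (-(A s * F s)) s := by
    intro s hs
    have := (((cmu_one.hasDerivAt hs).fun_pow 3).fun_mul ((h.hasDerivAt hs).fun_pow 4)).fun_mul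
      (h.sq.hasDerivAt hs)
    refine this.congr_deriv ?_
    simp only [hA, hF]
    push_cast
    ring
  have hg : ∀ x : ℝ, 1 < x →
      HasDerivAt (fun y : ℝ => ‖F y‖ ^ 2) (-(2 * (A x).re * ‖F x‖ ^ 2)) x := by
    intro x hx
    convert (hd x hx).comp_ofReal.norm_sq using 1
    rw [Complex.inner, Complex.sq_norm, normSq_apply]
    simp only [mul_re, neg_re, neg_im, mul_im, conj_re, conj_im]
    ring
  have hanti : AntitoneOn (fun y : ℝ => ‖F y‖ ^ 2) (Ioi 1) := by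
    refine antitoneOn_of_deriv_nonpos (convex_Ioi 1)
      (fun x hx => (hg x hx).continuousAt.continuousWithinAt) ?_ ?_
    · rw [interior_Ioi]
      exact fun x hx => (hg x hx).differentiableAt.differentiableWithinAt
    · rw [interior_Ioi]
      intro x hx
      rw [(hg x hx).deriv, neg_nonpos]
      have := SZF_re_nonneg h hx
      positivity
  have hlim : Tendsto (fun y : ℝ => ‖F y‖ ^ 2) atTop (𝓝 1) := by
    have := ((((l2_tendsto cmu_one.le).pow 3).mul ((l2_tendsto h.le).pow 4)).mul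
      (l2_tendsto h.sq.le)).norm.pow 2
    simpa [h.one, hF] using this
  have h1 : 1 ≤ ‖F σ‖ ^ 2 := le_of_tendsto hlim (by
    filter_upwards [eventually_ge_atTop σ] with y hy
    exact hanti hσ (hσ.trans_le hy) hy)
  have h2 := (one_le_sq_iff₀ (norm_nonneg _)).1 h1
  simpa only [hF, norm_mul, norm_pow] using h2

/-- `F σ = Z(σ)³ L(σ + it)⁴ L₂(σ + 2it)` has `F' = -F · (3 D₁ + 4 D₂ + D₃)` with
`Re (3 D₁ + 4 D₂ + D₃) = ∑ vm n N n^(-σ) Re (3 + 4 z + z²) ≥ 0`, `z = c n N n^(-it)`; so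
`normSq F` is antitone on `(1, ∞)` and tends to `1` (`l2_tendsto` for `c n N n^(-it)`). -/
theorem three_four_one {c : O → ℂ} (h : CMu c) {σ : ℝ} (hσ : 1 < σ) (t : ℝ) :
    1 ≤ ‖Dser (fun _ => 1) σ‖ ^ 3 * ‖Dser c (σ + t * I)‖ ^ 4 *
      ‖Dser (fun n => c n ^ 2) (σ + 2 * t * I)‖ := by
  have hz : CMu fun n => c n * (Nr n : ℂ) ^ (-(t * I)) := by
    refine ⟨by simp [h.one, Nr_one], fun m n hm hn => ?_, fun n hn => ?_⟩
    · rw [h.mul m n hm hn, l2_cpow_mul]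
      ring
    · rw [norm_mul, norm_cpow_eq_rpow_re_of_pos (Nr_pos hn.ne_zero)]
      simpa using h.le n hn
  have e1 : Dser c (σ + t * I) = Dser (fun n => c n * (Nr n : ℂ) ^ (-(t * I))) σ := by
    refine tsum_congr fun n => ?_
    split_ifs with hn
    · have : (Nr n : ℂ) ≠ 0 := by exact_mod_cast (Nr_pos hn.ne_zero).ne'
      rw [mul_assoc, ← cpow_add _ _ this]
      congr 2
      ring
    · rfl
  have e2 : Dser (fun n => c n ^ 2) (σ + 2 * t * I) =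
      Dser (fun n => (c n * (Nr n : ℂ) ^ (-(t * I))) ^ 2) σ := by
    refine tsum_congr fun n => ?_
    split_ifs with hn
    · have : (Nr n : ℂ) ≠ 0 := by exact_mod_cast (Nr_pos hn.ne_zero).ne'
      beta_reduce
      rw [mul_pow, mul_assoc (c n ^ 2), sq ((Nr n : ℂ) ^ (-(t * I))), ← cpow_add _ _ this,
        ← cpow_add _ _ this]
      congr 2
      ring
    · rfl
  rw [e1, e2]
  exact SZF_341 hz hσ

/-- `Φ = -L'/L` with `L` from `s_cont`.  Cauchy's estimate on discs of radius `1/(2Λ)` gives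
`‖L'‖ ≤ 2 C₁ Λ²`; with `η = 1/(C₂ Λ⁹)`, `three_four_one`, `zeta_le` give
`‖L (σ + it)‖⁴ ≥ η³ / (C_z³ C₁ Λ) ≥ (8 η C₁ Λ²)⁴` for `1 + η ≤ σ ≤ 2` if `C₂ ≥ 4096 C₁⁵ C_z³`, hence
`‖L‖ ≥ 4 η C₁ Λ²` for `σ ≥ 1 - η` (mean value inequality) and `‖L'/L‖ ≤ 1/(2η)`. -/
theorem s_zf : ∃ C₂ : ℝ, 1 ≤ C₂ ∧ ∀ (C D : ℝ) (c : O → ℂ), 0 ≤ C → CMu c → Dec C D c →
    Dec C D (fun n => c n ^ 2) → ∃ Φ : ℂ → ℂ,
      (∀ s : ℂ, 1 < s.re → Φ s = Dser (fun n => vm n * c n) s) ∧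
      ∀ Λ T : ℝ, 2 ≤ Λ → 0 ≤ T → D * (3 + 2 * T) ^ C ≤ Real.exp Λ →
        DifferentiableOn ℂ Φ {s | 1 - 1 / (C₂ * Λ ^ 9) < s.re ∧ s.re < 2 ∧ |s.im| < T} ∧
        ∀ s : ℂ, 1 - 1 / (C₂ * Λ ^ 9) < s.re → s.re < 2 → |s.im| < T → ‖Φ s‖ ≤ C₂ * Λ ^ 9 := by
  obtain ⟨C₁, hC₁, H₁⟩ := s_cont
  obtain ⟨Z, hZ, HZ⟩ := zeta_le
  have hC₂ : 2 ≤ 8192 * C₁ ^ 5 * Z ^ 3 := by
    have := one_le_mul_of_one_le_of_one_le (one_le_pow₀ (n := 5) hC₁) (one_le_pow₀ (n := 3) hZ)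
    nlinarith
  set C₂ := 8192 * C₁ ^ 5 * Z ^ 3 with hC₂d
  refine ⟨C₂, by linarith, fun C D c hC hc h1 h2 => ?_⟩
  obtain ⟨L, hL, hLe, hLb⟩ := H₁ C D c hc.le h1
  obtain ⟨L₂, -, hLe₂, hLb₂⟩ := H₁ C D _ hc.sq.le h2
  have hU : IsOpen {s : ℂ | 0 < s.re} := isOpen_lt continuous_const continuous_re
  have hV : IsOpen {s : ℂ | 1 < s.re} := isOpen_lt continuous_const continuous_re
  refine ⟨fun s => -deriv L s / L s, fun s hs => ?_, fun Λ T hΛ hT hD => ?_⟩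
  · have e : L =ᶠ[𝓝 s] Dser c := by
      filter_upwards [hV.mem_nhds hs] with w hw using hLe w hw
    have h0 : Dser c s ≠ 0 := by
      intro h0
      have := three_four_one hc hs s.im
      rw [re_add_im, h0] at this
      norm_num at this
    beta_reduce
    rw [e.deriv_eq, (hc.hasDerivAt hs).deriv, hLe s hs, neg_neg, mul_div_cancel_right₀ _ h0]
  have hΛ0 : 0 < Λ := by linarith
  have hex : ∀ τ : ℝ, |τ| ≤ 2 + 2 * T → D * (1 + |τ|) ^ C ≤ Real.exp Λ := fun τ hτ =>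
    le_trans (mul_le_mul_of_nonneg_left
      (Real.rpow_le_rpow (by positivity) (by linarith) hC) h1.nonneg) hD
  have hR : 1 / (2 * Λ) ≤ 1 / 4 := one_div_le_one_div_of_le (by norm_num) (by linarith)
  have hR2 : 1 / Λ = 1 / (2 * Λ) + 1 / (2 * Λ) := by field_simp; ring
  have hder : ∀ s : ℂ, 1 - 1 / (2 * Λ) ≤ s.re → s.re ≤ 2 → |s.im| ≤ T →
      ‖deriv L s‖ ≤ 2 * C₁ * Λ ^ 2 := by
    intro s s1 s2 s3
    have hre : ∀ w ∈ Metric.closedBall s (1 / (2 * Λ)),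
        |w.re - s.re| ≤ 1 / (2 * Λ) ∧ |w.im - s.im| ≤ 1 / (2 * Λ) := fun w hw => by
      rw [mem_closedBall_iff_norm] at hw
      exact ⟨(abs_re_le_norm (w - s)).trans hw, (abs_im_le_norm (w - s)).trans hw⟩
    refine (norm_deriv_le_of_forall_mem_sphere_norm_le (R := 1 / (2 * Λ)) (C := C₁ * Λ)
      (by positivity) (hL.diffContOnCl_ball fun w hw => ?_) fun w hw => ?_).trans (le_of_eq ?_)
    · have := abs_le.1 (hre w hw).1
      show 0 < w.re
      linarith [this.1]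
    · obtain ⟨a1, a2⟩ := hre w (Metric.sphere_subset_closedBall hw)
      have a3 := abs_le.1 a1
      refine hLb Λ w hΛ (hex _ ?_) (by linarith [a3.1]) (by linarith [a3.2])
      have := abs_sub_abs_le_abs_sub w.im s.im
      linarith
    · field_simp
  set η := 1 / (C₂ * Λ ^ 9) with hη
  have hη0 : 0 < η := by positivity
  have hη1 : η ≤ 1 / (2 * Λ) := by
    refine one_div_le_one_div_of_le (by positivity) ?_
    have : Λ ≤ Λ ^ 9 := le_self_pow₀ (by linarith) (by norm_num)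
    exact mul_le_mul hC₂ this hΛ0.le (by linarith)
  have hηe : η * (C₂ * Λ ^ 9) = 1 := one_div_mul_cancel (by positivity)
  have hlow : ∀ s : ℂ, 1 + η ≤ s.re → s.re ≤ 2 → |s.im| ≤ T → 8 * η * C₁ * Λ ^ 2 ≤ ‖L s‖ := by
    intro s s1 s2 s3
    by_contra hlt
    rw [not_le] at hlt
    have hs : 1 < s.re := by linarith
    have h341 := three_four_one hc hs s.im
    have b1 : ‖Dser (fun _ => 1) s.re‖ ≤ Z / η :=
      (HZ s.re hs s2).trans (div_le_div_of_nonneg_left (by linarith) hη0 (by linarith))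
    have b2 : ‖Dser c (s.re + s.im * I)‖ ≤ 8 * η * C₁ * Λ ^ 2 := by
      rw [re_add_im, ← hLe s hs]
      exact hlt.le
    have b3 : ‖Dser (fun n => c n ^ 2) (s.re + 2 * s.im * I)‖ ≤ C₁ * Λ := by
      have hΛ1 : 0 < Λ⁻¹ := by positivity
      rw [← hLe₂ _ (by simpa using hs)]
      refine hLb₂ Λ _ hΛ (hex _ ?_) (by simp; linarith) (by simp; linarith)
      simp only [add_im, ofReal_im, mul_im, mul_re, re_ofNat, ofReal_re, im_ofNat, I_im, I_re,
        mul_zero, sub_zero, mul_one, zero_mul, add_zero, zero_add, abs_mul, abs_two]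
      linarith
    have b4 : (1 : ℝ) ≤ (Z / η) ^ 3 * (8 * η * C₁ * Λ ^ 2) ^ 4 * (C₁ * Λ) :=
      h341.trans (by gcongr)
    have b5 : (Z / η) ^ 3 * (8 * η * C₁ * Λ ^ 2) ^ 4 * (C₁ * Λ) = η * (C₂ * Λ ^ 9) / 2 := by
      rw [hC₂d]
      field_simp
      ring
    rw [b5, hηe] at b4
    norm_num at b4
  have hlow' : ∀ s : ℂ, 1 - η < s.re → s.re < 2 → |s.im| < T → 4 * η * C₁ * Λ ^ 2 ≤ ‖L s‖ := by
    intro s s1 s2 s3
    have hp : 0 < η * C₁ * Λ ^ 2 := by positivity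
    rcases le_or_gt (1 + η) s.re with s4 | s4
    · linarith [hlow s s4 s2.le s3.le]
    set s' : ℂ := ⟨1 + η, s.im⟩ with hs'
    have b1 := hlow s' le_rfl (by show 1 + η ≤ 2; linarith) s3.le
    have hcv : Convex ℝ {w : ℂ | 1 - 1 / (2 * Λ) ≤ w.re ∧ w.re ≤ 2 ∧ -T ≤ w.im ∧ w.im ≤ T} :=
      (convex_halfSpace_re_ge _).inter ((convex_halfSpace_re_le _).inter
        ((convex_halfSpace_im_ge _).inter (convex_halfSpace_im_le _)))
    have s5 := abs_lt.1 s3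
    have b2 := hcv.norm_image_sub_le_of_norm_deriv_le (f := L) (x := s) (y := s')
      (fun w hw => hL.differentiableAt (hU.mem_nhds (by show 0 < w.re; linarith [hw.1])))
      (fun w hw => hder w hw.1 hw.2.1 (abs_le.2 hw.2.2))
      ⟨by linarith, s2.le, s5.1.le, s5.2.le⟩
      ⟨by show _ ≤ 1 + η; linarith, by show 1 + η ≤ 2; linarith, s5.1.le, s5.2.le⟩
    have b3 : ‖s' - s‖ ≤ 2 * η := by
      have : s' - s = ((1 + η - s.re : ℝ) : ℂ) := by
        apply Complex.ext <;> simp [hs']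
      rw [this, norm_real, Real.norm_of_nonneg (by linarith)]
      linarith
    have b4 : ‖L s' - L s‖ ≤ 2 * C₁ * Λ ^ 2 * (2 * η) := b2.trans (by gcongr)
    have b5 := norm_sub_norm_le (L s') (L s)
    linarith
  have hp : 0 < 4 * η * C₁ * Λ ^ 2 := by positivity
  refine ⟨?_, fun s s1 s2 s3 => ?_⟩
  · have hsub : {s : ℂ | 1 - η < s.re ∧ s.re < 2 ∧ |s.im| < T} ⊆ {s : ℂ | 0 < s.re} :=
      fun s hs => by show 0 < s.re; linarith [hs.1]
    refine ((hL.deriv hU).mono hsub).neg.div (hL.mono hsub) fun s hs => ?_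
    exact norm_pos_iff.1 (hp.trans_le (hlow' s hs.1 hs.2.1 hs.2.2))
  · have b1 := hlow' s s1 s2 s3
    beta_reduce
    rw [norm_div, norm_neg, div_le_iff₀ (hp.trans_le b1)]
    calc ‖deriv L s‖ ≤ 2 * C₁ * Λ ^ 2 := hder s (by linarith) s2.le s3.le
      _ ≤ 4 * (η * (C₂ * Λ ^ 9)) * C₁ * Λ ^ 2 := by rw [hηe]; nlinarith [mul_pos (by linarith : 0 < C₁) (pow_pos hΛ0 2)]
      _ = C₂ * Λ ^ 9 * (4 * η * C₁ * Λ ^ 2) := by ring
      _ ≤ C₂ * Λ ^ 9 * ‖L s‖ := by gcongr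

end Crest.Agent.R012

end
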