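import Crest.Agent.R012.Sv1a

/-! # Row 12: Mertens bounds -/

set_option autoImplicit false

noncomputable section

open scoped BigOperators ComplexConjugate Topology
open Complex MeasureTheory Filter Set Crest.Agent.R017

namespace Crest.Agent.R012

theorem sv1_chain (f : O → ℝ) (hf : ∀ n, 0 ≤ f n) (t : ℕ → ℝ) (B : ℝ)
    (hB : ∀ k, ∑ n ∈ (sbox (t (k + 1))).filter (fun n => t k < Nr n), f n ≤ B) (k : ℕ) :
    ∀ y, y ≤ t k → ∑ n ∈ (sbox y).filter (fun n => t 0 < Nr n), f n ≤ k * B := by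
  induction k with
  | zero =>
    intro y hy
    rw [Finset.filter_eq_empty_iff.2 fun n hn h => by linarith [(q_mem_sbox.1 hn).2.2]]
    simp
  | succ k ih =>
    intro y hy
    rw [← Finset.sum_filter_add_sum_filter_not _ (fun n => t k < Nr n)]
    have h1 : ∑ n ∈ ((sbox y).filter (fun n => t 0 < Nr n)).filter (fun n => t k < Nr n), f n ≤ B := by
      refine le_trans (Finset.sum_le_sum_of_subset_of_nonneg (fun n hn => ?_) fun n _ _ => hf n) (hB k)
      simp only [Finset.mem_filter, q_mem_sbox] at hn ⊢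
      exact ⟨⟨hn.1.1.1, hn.1.1.2.1, hn.1.1.2.2.trans hy⟩, hn.2⟩
    have h2 : ∑ n ∈ ((sbox y).filter (fun n => t 0 < Nr n)).filter (fun n => ¬ t k < Nr n), f n ≤
        k * B := by
      refine le_trans (Finset.sum_le_sum_of_subset_of_nonneg (fun n hn => ?_) fun n _ _ => hf n)
        (ih (t k) le_rfl)
      simp only [Finset.mem_filter, q_mem_sbox] at hn ⊢
      exact ⟨⟨hn.1.1.1, hn.1.1.2.1, not_lt.1 hn.2⟩, hn.1.2⟩
    push_cast
    linarith

theorem sv1_ceil {r : ℝ} (hr : 1 ≤ r) :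
    r ≤ Real.exp (⌈Real.log r⌉₊ : ℕ) ∧ ((⌈Real.log r⌉₊ : ℕ) : ℝ) ≤ 1 + Real.log r := by
  refine ⟨?_, ?_⟩
  · calc r = Real.exp (Real.log r) := (Real.exp_log (by linarith)).symm
      _ ≤ _ := Real.exp_le_exp.2 (Nat.le_ceil _)
  · linarith [Nat.ceil_lt_add_one (Real.log_nonneg hr)]

theorem mertens1 : ∃ C : ℝ, 0 ≤ C ∧ ∀ y₁ y₂ : ℝ, 0 < y₁ → y₁ ≤ y₂ →
    ∑ n ∈ (sbox y₂).filter (fun n => y₁ < Nr n), ‖Lp n‖ / Nr n ≤ C * (1 + Real.log (y₂ / y₁)) := by
  obtain ⟨C, hC, h⟩ := cheb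
  refine ⟨Real.exp 1 * C, by positivity, fun y₁ y₂ h1 h12 => ?_⟩
  obtain ⟨a1, a2⟩ := sv1_ceil (r := y₂ / y₁) ((one_le_div h1).2 h12)
  have key := sv1_chain (fun n => ‖Lp n‖ / Nr n) (fun n => div_nonneg (norm_nonneg _) (Nr_nonneg n))
    (fun k => y₁ * Real.exp k) (Real.exp 1 * C) (fun k => ?_) ⌈Real.log (y₂ / y₁)⌉₊ y₂
    (by rwa [div_le_iff₀' h1] at a1)
  · simp only [Nat.cast_zero, Real.exp_zero, mul_one] at key
    refine key.trans ?_
    rw [mul_comm]
    exact mul_le_mul_of_nonneg_left a2 (by positivity)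
  · have ht : 0 < y₁ * Real.exp k := by positivity
    calc ∑ n ∈ (sbox (y₁ * Real.exp (k + 1 : ℕ))).filter (fun n => y₁ * Real.exp k < Nr n),
          ‖Lp n‖ / Nr n
        ≤ ∑ n ∈ (sbox (y₁ * Real.exp (k + 1 : ℕ))).filter (fun n => y₁ * Real.exp k < Nr n),
          ‖Lp n‖ / (y₁ * Real.exp k) := Finset.sum_le_sum fun n hn =>
            div_le_div_of_nonneg_left (norm_nonneg _) ht (Finset.mem_filter.1 hn).2.le
      _ ≤ ∑ n ∈ sbox (y₁ * Real.exp (k + 1 : ℕ)), ‖Lp n‖ / (y₁ * Real.exp k) :=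
          Finset.sum_le_sum_of_subset_of_nonneg (Finset.filter_subset _ _) fun n _ _ => by positivity
      _ ≤ C * (y₁ * Real.exp (k + 1 : ℕ)) / (y₁ * Real.exp k) := by
          rw [← Finset.sum_div]
          exact div_le_div_of_nonneg_right (h _ (by positivity)) ht.le
      _ = Real.exp 1 * C := by
          push_cast
          rw [Real.exp_add]
          field_simp

open Classical in
/-- Split at `y₁^{2^j}` and use `mertens1`. -/
theorem mertens2 : ∃ C : ℝ, 0 ≤ C ∧ ∀ y₁ y₂ : ℝ, 2 ≤ y₁ → y₁ ≤ y₂ →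
    ∑ p ∈ (sbox y₂).filter (fun p => Prime p ∧ y₁ < Nr p), (Nr p)⁻¹ ≤
      C * (1 + Real.log (Real.log y₂ / Real.log y₁)) := by
  obtain ⟨C, hC, h⟩ := mertens1
  refine ⟨4 * C, by positivity, fun y₁ y₂ h1 h12 => ?_⟩
  have hL : 1 / 2 ≤ Real.log y₁ :=
    le_trans (by linarith [Real.log_two_gt_d9]) (Real.log_le_log two_pos h1)
  have hL0 : 0 < Real.log y₁ := by linarith
  have h12' : Real.log y₁ ≤ Real.log y₂ := Real.log_le_log (by linarith) h12
  obtain ⟨a1, a2⟩ := sv1_ceil (r := Real.log y₂ / Real.log y₁) ((one_le_div hL0).2 h12')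
  have key := sv1_chain (fun n => if Prime n then (Nr n)⁻¹ else 0)
    (fun n => by split_ifs; exacts [inv_nonneg.2 (Nr_nonneg n), le_rfl])
    (fun k => Real.exp (Real.log y₁ * Real.exp k)) (4 * C) (fun k => ?_)
    ⌈Real.log (Real.log y₂ / Real.log y₁)⌉₊ y₂
    (by
      rw [div_le_iff₀' hL0] at a1
      calc y₂ = Real.exp (Real.log y₂) := (Real.exp_log (by linarith)).symm
        _ ≤ _ := Real.exp_le_exp.2 a1)
  · simp only [Nat.cast_zero, Real.exp_zero, mul_one] at key
    rw [Real.exp_log (by linarith), ← Finset.sum_filter, Finset.filter_filter] at key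
    simp only [and_comm (b := Prime _)] at key
    refine key.trans ?_
    rw [mul_comm]
    exact mul_le_mul_of_nonneg_left a2 (by positivity)
  · set L := Real.log y₁ * Real.exp k with hLd
    have hL1 : 1 / 2 ≤ L := hL.trans (le_mul_of_one_le_right hL0.le (Real.one_le_exp k.cast_nonneg))
    have hL2 : 0 < L := by linarith
    have e1 : Real.log y₁ * Real.exp (k + 1 : ℕ) = L * Real.exp 1 := by
      push_cast
      rw [Real.exp_add, hLd, mul_assoc]
    have he : 1 ≤ Real.exp 1 := Real.one_le_exp zero_le_one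
    have he3 : Real.exp 1 ≤ 3 := by linarith [Real.exp_one_lt_d9]
    have b1 := h (Real.exp L) (Real.exp (L * Real.exp 1)) (Real.exp_pos _)
      (Real.exp_le_exp.2 (le_mul_of_one_le_right hL2.le he))
    rw [← Real.exp_sub, Real.log_exp] at b1
    simp only [e1]
    calc ∑ n ∈ (sbox (Real.exp (L * Real.exp 1))).filter (fun n => Real.exp L < Nr n),
          (if Prime n then (Nr n)⁻¹ else 0)
        ≤ ∑ n ∈ (sbox (Real.exp (L * Real.exp 1))).filter (fun n => Real.exp L < Nr n),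
          ‖Lp n‖ / Nr n / L := Finset.sum_le_sum fun n hn => by
            have hn' := (Finset.mem_filter.1 hn).2
            have hN : 0 < Nr n := (Real.exp_pos _).trans hn'
            split_ifs with hp
            · have c1 : L ≤ Real.log (Nr n) := by
                rw [Real.le_log_iff_exp_le hN]; exact hn'.le
              rw [Lp, if_pos hp, norm_real, Real.norm_of_nonneg (by linarith), div_right_comm,
                le_div_iff₀ hN, inv_mul_cancel₀ hN.ne']
              exact (one_le_div hL2).2 c1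
            · positivity
      _ ≤ C * (1 + (L * Real.exp 1 - L)) / L := by
          rw [← Finset.sum_div]
          exact div_le_div_of_nonneg_right b1 hL2.le
      _ ≤ 4 * C := by
          rw [div_le_iff₀ hL2]
          have : 1 + (L * Real.exp 1 - L) ≤ 4 * L := by nlinarith
          nlinarith [mul_le_mul_of_nonneg_left this hC]

/-- A sum of a multiplicative function over squarefree elements is at most the Euler product. -/
theorem sum_sqf_le_exp (P S : Finset O) (σ : ℝ)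
    (hS : ∀ n ∈ S, Prim n ∧ Squarefree n ∧ ∀ p ∈ pf n, p ∈ P) :
    ∑ n ∈ S, Nr n ^ (-σ) ≤ Real.exp (∑ p ∈ P, Nr p ^ (-σ)) := by
  have h0 : ∀ p : O, 0 ≤ Nr p ^ (-σ) := fun p => Real.rpow_nonneg (Nr_nonneg p) _
  have h1 : ∀ n ∈ S, ∏ p ∈ pf n, p = n := fun n hn => rad_eq_self (hS n hn).1 (hS n hn).2.1
  have hinj : Set.InjOn pf S := fun a ha b hb hab => by rw [← h1 a ha, ← h1 b hb, hab]
  calc ∑ n ∈ S, Nr n ^ (-σ) = ∑ n ∈ S, ∏ p ∈ pf n, Nr p ^ (-σ) := by
        refine Finset.sum_congr rfl fun n hn => ?_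
        rw [Real.finsetProd_rpow _ _ (fun p _ => Nr_nonneg p), ← Nr_prod, h1 n hn]
    _ = ∑ T ∈ S.image pf, ∏ p ∈ T, Nr p ^ (-σ) :=
        (Finset.sum_image (f := fun T : Finset O => ∏ p ∈ T, Nr p ^ (-σ)) hinj).symm
    _ ≤ ∑ T ∈ P.powerset, ∏ p ∈ T, Nr p ^ (-σ) := by
        refine Finset.sum_le_sum_of_subset_of_nonneg (fun T hT => ?_)
          fun T _ _ => Finset.prod_nonneg fun p _ => h0 p
        obtain ⟨n, hn, rfl⟩ := Finset.mem_image.1 hT
        exact Finset.mem_powerset.2 fun p hp => (hS n hn).2.2 p hp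
    _ = ∏ p ∈ P, (1 + Nr p ^ (-σ)) := (Finset.prod_one_add _).symm
    _ ≤ ∏ p ∈ P, Real.exp (Nr p ^ (-σ)) :=
        Finset.prod_le_prod (fun p _ => by linarith [h0 p])
          fun p _ => by linarith [Real.add_one_le_exp (Nr p ^ (-σ))]
    _ = _ := (Real.exp_sum _ _).symm

theorem sv1_dv_sum : ∃ C : ℝ, 0 ≤ C ∧ ∀ y : ℝ, 1 ≤ y →
    ∑ n ∈ sbox y, dv n ≤ C * y * (1 + Real.log y) := by
  classical
  obtain ⟨C, hC⟩ := sum_box_inv_le
  refine ⟨120 * max C 0, by positivity, fun y hy => ?_⟩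
  have hy0 : 0 ≤ y := by linarith
  have hl : 0 ≤ 1 + Real.log y := by linarith [Real.log_nonneg hy]
  calc ∑ n ∈ sbox y, dv n ≤ ∑ n ∈ sbox y, ∑ d ∈ box y, (if d ∣ n - 0 then (1 : ℝ) else 0) := by
        refine Finset.sum_le_sum fun n hn => ?_
        obtain ⟨h1, -, h3⟩ := q_mem_sbox.1 hn
        rw [Finset.sum_boole, dv]
        refine Nat.cast_le.2 (Finset.card_le_card fun d hd => ?_)
        obtain ⟨h4, h5⟩ := (mem_pdiv h1.ne_zero).1 hd
        exact Finset.mem_filter.2 ⟨mem_box.2 ⟨h4.ne_zero, (Nr_le_of_dvd h1.ne_zero h5).trans h3⟩,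
          by rwa [sub_zero]⟩
    _ ≤ ∑ n ∈ box y, ∑ d ∈ box y, (if d ∣ n - 0 then (1 : ℝ) else 0) := by
        refine Finset.sum_le_sum_of_subset_of_nonneg (fun n hn => ?_)
          fun n _ _ => Finset.sum_nonneg fun d _ => by split_ifs <;> norm_num
        obtain ⟨h1, -, h3⟩ := q_mem_sbox.1 hn
        exact mem_box.2 ⟨h1.ne_zero, h3⟩
    _ ≤ ∑ d ∈ box y, 120 * y * (Nr d)⁻¹ := by
        rw [Finset.sum_comm]
        refine Finset.sum_le_sum fun d hd => ?_
        obtain ⟨h1, h2⟩ := mem_box.1 hd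
        rw [Finset.sum_boole]
        have h3 := card_box_class_le h1 0 hy0
        have h4 : 1 ≤ y / Nr d := (one_le_div (Nr_pos h1)).2 h2
        rw [mul_assoc, ← div_eq_mul_inv]
        refine le_trans (le_of_eq ?_) (h3.trans (by linarith))
        congr
    _ ≤ 120 * y * (max C 0 * (1 + Real.log y)) := by
        rw [← Finset.mul_sum]
        exact mul_le_mul_of_nonneg_left ((hC y hy).trans
          (mul_le_mul_of_nonneg_right (le_max_left _ _) hl)) (by positivity)
    _ = _ := by ring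

theorem dv_W : ∃ C : ℝ, 0 ≤ C ∧ ∀ N : ℝ, 1 ≤ N → cn2 8 N (fun _ => 1) ≤ C * N * (1 + Real.log N) := by
  obtain ⟨C, hC, h⟩ := tsum_W_of_count
  obtain ⟨K, hK, hd⟩ := sv1_dv_sum
  refine ⟨C * K, by positivity, fun N hN => ?_⟩
  have hN0 : 0 < N := by linarith
  have hl : 0 ≤ Real.log N := Real.log_nonneg hN
  have hdv : ∀ n, 0 ≤ dv n := fun n => Nat.cast_nonneg _
  obtain ⟨h1, h2⟩ := h dv (K * (1 + Real.log N)) N hdv (by positivity) hN0 fun y hy => by
    have hy0 : 0 < y := by linarith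
    have a1 : 1 ≤ y / N := (one_le_div hN0).2 hy
    have a2 : Real.log y = Real.log N + Real.log (y / N) := by
      rw [Real.log_div hy0.ne' hN0.ne']; ring
    have a3 := Real.log_le_sub_one_of_pos (show 0 < y / N by positivity)
    have a4 : 1 + Real.log y ≤ (1 + Real.log N) * (y / N) := by nlinarith
    refine (hd y (hN.trans hy)).trans ?_
    calc K * y * (1 + Real.log y) ≤ K * y * ((1 + Real.log N) * (y / N)) :=
          mul_le_mul_of_nonneg_left a4 (by positivity)
      _ = _ := by ring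
  refine le_trans ?_ (h2.trans (le_of_eq (by ring)))
  unfold cn2
  refine Summable.tsum_le_tsum (fun n => ?_) (Summable.of_nonneg_of_le (fun n => ?_) (fun n => ?_) h1) h1
  · split_ifs
    · have := mul_nonneg (hdv n) (W_pos 8 (Nr n / N)).le
      have h3 : 0 ≤ Nr n / N := div_nonneg (Nr_nonneg n) hN0.le
      rw [norm_one, one_pow, one_mul]
      exact le_mul_of_one_le_right this (one_le_pow₀ (by linarith))
    · exact le_rfl
  · split_ifs
    · exact mul_nonneg (mul_nonneg (sq_nonneg _) (hdv n)) (W_pos _ _).le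
    · exact le_rfl
  · split_ifs
    · have := mul_nonneg (hdv n) (W_pos 8 (Nr n / N)).le
      have h3 : 0 ≤ Nr n / N := div_nonneg (Nr_nonneg n) hN0.le
      rw [norm_one, one_pow, one_mul]
      exact le_mul_of_one_le_right this (one_le_pow₀ (by linarith))
    · exact le_rfl

end Crest.Agent.R012

end
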