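import Crest.Agent.R012.U1c

/-! # Row 12: Chebyshev bounds -/

set_option autoImplicit false

noncomputable section

open scoped BigOperators ComplexConjugate Topology
open Complex MeasureTheory Filter Set Crest.Agent.R017

namespace Crest.Agent.R012

theorem sv1a_mul_star (p : O) : p * star p = ((nm p : ℕ) : O) := by
  rw [mul_star_self, ← nm_cast, Int.cast_natCast]

theorem sv1a_assoc {p x : O} (h : p ∣ x) (hn : nm p = nm x) (hx : x ≠ 0) : Associated p x := by
  obtain ⟨u, rfl⟩ := h
  have h1 : nm u = 1 := by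
    have h2 : nm p ≠ 0 := fun h => left_ne_zero_of_mul hx (nm_eq_zero.1 h)
    rw [nm_mul] at hn
    exact (Nat.mul_left_cancel (Nat.pos_of_ne_zero h2) ((mul_one _).trans hn)).symm
  have hu : IsUnit u := isUnit_iff_Nr.2 (by rw [Nr, h1, Nat.cast_one])
  exact associated_mul_unit_right p u hu

theorem sv1a_rat {p : O} (hp : Prime p) (n : ℕ) (hn : n ≠ 0) (h : p ∣ (n : O)) :
    ∃ q : ℕ, q.Prime ∧ p ∣ (q : O) := by
  induction n using induction_on_primes with
  | zero => exact absurd rfl hn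
  | one => exact absurd (isUnit_of_dvd_one (by simpa using h)) hp.not_isUnit
  | prime_mul q a hq ih =>
    rw [Nat.cast_mul] at h
    rcases hp.dvd_or_dvd h with h | h
    · exact ⟨q, hq, h⟩
    · exact ih (right_ne_zero_of_mul hn) h

open Classical in
/-- At most two primary primes have a given norm (a prime of norm `k` divides the rational prime
below it; the norm is `p` or `p²`). -/
theorem card_prime_norm_le (k : ℕ) (S : Finset O) (hS : ∀ p ∈ S, Prime p ∧ Prim p ∧ nm p = k) :
    S.card ≤ 2 := by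
  rcases S.eq_empty_or_nonempty with rfl | ⟨p₀, h₀⟩
  · simp
  obtain ⟨-, h1, h2⟩ := hS p₀ h₀
  refine le_trans (Finset.card_le_card (t := {p₀, star p₀}) fun p hp => ?_) Finset.card_le_two
  obtain ⟨h3, h4, h5⟩ := hS p hp
  have h6 : p ∣ p₀ * star p₀ := by
    rw [sv1a_mul_star, h2, ← h5, ← sv1a_mul_star]
    exact dvd_mul_right _ _
  rw [Finset.mem_insert, Finset.mem_singleton]
  rcases h3.dvd_or_dvd h6 with h | h
  · exact Or.inl (h4.eq_of_associated h1 (sv1a_assoc h (h5.trans h2.symm) h1.ne_zero))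
  · refine Or.inr (h4.eq_of_associated h1.star (sv1a_assoc h ?_ h1.star.ne_zero))
    rw [h5, ← h2, nm, nm, nz_star]

theorem nm_prime {p : O} (hp : Prime p) :
    (nm p).Prime ∨ ∃ q : ℕ, q.Prime ∧ nm p = q ^ 2 := by
  obtain ⟨q, hq, c, hc⟩ := sv1a_rat hp (nm p) (fun h => hp.ne_zero (nm_eq_zero.1 h))
    (by rw [← sv1a_mul_star]; exact dvd_mul_right _ _)
  have h1 : nm (q : O) = q ^ 2 := by
    have := Nr_natCast q
    rw [Nr] at this
    exact_mod_cast this
  have h2 : nm p ∣ q ^ 2 := by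
    rw [← h1, hc, nm_mul]
    exact dvd_mul_right _ _
  obtain ⟨i, hi, h3⟩ := (Nat.dvd_prime_pow hq).1 h2
  interval_cases i
  · exact absurd (isUnit_iff_Nr.2 (by rw [Nr, h3]; simp)) hp.not_isUnit
  · exact Or.inl (by rw [h3, pow_one]; exact hq)
  · exact Or.inr ⟨q, hq, h3⟩

/-- From `Chebyshev.theta_le_log4_mul_x` (or `Nat.primorial_le_4_pow`). -/
theorem cheb : ∃ C : ℝ, 0 ≤ C ∧ ∀ y : ℝ, 0 ≤ y → ∑ n ∈ sbox y, ‖Lp n‖ ≤ C * y := by
  classical
  refine ⟨4 * (Real.log 4 + 4), by positivity, fun y hy => ?_⟩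
  have h1 : ∀ n : O, ‖Lp n‖ ≤
      if Prime n then 2 * ArithmeticFunction.vonMangoldt (nm n) else 0 := by
    intro n
    unfold Lp
    split_ifs with h
    · rw [Complex.norm_real, Real.norm_eq_abs,
        abs_of_nonneg (Real.log_nonneg (one_le_Nr h.ne_zero)), Nr]
      rcases nm_prime h with hq | ⟨q, hq, h2⟩
      · rw [ArithmeticFunction.vonMangoldt_apply_prime hq]
        linarith [Real.log_natCast_nonneg (nm n)]
      · rw [h2, ArithmeticFunction.vonMangoldt_apply_pow two_ne_zero,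
          ArithmeticFunction.vonMangoldt_apply_prime hq, Nat.cast_pow, Real.log_pow]
        norm_num
    · simp
  have h2 : ∀ n ∈ (sbox y).filter Prime, nm n ∈ Finset.Icc 0 ⌊y⌋₊ := by
    intro n hn
    exact Finset.mem_Icc.2 ⟨Nat.zero_le _,
      Nat.le_floor (q_mem_sbox.1 (Finset.mem_filter.1 hn).1).2.2⟩
  calc ∑ n ∈ sbox y, ‖Lp n‖
      ≤ ∑ n ∈ sbox y, if Prime n then 2 * ArithmeticFunction.vonMangoldt (nm n) else 0 :=
        Finset.sum_le_sum fun n _ => h1 n
    _ = ∑ n ∈ (sbox y).filter Prime, 2 * ArithmeticFunction.vonMangoldt (nm n) :=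
        (Finset.sum_filter _ _).symm
    _ = ∑ k ∈ Finset.Icc 0 ⌊y⌋₊, ∑ n ∈ ((sbox y).filter Prime).filter (fun n => nm n = k),
          2 * ArithmeticFunction.vonMangoldt (nm n) :=
        (Finset.sum_fiberwise_of_maps_to h2 _).symm
    _ ≤ ∑ k ∈ Finset.Icc 0 ⌊y⌋₊, 4 * ArithmeticFunction.vonMangoldt k := by
        refine Finset.sum_le_sum fun k _ => ?_
        rw [Finset.sum_congr rfl (g := fun _ => 2 * ArithmeticFunction.vonMangoldt k)
          (fun n hn => by rw [(Finset.mem_filter.1 hn).2]), Finset.sum_const, nsmul_eq_mul]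
        have h3 : ((((sbox y).filter Prime).filter (fun n => nm n = k)).card : ℝ) ≤ 2 := by
          exact_mod_cast card_prime_norm_le k _ fun p hp => by
            obtain ⟨h4, h5⟩ := Finset.mem_filter.1 hp
            obtain ⟨h6, h7⟩ := Finset.mem_filter.1 h4
            exact ⟨h7, (q_mem_sbox.1 h6).1, h5⟩
        have h4 : 0 ≤ ArithmeticFunction.vonMangoldt k := ArithmeticFunction.vonMangoldt_nonneg
        nlinarith
    _ = 4 * Chebyshev.psi y := by rw [Chebyshev.psi_eq_sum_Icc, Finset.mul_sum]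
    _ ≤ _ := by
        have := Chebyshev.psi_le_const_mul_self hy
        linarith

/-- Dyadic decomposition of a weighted sum: a counting bound `E y` passes to the weight `W 8`. -/
theorem tsum_W_of_count : ∃ C : ℝ, 0 ≤ C ∧ ∀ (f : O → ℝ) (E N : ℝ), (∀ n, 0 ≤ f n) → 0 ≤ E → 0 < N →
    (∀ y, N ≤ y → ∑ n ∈ sbox y, f n ≤ E * y * (y / N)) →
    Summable (fun n : O => by
      classical exact if Prim n ∧ Squarefree n then f n * W 8 (Nr n / N) * (1 + Nr n / N) ^ 2 else 0) ∧
    (∑' n : O, by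
      classical exact if Prim n ∧ Squarefree n then f n * W 8 (Nr n / N) * (1 + Nr n / N) ^ 2 else 0) ≤
      C * E * N := by
  classical
  obtain ⟨C, hC, hW⟩ := W_poly_le (a := 8) (by norm_num) 6
  refine ⟨7 * C, by positivity, fun f E N hf hE hN h => ?_⟩
  have hEN : 0 ≤ E * N := by positivity
  have hu : ∀ n : O, 0 ≤ Nr n / N := fun n => div_nonneg (Nr_nonneg n) hN.le
  have key : ∀ J : ℕ, ∑ n ∈ sbox (2 ^ J * N), f n / (1 + Nr n / N) ^ 4 ≤
      E * N * (7 - 6 / 4 ^ J) := by
    intro J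
    induction J with
    | zero =>
      have h1 := h N le_rfl
      rw [div_self hN.ne', mul_one] at h1
      rw [pow_zero, pow_zero, one_mul]
      refine (Finset.sum_le_sum fun n _ =>
        div_le_self (hf n) (one_le_pow₀ (by linarith [hu n]))).trans (by linarith)
    | succ J ih =>
      have hsub : sbox (2 ^ J * N) ⊆ sbox (2 ^ (J + 1) * N) := by
        intro n hn
        obtain ⟨h1, h2, h3⟩ := q_mem_sbox.1 hn
        refine q_mem_sbox.2 ⟨h1, h2, h3.trans ?_⟩
        rw [pow_succ]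
        have : (0 : ℝ) ≤ 2 ^ J * N := by positivity
        linarith
      rw [← Finset.sum_sdiff hsub]
      have h1 := h (2 ^ (J + 1) * N) (le_mul_of_one_le_left hN.le (one_le_pow₀ (by norm_num)))
      have h2 : ∑ n ∈ sbox (2 ^ (J + 1) * N) \ sbox (2 ^ J * N), f n / (1 + Nr n / N) ^ 4 ≤
          ∑ n ∈ sbox (2 ^ (J + 1) * N), f n / (2 ^ J) ^ 4 := by
        refine le_trans (Finset.sum_le_sum fun n hn => ?_)
          (Finset.sum_le_sum_of_subset_of_nonneg Finset.sdiff_subset fun n _ _ =>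
            div_nonneg (hf n) (by positivity))
        obtain ⟨h3, h4⟩ := Finset.mem_sdiff.1 hn
        obtain ⟨h5, h6, -⟩ := q_mem_sbox.1 h3
        have h7 : 2 ^ J * N ≤ Nr n := by
          by_contra h8
          exact h4 (q_mem_sbox.2 ⟨h5, h6, (not_le.1 h8).le⟩)
        have h8 : (2 : ℝ) ^ J ≤ 1 + Nr n / N := by
          have := (le_div_iff₀ hN).2 h7
          linarith
        exact div_le_div_of_nonneg_left (hf n) (by positivity)
          (pow_le_pow_left₀ (by positivity) h8 4)
      rw [← Finset.sum_div] at h2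
      have h3 : (∑ n ∈ sbox (2 ^ (J + 1) * N), f n) / (2 ^ J) ^ 4 ≤ E * N * (4 / 4 ^ J) := by
        refine (div_le_div_of_nonneg_right h1 (by positivity)).trans (le_of_eq ?_)
        rw [show (4 : ℝ) ^ J = (2 ^ J) ^ 2 by rw [← pow_mul, mul_comm, pow_mul]; norm_num, pow_succ 2 J]
        field_simp
        norm_num
      have h4 : E * N * (4 / 4 ^ J) + E * N * (7 - 6 / 4 ^ J) ≤ E * N * (7 - 6 / 4 ^ (J + 1)) := by
        rw [← mul_add]
        refine mul_le_mul_of_nonneg_left ?_ hEN
        have h5 : (6 : ℝ) / 4 ^ (J + 1) = 3 / 2 * (1 / 4 ^ J) := by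
          rw [pow_succ]
          field_simp
          norm_num
        have h6 : (0 : ℝ) ≤ 1 / 4 ^ J := by positivity
        rw [h5, div_eq_mul_one_div 4, div_eq_mul_one_div 6]
        linarith
      linarith
  have h0 : ∀ n : O, 0 ≤ (if Prim n ∧ Squarefree n then
      f n * W 8 (Nr n / N) * (1 + Nr n / N) ^ 2 else 0) := by
    intro n
    split_ifs
    · exact mul_nonneg (mul_nonneg (hf n) (W_pos _ _).le) (sq_nonneg _)
    · exact le_rfl
  have hT : ∀ T : Finset O, ∑ n ∈ T, (if Prim n ∧ Squarefree n then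
      f n * W 8 (Nr n / N) * (1 + Nr n / N) ^ 2 else 0) ≤ 7 * C * E * N := by
    intro T
    obtain ⟨J, hJ⟩ := pow_unbounded_of_one_lt ((∑ n ∈ T, Nr n) / N) (show (1 : ℝ) < 2 by norm_num)
    rw [div_lt_iff₀ hN] at hJ
    rw [← Finset.sum_filter]
    have hsub : T.filter (fun n => Prim n ∧ Squarefree n) ⊆ sbox (2 ^ J * N) := by
      intro n hn
      obtain ⟨h1, h2, h3⟩ := Finset.mem_filter.1 hn
      exact q_mem_sbox.2 ⟨h2, h3,
        (Finset.single_le_sum (fun m _ => Nr_nonneg m) h1).trans hJ.le⟩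
    calc ∑ n ∈ T.filter (fun n => Prim n ∧ Squarefree n), f n * W 8 (Nr n / N) * (1 + Nr n / N) ^ 2
        ≤ ∑ n ∈ sbox (2 ^ J * N), f n * W 8 (Nr n / N) * (1 + Nr n / N) ^ 2 :=
          Finset.sum_le_sum_of_subset_of_nonneg hsub fun n _ _ =>
            mul_nonneg (mul_nonneg (hf n) (W_pos _ _).le) (sq_nonneg _)
      _ ≤ ∑ n ∈ sbox (2 ^ J * N), C * (f n / (1 + Nr n / N) ^ 4) := by
          refine Finset.sum_le_sum fun n hn => ?_
          have h1 : 0 < Nr n / N := div_pos (Nr_pos (q_mem_sbox.1 hn).1.ne_zero) hN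
          have h2 : W 8 (Nr n / N) * (1 + Nr n / N) ^ 6 ≤ C := by
            refine le_trans (mul_le_mul_of_nonneg_left
              (pow_le_pow_left₀ (by positivity) ?_ 6) (W_pos _ _).le) (hW _ h1)
            have : 0 ≤ (Nr n / N)⁻¹ := by positivity
            linarith
          rw [← mul_div_assoc, le_div_iff₀ (by positivity)]
          calc f n * W 8 (Nr n / N) * (1 + Nr n / N) ^ 2 * (1 + Nr n / N) ^ 4
              = W 8 (Nr n / N) * (1 + Nr n / N) ^ 6 * f n := by ring
            _ ≤ C * f n := mul_le_mul_of_nonneg_right h2 (hf n)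
      _ ≤ C * (E * N * (7 - 6 / 4 ^ J)) := by
          rw [← Finset.mul_sum]
          exact mul_le_mul_of_nonneg_left (key J) hC
      _ ≤ C * (E * N * 7) := by
          have : (0 : ℝ) ≤ 6 / 4 ^ J := by positivity
          gcongr
          linarith
      _ = _ := by ring
  exact ⟨summable_of_sum_le h0 hT, Real.tsum_le_of_sum_le h0 hT⟩

theorem cheb_W : ∃ C : ℝ, 0 ≤ C ∧ ∀ N : ℝ, 0 < N →
    Summable (fun n : O => if Prim n then ‖Lp n‖ * W 8 (Nr n / N) * (1 + Nr n / N) ^ 2 else 0) ∧
    (∑' n : O, if Prim n then ‖Lp n‖ * W 8 (Nr n / N) * (1 + Nr n / N) ^ 2 else 0) ≤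
      C * N * min 1 N := by
  classical
  obtain ⟨C₁, hC₁, h1⟩ := cheb
  obtain ⟨C₂, hC₂, h2⟩ := tsum_W_of_count
  refine ⟨C₂ * C₁, by positivity, fun N hN => ?_⟩
  have hm : 0 ≤ min 1 N := le_min zero_le_one hN.le
  have h3 := h2 (fun n => ‖Lp n‖) (C₁ * min 1 N) N (fun n => norm_nonneg _) (by positivity) hN
    (fun y hy => by
      have hy0 : 0 < y := hN.trans_le hy
      rcases lt_or_ge y 1 with h | h
      · have : sbox y = ∅ := by
          rw [sbox, box_eq_empty h, Finset.filter_empty]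
        rw [this, Finset.sum_empty]
        positivity
      · refine (h1 y hy0.le).trans ?_
        have h4 : 1 ≤ min 1 N * (y / N) := by
          rcases le_total 1 N with h5 | h5
          · rw [min_eq_left h5, one_mul]
            exact (one_le_div hN).2 hy
          · rw [min_eq_right h5, mul_div_cancel₀ _ hN.ne']
            exact h
        calc C₁ * y ≤ C₁ * y * (min 1 N * (y / N)) := le_mul_of_one_le_right (by positivity) h4
          _ = _ := by ring)
  have e : (fun n : O => if Prim n then ‖Lp n‖ * W 8 (Nr n / N) * (1 + Nr n / N) ^ 2 else 0) =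
      fun n : O => if Prim n ∧ Squarefree n then
        ‖Lp n‖ * W 8 (Nr n / N) * (1 + Nr n / N) ^ 2 else 0 := by
    funext n
    by_cases h4 : Prim n
    · by_cases h5 : Squarefree n
      · simp only [h4, h5, and_self, if_true]
      · have h6 : Lp n = 0 := by
          unfold Lp
          exact if_neg fun h => h5 h.squarefree
        simp [h6]
    · simp only [h4, false_and, if_false]
  rw [e]
  refine ⟨by convert h3.1, le_trans (le_of_eq ?_) (h3.2.trans (le_of_eq (by ring)))⟩
  congr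

end Crest.Agent.R012

end
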