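import Crest.Agent.R012.Sv2a

/-! # Row 12: the sifting level -/

set_option autoImplicit false

noncomputable section

open scoped BigOperators ComplexConjugate Topology
open Complex MeasureTheory Filter Set Crest.Agent.R017

namespace Crest.Agent.R012

theorem dv_sqf {n : O} (hn : Prim n) (hs : Squarefree n) : dv n = 2 ^ (pf n).card := by
  have h : (pdiv n).card = (pf n).powerset.card := by
    refine Finset.card_nbij' pf (fun t => ∏ p ∈ t, p) ?_ ?_ ?_ ?_
    · intro e he
      obtain ⟨-, h2⟩ := (mem_pdiv hn.ne_zero).1 he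
      refine Finset.mem_coe.2 (Finset.mem_powerset.2 fun p hp => (mem_pf hn.ne_zero).2 ?_)
      exact ⟨(a1_of_mem_pf hp).1, (a1_of_mem_pf hp).2.trans h2⟩
    · intro t ht
      have ht' := Finset.mem_powerset.1 ht
      refine Finset.mem_coe.2 ((mem_pdiv hn.ne_zero).2 ⟨?_, ?_⟩)
      · exact Finset.prod_induction (fun p : O => p) Prim (fun _ _ => Prim.mul) prim_one
          fun p hp => a1_prim_of_mem_pf hn (ht' hp)
      · exact (Finset.prod_dvd_prod_of_subset _ _ _ ht').trans (rad_dvd hn.ne_zero)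
    · intro e he
      obtain ⟨h1, h2⟩ := (mem_pdiv hn.ne_zero).1 he
      exact rad_eq_self h1 (hs.squarefree_of_dvd h2)
    · intro t ht
      have ht' := Finset.mem_powerset.1 ht
      have h0 : ∏ p ∈ t, p ≠ 0 :=
        Finset.prod_ne_zero_iff.2 fun p hp => (a1_of_mem_pf (ht' hp)).1.1.ne_zero
      ext p
      rw [mem_pf h0]
      constructor
      · rintro ⟨hp, hd⟩
        obtain ⟨q, hq, hpq⟩ := (hp.1.dvd_finsetProd_iff _).1 hd
        have hq' := (a1_of_mem_pf (ht' hq)).1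
        rwa [hp.eq_of_associated hq' (hp.1.associated_of_dvd hq'.1 hpq)]
      · intro hp
        exact ⟨(a1_of_mem_pf (ht' hp)).1, Finset.dvd_prod_of_mem _ hp⟩
  rw [dv, h, Finset.card_powerset]
  push_cast
  rfl

theorem card_pf_rough {w : ℝ} (hw : 1 < w) {n : O} (hn : n ≠ 0) (hr : Rough w n) :
    ((pf n).card : ℝ) * Real.log w ≤ Real.log (Nr n) := by
  rw [← Real.log_pow]
  refine Real.log_le_log (by positivity) (le_trans ?_ (a2_prod_pf_le hn))
  rw [← Finset.prod_const]
  exact Finset.prod_le_prod (fun _ _ => by positivity)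
    fun p hp => (hr p (a1_of_mem_pf hp).1.1 (a1_of_mem_pf hp).2).le

theorem sv2_loglog {x : ℝ} (hx : 16 ≤ x) : 1 ≤ Real.log x ∧ 1 ≤ Real.log (Real.log x) := by
  have h1 : Real.log 16 ≤ Real.log x := Real.log_le_log (by norm_num) hx
  have h2 : Real.log 16 = 4 * Real.log 2 := by
    rw [show (16 : ℝ) = 2 ^ 4 by norm_num, Real.log_pow]
    norm_num
  have h3 := Real.log_two_gt_d9
  have h4 := Real.exp_one_lt_d9
  refine ⟨by linarith, ?_⟩
  rw [Real.le_log_iff_exp_le (by linarith)]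
  linarith

theorem ww_facts (K : ℝ) {ρ : ℝ} (hρ : 0 < ρ) : ∃ x₀ : ℝ, 16 ≤ x₀ ∧ ∀ x, x₀ ≤ x →
    3 ≤ ww x ∧ Real.exp (Real.sqrt (Real.log x)) ≤ ww x ∧ Real.log x ^ K ≤ ww x ∧ ww x ≤ x ^ ρ ∧
    Real.exp (Real.sqrt (1000 * Real.log x)) ≤ x ^ ρ ∧ Real.log x ^ K ≤ x ^ ρ := by
  have e1 : ∀ᶠ L : ℝ in atTop, K * Real.log L ≤ √L := by
    have h := (isLittleO_log_rpow_atTop (r := 1 / 2) (by norm_num)).const_mul_left K
    filter_upwards [h.bound one_pos, eventually_ge_atTop 0] with L h1 h2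
    rw [one_mul, Real.norm_eq_abs, Real.norm_eq_abs, ← Real.sqrt_eq_rpow,
      abs_of_nonneg (Real.sqrt_nonneg _)] at h1
    exact (le_abs_self _).trans h1
  have e2 : ∀ᶠ L : ℝ in atTop, 200 / ρ ≤ Real.log L :=
    Real.tendsto_log_atTop.eventually_ge_atTop _
  have e3 := Real.tendsto_log_atTop.eventually ((e1.and e2).and
    ((eventually_ge_atTop 4).and (eventually_ge_atTop (1000 / ρ ^ 2))))
  obtain ⟨x₀, hx₀⟩ := eventually_atTop.1 e3
  refine ⟨max 16 x₀, le_max_left _ _, fun x hx => ?_⟩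
  obtain ⟨⟨h1, h2⟩, h3, h4⟩ := hx₀ x ((le_max_right _ _).trans hx)
  have hx16 : 16 ≤ x := (le_max_left _ _).trans hx
  have hl := (sv2_loglog hx16).2
  have hxρ : x ^ ρ = Real.exp (Real.log x * ρ) := Real.rpow_def_of_pos (by linarith) _
  rw [hxρ, ww]
  generalize Real.log x = L at *
  have hL : 0 < L := by linarith
  have hs : √L * √L = L := Real.mul_self_sqrt hL.le
  have hs2 : 2 ≤ √L := Real.le_sqrt_of_sq_le (by linarith)
  have a1 : Real.log L ≤ 2 * √L := by
    have := Real.log_le_self (Real.sqrt_nonneg L)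
    rw [Real.log_sqrt hL.le] at this
    linarith
  have a2 : √L ≤ 200 * L / Real.log L := by
    rw [le_div_iff₀ (by linarith)]
    nlinarith
  have a3 : L ^ K ≤ Real.exp √L := by
    rw [Real.rpow_def_of_pos hL, mul_comm]
    exact Real.exp_le_exp.2 h1
  have a4 : 200 * L / Real.log L ≤ L * ρ := by
    rw [div_le_iff₀ hρ] at h2
    rw [div_le_iff₀ (by linarith)]
    nlinarith
  have b2 := Real.exp_le_exp.2 a2
  have b4 := Real.exp_le_exp.2 a4
  refine ⟨le_trans ?_ b2, b2, a3.trans b2, b4, Real.exp_le_exp.2 ?_, a3.trans (b2.trans b4)⟩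
  · linarith [Real.add_one_le_exp √L]
  · rw [div_le_iff₀ (by positivity)] at h4
    refine Real.sqrt_le_iff.2 ⟨by positivity, ?_⟩
    nlinarith

theorem log_div_ww {x : ℝ} (hx : 16 ≤ x) :
    Real.log x / Real.log (ww x) = Real.log (Real.log x) / 200 := by
  obtain ⟨h1, h2⟩ := sv2_loglog hx
  rw [ww, Real.log_exp]
  field_simp

/-- `2^{ω(n)} ≤ (log x)^{1/100}` for `N n ≤ x²`, and `dv n ≤ C √(N n) ≤ C N n / x` beyond. -/
theorem dv_rough : ∃ C : ℝ, 1 ≤ C ∧ ∀ x : ℝ, 16 ≤ x → ∀ n, Prim n → Squarefree n → Rough (ww x) n →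
    dv n ≤ C * Real.log x ^ (1 / 100 : ℝ) * (1 + Nr n / x) := by
  obtain ⟨C, hC⟩ := card_pdiv_le (ε := 1 / 2) (by norm_num)
  refine ⟨max 1 C, le_max_left _ _, fun x hx n hn hs hr => ?_⟩
  obtain ⟨h1, h2⟩ := sv2_loglog hx
  have hx0 : 0 < x := by linarith
  have hN := Nr_pos hn.ne_zero
  have hL : 1 ≤ Real.log x ^ (1 / 100 : ℝ) := Real.one_le_rpow h1 (by norm_num)
  have hm : 1 ≤ max 1 C := le_max_left _ _
  have hq : 0 < Nr n / x := by positivity
  rcases le_total (Nr n) (x ^ 2) with h | h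
  · have hlw : 0 < Real.log (ww x) := by
      rw [ww, Real.log_exp]
      positivity
    have hw : 1 < ww x := Real.one_lt_exp_iff.2 (by positivity)
    have h3 := card_pf_rough hw hn.ne_zero hr
    have h4 : Real.log (Nr n) ≤ 2 * Real.log x := by
      have := Real.log_le_log hN h
      rwa [Real.log_pow, Nat.cast_ofNat] at this
    have h5 := log_div_ww hx
    rw [div_eq_iff hlw.ne'] at h5
    have h6 : ((pf n).card : ℝ) ≤ Real.log (Real.log x) * (1 / 100) :=
      le_of_mul_le_mul_right (by nlinarith) hlw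
    have h7 : dv n ≤ Real.log x ^ (1 / 100 : ℝ) := by
      rw [dv_sqf hn hs, Real.rpow_def_of_pos (by linarith)]
      calc (2 : ℝ) ^ (pf n).card ≤ Real.exp 1 ^ (pf n).card := by
            gcongr
            linarith [Real.add_one_le_exp 1]
        _ = Real.exp ((pf n).card) := by rw [← Real.exp_nat_mul, mul_one]
        _ ≤ _ := Real.exp_le_exp.2 h6
    calc dv n ≤ 1 * Real.log x ^ (1 / 100 : ℝ) * 1 := by linarith
      _ ≤ _ := by
        gcongr
        linarith
  · have h3 : Nr n ^ (1 / 2 : ℝ) ≤ Nr n / x := by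
      rw [← Real.sqrt_eq_rpow, le_div_iff₀ hx0]
      have h4 : x ≤ √(Nr n) := Real.le_sqrt_of_sq_le h
      calc √(Nr n) * x ≤ √(Nr n) * √(Nr n) := by gcongr
        _ = _ := Real.mul_self_sqrt hN.le
    calc dv n ≤ C * Nr n ^ (1 / 2 : ℝ) := hC n hn.ne_zero
      _ ≤ max 1 C * Nr n ^ (1 / 2 : ℝ) := by
        gcongr
        exact le_max_right _ _
      _ ≤ max 1 C * 1 * (1 + Nr n / x) := by
        rw [mul_one]
        gcongr
        linarith
      _ ≤ _ := by gcongr

/-- `rough_count` and `tsum_W_of_count` (for `y > N²` use the trivial bound). -/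
theorem rough_W : ∃ C x₀ : ℝ, 0 ≤ C ∧ ∀ x N : ℝ, x₀ ≤ x → x ^ (1 / 10 : ℝ) ≤ N → N ≤ x ^ 2 →
    Summable (fun n : O => if Prim n then ‖rg (ww x) n‖ * W 8 (Nr n / N) * (1 + Nr n / N) ^ 2 else 0) ∧
    (∑' n : O, if Prim n then ‖rg (ww x) n‖ * W 8 (Nr n / N) * (1 + Nr n / N) ^ 2 else 0) ≤
      C * N * Real.log (Real.log x) ^ C / Real.log x := by
  classical
  obtain ⟨C₀, hC₀, hW⟩ := tsum_W_of_count
  obtain ⟨C, hC, hc⟩ := rough_count
  obtain ⟨x₀, hx₀, hf⟩ := ww_facts 1 (ρ := 1 / 10) (by norm_num)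
  refine ⟨C₀ * (10 * C + 25) + C, x₀, by positivity, fun x N hx hN1 hN2 => ?_⟩
  obtain ⟨f1, -, -, f4, -, f6⟩ := hf x hx
  have hx16 : 16 ≤ x := hx₀.trans hx
  obtain ⟨h1, h2⟩ := sv2_loglog hx16
  have hx0 : 0 < x := by linarith
  rw [Real.rpow_one] at f6
  have hN : 1 ≤ N := h1.trans (f6.trans hN1)
  have hN0 : 0 < N := by linarith
  have hℓ : 1 ≤ Real.log (Real.log x) ^ C := Real.one_le_rpow h2 hC
  have hlw : 0 < Real.log (ww x) := Real.log_pos (by linarith)
  have key := hW (fun n => ‖rg (ww x) n‖) ((10 * C + 25) * Real.log (Real.log x) ^ C / Real.log x) N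
    (fun n => norm_nonneg _) (by positivity) hN0 (fun y hy => ?_)
  · have e : (fun n : O => if Prim n then ‖rg (ww x) n‖ * W 8 (Nr n / N) * (1 + Nr n / N) ^ 2 else 0) =
        fun n : O => if Prim n ∧ Squarefree n then
          ‖rg (ww x) n‖ * W 8 (Nr n / N) * (1 + Nr n / N) ^ 2 else 0 := by
      funext n
      by_cases h : Squarefree n
      · simp [h]
      · simp [h, rg]
    rw [e]
    refine ⟨by convert key.1, le_trans (by convert key.2) ?_⟩
    have h3 : Real.log (Real.log x) ^ C ≤ Real.log (Real.log x) ^ (C₀ * (10 * C + 25) + C) :=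
      Real.rpow_le_rpow_of_exponent_le h2 (le_add_of_nonneg_left (by positivity))
    calc C₀ * ((10 * C + 25) * Real.log (Real.log x) ^ C / Real.log x) * N
        = (C₀ * (10 * C + 25)) * N * Real.log (Real.log x) ^ C / Real.log x := by ring
      _ ≤ _ := by
        gcongr
        linarith
  have hy0 : 0 < y := by linarith
  have hyN : 1 ≤ y / N := (one_le_div hN0).2 hy
  rcases le_total y (N ^ 2) with h | h
  · have a1 : Real.log x / 10 ≤ Real.log y := by
      have := Real.log_le_log (by positivity) (hN1.trans hy)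
      rw [Real.log_rpow hx0] at this
      linarith
    have a2 : Real.log y ≤ 4 * Real.log x := by
      have := Real.log_le_log hy0 (h.trans (pow_le_pow_left₀ hN0.le hN2 2))
      rw [← pow_mul, Real.log_pow] at this
      norm_num at this
      linarith
    have a3 : Real.log y / Real.log (ww x) ≤ Real.log (Real.log x) := by
      have h5 := log_div_ww hx16
      calc Real.log y / Real.log (ww x) ≤ 4 * Real.log x / Real.log (ww x) := by gcongr
        _ = 4 * (Real.log (Real.log x) / 200) := by rw [mul_div_assoc, h5]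
        _ ≤ _ := by linarith
    have a4 : 0 < Real.log y := by linarith
    calc ∑ n ∈ sbox y, ‖rg (ww x) n‖ ≤ _ := hc (ww x) y (by linarith) (f4.trans (hN1.trans hy))
      _ ≤ C * y * Real.log (Real.log x) ^ C / (Real.log x / 10) := by gcongr
      _ = (10 * C) * Real.log (Real.log x) ^ C / Real.log x * y * 1 := by
        field_simp
      _ ≤ _ := by
        gcongr
        linarith
  · have a1 : ∑ n ∈ sbox y, ‖rg (ww x) n‖ ≤ 25 * y := by
      calc ∑ n ∈ sbox y, ‖rg (ww x) n‖ ≤ ∑ _n ∈ sbox y, (1 : ℝ) :=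
            Finset.sum_le_sum fun n _ => by
              unfold rg
              split_ifs <;> simp
        _ = (sbox y).card := by simp
        _ ≤ (box y).card := by exact_mod_cast Finset.card_filter_le _ _
        _ ≤ _ := card_box_le hy0.le
    have a2 : Real.log x ≤ y / N := by
      rw [le_div_iff₀ hN0]
      nlinarith [f6.trans hN1]
    calc _ ≤ _ := a1
      _ = 25 * 1 / Real.log x * y * Real.log x := by field_simp
      _ ≤ _ := by
        gcongr
        linarith

open Classical in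
theorem smooth_tail (K : ℝ) : ∃ x₀ : ℝ, ∀ x y : ℝ, x₀ ≤ x →
    ∑ e ∈ (sbox y).filter (fun e => Smth (ww x) e ∧ x ^ (1 / 100 : ℝ) < Nr e), (Nr e)⁻¹ ≤
      (Real.log x ^ K)⁻¹ := by
  obtain ⟨C₀, hC₀, hr⟩ := rankin
  obtain ⟨C, hC, hr⟩ := hr (20000 * (|K| + C₀ + 1)) (by positivity)
  obtain ⟨x₀, hx₀, hf⟩ := ww_facts 1 (ρ := 1) one_pos
  refine ⟨max x₀ (Real.exp C), fun x y hx => ?_⟩
  obtain ⟨f1, -, -, f4, -, -⟩ := hf x ((le_max_left _ _).trans hx)
  have hx16 : 16 ≤ x := hx₀.trans ((le_max_left _ _).trans hx)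
  obtain ⟨h1, h2⟩ := sv2_loglog hx16
  have hx0 : 0 < x := by linarith
  have hCL : C ≤ Real.log x := (Real.le_log_iff_exp_le hx0).2 ((le_max_right _ _).trans hx)
  rw [Real.rpow_one] at f4
  have hlw : 0 < Real.log (ww x) := Real.log_pos (by linarith)
  refine (hr (ww x) (x ^ (1 / 100 : ℝ)) y f1 (Real.one_le_rpow (by linarith) (by norm_num))).trans ?_
  have a1 : Real.log (ww x) ≤ Real.log x := Real.log_le_log (by linarith) f4
  have a2 : Real.exp (-(20000 * (|K| + C₀ + 1) * Real.log (x ^ (1 / 100 : ℝ)) / Real.log (ww x))) =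
      Real.log x ^ (-(|K| + C₀ + 1)) := by
    rw [Real.log_rpow hx0, Real.rpow_def_of_pos (by linarith : 0 < Real.log x), mul_div_assoc,
      mul_div_assoc, log_div_ww hx16]
    congr 1
    ring
  rw [a2]
  have hL : 0 < Real.log x := by linarith
  calc C * Real.log (ww x) ^ C₀ * Real.log x ^ (-(|K| + C₀ + 1))
      ≤ Real.log x ^ (1 : ℝ) * Real.log x ^ C₀ * Real.log x ^ (-(|K| + C₀ + 1)) := by
        rw [Real.rpow_one]
        gcongr
    _ = Real.log x ^ (-|K|) := by
        rw [← Real.rpow_add hL, ← Real.rpow_add hL]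
        congr 1
        ring
    _ ≤ Real.log x ^ (-K) := Real.rpow_le_rpow_of_exponent_le h1 (neg_le_neg (le_abs_self K))
    _ = _ := Real.rpow_neg hL.le K

end Crest.Agent.R012

end
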