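import Crest.Agent.R012.Sv1

/-! # Row 12: rough and smooth elements, Rankin's trick -/

set_option autoImplicit false

noncomputable section

open scoped BigOperators ComplexConjugate Topology
open Complex MeasureTheory Filter Set Crest.Agent.R017

namespace Crest.Agent.R012

open Classical in
private theorem sv2a_norm_rg (w : ℝ) (m : O) :
    ‖rg w m‖ = if Squarefree m ∧ Rough w m then 1 else 0 := by
  unfold rg
  split_ifs <;> simp

private theorem sv2a_rg_mul (w : ℝ) (p k : O) : ‖rg w (p * k)‖ ≤ ‖rg w k‖ := by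
  classical
  rw [sv2a_norm_rg, sv2a_norm_rg]
  by_cases h : Squarefree (p * k) ∧ Rough w (p * k)
  · rw [if_pos h, if_pos ⟨h.1.squarefree_of_dvd (dvd_mul_left k p),
      fun q hq hqk => h.2 q hq (hqk.mul_left p)⟩]
  · rw [if_neg h]
    split_ifs <;> norm_num

private theorem sv2a_norm_Lp {p : O} (hp : Prime p) : ‖Lp p‖ = Real.log (Nr p) := by
  unfold Lp
  rw [if_pos hp, Complex.norm_real, Real.norm_of_nonneg (Real.log_nonneg (one_le_Nr hp.ne_zero))]

private theorem sv2a_mem {y : ℝ} {m p : O} (hm : m ∈ sbox y) (hp : p ∈ pf m) :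
    p ∈ sbox y ∧ Prime p ∧ p ∣ m := by
  obtain ⟨h1, -, h3⟩ := q_mem_sbox.1 hm
  obtain ⟨h4, h5⟩ := a1_of_mem_pf hp
  exact ⟨q_mem_sbox.2 ⟨a1_prim_of_mem_pf h1 hp, h4.1.squarefree,
    (Nr_le_of_dvd h1.ne_zero h5).trans h3⟩, h4.1, h5⟩

open Classical in
private theorem sv2a_log {y : ℝ} {m : O} (hm : m ∈ sbox y) :
    Real.log (Nr m) ≤ ∑ p ∈ (sbox y).filter (fun p => p ∣ m), ‖Lp p‖ := by
  obtain ⟨h1, h2, -⟩ := q_mem_sbox.1 hm
  have e : Real.log (Nr m) = ∑ p ∈ pf m, ‖Lp p‖ := by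
    conv_lhs => rw [← rad_eq_self h1 h2, rad, Nr_prod]
    rw [Real.log_prod fun p hp => (Nr_pos (sv2a_mem hm hp).2.1.ne_zero).ne']
    exact Finset.sum_congr rfl fun p hp => (sv2a_norm_Lp (sv2a_mem hm hp).2.1).symm
  rw [e]
  exact Finset.sum_le_sum_of_subset_of_nonneg
    (fun p hp => Finset.mem_filter.2 ⟨(sv2a_mem hm hp).1, (sv2a_mem hm hp).2.2⟩)
    fun _ _ _ => norm_nonneg _

open Classical in
private theorem sv2a_mult (w : ℝ) {y : ℝ} {p : O} (hp : p ∈ sbox y) :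
    ∑ m ∈ (sbox y).filter (fun m => p ∣ m), ‖rg w m‖ ≤
      ∑ k ∈ (sbox y).filter (fun k => Nr p ≤ y / Nr k), ‖rg w k‖ := by
  obtain ⟨h1, -, -⟩ := q_mem_sbox.1 hp
  have hsub : (sbox y).filter (fun m => p ∣ m) ⊆
      ((sbox y).filter (fun k => Nr p ≤ y / Nr k)).image fun k => p * k := by
    intro m hm
    obtain ⟨hm1, k, rfl⟩ := Finset.mem_filter.1 hm
    obtain ⟨h2, h3, h4⟩ := q_mem_sbox.1 hm1
    have hk := h1.of_mul h2
    refine Finset.mem_image.2 ⟨k, Finset.mem_filter.2 ⟨q_mem_sbox.2 ⟨hk,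
      h3.squarefree_of_dvd (dvd_mul_left k p),
      (Nr_le_of_dvd h2.ne_zero (dvd_mul_left k p)).trans h4⟩, ?_⟩, rfl⟩
    rw [le_div_iff₀ (Nr_pos hk.ne_zero), ← Nr_mul]
    exact h4
  refine (Finset.sum_le_sum_of_subset_of_nonneg hsub fun _ _ _ => norm_nonneg _).trans ?_
  rw [Finset.sum_image fun a _ b _ h => mul_left_cancel₀ h1.ne_zero h]
  exact Finset.sum_le_sum fun k _ => sv2a_rg_mul w p k

theorem rough_harm : ∃ C : ℝ, 0 ≤ C ∧ ∀ w y : ℝ, 2 ≤ w → w ≤ y →
    ∑ m ∈ sbox y, ‖rg w m‖ / Nr m ≤ C * (Real.log y / Real.log w) ^ C := by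
  classical
  obtain ⟨C, hC, h⟩ := mertens2
  refine ⟨Real.exp C, (Real.exp_pos C).le, fun w y hw hwy => ?_⟩
  have hlw : 0 < Real.log w := Real.log_pos (by linarith)
  have hL : 1 ≤ Real.log y / Real.log w :=
    (one_le_div hlw).2 (Real.log_le_log (by linarith) hwy)
  have h1 := sum_sqf_le_exp ((sbox y).filter fun p => Prime p ∧ w < Nr p)
    ((sbox y).filter fun m => Rough w m) 1 fun n hn => by
      obtain ⟨hn1, hn2⟩ := Finset.mem_filter.1 hn
      refine ⟨(q_mem_sbox.1 hn1).1, (q_mem_sbox.1 hn1).2.1, fun p hp => ?_⟩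
      obtain ⟨a, b, c⟩ := sv2a_mem hn1 hp
      exact Finset.mem_filter.2 ⟨a, b, hn2 p b c⟩
  simp only [Real.rpow_neg_one] at h1
  have h2 : ∑ m ∈ sbox y, ‖rg w m‖ / Nr m = ∑ m ∈ (sbox y).filter (fun m => Rough w m), (Nr m)⁻¹ := by
    rw [Finset.sum_filter]
    refine Finset.sum_congr rfl fun m hm => ?_
    rw [sv2a_norm_rg]
    by_cases hr : Rough w m
    · rw [if_pos ⟨(q_mem_sbox.1 hm).2.1, hr⟩, if_pos hr, one_div]
    · rw [if_neg fun h => hr h.2, if_neg hr, zero_div]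
  rw [h2]
  refine h1.trans ((Real.exp_le_exp.2 (h w y hw hwy)).trans ?_)
  rw [mul_add, mul_one, Real.exp_add, mul_comm C, ← Real.rpow_def_of_pos (by linarith)]
  exact mul_le_mul_of_nonneg_left (Real.rpow_le_rpow_of_exponent_le hL
    (by linarith [Real.add_one_le_exp C])) (Real.exp_pos C).le

/-- `log N n = ∑_{p ∣ n} log N p`, `cheb`, `rough_harm`; the elements of norm `≤ √y` trivially. -/
theorem rough_count : ∃ C : ℝ, 0 ≤ C ∧ ∀ w y : ℝ, 2 ≤ w → w ≤ y →
    ∑ m ∈ sbox y, ‖rg w m‖ ≤ C * y * (Real.log y / Real.log w) ^ C / Real.log y := by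
  classical
  obtain ⟨C, hC, h⟩ := rough_harm
  obtain ⟨D, hD, hch⟩ := cheb
  refine ⟨(D + 1) * C, by positivity, fun w y hw hwy => ?_⟩
  have hlw : 0 < Real.log w := Real.log_pos (by linarith)
  have hy : 0 < y := by linarith
  have hly : 0 < Real.log y := Real.log_pos (by linarith)
  have hL : 1 ≤ Real.log y / Real.log w :=
    (one_le_div hlw).2 (Real.log_le_log (by linarith) hwy)
  rw [le_div_iff₀ hly]
  have h1 : ∑ m ∈ sbox y, ‖rg w m‖ * Real.log (Nr m) ≤
      D * y * ∑ m ∈ sbox y, ‖rg w m‖ / Nr m := by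
    calc ∑ m ∈ sbox y, ‖rg w m‖ * Real.log (Nr m)
        ≤ ∑ m ∈ sbox y, ∑ p ∈ sbox y, if p ∣ m then ‖rg w m‖ * ‖Lp p‖ else 0 := by
          refine Finset.sum_le_sum fun m hm => ?_
          rw [← Finset.sum_filter, ← Finset.mul_sum]
          exact mul_le_mul_of_nonneg_left (sv2a_log hm) (norm_nonneg _)
      _ = ∑ p ∈ sbox y, (∑ m ∈ (sbox y).filter (fun m => p ∣ m), ‖rg w m‖) * ‖Lp p‖ := by
          rw [Finset.sum_comm]
          refine Finset.sum_congr rfl fun p _ => ?_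
          rw [← Finset.sum_filter, Finset.sum_mul]
      _ ≤ ∑ p ∈ sbox y, (∑ k ∈ (sbox y).filter (fun k => Nr p ≤ y / Nr k), ‖rg w k‖) * ‖Lp p‖ :=
          Finset.sum_le_sum fun p hp =>
            mul_le_mul_of_nonneg_right (sv2a_mult w hp) (norm_nonneg _)
      _ = ∑ p ∈ sbox y, ∑ k ∈ sbox y, if Nr p ≤ y / Nr k then ‖rg w k‖ * ‖Lp p‖ else 0 := by
          refine Finset.sum_congr rfl fun p _ => ?_
          rw [← Finset.sum_filter, Finset.sum_mul]
      _ = ∑ k ∈ sbox y, ‖rg w k‖ * ∑ p ∈ (sbox y).filter (fun p => Nr p ≤ y / Nr k), ‖Lp p‖ := by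
          rw [Finset.sum_comm]
          refine Finset.sum_congr rfl fun k _ => ?_
          rw [← Finset.sum_filter, Finset.mul_sum]
      _ ≤ ∑ k ∈ sbox y, D * y * (‖rg w k‖ / Nr k) := by
          refine Finset.sum_le_sum fun k hk => ?_
          have hk0 := Nr_pos (q_mem_sbox.1 hk).1.ne_zero
          have h2 : ∑ p ∈ (sbox y).filter (fun p => Nr p ≤ y / Nr k), ‖Lp p‖ ≤ D * (y / Nr k) := by
            refine le_trans (Finset.sum_le_sum_of_subset_of_nonneg (fun p hp => ?_)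
              fun _ _ _ => norm_nonneg _) (hch (y / Nr k) (by positivity))
            obtain ⟨hp1, hp2⟩ := Finset.mem_filter.1 hp
            exact q_mem_sbox.2 ⟨(q_mem_sbox.1 hp1).1, (q_mem_sbox.1 hp1).2.1, hp2⟩
          refine (mul_le_mul_of_nonneg_left h2 (norm_nonneg _)).trans (le_of_eq ?_)
          ring
      _ = _ := by rw [Finset.mul_sum]
  have h2 : (∑ m ∈ sbox y, ‖rg w m‖) * Real.log y ≤
      ∑ m ∈ sbox y, ‖rg w m‖ * Real.log (Nr m) + y * ∑ m ∈ sbox y, ‖rg w m‖ / Nr m := by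
    rw [Finset.sum_mul, Finset.mul_sum, ← Finset.sum_add_distrib]
    refine Finset.sum_le_sum fun m hm => ?_
    have hm0 := Nr_pos (q_mem_sbox.1 hm).1.ne_zero
    have h3 : Real.log y ≤ Real.log (Nr m) + y / Nr m := by
      have := Real.log_le_sub_one_of_pos (div_pos hy hm0)
      rw [Real.log_div hy.ne' hm0.ne'] at this
      linarith
    refine (mul_le_mul_of_nonneg_left h3 (norm_nonneg _)).trans (le_of_eq ?_)
    ring
  have h3 : ∑ m ∈ sbox y, ‖rg w m‖ / Nr m ≤ C * (Real.log y / Real.log w) ^ ((D + 1) * C) :=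
    (h w y hw hwy).trans (mul_le_mul_of_nonneg_left
      (Real.rpow_le_rpow_of_exponent_le hL (by nlinarith)) hC)
  calc _ ≤ (D + 1) * y * ∑ m ∈ sbox y, ‖rg w m‖ / Nr m := by linarith
    _ ≤ (D + 1) * y * (C * (Real.log y / Real.log w) ^ ((D + 1) * C)) :=
        mul_le_mul_of_nonneg_left h3 (by positivity)
    _ = _ := by ring

open Classical in
/-- Rankin's trick with the exponent `1 - κ / log w`; `p^η - 1 ≤ η e^κ log p`. -/
theorem rankin : ∃ C₀ : ℝ, 0 ≤ C₀ ∧ ∀ κ : ℝ, 0 < κ → ∃ C : ℝ, 0 ≤ C ∧ ∀ w E y : ℝ, 3 ≤ w → 1 ≤ E →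
    ∑ e ∈ (sbox y).filter (fun e => Smth w e ∧ E < Nr e), (Nr e)⁻¹ ≤
      C * Real.log w ^ C₀ * Real.exp (-(κ * Real.log E / Real.log w)) := by
  obtain ⟨C1, hC1, h1⟩ := mertens1
  obtain ⟨C2, hC2, h2⟩ := mertens2
  refine ⟨C2, hC2, fun κ hκ => ⟨Real.exp (C2 + 2 * κ * Real.exp κ * C1) * (Real.log 2)⁻¹ ^ C2,
    by have := Real.log_pos (show (1 : ℝ) < 2 by norm_num); positivity, fun w E y hw hE => ?_⟩⟩
  have hl2 : 0 < Real.log 2 := Real.log_pos (by norm_num)
  have hlw : 1 ≤ Real.log w := by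
    rw [Real.le_log_iff_exp_le (by linarith)]
    linarith [Real.exp_one_lt_d9]
  have hlw0 : 0 < Real.log w := by linarith
  set η := κ / Real.log w with hη
  have hη0 : 0 < η := div_pos hκ hlw0
  set P := (sbox w).filter fun p => Prime p ∧ 2 < Nr p with hP
  have h3 := sum_sqf_le_exp P ((sbox y).filter fun e => Smth w e ∧ E < Nr e) (1 - η) fun n hn => by
    obtain ⟨hn1, hn2, -⟩ := Finset.mem_filter.1 hn
    refine ⟨(q_mem_sbox.1 hn1).1, (q_mem_sbox.1 hn1).2.1, fun p hp => ?_⟩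
    obtain ⟨a, b, c⟩ := sv2a_mem hn1 hp
    exact Finset.mem_filter.2 ⟨q_mem_sbox.2 ⟨(q_mem_sbox.1 a).1, (q_mem_sbox.1 a).2.1,
      hn2 p b c⟩, b, by linarith [three_le_Nr_prime b]⟩
  have h4 : ∑ e ∈ (sbox y).filter (fun e => Smth w e ∧ E < Nr e), (Nr e)⁻¹ ≤
      (∑ e ∈ (sbox y).filter (fun e => Smth w e ∧ E < Nr e), Nr e ^ (-(1 - η))) *
        Real.exp (-(κ * Real.log E / Real.log w)) := by
    rw [Finset.sum_mul]
    refine Finset.sum_le_sum fun e he => ?_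
    obtain ⟨-, -, he3⟩ := Finset.mem_filter.1 he
    have he0 : 0 < Nr e := by linarith
    have hl : Real.log E ≤ Real.log (Nr e) := Real.log_le_log (by linarith) he3.le
    rw [Real.rpow_def_of_pos he0, ← Real.exp_add, ← Real.exp_log (inv_pos.2 he0), Real.log_inv,
      Real.exp_le_exp, mul_div_right_comm, ← hη]
    nlinarith
  have h5 : ∑ p ∈ P, Nr p ^ (-(1 - η)) ≤
      ∑ p ∈ P, (Nr p)⁻¹ + η * Real.exp κ * ∑ p ∈ P, ‖Lp p‖ / Nr p := by
    rw [Finset.mul_sum, ← Finset.sum_add_distrib]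
    refine Finset.sum_le_sum fun p hp => ?_
    obtain ⟨hp1, hp2, hp3⟩ := Finset.mem_filter.1 hp
    have hp0 : 0 < Nr p := by linarith
    have hlp : 0 ≤ Real.log (Nr p) := Real.log_nonneg (by linarith)
    have hlpw : Real.log (Nr p) ≤ Real.log w := Real.log_le_log hp0 (q_mem_sbox.1 hp1).2.2
    have hx : η * Real.log (Nr p) ≤ κ := by
      rw [hη, div_mul_eq_mul_div, div_le_iff₀ hlw0]
      exact mul_le_mul_of_nonneg_left hlpw hκ.le
    have hx0 : 0 ≤ η * Real.log (Nr p) := by positivity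
    have he : Real.exp (η * Real.log (Nr p)) ≤ 1 + η * Real.log (Nr p) * Real.exp κ := by
      have a1 := Real.add_one_le_exp (-(η * Real.log (Nr p)))
      have a2 : Real.exp (η * Real.log (Nr p)) * Real.exp (-(η * Real.log (Nr p))) = 1 := by
        rw [← Real.exp_add, add_neg_cancel, Real.exp_zero]
      have a3 := Real.exp_le_exp.2 hx
      have a4 := Real.exp_pos (η * Real.log (Nr p))
      nlinarith [mul_le_mul_of_nonneg_left a1 a4.le, mul_le_mul_of_nonneg_left a3 hx0]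
    rw [sv2a_norm_Lp hp2, neg_sub, Real.rpow_sub hp0, Real.rpow_one, Real.rpow_def_of_pos hp0,
      mul_comm (Real.log (Nr p))]
    refine (div_le_div_of_nonneg_right he hp0.le).trans (le_of_eq ?_)
    ring
  have h6 : ∑ p ∈ P, ‖Lp p‖ / Nr p ≤ C1 * (1 + Real.log w) := by
    have := h1 1 w one_pos (by linarith)
    rw [div_one] at this
    refine le_trans (Finset.sum_le_sum_of_subset_of_nonneg (fun p hp => ?_)
      fun p _ _ => div_nonneg (norm_nonneg _) (Nr_nonneg p)) this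
    obtain ⟨hp1, -, hp3⟩ := Finset.mem_filter.1 hp
    exact Finset.mem_filter.2 ⟨hp1, by linarith⟩
  have h7 : η * Real.exp κ * ∑ p ∈ P, ‖Lp p‖ / Nr p ≤ 2 * κ * Real.exp κ * C1 := by
    refine (mul_le_mul_of_nonneg_left h6 (by positivity)).trans ?_
    have e : η * Real.log w = κ := by rw [hη]; field_simp
    have a : η * (1 + Real.log w) ≤ 2 * κ := by nlinarith
    calc η * Real.exp κ * (C1 * (1 + Real.log w)) = η * (1 + Real.log w) * (Real.exp κ * C1) := by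
          ring
      _ ≤ 2 * κ * (Real.exp κ * C1) := mul_le_mul_of_nonneg_right a (by positivity)
      _ = _ := by ring
  have h8 := h2 2 w le_rfl (by linarith)
  refine h4.trans (mul_le_mul_of_nonneg_right (h3.trans ?_) (Real.exp_pos _).le)
  refine (Real.exp_le_exp.2 (h5.trans (add_le_add h8 h7))).trans (le_of_eq ?_)
  rw [mul_assoc (Real.exp _), ← Real.mul_rpow (inv_pos.2 hl2).le hlw0.le,
    Real.rpow_def_of_pos (mul_pos (inv_pos.2 hl2) hlw0), ← Real.exp_add, inv_mul_eq_div]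
  congr 1
  ring

end Crest.Agent.R012

end
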