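import Crest.Agent.R012.TDefs

/-! # Row 12: the weights `Bs`, `Bd` -/

set_option autoImplicit false

noncomputable section

open scoped BigOperators ComplexConjugate Topology
open Complex MeasureTheory Filter Set Crest.Agent.R017 Crest.Agent.R017.Theta

namespace Crest.Agent.R012

theorem ta1_om : IsUnit om := isUnit_iff.2 (by simp)

theorem ta1_u3 : IsUnit (-om ^ 2) := (ta1_om.pow 2).neg

theorem ta1_three : (3 : O) = -om ^ 2 * lam ^ 2 := by decide

theorem ta1_cop_sq3 {j : O} (hj : Prim j) : IsCoprime j sq3 := by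
  have := a2t_cop hj ta1_om 1
  rwa [pow_one, ← sq3_eq] at this

theorem ta1_kap3 (n : O) : kap n 3 = kap n sq3 ^ 2 := by
  rw [← kap_pow_right n sq3 (by norm_num), sq3_sq, kap_neg_right]

theorem ta1_kap9 (n : O) : kap n 9 = kap n sq3 ^ 4 := by
  rw [show (9 : O) = 3 * 3 by norm_num, kap_mul_right, ta1_kap3]
  ring

theorem ta1_cube {n : O} (hn : Prim n) : kap n sq3 ^ 3 = 1 := kap_cube (gt_kap_sq3_ne hn)

theorem ta1_conj_g3 {n : O} (hn : Prim n) (hs : Squarefree n) :
    kap n sq3 * conj (g3 n) = conj (gt n) := by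
  rw [g3_eq hn hs, map_mul, ← mul_assoc, mul_comm (kap n sq3), g1_conj_mul (norm_kap_sq3 hn),
    one_mul]

theorem ta1_rc {n : O} (hn : ¬ lam ∣ n) (x : O) : conj (rc n x) * rc n x = 1 := by
  refine g1_conj_mul ?_
  have := congrArg norm (rc_cube hn x)
  rw [norm_pow, norm_one] at this
  exact (pow_eq_one_iff_of_nonneg (norm_nonneg _) (by norm_num)).1 this

theorem ta1_prim_iff {x y : O} (h : (3 : O) ∣ x - y) : Prim x ↔ Prim y :=
  ⟨fun hx => ch_prim_congr dvd_rfl (by simpa using h.neg_right) hx,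
    fun hy => ch_prim_congr dvd_rfl h hy⟩

theorem tg_eq {n j : O} (hn : Prim n) (hs : Squarefree n) (hj : Prim j) :
    tg (n * j ^ 3) = (‖emb j‖ : ℂ) * conj (gt n) := by
  rw [tg, tau_eq hn hs hj, a2t_kap_cube hn hj (ta1_cop_sq3 hj), ← ta1_conj_g3 hn hs]
  ring

theorem tg_eq_zero {N : O} (hN : Prim N)
    (h : ¬ ∃ n j : O, Prim n ∧ Squarefree n ∧ Prim j ∧ N = n * j ^ 3) : tg N = 0 := by
  rw [tg, tau_eq_zero hN h, mul_zero]

theorem tg_one : tg 1 = 1 := by
  have := tg_eq prim_one squarefree_one prim_one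
  simpa [gt_one] using this

theorem norm_tg_le {N : O} (hN : Prim N) : ‖tg N‖ ≤ Nr N ^ (1 / 6 : ℝ) := by
  by_cases h : ∃ n j : O, Prim n ∧ Squarefree n ∧ Prim j ∧ N = n * j ^ 3
  · obtain ⟨n, j, hn, hs, hj, rfl⟩ := h
    rw [tg_eq hn hs hj, norm_mul, RCLike.norm_conj, norm_gt hn hs, mul_one, Complex.norm_real,
      norm_norm, norm_emb, Nr_mul, Nr_pow, Real.sqrt_eq_rpow]
    have h0 := Nr_nonneg j
    have h1 := one_le_Nr hn.ne_zero
    calc Nr j ^ (1 / 2 : ℝ) = (Nr j ^ 3) ^ (1 / 6 : ℝ) := by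
          rw [← Real.rpow_natCast, ← Real.rpow_mul h0]
          norm_num
      _ ≤ _ := Real.rpow_le_rpow (by positivity) (le_mul_of_one_le_left (by positivity) h1)
          (by norm_num)
  · rw [tg_eq_zero hN h, norm_zero]
    exact Real.rpow_nonneg (Nr_nonneg N) _

open Classical in
/-- At most one term is non-zero (`cube_unique`). -/
theorem tg_eq_sum {N : O} (hN : Prim N) :
    tg N = ∑ j ∈ pdiv N, if j ^ 3 ∣ N then (‖emb j‖ : ℂ) * conj (gt (N / j ^ 3)) else 0 := by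
  rw [tg, tau, pdiv, Finset.sum_filter, Finset.mul_sum]
  refine Finset.sum_congr rfl fun j _ => ?_
  by_cases h : Prim j ∧ j ^ 3 ∣ N
  · obtain ⟨hj, m, rfl⟩ := h
    have hm : Prim m := (hj.pow 3).of_mul hN
    rw [if_pos ⟨hj, dvd_mul_right _ _⟩,
      if_pos ⟨hj, (dvd_pow_self j (by norm_num)).mul_right _⟩, if_pos (dvd_mul_right _ _),
      mul_div_cancel_left₀ _ (hj.pow 3).ne_zero, tau0]
    by_cases hs : Squarefree m
    · rw [if_pos hs, mul_comm (j ^ 3), a2t_kap_cube hm hj (ta1_cop_sq3 hj), ← ta1_conj_g3 hm hs]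
      ring
    · rw [if_neg hs, gt_of_not hs]
      simp
  · rw [if_neg h, mul_zero]
    split_ifs with h1 h2
    · exact absurd ⟨h1.1, h2⟩ h
    · rfl
    · rfl

theorem per_Bs : Per Bs := by
  refine ⟨fun x => ?_, fun x y h => ?_⟩
  · rw [Bs]
    split_ifs
    · simp [norm_eO]
    · rw [norm_mul, norm_eO, one_mul, RCLike.norm_conj]
      exact norm_rc_le _ _
    · simp
  · have h1 := s1t_three_nine.trans h.1
    have h2 := s1t_three_nine.trans h.2
    simp only [Bs]
    by_cases hx : Prim x.1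
    · rw [if_pos hx, if_pos ((ta1_prim_iff h1).1 hx),
        eO_congr (x := -x.2) (y := -y.2) (by rw [neg_sub_neg]; simpa using h2.neg_right),
        s1t_rc_per hx.not_lam_dvd h.1, s1t_rc_congr _ h2]
      by_cases hl : lam ∣ x.2
      · rw [if_pos hl, if_pos ((s1t_lam_congr h2).1 hl)]
      · rw [if_neg hl, if_neg fun h' => hl ((s1t_lam_congr h2).2 h')]
    · rw [if_neg hx, if_neg fun hy => hx ((ta1_prim_iff h1).2 hy)]

theorem per_Bd : Per Bd := by
  refine ⟨fun x => ?_, fun x y h => ?_⟩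
  · rw [Bd]
    split_ifs
    · simp [norm_eO]
    · simp
  · have h1 := s1t_three_nine.trans h.1
    have h2 := s1t_three_nine.trans h.2
    simp only [Bd]
    rw [eO_congr (x := -x.1) (y := -y.1) (by rw [neg_sub_neg]; simpa using h1.neg_right)]
    simp only [ta1_prim_iff (x := -x.2) (y := -y.2)
      (by rw [neg_sub_neg]; simpa using h2.neg_right)]

theorem cf_Bs (c d : O) : cf Bs (c, d) = if Prim c then eO (-d) 3 * kap c d else 0 := by
  simp only [cf, Bs, sy, sym, Cop]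
  by_cases hc : Prim c
  · simp only [if_pos hc]
    by_cases h : IsCoprime c d
    · rw [if_pos h]
      by_cases hd : lam ∣ d
      · simp only [if_pos hd, mul_one]
      · simp only [if_neg hd]
        rw [kap_recip hc hd]
        linear_combination eO (-d) 3 * kap c d * ta1_rc hc.not_lam_dvd d
    · rw [if_neg h, (kap_eq_zero hc.ne_zero).2 (Or.inr h), mul_zero]
  · simp only [if_neg hc, zero_mul, ite_self]

theorem cf_Bd (c d : O) : cf Bd (c, d) = if Prim (-d) then eO (-c) 3 * kap d c else 0 := by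
  simp only [cf, Bd, sy, sym, Cop]
  by_cases hd : Prim (-d)
  · have h1 : ¬ lam ∣ d := fun h => hd.not_lam_dvd h.neg_right
    simp only [if_pos hd, if_neg h1]
    by_cases h : IsCoprime c d
    · rw [if_pos h]
    · rw [if_neg h, (kap_eq_zero (s1t_ne_zero h1)).2 (Or.inr fun h' => h h'.symm), mul_zero]
  · simp only [if_neg hd, zero_mul, ite_self]

theorem op_Bs {n : O} (hn : Prim n) : Op n Bs = Bs := by
  funext ⟨c, d⟩
  simp only [Op, Bs, rc']
  by_cases hc : Prim c
  · have h3 : (3 : O) ∣ -(n ^ 2 * d) - -d := by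
      obtain ⟨t, ht⟩ := hn.pow 2
      exact ⟨-(t * d), by linear_combination (-d) * ht⟩
    rw [if_pos (hn.mul hc), if_pos hc, eO_congr h3]
    by_cases hd : lam ∣ d
    · rw [if_pos (hd.mul_left _), if_pos hd, if_pos hd, s1t_rc_of_dvd hn.not_lam_dvd hd, rc,
        un_prim hc, kap_one_right hn.not_lam_dvd]
      simp
    · rw [if_neg (fun h => hd ((s1t_lam_mul (hn.pow 2) d).1 h)), if_neg hd, if_neg hd,
        s1t_rc_prim_mul _ (hn.pow 2), s1t_rc_mul hn.ne_zero hc.ne_zero, map_mul]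
      linear_combination eO (-d) 3 * conj (rc c d) * ta1_rc hn.not_lam_dvd d
  · rw [if_neg hc, if_neg fun h => hc (hn.of_mul h), zero_mul, zero_mul]

open Classical in
/-- `d = 9 x + c y` (`sum_reps_crt`, `sum_reps_eO`). -/
theorem Ac_Bs (c h : O) :
    Ac Bs c h = if Prim c ∧ (9 : O) ∣ h - 3 then 81 * kap c 9 * gs (kap c) c h else 0 := by
  by_cases hc : Prim c
  · have hper := g1_per (n := 9 * c) (f := fun d => cf Bs (c, d))
      (fun x y hxy => per_Bs.wt.cf_per hxy hc.ne_zero) dvd_rfl h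
    rw [Ac, gs, sum_reps_crt ga_nine hc.ne_zero (a2t_cop9 hc).symm _ hper]
    have e : ∀ x y : O, cf Bs (c, x * c + y * 9) * eO (h * (x * c + y * 9)) (9 * c) =
        eO ((h - 3) * x) 9 * (kap c 9 * (kap c y * eO (h * y) c)) := by
      intro x y
      have e1 : eO (-(x * c + y * 9)) 3 = eO (-(3 * x)) 9 := by
        obtain ⟨t, ht⟩ := hc
        rw [eO_congr (y := -x) ⟨-(x * t) - 3 * y, by linear_combination (-x) * ht⟩,
          ← eO_mul_cancel (c := 3) (by decide) (-x) 3]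
        congr 1
        ring
      have e2 : kap c (x * c + y * 9) = kap c 9 * kap c y := by
        rw [← kap_mul_right]
        exact kap_congr' hc.ne_zero ⟨x, by ring⟩
      have e3 : eO (h * (x * c + y * 9)) (9 * c) = eO (h * x) 9 * eO (h * y) c := by
        rw [← eO_mul_cancel hc.ne_zero (h * x) 9, ← eO_mul_cancel ga_nine (h * y) c,
          mul_comm c 9, ← eO_add]
        congr 1
        ring
      have e4 : eO ((h - 3) * x) 9 = eO (-(3 * x)) 9 * eO (h * x) 9 := by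
        rw [← eO_add]
        congr 1
        ring
      rw [cf_Bs, if_pos hc, e1, e2, e3, e4]
      ring
    simp only [e, ← Finset.mul_sum, ← Finset.sum_mul]
    rw [sum_reps_eO ga_nine, ga_Nr_nine, gs]
    by_cases h9 : (9 : O) ∣ h - 3
    · rw [if_pos h9, if_pos ⟨hc, h9⟩]
      push_cast
      ring
    · rw [if_neg h9, if_neg fun h' => h9 h'.2, zero_mul]
  · rw [if_neg fun h' => hc h'.1, Ac, gs]
    simp only [cf_Bs, if_neg hc, zero_mul, Finset.sum_const_zero]

/-- For `h` a unit times a power of `λ` (both sides vanish for non-squarefree `n`: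
`gs_tower`-type vanishing). -/
theorem gs_kap_ul {n u : O} (hn : Prim n) (hu : IsUnit u) (k : ℕ) :
    gs (kap n) n (u * lam ^ k) =
      conj (kap n (u * lam ^ k)) * kap n sq3 * gt n * (Real.sqrt (Nr n) : ℂ) := by
  by_cases hs : Squarefree n
  · have h0 : (Real.sqrt (Nr n) : ℂ) ≠ 0 :=
      Complex.ofReal_ne_zero.2 (Real.sqrt_pos.2 (Nr_pos hn.ne_zero)).ne'
    rw [gt_gs hn hs, mul_assoc (conj _), ← g3_eq hn hs, g3, mul_assoc, div_mul_cancel₀ _ h0]
  · rw [gt_of_not hs, mul_zero, zero_mul]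
    rw [squarefree_iff_no_irreducibles hn.ne_zero] at hs
    push Not at hs
    obtain ⟨p, hp, m, rfl⟩ := hs
    have hp' : Prime p := hp.prime
    have hm : m ≠ 0 := right_ne_zero_of_mul hn.ne_zero
    have h1 : ¬ p ∣ u * lam ^ k := hp'.coprime_iff_not_dvd.1
      ((a2t_cop hn hu k).of_isCoprime_of_dvd_left ⟨p * m, by ring⟩)
    have h2 : ∀ x y, p * m ∣ x - y → kap (p * p * m) x = kap (p * p * m) y := fun x y hxy => by
      rw [mul_assoc, kap_mul_left hp'.ne_zero (mul_ne_zero hp'.ne_zero hm),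
        kap_mul_left hp'.ne_zero (mul_ne_zero hp'.ne_zero hm),
        kap_congr' (mul_ne_zero hp'.ne_zero hm) hxy,
        kap_congr' hp'.ne_zero ((dvd_mul_right p m).trans hxy)]
    have h3 := gs_tower (mul_ne_zero hp'.ne_zero hm) hp'.ne_zero h2 (u * lam ^ k)
    rw [if_neg h1, show p * m * p = p * p * m by ring] at h3
    exact h3

theorem Ac_Bs_three (c : O) :
    Ac Bs c 3 = if Prim c then 81 * gt c * (Real.sqrt (Nr c) : ℂ) else 0 := by
  rw [Ac_Bs]
  by_cases hc : Prim c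
  · have h1 := gs_kap_ul hc ta1_u3 2
    rw [← ta1_three] at h1
    rw [if_pos ⟨hc, by simp⟩, if_pos hc, h1, conj_kap, ta1_kap3, ta1_kap9]
    have h2 : kap c sq3 ^ 9 = 1 := by
      rw [show 9 = 3 * 3 from rfl, pow_mul, ta1_cube hc, one_pow]
    linear_combination 81 * gt c * (Real.sqrt (Nr c) : ℂ) * h2
  · rw [if_neg fun h => hc h.1, if_neg hc]

theorem Tc_eq_zero {B : O × O → ℂ} {h : O} (hB : ∀ c, c ≠ 0 → Ac B c h = 0) : Tc B h = 0 := by
  have h1 : Sm (fun c => Ac B c h) F0 = fun _ => 0 := by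
    funext t
    rw [Sm]
    have : ∀ c : O, (if c = 0 then 0 else Ac B c h * F0 (t * Nr c)) = 0 := fun c => by
      split_ifs with hc
      · rfl
      · rw [hB c hc, zero_mul]
    simp only [this, tsum_zero, mul_zero]
  rw [Tc, rs, h1, tendsto_const_nhds.limUnder_eq, zero_div, zero_mul]

/-- `Tc_formula` and `Tc_support` with `3 = -ω² λ²`. -/
theorem Tc_three_mul {B : O × O → ℂ} (hB : Per B) (hop : ∀ n, Prim n → Op n B = B) {N : O}
    (hN : Prim N) : Tc B (3 * N) = tg N * Tc B 3 := by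
  by_cases h : ∃ n j : O, Prim n ∧ Squarefree n ∧ Prim j ∧ N = n * j ^ 3
  · obtain ⟨n, j, hn, hs, hj, rfl⟩ := h
    have h1 := Tc_formula hn hs hj hB ta1_u3 2
    rw [hop n hn, ← ta1_three] at h1
    rw [h1, tg, a2t_kap_cube hn hj (ta1_cop_sq3 hj), conj_kap, ta1_kap3, ta1_kap9]
    have h2 : kap n sq3 ^ 9 = 1 := by
      rw [show 9 = 3 * 3 from rfl, pow_mul, ta1_cube hn, one_pow]
    linear_combination kap n sq3 * tau (n * j ^ 3) * Tc B 3 * h2
  · have h1 := Tc_support hB 2 ta1_u3 hN h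
    rw [← ta1_three] at h1
    rw [h1, tg_eq_zero hN h, zero_mul]

theorem norm_Tc_ul_mul {B : O × O → ℂ} (hB : Per B) (hop : ∀ n, Prim n → Op n B = B) {u N : O}
    (hu : IsUnit u) (k : ℕ) (hN : Prim N) :
    ‖Tc B (u * lam ^ k * N)‖ ≤ Nr N ^ (1 / 6 : ℝ) * ‖Tc B (u * lam ^ k)‖ := by
  by_cases h : ∃ n j : O, Prim n ∧ Squarefree n ∧ Prim j ∧ N = n * j ^ 3
  · obtain ⟨n, j, hn, hs, hj, rfl⟩ := h
    have h1 := Tc_formula hn hs hj hB hu k
    rw [hop n hn] at h1
    have h2 := norm_tg_le hN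
    rw [tg, norm_mul, norm_kap_sq3 hN, one_mul] at h2
    have h3 := norm_kap_le n 9
    have h4 := norm_kap_le n (u * lam ^ k)
    rw [h1, norm_mul, norm_mul, norm_mul, RCLike.norm_conj]
    calc _ ≤ 1 * 1 * Nr (n * j ^ 3) ^ (1 / 6 : ℝ) * ‖Tc B (u * lam ^ k)‖ := by gcongr
      _ = _ := by ring
  · rw [Tc_support hB k hu hN h, norm_zero]
    exact mul_nonneg (Real.rpow_nonneg (Nr_nonneg N) _) (norm_nonneg _)

theorem Tc_Bs_of_not {h : O} (hh : ¬ (9 : O) ∣ h - 3) : Tc Bs h = 0 := by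
  exact Tc_eq_zero fun c _ => by rw [Ac_Bs, if_neg fun h' => hh h'.2]

/-- Sums against a function supported on `h ≡ 3 mod 9`. -/
theorem tsum_three {f : O → ℂ} (hf : ∀ h, ¬ (9 : O) ∣ h - 3 → f h = 0) :
    ∑' h : O, f h = ∑' N : O, if Prim N then f (3 * N) else 0 := by
  have h3 : (3 : O) ≠ 0 := by decide
  rw [← (mul_right_injective₀ h3).tsum_eq (f := f)]
  · refine tsum_congr fun N => ?_
    split_ifs with hN
    · rfl
    · refine hf _ fun ⟨t, ht⟩ => hN ⟨t, mul_left_cancel₀ h3 ?_⟩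
      linear_combination ht
  · intro h hh
    by_contra hr
    refine hh (hf h fun ⟨t, ht⟩ => hr ⟨1 + 3 * t, ?_⟩)
    linear_combination -ht

theorem ta1_key {a b q d₀ c d : O} (hdet : a * d₀ - b * q = 1)
    (hd : (9 : O) ∣ d₀) (hq : Prim q) (hb : Prim (-b)) (hc : Prim c) (hcop : IsCoprime (-b) d) :
    kap (c * b + d * d₀) (c * a + d * q) = kap c d * kap q d₀ := by
  have hcb : Prim (c * -b) := hc.mul hb
  have h9 : (9 : O) ∣ c * -b - -(c * b + d * d₀) := by
    rw [show c * -b - -(c * b + d * d₀) = d * d₀ by ring]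
    exact hd.mul_left d
  have hD : Prim (-(c * b + d * d₀)) := r1_prim_congr hcb h9
  have e0 : kap (c * b + d * d₀) (c * a + d * q) = kap (-(c * b + d * d₀)) (c * a + d * q) :=
    kap_associated (Associated.refl _).neg_right _
  have e1 : kap (-(c * b + d * d₀)) (-b * (c * a + d * q)) = kap (-(c * b + d * d₀)) d :=
    kap_congr' hD.ne_zero ⟨a, by linear_combination d * hdet⟩
  have e2 : kap (-(c * b + d * d₀)) (-b) = kap (-b) d * kap (-b) d₀ := by
    rw [cubic_recip hD hb, kap_neg_right, ← kap_mul_right]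
    exact kap_congr' hb.ne_zero ⟨-c, by ring⟩
  have e3 : kap (-(c * b + d * d₀)) d = kap c d * kap (-b) d := by
    rw [← kap_per9 hcb.not_lam_dvd h9 ⟨d₀, by ring⟩, kap_mul_left hc.ne_zero hb.ne_zero]
  have e4 : kap (-b) d₀ * kap q d₀ = 1 := by
    have h1 : -b * q - 1 = -a * d₀ := by linear_combination hdet
    rw [← kap_mul_left hb.ne_zero hq.ne_zero,
      kap_per9 (n' := 1) (hb.mul hq).not_lam_dvd (h1 ▸ hd.mul_left _) (h1 ▸ dvd_mul_left _ _),
      kap_unit_left isUnit_one]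
  have e5 : kap (-b) d ≠ 0 := a2t_kap_ne hb hcop
  rw [kap_mul_right, e2, e3] at e1
  rw [e0]
  apply mul_left_cancel₀ e5
  linear_combination kap q d₀ * e1 -
    kap (-b) d * kap (-(c * b + d * d₀)) (c * a + d * q) * e4

/-- The transformation of the symbol.  With `(c', d') = (c a + d q, c b + d d₀)` one has
`(c'/d') = (d/c)(d₀/q)`.  By `sy_ra` one may replace `(c, d)` by a congruent row modulo `9` with
`c` prime to `d₀` (`ch_lift` modulo `9 d`; the case `d₀ = 0` forces `q = 1`, `b = -1`); then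
`c' d₀ ≡ c mod d'`, `cubic_recip`, and `kap_per9` for `(d₀/d') = (d₀/c b)`, `(d₀/b q) = 1`. -/
theorem cf_Bs_ra {a b q d₀ : O} (hdet : a * d₀ - b * q = 1) (ha : (9 : O) ∣ a) (hd : (9 : O) ∣ d₀)
    (hq : Prim q) (x : O × O) :
    cf Bs x = conj (kap q d₀) * cf Bd (ra x (mkSG a b q d₀ hdet)) := by
  obtain ⟨c, d⟩ := x
  have hra : ∀ d : O, ra (c, d) (mkSG a b q d₀ hdet) = (c * a + d * q, c * b + d * d₀) :=
    fun _ => rfl
  have hb : Prim (-b) := by
    refine hq.of_mul (r1_prim_of_nine ?_)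
    rw [show q * -b - 1 = -a * d₀ by linear_combination hdet]
    exact hd.mul_left _
  have hP : ∀ d : O, Prim (-(c * b + d * d₀)) ↔ Prim c := fun d => by
    refine ta1_prim_iff ?_
    obtain ⟨t, ht⟩ := hb
    obtain ⟨s, hs⟩ := hd
    exact ⟨c * t - 3 * d * s, by linear_combination c * ht - d * hs⟩
  have he : eO (-(c * a + d * q)) 3 = eO (-d) 3 := by
    obtain ⟨t, ht⟩ := hq
    obtain ⟨s, hs⟩ := ha
    exact eO_congr ⟨-(3 * c * s) - d * t, by linear_combination (-c) * hs - d * ht⟩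
  by_cases hx : Cop (c, d)
  swap
  · rw [cf, cf, if_neg hx, if_neg fun h => hx ((cop_ra _).1 h), mul_zero]
  rw [hra, cf_Bs, cf_Bd, he]
  by_cases hc : Prim c
  swap
  · rw [if_neg hc, if_neg fun h => hc ((hP d).1 h), mul_zero]
  rw [if_pos hc, if_pos ((hP d).2 hc)]
  obtain ⟨ι, s, hs⟩ : IsCoprime 9 (-b * c) := (a2t_cop9 (hb.mul hc)).symm
  have hι : IsCoprime ι c := ⟨9, s * -b, by linear_combination hs⟩
  obtain ⟨n', ⟨t, ht⟩, hn'⟩ := ch_lift (q := c) hb.ne_zero (hι.mul_left (IsCoprime.symm hx))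
  have hcop : IsCoprime (-b) (d + 9 * (c * t)) := by
    have h1 : d + 9 * (c * t) = 9 * n' + -b * (s * c * d) := by
      linear_combination (-9) * ht - d * hs
    rw [h1]
    exact ((a2t_cop9 hb).mul_right hn'.symm).add_mul_left_right _
  have hy : Cop (c, d + 9 * (c * t)) := by
    have h1 : d + 9 * (c * t) = d + c * (9 * t) := by ring
    rw [Cop, h1]
    exact (show IsCoprime c d from hx).add_mul_left_right _
  have h1 := sy_ra hx hy ⟨by simp, ⟨-(c * t), by ring⟩⟩ (mkSG a b q d₀ hdet)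
  have h2 : sy (c, d + 9 * (c * t)) = sy (c, d) :=
    sym_per ⟨c * t, by ring⟩ ⟨9 * t, by ring⟩
  have h3 : sy (c, d) ≠ 0 := fun h => by simpa [h] using norm_sy hx
  rw [h2, mul_comm, hra, hra] at h1
  have h4 := mul_left_cancel₀ h3 h1
  have h5 : ∀ d : O, ¬ lam ∣ c * b + d * d₀ := fun d h =>
    ((hP d).2 hc).not_lam_dvd h.neg_right
  simp only [sy, sym, if_neg (h5 _)] at h4
  have h6 : IsCoprime q d₀ := ⟨-b, a, by linear_combination hdet⟩
  rw [h4, ta1_key hdet hd hq hb hc hcop,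
    kap_congr' (x := d + 9 * (c * t)) (y := d) hc.ne_zero ⟨9 * t, by ring⟩]
  linear_combination (-(eO (-d) 3 * kap c d)) * g1_conj_mul (norm_kap (a2t_kap_ne hq h6))

theorem cf_Bs_S (x : O × O) : cf Bs x = 1 * cf Bd (ra x gS) := by
  obtain ⟨c, d⟩ := x
  rw [ra_gS, cf_Bs, cf_Bd, neg_neg, one_mul, kap_associated (Associated.refl c).neg_left]

end Crest.Agent.R012

end
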