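import Crest.Agent.R012.TA2

/-! # Row 12: angular derivatives along a geodesic -/

set_option autoImplicit false

noncomputable section

open scoped BigOperators ComplexConjugate Topology
open Complex MeasureTheory Filter Set Crest.Agent.R017 Crest.Agent.R017.Theta

namespace Crest.Agent.R012

/-- The angular Fourier coefficients of the additive character. -/
def Af (k : ℤ) (y : ℂ) : ℂ :=
  (1 / (2 * Real.pi) : ℂ) * ∫ φ in (0 : ℝ)..(2 * Real.pi),
    ec (y * Complex.exp (φ * I)) * Complex.exp (-(k * φ * I))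

/-- `ec y = exp (c₀ (y - conj y))`. -/
theorem ec_eq_exp (y : ℂ) : ec y = Complex.exp (c0 * (y - conj y)) := by
  rw [Complex.sub_conj]
  unfold ec c0
  congr 1
  push_cast
  ring

/-- The leading term. -/
def Al (k : ℤ) (y : ℂ) : ℂ :=
  if 0 ≤ k then (c0 * y) ^ k.natAbs / (k.natAbs.factorial : ℂ)
  else (-(c0 * conj y)) ^ k.natAbs / (k.natAbs.factorial : ℂ)

theorem TC_taylor (n : ℕ) : ∃ C : ℝ, 0 ≤ C ∧ ∀ x : ℂ, ‖Complex.exp x‖ = 1 →
    ‖Complex.exp x - ∑ j ∈ Finset.range n, x ^ j / (j.factorial : ℂ)‖ ≤ C * ‖x‖ ^ n := by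
  refine ⟨Real.exp 1 + 1 + n, by positivity, fun x hx => ?_⟩
  have he := Real.exp_pos 1
  have hp : 0 ≤ ‖x‖ ^ n := by positivity
  rcases le_total ‖x‖ 1 with h | h
  · refine (Complex.norm_exp_sub_sum_le_norm_mul_exp x n).trans ?_
    have h1 : Real.exp ‖x‖ ≤ Real.exp 1 := Real.exp_le_exp.2 h
    have h2 : (0 : ℝ) ≤ n := Nat.cast_nonneg n
    nlinarith
  · have h1 : 1 ≤ ‖x‖ ^ n := one_le_pow₀ h
    have h2 : ‖∑ j ∈ Finset.range n, x ^ j / (j.factorial : ℂ)‖ ≤ n * ‖x‖ ^ n := by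
      refine (norm_sum_le _ _).trans ?_
      have : ∀ j ∈ Finset.range n, ‖x ^ j / (j.factorial : ℂ)‖ ≤ ‖x‖ ^ n := by
        intro j hj
        rw [norm_div, norm_pow, Complex.norm_natCast]
        refine (div_le_self (by positivity) ?_).trans
          (pow_le_pow_right₀ h (Finset.mem_range.1 hj).le)
        exact_mod_cast Nat.factorial_pos j
      simpa using Finset.sum_le_card_nsmul _ _ _ this
    refine (norm_sub_le _ _).trans ?_
    rw [hx]
    nlinarith

theorem TC_orth (n : ℤ) : (1 / (2 * Real.pi) : ℂ) * ∫ φ in (0 : ℝ)..(2 * Real.pi),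
    Complex.exp (n * I * φ) = if n = 0 then 1 else 0 := by
  have hpi : (Real.pi : ℂ) ≠ 0 := by exact_mod_cast Real.pi_ne_zero
  split_ifs with h
  · subst h
    simp only [Int.cast_zero, zero_mul, Complex.exp_zero, intervalIntegral.integral_const,
      sub_zero, Complex.real_smul, mul_one]
    push_cast
    field_simp
  · rw [integral_exp_mul_complex (mul_ne_zero (by exact_mod_cast h) Complex.I_ne_zero)]
    have : Complex.exp (n * I * ((2 * Real.pi : ℝ) : ℂ)) = 1 := by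
      rw [← Complex.exp_int_mul_two_pi_mul_I n]
      congr 1
      push_cast
      ring
    rw [this]
    simp

theorem TC_pow (a b : ℂ) (k : ℤ) (j : ℕ) :
    (1 / (2 * Real.pi) : ℂ) * ∫ φ in (0 : ℝ)..(2 * Real.pi),
      (a * Complex.exp (φ * I) + b * Complex.exp (-(φ * I))) ^ j * Complex.exp (-(k * φ * I)) =
      ∑ i ∈ Finset.range (j + 1), a ^ i * b ^ (j - i) * (j.choose i : ℂ) *
        if (2 * i - j - k : ℤ) = 0 then 1 else 0 := by
  have e : ∀ φ : ℝ,
      (a * Complex.exp (φ * I) + b * Complex.exp (-(φ * I))) ^ j * Complex.exp (-(k * φ * I)) =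
      ∑ i ∈ Finset.range (j + 1), a ^ i * b ^ (j - i) * (j.choose i : ℂ) *
        Complex.exp (((2 * i - j - k : ℤ) : ℂ) * I * φ) := by
    intro φ
    rw [add_pow, Finset.sum_mul]
    refine Finset.sum_congr rfl fun i hi => ?_
    have hi' : i ≤ j := Nat.lt_succ_iff.1 (Finset.mem_range.1 hi)
    have : Complex.exp (((2 * i - j - k : ℤ) : ℂ) * I * φ) = Complex.exp (φ * I) ^ i *
        Complex.exp (-(φ * I)) ^ (j - i) * Complex.exp (-(k * φ * I)) := by
      rw [← Complex.exp_nat_mul, ← Complex.exp_nat_mul, ← Complex.exp_add, ← Complex.exp_add]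
      congr 1
      push_cast [Nat.cast_sub hi']
      ring
    rw [this, mul_pow, mul_pow]
    ring
  simp only [e]
  rw [intervalIntegral.integral_finsetSum (fun i _ => by
    apply Continuous.intervalIntegrable
    fun_prop), Finset.mul_sum]
  refine Finset.sum_congr rfl fun i _ => ?_
  rw [intervalIntegral.integral_const_mul, mul_left_comm, TC_orth]

theorem TC_pow_lt (a b : ℂ) (k : ℤ) {j : ℕ} (hj : j < k.natAbs) :
    (1 / (2 * Real.pi) : ℂ) * ∫ φ in (0 : ℝ)..(2 * Real.pi),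
      (a * Complex.exp (φ * I) + b * Complex.exp (-(φ * I))) ^ j * Complex.exp (-(k * φ * I)) =
      0 := by
  rw [TC_pow]
  refine Finset.sum_eq_zero fun i hi => ?_
  have := Finset.mem_range.1 hi
  rw [if_neg (by omega), mul_zero]

theorem TC_pow_top (a b : ℂ) (k : ℤ) :
    (1 / (2 * Real.pi) : ℂ) * ∫ φ in (0 : ℝ)..(2 * Real.pi),
      (a * Complex.exp (φ * I) + b * Complex.exp (-(φ * I))) ^ k.natAbs *
        Complex.exp (-(k * φ * I)) = if 0 ≤ k then a ^ k.natAbs else b ^ k.natAbs := by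
  rw [TC_pow]
  split_ifs with h
  · rw [Finset.sum_eq_single k.natAbs]
    · rw [if_pos (by omega)]
      simp
    · intro i hi hne
      have := Finset.mem_range.1 hi
      rw [if_neg (by omega), mul_zero]
    · intro hn
      exact absurd (Finset.mem_range.2 (Nat.lt_succ_self _)) hn
  · rw [Finset.sum_eq_single 0]
    · rw [if_pos (by omega)]
      simp
    · intro i hi hne
      have := Finset.mem_range.1 hi
      rw [if_neg (by omega), mul_zero]
    · intro hn
      exact absurd (Finset.mem_range.2 (Nat.succ_pos _)) hn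

theorem TC_norm_exp (k : ℤ) (φ : ℝ) : ‖Complex.exp (-(k * φ * I))‖ = 1 := by
  rw [← Complex.norm_exp_ofReal_mul_I (-(k * φ))]
  congr 2
  push_cast
  ring

theorem TC_norm_avg {f : ℝ → ℂ} {C : ℝ} (h : ∀ φ, ‖f φ‖ ≤ C) :
    ‖(1 / (2 * Real.pi) : ℂ) * ∫ φ in (0 : ℝ)..(2 * Real.pi), f φ‖ ≤ C := by
  have hpi := Real.pi_pos
  have h1 := intervalIntegral.norm_integral_le_of_norm_le_const (a := 0) (b := 2 * Real.pi)
    (f := f) (C := C) fun φ _ => h φ
  rw [sub_zero, abs_of_pos (by positivity)] at h1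
  have h2 : ‖(1 / (2 * Real.pi) : ℂ)‖ = 1 / (2 * Real.pi) := by
    rw [norm_div, norm_one, norm_mul, Complex.norm_real, Real.norm_of_nonneg hpi.le]
    simp
  rw [norm_mul, h2, div_mul_eq_mul_div, one_mul, div_le_iff₀ (by positivity)]
  exact h1

/-- Taylor expansion of `exp (i x)` for real `x` to order `m + 1`, `m = |k|`, and orthogonality:
the power `(y e^{iφ} - conj y e^{-iφ})^j`, `j ≤ m`, contains `e^{ikφ}` only for `j = m`. -/
theorem Af_sub_le (k : ℤ) : ∃ C : ℝ, 0 ≤ C ∧ ∀ y : ℂ, ‖Af k y - Al k y‖ ≤ C * ‖y‖ ^ (k.natAbs + 1) := by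
  obtain ⟨C, hC0, hC⟩ := TC_taylor (k.natAbs + 1)
  have hc := c0_pos
  refine ⟨C * (2 * c0) ^ (k.natAbs + 1), by positivity, fun y => ?_⟩
  set a : ℂ := c0 * y with ha
  set b : ℂ := -(c0 * conj y) with hb
  set X : ℝ → ℂ := fun φ => a * Complex.exp (φ * I) + b * Complex.exp (-(φ * I)) with hX
  have hXc : Continuous X := by rw [hX]; fun_prop
  have hec : ∀ φ : ℝ, ec (y * Complex.exp (φ * I)) = Complex.exp (X φ) := by
    intro φ
    rw [ec_eq_exp, map_mul, ← Complex.exp_conj, map_mul, Complex.conj_ofReal, Complex.conj_I]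
    congr 1
    simp only [hX, ha, hb, mul_neg]
    ring
  have hXn : ∀ φ : ℝ, ‖X φ‖ ≤ 2 * c0 * ‖y‖ := by
    intro φ
    have h1 : ‖Complex.exp (φ * I)‖ = 1 := Complex.norm_exp_ofReal_mul_I φ
    have h2 : ‖Complex.exp (-(φ * I))‖ = 1 := by rw [Complex.exp_neg, norm_inv, h1, inv_one]
    refine (norm_add_le _ _).trans ?_
    rw [norm_mul a, norm_mul b, h1, h2, ha, hb, norm_neg, norm_mul, norm_mul, Complex.norm_conj,
      Complex.norm_real, Real.norm_of_nonneg hc.le]
    linarith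
  have hAl : Al k y = (1 / (2 * Real.pi) : ℂ) * ∫ φ in (0 : ℝ)..(2 * Real.pi),
      (∑ j ∈ Finset.range (k.natAbs + 1), X φ ^ j / (j.factorial : ℂ)) *
        Complex.exp (-(k * φ * I)) := by
    have e : ∀ (φ : ℝ) (j : ℕ), X φ ^ j / (j.factorial : ℂ) * Complex.exp (-(k * φ * I)) =
        X φ ^ j * Complex.exp (-(k * φ * I)) / (j.factorial : ℂ) := fun φ j =>
      div_mul_eq_mul_div _ _ _
    simp only [Finset.sum_mul, e]
    rw [intervalIntegral.integral_finsetSum (fun j _ => by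
      apply Continuous.intervalIntegrable
      fun_prop), Finset.mul_sum, Finset.sum_range_succ, Finset.sum_eq_zero, zero_add]
    · rw [intervalIntegral.integral_div, ← mul_div_assoc, TC_pow_top a b k, Al]
      split_ifs <;> rfl
    · intro j hj
      rw [intervalIntegral.integral_div, ← mul_div_assoc,
        TC_pow_lt a b k (Finset.mem_range.1 hj), zero_div]
  rw [hAl, Af, ← mul_sub, ← intervalIntegral.integral_sub
    (by apply Continuous.intervalIntegrable; simp only [hec]; fun_prop)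
    (by apply Continuous.intervalIntegrable; fun_prop)]
  refine TC_norm_avg fun φ => ?_
  rw [← sub_mul, norm_mul, TC_norm_exp, mul_one, hec]
  refine (hC _ (by rw [← hec, norm_ec])).trans ?_
  rw [mul_assoc, ← mul_pow]
  gcongr
  exact hXn φ

theorem TC_flip (f : ℂ → ℂ) (k : ℤ) :
    ∫ φ in (0 : ℝ)..(2 * Real.pi), f (Complex.exp (-(φ * I))) * Complex.exp (-(k * φ * I)) =
      ∫ φ in (0 : ℝ)..(2 * Real.pi),
        f (Complex.exp (φ * I)) * Complex.exp (-(((-k : ℤ) : ℂ) * φ * I)) := by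
  have h := intervalIntegral.integral_comp_sub_left (a := 0) (b := 2 * Real.pi)
    (fun φ : ℝ => f (Complex.exp (φ * I)) * Complex.exp (-(((-k : ℤ) : ℂ) * φ * I)))
    (2 * Real.pi)
  rw [sub_self, sub_zero] at h
  rw [← h]
  refine intervalIntegral.integral_congr fun φ _ => ?_
  have h1 : Complex.exp (((2 * Real.pi - φ : ℝ) : ℂ) * I) = Complex.exp (-(φ * I)) := by
    rw [← one_mul (Complex.exp (-(φ * I))), ← Complex.exp_two_pi_mul_I, ← Complex.exp_add]
    congr 1
    push_cast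
    ring
  have h2 : Complex.exp (-(((-k : ℤ) : ℂ) * ((2 * Real.pi - φ : ℝ) : ℂ) * I)) =
      Complex.exp (-(k * φ * I)) := by
    rw [← one_mul (Complex.exp (-(k * φ * I))), ← Complex.exp_int_mul_two_pi_mul_I k,
      ← Complex.exp_add]
    congr 1
    push_cast
    ring
  simp only [h1, h2]

theorem Af_conj (k : ℤ) (y : ℂ) :
    (1 / (2 * Real.pi) : ℂ) * ∫ φ in (0 : ℝ)..(2 * Real.pi),
      ec (y * Complex.exp (-(φ * I))) * Complex.exp (-(k * φ * I)) = Af (-k) y := by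
  rw [TC_flip (fun z => ec (y * z)) k, Af]

/-- Termwise integration. -/
theorem Th_angular {B : O × O → ℂ} (hB : Per B) (k : ℤ) (z₀ ζ : ℂ) {v : ℝ} (hv : 0 < v) :
    (1 / (2 * Real.pi) : ℂ) * ∫ φ in (0 : ℝ)..(2 * Real.pi),
      Th B (z₀ + ζ * Complex.exp (φ * I), v) * Complex.exp (-(k * φ * I)) =
      ∑' c : O, if c = 0 then 0 else th B c v * eh c z₀ * Af k (emb c * ζ / 9) := by
  have hs := intervalIntegral.hasSum_integral_of_dominated_convergence (μ := volume)
    (a := 0) (b := 2 * Real.pi)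
    (F := fun (c : O) (φ : ℝ) => (if c = 0 then 0 else
      th B c v * eh c (z₀ + ζ * Complex.exp (φ * I))) * Complex.exp (-(k * φ * I)))
    (f := fun φ : ℝ => Th B (z₀ + ζ * Complex.exp (φ * I), v) * Complex.exp (-(k * φ * I)))
    (fun c _ => ‖if c = 0 then 0 else th B c v‖)
    (fun c => by
      apply Continuous.aestronglyMeasurable
      have := continuous_eh c
      split_ifs <;> fun_prop)
    (fun c => ae_of_all _ fun φ _ => by
      rw [norm_mul, TC_norm_exp, mul_one]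
      split_ifs
      · exact le_rfl
      · rw [norm_mul, norm_eh, mul_one])
    (ae_of_all _ fun φ _ => summable_th hB hv) intervalIntegrable_const
    (ae_of_all _ fun φ _ => (m2t_summable hB hv _).hasSum.mul_right _)
  rw [← hs.tsum_eq, ← tsum_mul_left]
  refine tsum_congr fun c => ?_
  split_ifs
  · simp
  · rw [Af, mul_left_comm (th B c v * eh c z₀),
      ← intervalIntegral.integral_const_mul (th B c v * eh c z₀)]
    congr 1
    refine intervalIntegral.integral_congr fun φ _ => ?_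
    simp only [eh_add]
    have : eh c (ζ * Complex.exp (φ * I)) = ec (emb c * ζ / 9 * Complex.exp (φ * I)) := by
      unfold eh
      congr 1
      ring
    rw [this]
    ring

theorem TC_Al_smul (k : ℤ) (s : ℝ) (y : ℂ) : Al k (s * y) = (s : ℂ) ^ k.natAbs * Al k y := by
  unfold Al
  split_ifs
  · rw [mul_left_comm, mul_pow, mul_div_assoc]
  · rw [map_mul, Complex.conj_ofReal, mul_left_comm, ← mul_neg, mul_pow, mul_div_assoc]

theorem TC_Al_cont (k : ℤ) : Continuous (Al k) := by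
  unfold Al
  split_ifs <;> fun_prop

theorem TC_norm_Al (k : ℤ) (y : ℂ) : ‖Al k y‖ ≤ (c0 * ‖y‖) ^ k.natAbs := by
  have hc := c0_pos
  have h1 : (1 : ℝ) ≤ (k.natAbs.factorial : ℝ) := by exact_mod_cast Nat.factorial_pos _
  unfold Al
  split_ifs
  · rw [norm_div, norm_pow, norm_mul, Complex.norm_real, Real.norm_of_nonneg hc.le,
      Complex.norm_natCast]
    exact div_le_self (by positivity) h1
  · rw [norm_div, norm_pow, norm_neg, norm_mul, Complex.norm_conj, Complex.norm_real,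
      Real.norm_of_nonneg hc.le, Complex.norm_natCast]
    exact div_le_self (by positivity) h1

/-- Dominated convergence. -/
theorem Th_cone {B : O × O → ℂ} (hB : Per B) (k : ℤ) (z₀ ξ : ℂ) {v : ℝ → ℝ} {v₀ : ℝ} (hv₀ : 0 < v₀)
    (hv : Tendsto v (𝓝[>] 0) (𝓝 v₀)) :
    Tendsto (fun s : ℝ => (∑' c : O, if c = 0 then 0 else
        th B c (v s) * eh c z₀ * Af k (emb c * (s * v s * ξ) / 9)) / (s : ℂ) ^ k.natAbs) (𝓝[>] 0)
      (𝓝 (∑' c : O, if c = 0 then 0 else th B c v₀ * eh c z₀ * Al k (emb c * (v₀ * ξ) / 9))) := by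
  obtain ⟨K, hK0, hK⟩ := m2t_norm_th
  obtain ⟨C, hC0, hC⟩ := Af_sub_le k
  have hc := c0_pos
  set m := k.natAbs with hm
  have hv1 : ∀ᶠ s in 𝓝[>] (0 : ℝ), v₀ / 2 < v s ∧ v s < 2 * v₀ :=
    (hv.eventually (lt_mem_nhds (by linarith))).and (hv.eventually (gt_mem_nhds (by linarith)))
  have hs0 : ∀ᶠ s in 𝓝[>] (0 : ℝ), 0 < s := self_mem_nhdsWithin
  have hid : Tendsto (fun s : ℝ => s) (𝓝[>] 0) (𝓝 0) :=
    tendsto_nhdsWithin_of_tendsto_nhds tendsto_id
  have hs1 : ∀ᶠ s in 𝓝[>] (0 : ℝ), s < 1 := hid.eventually (gt_mem_nhds one_pos)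
  have key : ∀ s : ℝ, 0 < s → ∀ y : ℂ,
      ‖Af k (s * y) / (s : ℂ) ^ m - Al k y‖ ≤ C * s * ‖y‖ ^ (m + 1) := by
    intro s hs y
    have hsc : (s : ℂ) ^ m ≠ 0 := pow_ne_zero _ (by exact_mod_cast hs.ne')
    have e : Af k (s * y) / (s : ℂ) ^ m - Al k y = (Af k (s * y) - Al k (s * y)) / (s : ℂ) ^ m := by
      rw [TC_Al_smul, ← hm]
      field_simp
    rw [e, norm_div, norm_pow, Complex.norm_real, Real.norm_of_nonneg hs.le,
      div_le_iff₀ (by positivity)]
    refine (hC _).trans_eq ?_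
    rw [norm_mul, Complex.norm_real, Real.norm_of_nonneg hs.le]
    ring
  set M : ℝ := 2 * v₀ * ‖ξ‖ / 9 with hM
  have hM0 : 0 ≤ M := by positivity
  have main : Tendsto (fun s : ℝ => ∑' c : O, if c = 0 then 0 else
      th B c (v s) * eh c z₀ * (Af k (s * (emb c * (v s * ξ) / 9)) / (s : ℂ) ^ m)) (𝓝[>] 0)
      (𝓝 (∑' c : O, if c = 0 then 0 else th B c v₀ * eh c z₀ * Al k (emb c * (v₀ * ξ) / 9))) := by
    refine tendsto_tsum_of_dominated_convergence
      (bound := fun h : O => (K * (2 * v₀) * ((c0 * M) ^ m + C * M ^ (m + 1))) *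
        (Nr h ^ ((m + 2 : ℕ) : ℝ) * (if h = 0 then 0 else K1 (v₀ / 18 * ‖emb h‖))))
      ((summable_K1 (by positivity) _).mul_left _) (fun h => ?_) ?_
    · by_cases h0 : h = 0
      · simp only [if_pos h0]; exact tendsto_const_nhds
      · simp only [if_neg h0]
        refine Tendsto.mul (Tendsto.mul_const _ ?_) ?_
        · exact ((continuousOn_th B h0).continuousAt (Ioi_mem_nhds hv₀)).tendsto.comp hv
        · have hy : Tendsto (fun s : ℝ => emb h * (v s * ξ) / 9) (𝓝[>] 0)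
              (𝓝 (emb h * (v₀ * ξ) / 9)) :=
            (((((Complex.continuous_ofReal.tendsto _).comp hv).mul_const ξ).const_mul
              (emb h)).div_const 9)
          have h1 := ((TC_Al_cont k).tendsto _).comp hy
          have h2 : Tendsto (fun s : ℝ => Af k (s * (emb h * (v s * ξ) / 9)) / (s : ℂ) ^ m -
              Al k (emb h * (v s * ξ) / 9)) (𝓝[>] 0) (𝓝 0) := by
            have h3 := (hid.const_mul C).mul (hy.norm.pow (m + 1))
            rw [mul_zero, zero_mul] at h3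
            refine squeeze_zero_norm' ?_ h3
            filter_upwards [hs0] with s hs using key s hs _
          have h3 := h2.add h1
          rw [zero_add] at h3
          refine h3.congr fun s => ?_
          simp
    · filter_upwards [hv1, hs0, hs1] with s hs1 hs3 hs4 h
      by_cases h0 : h = 0
      · simp only [if_pos h0]; simp
      · simp only [if_neg h0]
        have hvs : 0 < v s := by linarith [hs1.1]
        have hn1 : 1 ≤ ‖emb h‖ := by
          rw [norm_emb]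
          exact Real.one_le_sqrt.2 (one_le_Nr h0)
        have hn : 0 < ‖emb h‖ := by linarith
        have h1 := hK B hB h h0 (v s) hvs
        have h2 : K1 (v s * ‖emb h‖ / 9) ≤ K1 (v₀ / 18 * ‖emb h‖) :=
          K1_anti (by positivity) (by nlinarith [hs1.1])
        have h2' : 0 < K1 (v s * ‖emb h‖ / 9) := K1_pos (by positivity)
        have hy : ‖emb h * (v s * ξ) / 9‖ ≤ M * ‖emb h‖ := by
          rw [norm_div, norm_mul, norm_mul, Complex.norm_real, Real.norm_of_nonneg hvs.le, hM]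
          have : ‖(9 : ℂ)‖ = 9 := by simp
          rw [this]
          calc ‖emb h‖ * (v s * ‖ξ‖) / 9 ≤ ‖emb h‖ * (2 * v₀ * ‖ξ‖) / 9 := by
                gcongr
                exact hs1.2.le
            _ = _ := by ring
        have h3 : ‖Af k (s * (emb h * (v s * ξ) / 9)) / (s : ℂ) ^ m‖ ≤
            ((c0 * M) ^ m + C * M ^ (m + 1)) * ‖emb h‖ ^ (m + 1) := by
          have h4 := key s hs3 (emb h * (v s * ξ) / 9)
          have h5 := TC_norm_Al k (emb h * (v s * ξ) / 9)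
          have h6 := norm_le_insert' (Af k (s * (emb h * (v s * ξ) / 9)) / (s : ℂ) ^ m)
            (Al k (emb h * (v s * ξ) / 9))
          have h7 : (c0 * ‖emb h * (v s * ξ) / 9‖) ^ m ≤ (c0 * M) ^ m * ‖emb h‖ ^ (m + 1) := by
            calc _ ≤ (c0 * (M * ‖emb h‖)) ^ m := by gcongr
              _ = (c0 * M) ^ m * ‖emb h‖ ^ m := by ring
              _ ≤ _ := by
                gcongr
                exact Nat.le_succ m
          have h8 : C * s * ‖emb h * (v s * ξ) / 9‖ ^ (m + 1) ≤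
              C * M ^ (m + 1) * ‖emb h‖ ^ (m + 1) := by
            calc _ ≤ C * 1 * (M * ‖emb h‖) ^ (m + 1) := by gcongr
              _ = _ := by ring
          rw [add_mul]
          linarith
        rw [norm_mul, norm_mul, norm_eh, mul_one, Real.rpow_natCast, ← norm_emb_sq]
        have h9 : ‖emb h‖ ^ (m + 2) ≤ (‖emb h‖ ^ 2) ^ (m + 2) := by
          rw [← pow_mul]
          exact pow_le_pow_right₀ hn1 (by omega)
        have h10 := h2'.le.trans h2
        calc ‖th B h (v s)‖ * ‖Af k (s * (emb h * (v s * ξ) / 9)) / (s : ℂ) ^ m‖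
            ≤ (K * ‖emb h‖ * (2 * v₀) * K1 (v₀ / 18 * ‖emb h‖)) *
              (((c0 * M) ^ m + C * M ^ (m + 1)) * ‖emb h‖ ^ (m + 1)) := by
              refine mul_le_mul (h1.trans ?_) h3 (norm_nonneg _) (by positivity)
              gcongr
              exact hs1.2.le
          _ = (K * (2 * v₀) * ((c0 * M) ^ m + C * M ^ (m + 1))) *
              (‖emb h‖ ^ (m + 2) * K1 (v₀ / 18 * ‖emb h‖)) := by ring
          _ ≤ _ := by gcongr
  refine main.congr fun s => ?_
  rw [← tsum_div_const]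
  refine tsum_congr fun c => ?_
  split_ifs
  · simp
  · rw [show (s : ℂ) * (emb c * (v s * ξ) / 9) = emb c * (s * v s * ξ) / 9 by ring]
    ring

/-- The sign in the leading term. -/
def TC_eps (l : ℤ) : ℂ := if 0 ≤ l then 1 else (-1) ^ l.natAbs

theorem TC_Al_unit (l : ℤ) {α : ℂ} (hα : ‖α‖ = 1) :
    Al l α = TC_eps l * (c0 : ℂ) ^ l.natAbs / (l.natAbs.factorial : ℂ) * α ^ l := by
  unfold Al TC_eps
  split_ifs with hl
  · conv_rhs => rw [← Int.natAbs_of_nonneg hl, zpow_natCast, Int.natAbs_natCast]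
    ring
  · have e : l = -(l.natAbs : ℤ) := by omega
    have e2 : α ^ l = conj α ^ l.natAbs := by
      conv_lhs => rw [e]
      rw [zpow_neg, zpow_natCast, ← inv_pow, Complex.inv_eq_conj hα]
    rw [e2, neg_pow, mul_pow]
    ring

theorem TC_series (B : O × O → ℂ) (z₀ : ℂ) (l : ℤ) (v : ℝ) {α : ℂ} (hα : ‖α‖ = 1) :
    (∑' c : O, if c = 0 then 0 else th B c v * eh c z₀ * Al l (emb c * (v * α) / 9)) =
      TC_eps l * ((c0 : ℂ) * v / 9) ^ l.natAbs / (l.natAbs.factorial : ℂ) * α ^ l *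
        ((((9 : ℝ) ^ (-(7 / 3) : ℝ) : ℝ) : ℂ) * v) *
        Jl l.natAbs (fun c => Tc B c * az l c * eh c z₀) v := by
  unfold Jl
  rw [← tsum_mul_left]
  refine tsum_congr fun c => ?_
  split_ifs with h0
  · simp
  · have hn : (‖emb c‖ : ℂ) ≠ 0 := by
      exact_mod_cast norm_ne_zero_iff.2 fun e => h0 (emb_injective (by simpa using e))
    have e : emb c * (v * α) / 9 = ((‖emb c‖ * v / 9 : ℝ) : ℂ) * (ang c * α) := by
      unfold ang
      push_cast
      field_simp
    rw [e, TC_Al_smul, TC_Al_unit l (by rw [norm_mul, norm_ang h0, hα, one_mul]), mul_zpow]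
    unfold th az
    push_cast
    rw [div_pow, div_pow, mul_pow, mul_pow]
    ring

theorem TC_geod {B B' : O × O → ℂ} (hB : Per B) (hB' : Per B') (h0 : sig0 B = 0) {κ : ℂ} {g : SG}
    (hq : g 1 0 ≠ 0) (h : ∀ x, cf B x = κ * cf B' (ra x g)) (l : ℤ) {v : ℝ} (hv : 0 < v) :
    (∑' c : O, if c = 0 then 0 else th B c v * eh c (emb (g 0 0) / emb (g 1 0)) *
        Al l (emb c * (v * -((Nr (g 1 0) : ℂ) / emb (g 1 0) ^ 2)) / 9)) =
      κ * ((if l = 0 then sig0 B' * ((((Nr (g 1 0) * v)⁻¹) ^ (2 / 3 : ℝ) : ℝ) : ℂ) else 0) +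
        ∑' c : O, if c = 0 then 0 else th B' c (Nr (g 1 0) * v)⁻¹ *
          eh c (-(emb (g 1 1) / emb (g 1 0))) *
          Al (-l) (emb c * ((((Nr (g 1 0) * v)⁻¹ : ℝ) : ℂ) * 1) / 9)) := by
  have hq' : emb (g 1 0) ≠ 0 := fun e => hq (emb_injective (by simpa using e))
  have hN : 0 < Nr (g 1 0) := Nr_pos hq
  set u : ℝ := (Nr (g 1 0) * v)⁻¹ with hu_def
  have hu : 0 < u := by positivity
  have hs0 : ∀ᶠ s in 𝓝[>] (0 : ℝ), 0 < s := self_mem_nhdsWithin
  have hA := Th_cone hB l (emb (g 0 0) / emb (g 1 0)) (-((Nr (g 1 0) : ℂ) / emb (g 1 0) ^ 2))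
    (v := fun s => v / (1 + s ^ 2)) hv (by
      have : ContinuousAt (fun s : ℝ => v / (1 + s ^ 2)) 0 :=
        continuousAt_const.div (by fun_prop) (by norm_num)
      have h2 := this.tendsto
      simp only [ne_eq, OfNat.ofNat_ne_zero, not_false_eq_true, zero_pow, add_zero,
        div_one] at h2
      exact tendsto_nhdsWithin_of_tendsto_nhds h2)
  have hB2 := ((Th_cone hB' (-l) (-(emb (g 1 1) / emb (g 1 0))) 1 (v := fun _ => u) hu
    tendsto_const_nhds).const_add
      (if l = 0 then sig0 B' * ((u ^ (2 / 3 : ℝ) : ℝ) : ℂ) else 0)).const_mul κ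
  refine tendsto_nhds_unique hA (hB2.congr' ?_)
  filter_upwards [hs0] with s hs
  have hs2 : 0 < 1 + s ^ 2 := by positivity
  have hvs : 0 < v / (1 + s ^ 2) := by positivity
  rw [← Th_angular hB l _ _ hvs, ← Th_angular hB' (-l) _ _ hu, Int.natAbs_neg]
  have hflip := TC_flip (fun z => Th B (emb (g 0 0) / emb (g 1 0) +
    (s * ((v / (1 + s ^ 2) : ℝ) : ℂ) * -((Nr (g 1 0) : ℂ) / emb (g 1 0) ^ 2)) * z,
      v / (1 + s ^ 2))) (-l)
  rw [neg_neg] at hflip
  rw [← hflip]
  have hpt : ∀ φ : ℝ, Th B (emb (g 0 0) / emb (g 1 0) +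
      (s * ((v / (1 + s ^ 2) : ℝ) : ℂ) * -((Nr (g 1 0) : ℂ) / emb (g 1 0) ^ 2)) *
        Complex.exp (-(φ * I)), v / (1 + s ^ 2)) =
      κ * (sig0 B' * ((u ^ (2 / 3 : ℝ) : ℝ) : ℂ) +
        Th B' (-(emb (g 1 1) / emb (g 1 0)) + s * u * 1 * Complex.exp (φ * I), u)) := by
    intro φ
    have h1 := Tf_mob hB hB' h
      (w := (-(emb (g 1 1) / emb (g 1 0)) + s * u * 1 * Complex.exp (φ * I), u)) hu
    rw [mob_geod g hq _ hu] at h1
    unfold Tf at h1
    rw [h0, zero_mul, zero_add] at h1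
    rw [← h1]
    have hn : ‖(s : ℂ) * u * 1 * Complex.exp (φ * I)‖ ^ 2 + u ^ 2 = u ^ 2 * (1 + s ^ 2) := by
      rw [norm_mul, Complex.norm_exp_ofReal_mul_I, mul_one, mul_one, norm_mul, Complex.norm_real,
        Complex.norm_real, Real.norm_of_nonneg hs.le, Real.norm_of_nonneg hu.le]
      ring
    rw [hn]
    have hNc : (Nr (g 1 0) : ℂ) ≠ 0 := by exact_mod_cast hN.ne'
    have hvc : (v : ℂ) ≠ 0 := by exact_mod_cast hv.ne'
    have hsc : (1 + (s : ℂ) ^ 2) ≠ 0 := by exact_mod_cast hs2.ne'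
    congr 2
    · rw [map_mul, map_mul, map_mul, map_one, Complex.conj_ofReal, Complex.conj_ofReal,
        ← Complex.exp_conj, map_mul, Complex.conj_ofReal, Complex.conj_I, mul_neg, hu_def]
      push_cast
      field_simp
      ring
    · rw [hu_def]
      field_simp
  simp only [hpt]
  have hcont : Continuous fun φ : ℝ =>
      Th B' (-(emb (g 1 1) / emb (g 1 0)) + s * u * 1 * Complex.exp (φ * I), u) :=
    (continuousOn_Th hB').comp_continuous (by fun_prop) fun φ => hu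
  have e2 : ∀ φ : ℝ, κ * (sig0 B' * ((u ^ (2 / 3 : ℝ) : ℝ) : ℂ) +
        Th B' (-(emb (g 1 1) / emb (g 1 0)) + s * u * 1 * Complex.exp (φ * I), u)) *
        Complex.exp (-(((-l : ℤ) : ℂ) * φ * I)) =
      κ * (sig0 B' * ((u ^ (2 / 3 : ℝ) : ℝ) : ℂ) * Complex.exp (l * I * φ) +
        Th B' (-(emb (g 1 1) / emb (g 1 0)) + s * u * 1 * Complex.exp (φ * I), u) *
        Complex.exp (-(((-l : ℤ) : ℂ) * φ * I))) := by
    intro φ
    have : Complex.exp (l * I * φ) = Complex.exp (-(((-l : ℤ) : ℂ) * φ * I)) := by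
      congr 1
      push_cast
      ring
    rw [this]
    ring
  simp only [e2]
  rw [intervalIntegral.integral_const_mul, intervalIntegral.integral_add
    (by apply Continuous.intervalIntegrable; fun_prop)
    (by apply Continuous.intervalIntegrable; fun_prop), intervalIntegral.integral_const_mul,
    mul_left_comm _ κ, mul_add (1 / (2 * Real.pi) : ℂ), mul_left_comm (1 / (2 * Real.pi) : ℂ),
    TC_orth]
  by_cases hl : l = 0
  · subst hl
    simp
  · rw [if_neg hl, if_neg hl]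
    ring

/-- Take the `(-l)`-th angular coefficient of `Tf_mob` on the cone
`w = (-d/q + s v e^{iφ}, v)`, where `mob g w = (a/q - (conj q / q) s v' e^{-iφ}, v')`,
`v' = 1 / (N q v (1 + s²))` (`mob_geod`), divide by `s^{|l|}` and let `s → 0`. -/
theorem Jl_geod {B B' : O × O → ℂ} (hB : Per B) (hB' : Per B') (h0 : sig0 B = 0) {κ : ℂ} {g : SG}
    (hq : g 1 0 ≠ 0) (h : ∀ x, cf B x = κ * cf B' (ra x g)) (l : ℤ) {v : ℝ} (hv : 0 < v) :
    Jl l.natAbs (fun c => Tc B c * az l c * eO (c * g 0 0) (9 * g 1 0)) v =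
      κ * az l (g 1 0) ^ 2 * (((((Nr (g 1 0) * v ^ 2) ^ (l.natAbs + 1))⁻¹ : ℝ) : ℂ) *
        Jl l.natAbs (fun c => Tc B' c * az (-l) c * eO (-(c * g 1 1)) (9 * g 1 0)) (Nr (g 1 0) * v)⁻¹ +
        (if l = 0 then sig0 B' * (((9 : ℝ) ^ (7 / 3 : ℝ) * Nr (g 1 0) ^ (-(2 / 3) : ℝ) : ℝ) : ℂ) else 0) *
          ((v ^ (-(5 / 3) : ℝ) : ℝ) : ℂ)) := by
  have hq' : emb (g 1 0) ≠ 0 := fun e => hq (emb_injective (by simpa using e))
  have hN : 0 < Nr (g 1 0) := Nr_pos hq
  have hu : 0 < (Nr (g 1 0) * v)⁻¹ := by positivity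
  have key := TC_geod hB hB' h0 hq h l hv
  have hα : ‖-(ang (g 1 0) ^ 2)⁻¹‖ = 1 := by
    rw [norm_neg, norm_inv, norm_pow, norm_ang hq]; simp
  have eξ : -((Nr (g 1 0) : ℂ) / emb (g 1 0) ^ 2) = -(ang (g 1 0) ^ 2)⁻¹ := by
    rw [ang, ← norm_emb_sq, div_pow, inv_div]
    push_cast
    rfl
  have e0 : -(emb (g 1 1) / emb (g 1 0)) = emb (-g 1 1) / emb (g 1 0) := by
    rw [map_neg]; ring
  rw [eξ, TC_series B _ l v hα, TC_series B' _ (-l) _ (α := 1) norm_one, e0] at key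
  simp only [eh_div, mul_neg, Int.natAbs_neg, one_zpow, mul_one] at key
  have hz : (-(ang (g 1 0) ^ 2)⁻¹) ^ l = (-1) ^ l.natAbs * (az l (g 1 0) ^ 2)⁻¹ := by
    have a1 : (-1 : ℂ) ^ l = (-1) ^ l.natAbs := by
      rcases Int.natAbs_eq l with e | e
      · rw [← zpow_natCast, ← e]
      · conv_lhs => rw [e]
        rw [zpow_neg, zpow_natCast, ← inv_pow, inv_neg_one]
    rw [← neg_one_mul, mul_zpow, inv_zpow, az, a1, sq, sq, mul_zpow]
  have haz : az l (g 1 0) ≠ 0 := norm_ne_zero_iff.1 (by rw [norm_az l hq]; exact one_ne_zero)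
  have hsg : TC_eps l * (-1) ^ l.natAbs = TC_eps (-l) := by
    unfold TC_eps
    rw [Int.natAbs_neg]
    rcases lt_trichotomy l 0 with hl | hl | hl
    · rw [if_neg (by omega), if_pos (by omega), ← mul_pow]; simp
    · subst hl; simp
    · rw [if_pos (by omega), if_neg (by omega), one_mul]
  have hsg0 : TC_eps (-l) ≠ 0 := by
    unfold TC_eps
    split_ifs <;> simp
  rw [hz] at key
  set J := Jl l.natAbs (fun c => Tc B c * az l c * eO (c * g 0 0) (9 * g 1 0)) v
  set J' := Jl l.natAbs (fun c => Tc B' c * az (-l) c * eO (-(c * g 1 1)) (9 * g 1 0))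
    (Nr (g 1 0) * v)⁻¹
  have hc : (c0 : ℂ) ≠ 0 := by exact_mod_cast c0_pos.ne'
  have hNc : (Nr (g 1 0) : ℂ) ≠ 0 := by exact_mod_cast hN.ne'
  have hvc : (v : ℂ) ≠ 0 := by exact_mod_cast hv.ne'
  have hf : (l.natAbs.factorial : ℂ) ≠ 0 := by exact_mod_cast (Nat.factorial_pos _).ne'
  have h9 : (((9 : ℝ) ^ (-(7 / 3) : ℝ) : ℝ) : ℂ) ≠ 0 := by
    exact_mod_cast (by positivity : ((9 : ℝ) ^ (-(7 / 3) : ℝ) : ℝ) ≠ 0)
  have hD : TC_eps (-l) * ((c0 : ℂ) * v / 9) ^ l.natAbs / (l.natAbs.factorial : ℂ) *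
      (az l (g 1 0) ^ 2)⁻¹ * ((((9 : ℝ) ^ (-(7 / 3) : ℝ) : ℝ) : ℂ) * v) ≠ 0 := by
    refine mul_ne_zero (mul_ne_zero (div_ne_zero (mul_ne_zero hsg0 (pow_ne_zero _ ?_)) hf)
      (inv_ne_zero (pow_ne_zero _ haz))) (mul_ne_zero h9 hvc)
    exact div_ne_zero (mul_ne_zero hc hvc) (by norm_num)
  apply mul_left_cancel₀ hD
  have eL : TC_eps (-l) * ((c0 : ℂ) * v / 9) ^ l.natAbs / (l.natAbs.factorial : ℂ) *
      (az l (g 1 0) ^ 2)⁻¹ * ((((9 : ℝ) ^ (-(7 / 3) : ℝ) : ℝ) : ℂ) * v) * J =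
      TC_eps l * ((c0 : ℂ) * v / 9) ^ l.natAbs / (l.natAbs.factorial : ℂ) *
        ((-1) ^ l.natAbs * (az l (g 1 0) ^ 2)⁻¹) *
        ((((9 : ℝ) ^ (-(7 / 3) : ℝ) : ℝ) : ℂ) * v) * J := by
    rw [← hsg]; ring
  rw [eL, key]
  by_cases hl : l = 0
  · subst hl
    have e1 : ((Nr (g 1 0) * v)⁻¹) ^ (2 / 3 : ℝ) = (9 : ℝ) ^ (-(7 / 3) : ℝ) * v *
        ((9 : ℝ) ^ (7 / 3 : ℝ) * Nr (g 1 0) ^ (-(2 / 3) : ℝ) * v ^ (-(5 / 3) : ℝ)) := by
      have a1 : (9 : ℝ) ^ (-(7 / 3) : ℝ) * (9 : ℝ) ^ (7 / 3 : ℝ) = 1 := by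
        rw [← Real.rpow_add (by norm_num)]; simp
      have a2 : v * v ^ (-(5 / 3) : ℝ) = v ^ (-(2 / 3) : ℝ) := by
        conv_lhs => rw [← Real.rpow_one v, ← Real.rpow_mul hv.le]
        rw [← Real.rpow_add hv]
        norm_num
      rw [Real.inv_rpow (by positivity), ← Real.rpow_neg (by positivity),
        Real.mul_rpow hN.le hv.le, ← a2]
      linear_combination (-(Nr (g 1 0) ^ (-(2 / 3) : ℝ) * (v * v ^ (-(5 / 3) : ℝ)))) * a1
    rw [e1]
    simp only [TC_eps, az_zero, Int.natAbs_zero, neg_zero, le_refl, if_true, pow_zero,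
      Nat.factorial_zero]
    push_cast
    field_simp
    ring
  · rw [if_neg hl, if_neg hl]
    push_cast
    simp only [mul_inv, mul_pow, div_pow, inv_pow]
    field_simp
    ring

end Crest.Agent.R012

end
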