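import Crest.Agent.R012.Chr
import Crest.Agent.R017.Voronoi

/-! # Row 12: theta functions, definitions -/

set_option autoImplicit false

noncomputable section

open scoped BigOperators ComplexConjugate Topology
open Complex MeasureTheory Filter Set Crest.Agent.R017 Crest.Agent.R017.Theta

namespace Crest.Agent.R012

open Classical in
/-- The weight with `cf Bs (c, d) = 1_{c primary} e(-d/3) (d / c)₃`. -/
def Bs : O × O → ℂ := fun x =>
  if Prim x.1 then eO (-x.2) 3 * (if lam ∣ x.2 then 1 else conj (rc x.1 x.2)) else 0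

/-- The dual weight. -/
def Bd : O × O → ℂ := fun x => if Prim (-x.2) then eO (-x.1) 3 else 0

/-- `tg (n j³) = |j| conj (gt n)`. -/
def tg (N : O) : ℂ := kap N sq3 * tau N

/-- The first coefficient. -/
def T0 : ℂ := Tc Bs 3

/-- `∑ μ(e) / N e²`. -/
def Z2 : ℂ := ∑' e : O, if Prim e then mu e / (Nr e : ℂ) ^ 2 else 0

/-- The limit of `lat`. -/
def b1 : ℝ := c0 ^ (2 / 3 : ℝ) * Real.Gamma (4 / 3) / 9

/-- The limit of `beta 1`. -/
def b0 : ℂ := Z2 * (b1 : ℂ)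

/-- The constant term of `θ_B` is `sig0 B * v^{2/3}`. -/
def sig0 (B : O × O → ℂ) : ℂ :=
  b0 / 81 * ∑' k : ℕ, (((3 : ℝ) ^ (-(4 * k : ℝ) / 3) : ℝ) : ℂ) * ∑ u ∈ box 1, Ac B (u * lam ^ k) 0

/-- The full theta function. -/
def Tf (B : O × O → ℂ) (w : ℂ × ℝ) : ℂ := sig0 B * ((w.2 ^ (2 / 3 : ℝ) : ℝ) : ℂ) + Th B w

/-- The numerator of the main term in the summation formula. -/
def mT : ℂ := 9 * b0 * ((c0 ^ (5 / 3 : ℝ) / Real.Gamma (2 / 3) : ℝ) : ℂ)

open Classical in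
/-- Bessel series with the weight `|c|^m`. -/
def Jl (m : ℕ) (a : O → ℂ) (v : ℝ) : ℂ :=
  ∑' c : O, if c = 0 then 0 else a c * ((‖emb c‖ ^ m * K1 (v * ‖emb c‖ / 9) : ℝ) : ℂ)

/-- The gamma factor. -/
def gm (m : ℕ) (w : ℂ) : ℂ :=
  ((9 / c0 : ℝ) : ℂ) ^ (4 * w - 2) *
    (Complex.Gamma (w + m / 2 + 1 / 6) * Complex.Gamma (w + m / 2 - 1 / 6)) *
    ((Complex.Gamma (1 - w + m / 2 + 1 / 6))⁻¹ * (Complex.Gamma (1 - w + m / 2 - 1 / 6))⁻¹)

/-- The dual weight. -/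
def Vm (m : ℕ) (A τ y : ℝ) : ℂ :=
  (1 / (2 * Real.pi) : ℂ) * ∫ t : ℝ, gm m (1 + t * I) * Wh A (1 - (1 + t * I) - τ * I) *
    (y : ℂ) ^ (-(1 + t * I))

open Classical in
/-- Ramanujan sums. -/
def tcr (r h : O) : ℂ := gs (fun x => if IsCoprime x r then 1 else 0) r h

open Classical in
/-- The truncated singular series. -/
def Zr (r : O) (J : ℝ) : ℂ := ∑ e ∈ sbox J, if IsCoprime e r then mu e / (Nr e : ℂ) ^ 2 else 0

/-- Test functions of moderate decay. -/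
structure Mild (F : ℝ → ℂ) : Prop where
  cont : ContinuousOn F (Ioi 0)
  bd : ∃ C : ℝ, ∀ y : ℝ, 0 < y → ‖F y‖ ≤ C * y⁻¹ * ((1 + y) ^ 3)⁻¹

/-- The Bessel test function. -/
def GK (y : ℝ) : ℂ := ((K1 (Real.sqrt y) / Real.sqrt y : ℝ) : ℂ)

/-- Twists of `Bs` by the characters of `(1 + 3 O)/(1 + 9 O)`. -/
def Bl (l : O) : O × O → ℂ := fun x => Bs x * eO (l * (x.1 - 1)) 9

/-- The residues of the twisted Gauss sum series. -/
def Rl (l : O) : ℂ := rs (Bl l) 3 / 81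

open Classical in
/-- The rows congruent to rational rows modulo `3`. -/
def Bz : O × O → ℂ := fun x => if (3 : ℤ) ∣ x.1.im ∧ (3 : ℤ) ∣ x.2.im then 1 else 0

open Classical in
/-- The class `(0, 1)` modulo `3`. -/
def B0 : O × O → ℂ := fun x => if (3 : O) ∣ x.1 ∧ Prim x.2 then 1 else 0

open Classical in
/-- Its part with frequencies `≡ 3 mod 9`. -/
def B0s : O × O → ℂ := fun x => if 3 * lam ∣ x.1 + 3 ∧ Prim x.2 then 1 else 0

open Classical in
/-- The image under the inversion. -/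
def B1s : O × O → ℂ := fun x => if Prim x.1 ∧ 3 * lam ∣ x.2 - 3 then 1 else 0

end Crest.Agent.R012

end
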