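import Crest.Agent.R012.TS
import Crest.Agent.R012.CLS

/-! # Row 12: removing the cubes -/

set_option autoImplicit false

noncomputable section

open scoped BigOperators ComplexConjugate Topology
open Complex MeasureTheory Filter Set Crest.Agent.R017 Crest.Agent.R017.Theta

namespace Crest.Agent.R012

theorem ti1_sq (x y : ℂ) : ‖x + y‖ ^ 2 ≤ 2 * ‖x‖ ^ 2 + 2 * ‖y‖ ^ 2 := by
  have h := pow_le_pow_left₀ (norm_nonneg _) (norm_add_le x y) 2
  nlinarith [sq_nonneg (‖x‖ - ‖y‖)]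

theorem ti1_norm_cpow {n : O} (hn : n ≠ 0) (τ : ℝ) : ‖(Nr n : ℂ) ^ (-(τ * I))‖ = 1 := by
  rw [Complex.norm_cpow_eq_rpow_re_of_pos (Nr_pos hn)]
  simp

/-- Splitting a smooth sum at `N n ≤ M`. -/
theorem ti1_split {a Y : ℝ} (ha : 0 < a) (hY : 0 < Y) {c : O → ℂ} (hc : ∀ n, Prim n → ‖c n‖ ≤ 1)
    (hs : ∀ n, Prim n → ¬ Squarefree n → c n = 0) (τ M : ℝ) {g : O → ℝ} (hg : Summable g)
    (hg0 : ∀ n, 0 ≤ g n) (hgM : ∀ n, n ≠ 0 → M < Nr n → W a (Nr n / Y) ≤ g n) :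
    ‖sm a c Y τ - ∑ n ∈ sbox M, c n * (Nr n : ℂ) ^ (-(τ * I)) * (W a (Nr n / Y) : ℂ)‖ ≤
      ∑' n, g n := by
  classical
  have h1 := summable_sm ha hY (c := c) (K := 1) (A := 0) (fun n hn => by simpa using hc n hn) τ
  have h2 : HasSum (fun n => if n ∈ sbox M then
      c n * (Nr n : ℂ) ^ (-(τ * I)) * (W a (Nr n / Y) : ℂ) else 0)
      (∑ n ∈ sbox M, c n * (Nr n : ℂ) ^ (-(τ * I)) * (W a (Nr n / Y) : ℂ)) := by
    have := hasSum_sum_of_ne_finset_zero (L := SummationFilter.unconditional O) (s := sbox M)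
      (f := fun n => if n ∈ sbox M then
        c n * (Nr n : ℂ) ^ (-(τ * I)) * (W a (Nr n / Y) : ℂ) else 0) fun n hn => if_neg hn
    rwa [Finset.sum_congr rfl fun n hn => if_pos hn] at this
  refine (h1.hasSum.sub h2).norm_le_of_bounded hg.hasSum fun n => ?_
  by_cases hn : Prim n
  · rw [if_pos hn]
    by_cases h3 : n ∈ sbox M
    · rw [if_pos h3, sub_self, norm_zero]
      exact hg0 n
    · rw [if_neg h3, sub_zero, w2_norm_term hn]
      by_cases h4 : Squarefree n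
      · refine (mul_le_of_le_one_left (W_pos _ _).le (hc n hn)).trans (hgM n hn.ne_zero ?_)
        exact lt_of_not_ge fun h5 => h3 (q_mem_sbox.2 ⟨hn, h4, h5⟩)
      · rw [hs n hn h4, norm_zero, zero_mul]
        exact hg0 n
  · rw [if_neg hn, if_neg fun h => hn (q_mem_sbox.1 h).1, sub_self, norm_zero]
    exact hg0 n

/-- The large sieve for smooth sums (`cls`, `cubic_recip`, dyadic decomposition of the weight). -/
theorem cls_sm {a ε : ℝ} (ha : 0 < a) (hε : 0 < ε) : ∃ C : ℝ, 0 ≤ C ∧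
    ∀ (R Y τ : ℝ) (β : O → ℂ), 1 ≤ R → 0 < Y → (∀ n, Prim n → ‖β n‖ ≤ 1) →
    (∀ n, Prim n → ¬ Squarefree n → β n = 0) →
    ∑ r ∈ sbox R, ‖sm a (fun n => β n * kap r n) Y τ‖ ^ 2 ≤
      C * (R * (1 + Y)) ^ ε * (R * Y * min 1 Y + Y ^ 2 + R ^ (2 / 3 : ℝ) * Y ^ (5 / 3 : ℝ) * min 1 Y) := by
  classical
  set δ := min 1 (ε / 4) with hδ
  have hδ0 : 0 < δ := lt_min one_pos (by positivity)
  have hδ1 : δ ≤ 1 := min_le_left _ _
  have hδ2 : δ ≤ ε / 4 := min_le_right _ _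
  obtain ⟨C₁, hC₁⟩ := norm_sm_le ha 1
  obtain ⟨C₂, hC₂0, hC₂⟩ := cls hδ0
  obtain ⟨C₃, hC₃⟩ := tsum_W_tail ha hδ0 0 0 le_rfl
  refine ⟨25 * C₁ ^ 2 + 50 * C₂ + 50 * C₃ ^ 2, by positivity, fun R Y τ β hR hY hβ hβ' => ?_⟩
  have hc : ∀ r n, Prim n → ‖β n * kap r n‖ ≤ 1 := fun r n hn => by
    rw [norm_mul]
    exact mul_le_one₀ (hβ n hn) (norm_nonneg _) (norm_kap_le _ _)
  have hx : 1 ≤ R * (1 + Y) := one_le_mul_of_one_le_of_one_le hR (by linarith)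
  have hxε : 1 ≤ (R * (1 + Y)) ^ ε := Real.one_le_rpow hx hε.le
  have hcard := card_sbox_le (M := R) (by linarith)
  have hR0 : 0 < R := by linarith
  rcases le_total Y 1 with hY1 | hY1
  · rw [min_eq_right hY1]
    have h1 : ∑ r ∈ sbox R, ‖sm a (fun n => β n * kap r n) Y τ‖ ^ 2 ≤
        (sbox R).card • (C₁ * Y) ^ 2 := Finset.sum_le_card_nsmul _ _ _ fun r _ => by
      have := hC₁ _ Y τ hY (hc r) (Or.inl le_rfl)
      rw [Real.rpow_one] at this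
      exact pow_le_pow_left₀ (norm_nonneg _) this 2
    rw [nsmul_eq_mul] at h1
    calc _ ≤ 25 * R * (C₁ * Y) ^ 2 := h1.trans (by gcongr)
      _ = 25 * C₁ ^ 2 * 1 * (R * Y * Y + 0 + 0) := by ring
      _ ≤ _ := by
        gcongr
        · linarith [mul_nonneg (by norm_num : (0 : ℝ) ≤ 50) hC₂0, sq_nonneg C₃]
        all_goals positivity
  rw [min_eq_left hY1, mul_one, mul_one]
  set x := R * (1 + Y) with hxd
  have hYx : R * Y ≤ x := by rw [hxd]; nlinarith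
  have hYx' : Y ≤ x := le_trans (le_mul_of_one_le_left hY.le hR) hYx
  set y := x ^ δ with hy
  have hy1 : 1 ≤ y := Real.one_le_rpow hx hδ0.le
  have hyx : y ≤ x := by
    simpa using Real.rpow_le_rpow_of_exponent_le hx hδ1
  have hM : 1 ≤ Y * y := one_le_mul_of_one_le_of_one_le hY1 hy1
  let g : O → ℝ := fun n => if n ≠ 0 ∧ (Nr n ≤ Y * x ^ (-δ) ∨ Y * x ^ δ ≤ Nr n) then
    Nr n ^ (0 : ℝ) * W a (Nr n / Y) else 0
  have hg0 : ∀ n, 0 ≤ g n := fun n => by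
    have := W_pos a (Nr n / Y)
    have := Nr_nonneg n
    simp only [g]
    split_ifs <;> positivity
  have hg : Summable g := by
    refine Summable.of_nonneg_of_le hg0 (fun n => ?_) (summable_W ha hY 0)
    simp only [g]
    split_ifs with h1 h2 h2
    · exact absurd h2 h1.1
    · exact le_rfl
    · exact le_rfl
    · exact mul_nonneg (Real.rpow_nonneg (Nr_nonneg n) _) (W_pos _ _).le
  have hg1 : ∑' n, g n ≤ C₃ := by
    have := hC₃ x Y hx hY hYx'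
    rwa [neg_zero, Real.rpow_zero x, mul_one] at this
  let α : O → ℂ := fun n => β n * (Nr n : ℂ) ^ (-(τ * I)) * (W a (Nr n / Y) : ℂ)
  have h1 : ∀ r ∈ sbox R, ‖sm a (fun n => β n * kap r n) Y τ‖ ^ 2 ≤
      2 * ‖∑ n ∈ sbox (Y * y), α n * kap n r‖ ^ 2 + 2 * C₃ ^ 2 := fun r hr => by
    have h2 := ti1_split ha hY (hc r) (fun n hn h => by rw [hβ' n hn h, zero_mul]) τ (Y * y) hg hg0
      fun n hn h => by
        simp only [g]
        rw [if_pos ⟨hn, Or.inr h.le⟩, Real.rpow_zero, one_mul]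
    have h3 : ∑ n ∈ sbox (Y * y), β n * kap r n * (Nr n : ℂ) ^ (-(τ * I)) * (W a (Nr n / Y) : ℂ) =
        ∑ n ∈ sbox (Y * y), α n * kap n r := Finset.sum_congr rfl fun n hn => by
      rw [cubic_recip (q_mem_sbox.1 hr).1 (q_mem_sbox.1 hn).1]
      simp only [α]
      ring
    rw [h3] at h2
    have h4 := ti1_sq (∑ n ∈ sbox (Y * y), α n * kap n r)
      (sm a (fun n => β n * kap r n) Y τ - ∑ n ∈ sbox (Y * y), α n * kap n r)
    rw [add_sub_cancel] at h4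
    have h5 := pow_le_pow_left₀ (norm_nonneg _) (h2.trans hg1) 2
    linarith
  have h2 : ∑ n ∈ sbox (Y * y), ‖α n‖ ^ 2 ≤ 25 * (Y * y) := by
    have h3 : ∑ n ∈ sbox (Y * y), ‖α n‖ ^ 2 ≤ (sbox (Y * y)).card • (1 : ℝ) :=
      Finset.sum_le_card_nsmul _ _ _ fun n hn => by
        have hn' := (q_mem_sbox.1 hn).1
        simp only [α]
        rw [w2_norm_term hn']
        exact pow_le_one₀ (mul_nonneg (norm_nonneg _) (W_pos _ _).le)
          (mul_le_one₀ (hβ n hn') (W_pos _ _).le (W_le_one ha _))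
    rw [nsmul_eq_mul, mul_one] at h3
    exact h3.trans (card_sbox_le (by positivity))
  have h3 := hC₂ R (Y * y) α hR hM
  have h4 : (R * (Y * y)) ^ δ ≤ y ^ 2 := by
    rw [hy, sq, ← Real.mul_rpow (by linarith) (by linarith), ← mul_assoc]
    exact Real.rpow_le_rpow (by positivity) (mul_le_mul hYx hyx (by linarith) (by linarith)) hδ0.le
  have h5 : (R * (Y * y)) ^ (2 / 3 : ℝ) ≤ (R * Y) ^ (2 / 3 : ℝ) * y := by
    rw [← mul_assoc, Real.mul_rpow (by positivity) (by positivity)]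
    gcongr
    simpa using Real.rpow_le_rpow_of_exponent_le hy1 (show (2 / 3 : ℝ) ≤ 1 by norm_num)
  have h6 : (R * Y) ^ (2 / 3 : ℝ) * Y = R ^ (2 / 3 : ℝ) * Y ^ (5 / 3 : ℝ) := by
    rw [Real.mul_rpow hR0.le hY.le, mul_assoc, ← Real.rpow_add_one hY.ne']
    norm_num
  have h7 : y ^ 4 ≤ x ^ ε := by
    rw [hy, ← Real.rpow_natCast, ← Real.rpow_mul (by linarith)]
    exact Real.rpow_le_rpow_of_exponent_le hx (by push_cast; linarith)
  have h8 : R ≤ R * y := le_mul_of_one_le_right hR0.le hy1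
  set S := R * Y + Y ^ 2 + R ^ (2 / 3 : ℝ) * Y ^ (5 / 3 : ℝ) with hS
  have hS1 : R ≤ S := by
    have : R ≤ R * Y := le_mul_of_one_le_right hR0.le hY1
    have : 0 ≤ R ^ (2 / 3 : ℝ) * Y ^ (5 / 3 : ℝ) := by positivity
    nlinarith
  have h9 : ∑ r ∈ sbox R, ‖∑ n ∈ sbox (Y * y), α n * kap n r‖ ^ 2 ≤ 25 * C₂ * x ^ ε * S :=
    calc _ ≤ C₂ * y ^ 2 * (R * y + Y * y + (R * Y) ^ (2 / 3 : ℝ) * y) * (25 * (Y * y)) :=
          h3.trans (by gcongr)
      _ = 25 * C₂ * y ^ 4 * S := by rw [hS, ← h6]; ring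
      _ ≤ _ := by gcongr
  calc _ ≤ ∑ r ∈ sbox R, (2 * ‖∑ n ∈ sbox (Y * y), α n * kap n r‖ ^ 2 + 2 * C₃ ^ 2) :=
        Finset.sum_le_sum h1
    _ = 2 * ∑ r ∈ sbox R, ‖∑ n ∈ sbox (Y * y), α n * kap n r‖ ^ 2 + (sbox R).card * (2 * C₃ ^ 2) := by
        rw [Finset.sum_add_distrib, Finset.mul_sum, Finset.sum_const, nsmul_eq_mul]
    _ ≤ 2 * (25 * C₂ * x ^ ε * S) + 25 * (x ^ ε * S) * (2 * C₃ ^ 2) := by
        gcongr
        refine hcard.trans ?_
        have : S ≤ x ^ ε * S := le_mul_of_one_le_left (by linarith) hxε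
        linarith
    _ ≤ _ := by
        have : 0 ≤ 25 * C₁ ^ 2 * x ^ ε * S := by have : 0 ≤ S := by linarith
                                                 positivity
        nlinarith

open Classical in
/-- The truncated Möbius sum. -/
def mJ (J : ℝ) (k : O) : ℂ := ∑ j ∈ pdiv k, if Nr j ≤ J then mu j else 0

theorem norm_mJ_le (J : ℝ) (k : O) : ‖mJ J k‖ ≤ dv k := by
  classical
  refine (norm_sum_le _ _).trans ?_
  have := Finset.sum_le_card_nsmul (pdiv k) (fun j => ‖if Nr j ≤ J then mu j else 0‖) 1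
    fun j _ => by
      split_ifs
      · exact norm_mu_le j
      · simp
  rwa [nsmul_eq_mul, mul_one] at this

open Classical in
theorem ti1_mJ {k : O} (hk : Prim k) (J : ℝ) :
    ∑ j ∈ sbox J, (if j ∣ k then mu j else 0) = mJ J k := by
  rw [mJ, ← Finset.sum_filter, ← Finset.sum_filter]
  refine Finset.sum_subset (fun j hj => ?_) fun j hj hj' => ?_
  · obtain ⟨h1, h2⟩ := Finset.mem_filter.1 hj
    obtain ⟨h3, -, h4⟩ := q_mem_sbox.1 h1
    exact Finset.mem_filter.2 ⟨(mem_pdiv hk.ne_zero).2 ⟨h3, h2⟩, h4⟩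
  · obtain ⟨h1, h2⟩ := Finset.mem_filter.1 hj
    obtain ⟨h3, h4⟩ := (mem_pdiv hk.ne_zero).1 h1
    exact mu_eq_zero.2 fun h5 => hj' (Finset.mem_filter.2 ⟨q_mem_sbox.2 ⟨h3, h5, h2⟩, h4⟩)

theorem ti1_mJ_small {k : O} (hk : Prim k) {J : ℝ} (h : Nr k ≤ J) :
    mJ J k = if k = 1 then 1 else 0 := by
  rw [← sum_pdiv_mu hk, mJ]
  exact Finset.sum_congr rfl fun j hj =>
    if_pos ((Nr_le_of_dvd hk.ne_zero ((mem_pdiv hk.ne_zero).1 hj).2).trans h)

open Classical in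
theorem ti1_tg {c j : O} (hc : Prim c) (hj : Prim j) :
    (if j ^ 3 ∣ c then mu j * (‖emb j‖ : ℂ) * tg (c / j ^ 3) else 0) =
      ∑ k ∈ pdiv c, (if j ∣ k then mu j else 0) *
        if k ^ 3 ∣ c then (‖emb k‖ : ℂ) * conj (gt (c / k ^ 3)) else 0 := by
  have hj3 : j ^ 3 ≠ 0 := pow_ne_zero _ hj.ne_zero
  by_cases h : j ^ 3 ∣ c
  · obtain ⟨N, rfl⟩ := h
    have hN : Prim N := (hj.pow 3).of_mul hc
    rw [if_pos (dvd_mul_right _ _), mul_div_cancel_left₀ _ hj3, tg_eq_sum hN, Finset.mul_sum]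
    simp only [ite_mul, mul_ite, mul_zero, zero_mul]
    rw [← Finset.sum_filter, ← Finset.sum_filter, ← Finset.sum_filter]
    refine Finset.sum_bij (fun i _ => j * i) (fun i hi => ?_) (fun i _ i' _ h => ?_)
      (fun k hk => ?_) fun i hi => ?_
    · obtain ⟨h1, h2⟩ := Finset.mem_filter.1 hi
      have h3 := ((mem_pdiv hN.ne_zero).1 h1).1
      have h4 : (j * i) ^ 3 ∣ j ^ 3 * N := by
        rw [mul_pow]
        exact mul_dvd_mul_left _ h2
      exact Finset.mem_filter.2 ⟨Finset.mem_filter.2 ⟨(mem_pdiv hc.ne_zero).2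
        ⟨hj.mul h3, (dvd_pow_self _ three_ne_zero).trans h4⟩, h4⟩, dvd_mul_right _ _⟩
    · exact mul_left_cancel₀ hj.ne_zero h
    · obtain ⟨h1, i, rfl⟩ := Finset.mem_filter.1 hk
      obtain ⟨h2, h3⟩ := Finset.mem_filter.1 h1
      rw [mul_pow, mul_dvd_mul_iff_left hj3] at h3
      exact ⟨i, Finset.mem_filter.2 ⟨(mem_pdiv hN.ne_zero).2
        ⟨hj.of_mul ((mem_pdiv hc.ne_zero).1 h2).1, (dvd_pow_self _ three_ne_zero).trans h3⟩, h3⟩,
        rfl⟩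
    · obtain ⟨h1, m, rfl⟩ := Finset.mem_filter.1 hi
      have h3 := ((mem_pdiv hN.ne_zero).1 h1).1
      rw [mul_div_cancel_left₀ _ (pow_ne_zero _ h3.ne_zero), ← mul_assoc (j ^ 3), ← mul_pow,
        mul_div_cancel_left₀ _ (pow_ne_zero _ (hj.mul h3).ne_zero), map_mul, norm_mul,
        Complex.ofReal_mul]
      ring
  · rw [if_neg h]
    refine (Finset.sum_eq_zero fun k _ => ?_).symm
    by_cases h1 : j ∣ k
    · rw [if_neg fun h2 => h ((pow_dvd_pow_of_dvd h1 3).trans h2), mul_zero]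
    · rw [if_neg h1, zero_mul]

open Classical in
/-- `tg_eq_sum`; `mJ J 1 = 1`, `mJ J k = 0` for `1 < N k ≤ J`. -/
theorem gt_uncube {J : ℝ} (hJ : 1 ≤ J) {c : O} (hc : Prim c) :
    conj (gt c) = (∑ j ∈ sbox J, if j ^ 3 ∣ c then mu j * (‖emb j‖ : ℂ) * tg (c / j ^ 3) else 0) -
      ∑ k ∈ pdiv c, if k ^ 3 ∣ c ∧ J < Nr k then
        (‖emb k‖ : ℂ) * mJ J k * conj (gt (c / k ^ 3)) else 0 := by
  rw [Finset.sum_congr rfl fun j hj => ti1_tg hc (q_mem_sbox.1 hj).1, Finset.sum_comm,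
    ← Finset.sum_sub_distrib, Finset.sum_eq_single_of_mem 1
      ((mem_pdiv hc.ne_zero).2 ⟨prim_one, one_dvd _⟩)]
  · rw [← Finset.sum_mul, ti1_mJ prim_one, ti1_mJ_small prim_one (by rwa [Nr_one]),
      if_neg (c := _ ∧ J < Nr 1) fun h => absurd h.2 (by rw [Nr_one]; linarith)]
    simp
  · intro k hk hk1
    have h1 := ((mem_pdiv hc.ne_zero).1 hk).1
    rw [← Finset.sum_mul, ti1_mJ h1]
    by_cases h2 : J < Nr k
    · simp only [h2, and_true]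
      split_ifs <;> ring
    · rw [ti1_mJ_small h1 (not_lt.1 h2), if_neg hk1, if_neg (c := _ ∧ J < Nr k) fun h => h2 h.2,
        zero_mul, sub_zero]

theorem ti1_sm_const (a : ℝ) (z : ℂ) (c : O → ℂ) (X τ : ℝ) :
    sm a (fun n => z * c n) X τ = z * sm a c X τ := by
  unfold sm
  rw [← tsum_mul_left]
  refine tsum_congr fun n => ?_
  split_ifs
  · ring
  · rw [mul_zero]

theorem ti1_sm_congr (a : ℝ) {c c' : O → ℂ} (h : ∀ n, Prim n → c n = c' n) (X τ : ℝ) :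
    sm a c X τ = sm a c' X τ := by
  unfold sm
  refine tsum_congr fun n => ?_
  split_ifs with hn
  · rw [h n hn]
  · rfl

open Classical in
/-- Extracting a cube. -/
theorem ti1_sm_cube (l : ℤ) (a Y τ : ℝ) {r k : O} (hr : Prim r) (hk : Prim k) (z : ℂ) (f : O → ℂ) :
    sm a (fun c => (if k ^ 3 ∣ c then z * f (c / k ^ 3) else 0) * az l c * kap r c) Y τ =
      if IsCoprime k r then z * az l k ^ 3 * ((Nr k : ℂ) ^ (-(τ * I))) ^ 3 *
        sm a (fun N => f N * az l N * kap r N) (Y / Nr k ^ 3) τ else 0 := by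
  have h1 := sm_dvd (a := a) (X := Y) (c := fun c => z * f (c / k ^ 3) * az l c * kap r c)
    (hk.pow 3) τ
  simp only [ite_mul, zero_mul]
  rw [h1, ti1_sm_congr a (c' := fun n => (z * az l k ^ 3 * kap r (k ^ 3)) *
    (f n * az l n * kap r n)) (fun n _ => ?_), ti1_sm_const, kap_cube_right hr, Nr_pow]
  · simp only [isCoprime_comm (x := r)]
    split_ifs
    · rw [Complex.ofReal_pow, pow_three, pow_three ((Nr k : ℂ) ^ (-(τ * I))),
        ← Complex.ofReal_mul, Complex.mul_cpow_ofReal_nonneg (Nr_nonneg k)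
          (mul_nonneg (Nr_nonneg k) (Nr_nonneg k)), Complex.ofReal_mul,
        Complex.mul_cpow_ofReal_nonneg (Nr_nonneg k) (Nr_nonneg k)]
      ring
    · ring
  · rw [mul_div_cancel_left₀ _ (pow_ne_zero _ hk.ne_zero), kap_mul_right, az_mul, pow_three k,
      az_mul, az_mul]
    ring

theorem ti1_dv_le {k : O} : dv k ≤ 25 * Nr k := by
  classical
  refine le_trans ?_ (card_box_le (Nr_nonneg k))
  unfold dv pdiv
  exact_mod_cast Finset.card_filter_le _ _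

open Classical in
theorem sm_uncube (l : ℤ) {a J Y : ℝ} (ha : 0 < a) (hJ : 1 ≤ J) (hY : 0 < Y) {r : O} (hr : Prim r)
    (τ : ℝ) :
    sm a (fun c => conj (gt c) * az l c * kap r c) Y τ =
      (∑ j ∈ sbox J, if IsCoprime j r then mu j * (‖emb j‖ : ℂ) * az l j ^ 3 *
        ((Nr j : ℂ) ^ (-(τ * I))) ^ 3 * sm a (fun N => tg N * az l N * kap r N) (Y / Nr j ^ 3) τ else 0) -
      ∑' k : O, if Prim k ∧ IsCoprime k r ∧ J < Nr k then (‖emb k‖ : ℂ) * mJ J k * az l k ^ 3 *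
        ((Nr k : ℂ) ^ (-(τ * I))) ^ 3 *
          sm a (fun c => conj (gt c) * az l c * kap r c) (Y / Nr k ^ 3) τ else 0 := by
  let w : O → ℂ := fun c => az l c * kap r c * (Nr c : ℂ) ^ (-(τ * I)) * (W a (Nr c / Y) : ℂ)
  have hw : ∀ c, Prim c → ‖w c‖ ≤ W a (Nr c / Y) := fun c hc => by
    simp only [w]
    rw [w2_norm_term (c := fun c => az l c * kap r c) hc, norm_mul, norm_az l hc.ne_zero, one_mul]
    exact mul_le_of_le_one_left (W_pos _ _).le (norm_kap_le _ _)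
  let F : O → O → ℂ := fun j c => if Prim c then
    (if j ^ 3 ∣ c then mu j * (‖emb j‖ : ℂ) * tg (c / j ^ 3) else 0) * w c else 0
  let G : O → O → ℂ := fun k c => if Prim c ∧ Prim k ∧ k ^ 3 ∣ c ∧ J < Nr k then
    (‖emb k‖ : ℂ) * mJ J k * conj (gt (c / k ^ 3)) * w c else 0
  have hv0 : ∀ (A : ℝ) c, 0 ≤ (if c = 0 then 0 else Nr c ^ A * W a (Nr c / Y)) := w1_nonneg a Y
  have hF : ∀ j ∈ sbox J, Summable (F j) := fun j hj => by
    have hj' := (q_mem_sbox.1 hj).1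
    refine Summable.of_norm_bounded ((summable_W ha hY (1 / 6)).mul_left ‖emb j‖) fun c => ?_
    have h0 := mul_nonneg (norm_nonneg (emb j)) (hv0 (1 / 6) c)
    simp only [F]
    by_cases hc : Prim c
    · rw [if_pos hc]
      by_cases h1 : j ^ 3 ∣ c
      · obtain ⟨N, rfl⟩ := h1
        rw [if_pos (dvd_mul_right _ _), if_neg hc.ne_zero,
          mul_div_cancel_left₀ _ (pow_ne_zero _ hj'.ne_zero), norm_mul, norm_mul, norm_mul,
          Complex.norm_real, norm_norm, ← mul_assoc]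
        have h2 : ‖tg N‖ ≤ Nr (j ^ 3 * N) ^ (1 / 6 : ℝ) :=
          (norm_tg_le ((hj'.pow 3).of_mul hc)).trans (Real.rpow_le_rpow (Nr_nonneg _)
            (Nr_le_of_dvd hc.ne_zero (dvd_mul_left _ _)) (by norm_num))
        have h3 : ‖mu j‖ * ‖emb j‖ ≤ ‖emb j‖ := mul_le_of_le_one_left (norm_nonneg _) (norm_mu_le j)
        have h4 := hw _ hc
        have := Real.rpow_nonneg (Nr_nonneg (j ^ 3 * N)) (1 / 6)
        gcongr
      · rwa [if_neg h1, zero_mul, norm_zero]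
    · rwa [if_neg hc, norm_zero]
  have hG : Summable (Function.uncurry G) := by
    refine Summable.of_norm_bounded (((summable_Nr_rpow one_lt_two).mul_left 25).mul_of_nonneg
      (summable_W ha hY 4) (fun k => mul_nonneg (by norm_num) (Real.rpow_nonneg (Nr_nonneg k) _))
      (hv0 4)) fun p => ?_
    obtain ⟨k, c⟩ := p
    simp only [Function.uncurry, G]
    split_ifs with h1 h2 h2
    · exact absurd h2 h1.1.ne_zero
    · obtain ⟨hc, hk, ⟨N, rfl⟩, -⟩ := h1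
      rw [mul_div_cancel_left₀ _ (pow_ne_zero _ hk.ne_zero), norm_mul, norm_mul, norm_mul,
        Complex.norm_real, norm_norm, RCLike.norm_conj]
      have h3 := one_le_Nr hk.ne_zero
      have h4 : ‖emb k‖ ≤ Nr k := by
        rw [norm_emb]
        exact Real.sqrt_le_self_iff.2 (Or.inr h3)
      have h5 := (norm_mJ_le J k).trans ti1_dv_le
      have h6 := norm_gt_le ((hk.pow 3).of_mul hc)
      have h7 := hw _ hc
      have h8 : Nr k ≤ Nr (k ^ 3 * N) :=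
        Nr_le_of_dvd hc.ne_zero ((dvd_pow_self _ three_ne_zero).mul_right _)
      have h9 := W_pos a (Nr (k ^ 3 * N) / Y)
      calc _ ≤ Nr k * (25 * Nr k) * 1 * W a (Nr (k ^ 3 * N) / Y) := by gcongr
        _ = 25 * Nr k ^ (-(2 : ℝ)) * (Nr k ^ (4 : ℝ) * W a (Nr (k ^ 3 * N) / Y)) := by
          rw [Real.rpow_neg (by linarith), Real.rpow_two, Real.rpow_ofNat]
          field_simp
        _ ≤ _ := by gcongr
    · simp
    · rw [norm_zero]
      have := W_pos a (Nr c / Y)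
      have := Nr_nonneg k
      have := Nr_nonneg c
      positivity
  have h1 : ∀ c, (if Prim c then conj (gt c) * az l c * kap r c * (Nr c : ℂ) ^ (-(τ * I)) *
      (W a (Nr c / Y) : ℂ) else 0) = ∑ j ∈ sbox J, F j c - ∑' k, G k c := fun c => by
    by_cases hc : Prim c
    · rw [tsum_eq_sum (s := pdiv c) fun k hk => if_neg fun h => hk ((mem_pdiv hc.ne_zero).2
        ⟨h.2.1, (dvd_pow_self _ three_ne_zero).trans h.2.2.1⟩)]
      simp only [F, hc, if_true, true_and]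
      rw [← Finset.sum_mul, Finset.sum_congr (s₁ := pdiv c) rfl (g := fun k => (if k ^ 3 ∣ c ∧ J < Nr k then
        (‖emb k‖ : ℂ) * mJ J k * conj (gt (c / k ^ 3)) else 0) * w c) fun k hk => by
          simp only [((mem_pdiv hc.ne_zero).1 hk).1, true_and, ite_mul, zero_mul],
        ← Finset.sum_mul, ← sub_mul, ← gt_uncube hJ hc]
      simp only [w]
      ring
    · simp [F, G, hc]
  have h2 : Summable fun c => ∑' k, G k c := hG.prod_symm.prod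
  rw [sm, tsum_congr h1, (summable_sum hF).tsum_sub h2, Summable.tsum_finsetSum hF,
    hG.tsum_comm]
  congr 1
  · refine Finset.sum_congr rfl fun j hj => ?_
    rw [← ti1_sm_cube l a Y τ hr (q_mem_sbox.1 hj).1, sm]
    refine tsum_congr fun c => ?_
    simp only [F, w, mul_assoc]
  · refine tsum_congr fun k => ?_
    by_cases hk : Prim k ∧ J < Nr k
    · simp only [G, hk.1, hk.2, true_and, and_true]
      rw [← ti1_sm_cube l a Y τ hr hk.1 _ (fun c => conj (gt c)), sm]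
      refine tsum_congr fun c => ?_
      simp only [w, mul_assoc, ite_and, ite_mul, zero_mul]
    · rw [if_neg fun h => hk ⟨h.1, h.2.2⟩]
      simp only [G]
      rw [tsum_congr fun c => if_neg fun h => hk ⟨h.2.1, h.2.2.2⟩, tsum_zero]

/-- Minkowski's inequality for series. -/
theorem ti1_mink (S : Finset O) {f : O → O → ℂ} {b : O → ℝ} (hb : Summable b) (hb0 : ∀ i, 0 ≤ b i)
    (h : ∀ i, ∑ r ∈ S, ‖f i r‖ ^ 2 ≤ b i ^ 2) : ∑ r ∈ S, ‖∑' i, f i r‖ ^ 2 ≤ (∑' i, b i) ^ 2 := by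
  set Q := ∑ r ∈ S, ‖∑' i, f i r‖ ^ 2 with hQ
  have h0 : 0 ≤ Q := Finset.sum_nonneg fun _ _ => sq_nonneg _
  have hs : ∀ r ∈ S, Summable fun i => f i r := fun r hr => Summable.of_norm_bounded hb fun i =>
    (pow_le_pow_iff_left₀ (norm_nonneg _) (hb0 i) two_ne_zero).1
      ((Finset.single_le_sum (f := fun r => ‖f i r‖ ^ 2) (fun _ _ => sq_nonneg _) hr).trans (h i))
  have h1 : HasSum (fun i => ∑ r ∈ S, conj (∑' i, f i r) * f i r)
      (∑ r ∈ S, conj (∑' i, f i r) * ∑' i, f i r) :=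
    hasSum_sum fun r hr => (hs r hr).hasSum.mul_left _
  have h2 : ‖∑ r ∈ S, conj (∑' i, f i r) * ∑' i, f i r‖ = Q := by
    have : ∑ r ∈ S, conj (∑' i, f i r) * ∑' i, f i r = (Q : ℂ) := by
      rw [hQ, Complex.ofReal_sum]
      refine Finset.sum_congr rfl fun r _ => ?_
      rw [Complex.conj_mul', Complex.ofReal_pow]
    rw [this, Complex.norm_real, Real.norm_of_nonneg h0]
  have h3 : ∀ i, ‖∑ r ∈ S, conj (∑' i, f i r) * f i r‖ ≤ Real.sqrt Q * b i := fun i => by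
    refine (norm_sum_le _ _).trans ?_
    simp only [norm_mul, RCLike.norm_conj]
    refine (Real.sum_mul_le_sqrt_mul_sqrt _ _ _).trans ?_
    exact mul_le_mul_of_nonneg_left (Real.sqrt_le_iff.2 ⟨hb0 i, h i⟩) (Real.sqrt_nonneg _)
  have h4 := h1.norm_le_of_bounded (hb.hasSum.mul_left (Real.sqrt Q)) h3
  rw [h2] at h4
  have h5 : 0 ≤ ∑' i, b i := tsum_nonneg hb0
  have h6 := Real.mul_self_sqrt h0
  have h7 := Real.sqrt_nonneg Q
  nlinarith [sq_nonneg (Real.sqrt Q - ∑' i, b i)]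

theorem ti1_alg {N R Y δ : ℝ} (hN : 0 < N) (hR : 0 < R) (hY : 0 < Y) :
    N * (N ^ δ) ^ 2 * (R * (Y / N ^ 3) * (Y / N ^ 3) ^ (2 * δ) + (Y / N ^ 3) ^ 2 +
      R ^ (2 / 3 : ℝ) * (Y / N ^ 3) ^ (5 / 3 : ℝ)) =
    (R ^ (1 / 2 : ℝ) * Y ^ (1 / 2 + δ) * N ^ (-(1 + 2 * δ))) ^ 2 + (Y * N ^ (-(5 / 2 - δ))) ^ 2 +
      (R ^ (1 / 3 : ℝ) * Y ^ (5 / 6 : ℝ) * N ^ (-(2 - δ))) ^ 2 := by
  obtain ⟨n, rfl⟩ : ∃ n, N = Real.exp n := ⟨_, (Real.exp_log hN).symm⟩
  obtain ⟨ρ, rfl⟩ : ∃ n, R = Real.exp n := ⟨_, (Real.exp_log hR).symm⟩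
  obtain ⟨y, rfl⟩ : ∃ n, Y = Real.exp n := ⟨_, (Real.exp_log hY).symm⟩
  rw [mul_add, mul_add]
  simp only [← Real.exp_mul, ← Real.exp_nat_mul, ← Real.exp_sub, ← Real.exp_add]
  congr 1
  · congr 1 <;> congr 1 <;> push_cast <;> ring
  · congr 1
    push_cast
    ring

theorem ti1_alg' {J R Y δ : ℝ} (hJ : 0 < J) (hR : 0 < R) (hY : 0 < Y) :
    (R ^ (1 / 2 : ℝ) * Y ^ (1 / 2 + δ)) ^ 2 = (Y ^ δ) ^ 2 * (R * Y) ∧
    (Y * J ^ (1 - (5 / 2 - δ))) ^ 2 = (J ^ δ) ^ 2 * (Y ^ 2 * J ^ (-3 : ℝ)) ∧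
    (R ^ (1 / 3 : ℝ) * Y ^ (5 / 6 : ℝ) * J ^ (1 - (2 - δ))) ^ 2 =
      (J ^ δ) ^ 2 * (R ^ (2 / 3 : ℝ) * Y ^ (5 / 3 : ℝ) * J ^ (-2 : ℝ)) := by
  obtain ⟨n, rfl⟩ : ∃ n, J = Real.exp n := ⟨_, (Real.exp_log hJ).symm⟩
  obtain ⟨ρ, rfl⟩ : ∃ n, R = Real.exp n := ⟨_, (Real.exp_log hR).symm⟩
  obtain ⟨y, rfl⟩ : ∃ n, Y = Real.exp n := ⟨_, (Real.exp_log hY).symm⟩
  simp only [← Real.exp_mul, ← Real.exp_nat_mul, ← Real.exp_add]
  refine ⟨?_, ?_, ?_⟩ <;> congr 1 <;> push_cast <;> ring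

theorem ti1_tail {σ : ℝ} (hσ : 1 < σ) : ∃ C : ℝ, 0 ≤ C ∧ ∀ J : ℝ, 0 < J → ∃ s : ℝ,
    HasSum (fun x : O => if J < Nr x then Nr x ^ (-σ) else 0) s ∧ s ≤ C * J ^ (1 - σ) := by
  obtain ⟨C, hC0, hC⟩ := b2_tail hσ
  exact ⟨C, hC0, fun J hJ => ⟨_, (summable_of_sum_le (b2_ite_nonneg σ J) (hC J hJ)).hasSum,
    Real.tsum_le_of_sum_le (b2_ite_nonneg σ J) (hC J hJ)⟩⟩

set_option maxHeartbeats 1000000 in
open Classical in
/-- Minkowski's inequality in `ℓ²(r)` and `cls_sm`. -/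
theorem tail_le (l : ℤ) {a ε : ℝ} (ha : 0 < a) (hε : 0 < ε) : ∃ C : ℝ, 0 ≤ C ∧
    ∀ R Y J τ : ℝ, 1 ≤ R → 1 ≤ Y → 1 ≤ J →
    ∑ r ∈ sbox R, ‖∑' k : O, if Prim k ∧ IsCoprime k r ∧ J < Nr k then
        (‖emb k‖ : ℂ) * mJ J k * az l k ^ 3 * ((Nr k : ℂ) ^ (-(τ * I))) ^ 3 *
          sm a (fun c => conj (gt c) * az l c * kap r c) (Y / Nr k ^ 3) τ else 0‖ ^ 2 ≤
      C * (R * Y * J) ^ ε *
        (R * Y + Y ^ 2 * J ^ (-3 : ℝ) + R ^ (2 / 3 : ℝ) * Y ^ (5 / 3 : ℝ) * J ^ (-2 : ℝ)) := by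
  set δ := min (1 / 4) (ε / 4) with hδ
  have hδ0 : 0 < δ := lt_min (by norm_num) (by positivity)
  have hδ1 : δ ≤ 1 / 4 := min_le_left _ _
  have hδ2 : δ ≤ ε / 4 := min_le_right _ _
  obtain ⟨C₀, hC₀0, hC₀⟩ := cls_sm ha (ε := 2 * δ) (by positivity)
  obtain ⟨D, hD0, hD⟩ := dv_le hδ0
  obtain ⟨C₁, hC₁0, hC₁⟩ := ti1_tail (σ := 1 + 2 * δ) (by linarith)
  obtain ⟨C₂, hC₂0, hC₂⟩ := ti1_tail (σ := 5 / 2 - δ) (by linarith)
  obtain ⟨C₃, hC₃0, hC₃⟩ := ti1_tail (σ := 2 - δ) (by linarith)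
  refine ⟨6 * D ^ 2 * C₀ * (C₁ + C₂ + C₃) ^ 2, by positivity, fun R Y J τ hR hY hJ => ?_⟩
  have hR0 : 0 < R := by linarith
  have hY0 : 0 < Y := by linarith
  have hJ0 : 0 < J := by linarith
  obtain ⟨s₁, hs₁, hs₁'⟩ := hC₁ J hJ0
  obtain ⟨s₂, hs₂, hs₂'⟩ := hC₂ J hJ0
  obtain ⟨s₃, hs₃, hs₃'⟩ := hC₃ J hJ0
  set x := R * Y * J with hx
  have hRY : 1 ≤ R * Y := one_le_mul_of_one_le_of_one_le hR hY
  have hx1 : R * Y ≤ x := le_mul_of_one_le_right (by linarith) hJ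
  have hx2 : Y ≤ x := (le_mul_of_one_le_left hY0.le hR).trans hx1
  have hx3 : J ≤ x := le_mul_of_one_le_left hJ0.le hRY
  set K := D * Real.sqrt (2 * C₀) * x ^ δ with hK
  have hK0 : 0 ≤ K := by positivity
  have hK2 : K ^ 2 = D ^ 2 * (2 * C₀) * (x ^ δ) ^ 2 := by
    rw [hK, mul_pow, mul_pow, Real.sq_sqrt (by positivity)]
  set A₁ := R ^ (1 / 2 : ℝ) * Y ^ (1 / 2 + δ) with hA₁
  set A₃ := R ^ (1 / 3 : ℝ) * Y ^ (5 / 6 : ℝ) with hA₃
  have hb := (((hs₁.mul_left A₁).add (hs₂.mul_left Y)).add (hs₃.mul_left A₃)).mul_left K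
  have hb0 : ∀ k : O, 0 ≤ K * ((A₁ * if J < Nr k then Nr k ^ (-(1 + 2 * δ)) else 0) +
      (Y * if J < Nr k then Nr k ^ (-(5 / 2 - δ)) else 0) +
      A₃ * if J < Nr k then Nr k ^ (-(2 - δ)) else 0) := fun k => by
    have := b2_ite_nonneg (1 + 2 * δ) J k
    have := b2_ite_nonneg (5 / 2 - δ) J k
    have := b2_ite_nonneg (2 - δ) J k
    positivity
  refine (ti1_mink _ hb.summable hb0 fun k => ?_).trans ?_
  · by_cases hk : Prim k ∧ J < Nr k
    swap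
    · rw [Finset.sum_eq_zero fun r _ => by
        rw [if_neg fun h => hk ⟨h.1, h.2.2⟩, norm_zero, zero_pow two_ne_zero]]
      exact sq_nonneg _
    obtain ⟨hk, hJk⟩ := hk
    have hN := one_le_Nr hk.ne_zero
    have hN0 : 0 < Nr k := by linarith
    have hZ : 0 < Y / Nr k ^ 3 := by positivity
    have hZY : Y / Nr k ^ 3 ≤ Y := div_le_self hY0.le (one_le_pow₀ hN)
    have h1 := hC₀ R (Y / Nr k ^ 3) τ (fun c => conj (gt c) * az l c) hR hZ
      (fun n hn => by rw [norm_mul, RCLike.norm_conj, norm_az l hn.ne_zero, mul_one]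
                      exact norm_gt_le hn)
      (fun n _ hn => by rw [gt_of_not hn, map_zero, zero_mul])
    have h2 : (R * (1 + Y / Nr k ^ 3)) ^ (2 * δ) ≤ 2 * (x ^ δ) ^ 2 := by
      rw [← Real.rpow_natCast (x ^ δ), ← Real.rpow_mul (by positivity), mul_comm δ, Nat.cast_two]
      calc _ ≤ (2 * x) ^ (2 * δ) := Real.rpow_le_rpow (by positivity) (by nlinarith) (by positivity)
        _ = 2 ^ (2 * δ) * x ^ (2 * δ) := Real.mul_rpow (by norm_num) (by positivity)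
        _ ≤ _ := by
          gcongr
          simpa using Real.rpow_le_rpow_of_exponent_le one_le_two (show 2 * δ ≤ 1 by linarith)
    have h3 : min 1 (Y / Nr k ^ 3) ≤ (Y / Nr k ^ 3) ^ (2 * δ) := by
      rcases le_total 1 (Y / Nr k ^ 3) with h | h
      · exact (min_le_left _ _).trans (Real.one_le_rpow h (by positivity))
      · refine (min_le_right _ _).trans ?_
        simpa using Real.rpow_le_rpow_of_exponent_ge hZ h (show 2 * δ ≤ 1 by linarith)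
    have h4 := min_le_left 1 (Y / Nr k ^ 3)
    have h5 := (norm_mJ_le J k).trans (hD k hk.ne_zero)
    have h6 : 0 ≤ min 1 (Y / Nr k ^ 3) := le_min zero_le_one hZ.le
    simp only [hJk, if_true, and_true]
    calc _ ≤ ∑ r ∈ sbox R, Nr k * (D * Nr k ^ δ) ^ 2 *
          ‖sm a (fun c => conj (gt c) * az l c * kap r c) (Y / Nr k ^ 3) τ‖ ^ 2 := by
          refine Finset.sum_le_sum fun r _ => ?_
          split_ifs
          · rw [norm_mul, norm_mul, norm_mul, norm_mul, norm_pow, norm_pow,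
              ti1_norm_cpow hk.ne_zero, norm_az l hk.ne_zero, one_pow, mul_one, mul_one,
              Complex.norm_real, norm_norm, mul_pow, mul_pow, norm_emb_sq]
            gcongr
          · rw [norm_zero, zero_pow two_ne_zero]
            positivity
      _ ≤ Nr k * (D * Nr k ^ δ) ^ 2 * (C₀ * (2 * (x ^ δ) ^ 2) *
          (R * (Y / Nr k ^ 3) * (Y / Nr k ^ 3) ^ (2 * δ) + (Y / Nr k ^ 3) ^ 2 +
            R ^ (2 / 3 : ℝ) * (Y / Nr k ^ 3) ^ (5 / 3 : ℝ) * 1)) := by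
          rw [← Finset.mul_sum]
          exact mul_le_mul_of_nonneg_left (h1.trans (by gcongr)) (by positivity)
      _ = K ^ 2 * (Nr k * (Nr k ^ δ) ^ 2 *
          (R * (Y / Nr k ^ 3) * (Y / Nr k ^ 3) ^ (2 * δ) + (Y / Nr k ^ 3) ^ 2 +
            R ^ (2 / 3 : ℝ) * (Y / Nr k ^ 3) ^ (5 / 3 : ℝ))) := by
          rw [hK2]
          ring
      _ ≤ _ := by
          rw [ti1_alg hN0 hR0 hY0, mul_pow K, ← hA₁, ← hA₃]
          refine mul_le_mul_of_nonneg_left ?_ (sq_nonneg _)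
          have e1 : 0 ≤ A₁ * Nr k ^ (-(1 + 2 * δ)) := by positivity
          have e2 : 0 ≤ Y * Nr k ^ (-(5 / 2 - δ)) := by positivity
          have e3 : 0 ≤ A₃ * Nr k ^ (-(2 - δ)) := by positivity
          nlinarith [mul_nonneg e1 e2, mul_nonneg e1 e3, mul_nonneg e2 e3]
  · have h0 : 0 ≤ ∑' k : O, K * ((A₁ * if J < Nr k then Nr k ^ (-(1 + 2 * δ)) else 0) +
      (Y * if J < Nr k then Nr k ^ (-(5 / 2 - δ)) else 0) +
      A₃ * if J < Nr k then Nr k ^ (-(2 - δ)) else 0) := tsum_nonneg hb0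
    rw [hb.tsum_eq] at h0 ⊢
    obtain ⟨e1, e2, e3⟩ := ti1_alg' (δ := δ) hJ0 hR0 hY0
    rw [← hA₁] at e1
    rw [← hA₃] at e3
    set C := C₁ + C₂ + C₃ with hC
    have h1 : s₁ ≤ C := by
      have : J ^ (1 - (1 + 2 * δ)) ≤ 1 := Real.rpow_le_one_of_one_le_of_nonpos hJ (by linarith)
      nlinarith
    have h2 : s₂ ≤ C * J ^ (1 - (5 / 2 - δ)) := hs₂'.trans (by gcongr; linarith)
    have h3 : s₃ ≤ C * J ^ (1 - (2 - δ)) := hs₃'.trans (by gcongr; linarith)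
    have h4 : (Y ^ δ) ^ 2 ≤ (x ^ δ) ^ 2 := by gcongr
    have h5 : (J ^ δ) ^ 2 ≤ (x ^ δ) ^ 2 := by gcongr
    have h6 : (x ^ δ) ^ 4 ≤ x ^ ε := by
      rw [← Real.rpow_natCast, ← Real.rpow_mul (by positivity)]
      exact Real.rpow_le_rpow_of_exponent_le (by linarith) (by push_cast; linarith)
    calc _ ≤ (K * (A₁ * C + Y * (C * J ^ (1 - (5 / 2 - δ))) + A₃ * (C * J ^ (1 - (2 - δ))))) ^ 2 := by
          gcongr
      _ = (K * C) ^ 2 * (A₁ + Y * J ^ (1 - (5 / 2 - δ)) + A₃ * J ^ (1 - (2 - δ))) ^ 2 := by ring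
      _ ≤ (K * C) ^ 2 * (3 * (A₁ ^ 2 + (Y * J ^ (1 - (5 / 2 - δ))) ^ 2 +
          (A₃ * J ^ (1 - (2 - δ))) ^ 2)) := by
          refine mul_le_mul_of_nonneg_left ?_ (sq_nonneg _)
          generalize Y * J ^ (1 - (5 / 2 - δ)) = u
          generalize A₃ * J ^ (1 - (2 - δ)) = v
          nlinarith [sq_nonneg (A₁ - u), sq_nonneg (A₁ - v), sq_nonneg (u - v)]
      _ ≤ (K * C) ^ 2 * (3 * ((x ^ δ) ^ 2 * (R * Y) + (x ^ δ) ^ 2 * (Y ^ 2 * J ^ (-3 : ℝ)) +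
          (x ^ δ) ^ 2 * (R ^ (2 / 3 : ℝ) * Y ^ (5 / 3 : ℝ) * J ^ (-2 : ℝ)))) := by
          rw [e1, e2, e3]
          gcongr
      _ = 6 * D ^ 2 * C₀ * C ^ 2 * (x ^ δ) ^ 4 *
          (R * Y + Y ^ 2 * J ^ (-3 : ℝ) + R ^ (2 / 3 : ℝ) * Y ^ (5 / 3 : ℝ) * J ^ (-2 : ℝ)) := by
          rw [mul_pow, hK2]
          ring
      _ ≤ _ := by gcongr

theorem ti1_main {j : O} (hj : j ≠ 0) {Y : ℝ} (hY : 0 < Y) (τ : ℝ) :
    (‖emb j‖ : ℂ) * ((Nr j : ℂ) ^ (-(τ * I))) ^ 3 * ((Y / Nr j ^ 3 : ℝ) : ℂ) ^ (5 / 6 - τ * I) *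
      (Nr j : ℂ) ^ 2 = (Y : ℂ) ^ (5 / 6 - τ * I) := by
  have hN := Nr_pos hj
  rw [norm_emb, ← w1_sqrt hN.le, w2_cpow hN, w2_cpow hN, w2_cpow hY, w2_cpow (by positivity),
    Real.log_div hY.ne' (by positivity), Real.log_pow, ← Complex.cpow_natCast (Nr j : ℂ),
    w2_cpow hN, ← Complex.exp_nat_mul, ← Complex.exp_add, ← Complex.exp_add, ← Complex.exp_add]
  congr 1
  push_cast
  ring

/-- `vor_bound` for the terms `N j ≤ J`. -/
theorem typeI_gt (l : ℤ) {a ε : ℝ} (ha : 0 < a) (hε : 0 < ε) : ∃ C : ℝ, 0 ≤ C ∧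
    ∀ R Y J τ : ℝ, 1 ≤ R → 1 ≤ Y → 1 ≤ J →
    ∑ r ∈ sbox R, ‖T0 * sm a (fun c => conj (gt c) * az l c * kap r c) Y τ -
      (if l = 0 then gt r * mT * ph r * ((Nr r ^ (-(1 / 6) : ℝ) : ℝ) : ℂ) * Zr r J *
        (Y : ℂ) ^ (5 / 6 - τ * I) * Wh a (5 / 6 - τ * I) else 0)‖ ^ 2 ≤
      C * (R * Y * J * (1 + |τ|)) ^ ε * (R ^ 2 * J ^ 3 * (1 + |τ|) ^ 4 + R * Y +
        Y ^ 2 * J ^ (-3 : ℝ) + R ^ (2 / 3 : ℝ) * Y ^ (5 / 3 : ℝ) * J ^ (-2 : ℝ)) := by
  classical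
  obtain ⟨C₁, hC₁0, hC₁⟩ := tail_le l ha hε
  obtain ⟨C₂, hC₂0, hC₂⟩ := vor_bound l ha (ε := ε / 6) (by positivity)
  refine ⟨50 * (25 * C₂ * 2 ^ (ε / 6)) ^ 2 + 2 * ‖T0‖ ^ 2 * C₁, by positivity,
    fun R Y J τ hR hY hJ => ?_⟩
  have hR0 : 0 < R := by linarith
  have hY0 : 0 < Y := by linarith
  have hJ0 : 0 < J := by linarith
  set T := 1 + |τ| with hT
  have hT1 : 1 ≤ T := le_add_of_nonneg_right (abs_nonneg τ)
  set x := R * Y * J * T with hx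
  have hx1 : 1 ≤ R * Y * J :=
    one_le_mul_of_one_le_of_one_le (one_le_mul_of_one_le_of_one_le hR hY) hJ
  have hx2 : R * Y * J ≤ x := le_mul_of_one_le_right (by linarith) hT1
  set E := 25 * J * (Real.sqrt J * (C₂ * (2 ^ (ε / 6) * x ^ (ε / 2)) * Real.sqrt R * T ^ 2)) with hE
  have h1 : ∀ r ∈ sbox R, ‖T0 * sm a (fun c => conj (gt c) * az l c * kap r c) Y τ -
      (if l = 0 then gt r * mT * ph r * ((Nr r ^ (-(1 / 6) : ℝ) : ℝ) : ℂ) * Zr r J *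
        (Y : ℂ) ^ (5 / 6 - τ * I) * Wh a (5 / 6 - τ * I) else 0)‖ ^ 2 ≤
      2 * E ^ 2 + 2 * ‖T0‖ ^ 2 * ‖∑' k : O, if Prim k ∧ IsCoprime k r ∧ J < Nr k then
        (‖emb k‖ : ℂ) * mJ J k * az l k ^ 3 * ((Nr k : ℂ) ^ (-(τ * I))) ^ 3 *
          sm a (fun c => conj (gt c) * az l c * kap r c) (Y / Nr k ^ 3) τ else 0‖ ^ 2 := by
    intro r hr
    obtain ⟨hr1, hr2, hr3⟩ := q_mem_sbox.1 hr
    let e : O → ℂ := fun j => if IsCoprime j r then mu j * (‖emb j‖ : ℂ) * az l j ^ 3 *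
      ((Nr j : ℂ) ^ (-(τ * I))) ^ 3 *
      (T0 * sm a (fun N => tg N * az l N * kap r N) (Y / Nr j ^ 3) τ -
        (if l = 0 then gt r * mT * ph r * ((Nr r ^ (-(1 / 6) : ℝ) : ℝ) : ℂ) *
          ((Y / Nr j ^ 3 : ℝ) : ℂ) ^ (5 / 6 - τ * I) * Wh a (5 / 6 - τ * I) else 0)) else 0
    have h2 : ‖∑ j ∈ sbox J, e j‖ ≤ E := by
      refine (norm_sum_le _ _).trans ((Finset.sum_le_card_nsmul _ _
        (Real.sqrt J * (C₂ * (2 ^ (ε / 6) * x ^ (ε / 2)) * Real.sqrt R * T ^ 2))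
        fun j hj => ?_).trans ?_)
      · obtain ⟨hj1, -, hj3⟩ := q_mem_sbox.1 hj
        have hN := one_le_Nr hj1.ne_zero
        simp only [e]
        by_cases hc : IsCoprime j r
        swap
        · rw [if_neg hc, norm_zero]
          positivity
        have h3 := hC₂ r (Y / Nr j ^ 3) τ hr1 hr2 (by positivity)
        have h4 : (Nr r * T * (1 + (Y / Nr j ^ 3)⁻¹)) ^ (ε / 6) ≤ 2 ^ (ε / 6) * x ^ (ε / 2) := by
          rw [show ε / 2 = ((3 : ℕ) : ℝ) * (ε / 6) by push_cast; ring,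
            Real.rpow_natCast_mul (by positivity), ← Real.mul_rpow (by norm_num) (by positivity)]
          have h5 := Nr_nonneg r
          refine Real.rpow_le_rpow (by positivity) ?_ (by positivity)
          have h6 : (Y / Nr j ^ 3)⁻¹ ≤ J ^ 3 := by
            rw [inv_div]
            exact (div_le_self (by positivity) hY).trans (by gcongr)
          have h7 : 1 ≤ J ^ 3 := one_le_pow₀ hJ
          have h8 : 1 ≤ R ^ 2 * Y ^ 3 * T ^ 2 := one_le_mul_of_one_le_of_one_le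
            (one_le_mul_of_one_le_of_one_le (one_le_pow₀ hR) (one_le_pow₀ hY)) (one_le_pow₀ hT1)
          calc _ ≤ R * T * (J ^ 3 + J ^ 3) := by gcongr
            _ = 2 * (R * T * J ^ 3 * 1) := by ring
            _ ≤ 2 * (R * T * J ^ 3 * (R ^ 2 * Y ^ 3 * T ^ 2)) := by gcongr
            _ = _ := by rw [hx]; ring
        rw [if_pos hc, norm_mul, norm_mul, norm_mul, norm_mul, norm_pow, norm_pow,
          ti1_norm_cpow hj1.ne_zero, norm_az l hj1.ne_zero, one_pow, mul_one, mul_one,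
          Complex.norm_real, norm_norm, norm_emb]
        refine mul_le_mul ((mul_le_of_le_one_left (Real.sqrt_nonneg _) (norm_mu_le j)).trans
          (Real.sqrt_le_sqrt hj3)) (h3.trans ?_) (norm_nonneg _) (Real.sqrt_nonneg _)
        gcongr
      · rw [nsmul_eq_mul]
        exact mul_le_mul_of_nonneg_right (card_sbox_le hJ0.le) (by positivity)
    have h3 : ∑ j ∈ sbox J, e j = T0 * (∑ j ∈ sbox J, if IsCoprime j r then
        mu j * (‖emb j‖ : ℂ) * az l j ^ 3 * ((Nr j : ℂ) ^ (-(τ * I))) ^ 3 *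
          sm a (fun N => tg N * az l N * kap r N) (Y / Nr j ^ 3) τ else 0) -
        (if l = 0 then gt r * mT * ph r * ((Nr r ^ (-(1 / 6) : ℝ) : ℝ) : ℂ) * Zr r J *
          (Y : ℂ) ^ (5 / 6 - τ * I) * Wh a (5 / 6 - τ * I) else 0) := by
      rw [Finset.mul_sum]
      by_cases hl : l = 0
      · rw [if_pos hl, Zr, Finset.mul_sum, Finset.sum_mul, Finset.sum_mul, ← Finset.sum_sub_distrib]
        refine Finset.sum_congr rfl fun j hj => ?_
        have hj0 := (q_mem_sbox.1 hj).1.ne_zero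
        have hN : (Nr j : ℂ) ≠ 0 := Complex.ofReal_ne_zero.2 (Nr_pos hj0).ne'
        simp only [e, hl, if_true, az_zero]
        split_ifs
        · rw [← ti1_main hj0 hY0 τ]
          field_simp
        · ring
      · rw [if_neg hl, sub_zero]
        refine Finset.sum_congr rfl fun j _ => ?_
        simp only [e, hl, if_false]
        split_ifs <;> ring
    rw [sm_uncube l ha hJ hY0 hr1 τ, mul_sub, sub_right_comm, ← h3, sub_eq_add_neg]
    refine (ti1_sq _ _).trans ?_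
    rw [norm_neg, norm_mul, mul_pow, ← mul_assoc]
    gcongr
  have h2 := hC₁ R Y J τ hR hY hJ
  have h3 : E ^ 2 = (25 * C₂ * 2 ^ (ε / 6)) ^ 2 * x ^ ε * (R * J ^ 3 * T ^ 4) := by
    have e1 : (x ^ (ε / 2)) ^ 2 = x ^ ε := by
      rw [← Real.rpow_natCast, ← Real.rpow_mul (by positivity)]
      norm_num
    rw [hE, ← e1]
    simp only [mul_pow, Real.sq_sqrt hJ0.le, Real.sq_sqrt hR0.le]
    ring
  have h4 := card_sbox_le hR0.le
  have h5 : (R * Y * J) ^ ε ≤ x ^ ε := by gcongr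
  refine (Finset.sum_le_sum h1).trans ?_
  rw [Finset.sum_add_distrib, Finset.sum_const, nsmul_eq_mul, ← Finset.mul_sum, h3]
  set S := R * Y + Y ^ 2 * J ^ (-3 : ℝ) + R ^ (2 / 3 : ℝ) * Y ^ (5 / 3 : ℝ) * J ^ (-2 : ℝ) with hS
  have hS0 : 0 ≤ S := by positivity
  set B := (25 * C₂ * 2 ^ (ε / 6)) ^ 2 with hB
  have hB0 : 0 ≤ B := sq_nonneg _
  calc _ ≤ 25 * R * (2 * (B * x ^ ε * (R * J ^ 3 * T ^ 4))) + 2 * ‖T0‖ ^ 2 * (C₁ * x ^ ε * S) := by
        gcongr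
        exact h2.trans (by gcongr)
    _ = 50 * B * x ^ ε * (R ^ 2 * J ^ 3 * T ^ 4 + 0) + 2 * ‖T0‖ ^ 2 * C₁ * x ^ ε * (0 + S) := by ring
    _ ≤ 50 * B * x ^ ε * (R ^ 2 * J ^ 3 * T ^ 4 + S) +
        2 * ‖T0‖ ^ 2 * C₁ * x ^ ε * (R ^ 2 * J ^ 3 * T ^ 4 + S) := by
        gcongr
        positivity
    _ = _ := by rw [hS]; ring

end Crest.Agent.R012

end
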