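import Crest.Agent.R012.TV2

/-! # Row 12: the abstract summation formula (port of `R017/ThV3`, with a main term) -/

set_option autoImplicit false

noncomputable section

open scoped BigOperators ComplexConjugate Topology
open Complex MeasureTheory Filter Set Crest.Agent.R017 Crest.Agent.R017.Theta

namespace Crest.Agent.R012

theorem tsum_Vm_eq (m : ℕ) {b : O → ℂ} {K : ℝ} (hb : ∀ c, ‖b c‖ ≤ K * Real.sqrt (Nr c)) {A Y : ℝ}
    (hA : 0 < A) (hY : 0 < Y) (τ : ℝ) :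
    (∑' c : O, if c = 0 then 0 else b c * Vm m A τ (Nr c * Y)) =
      (1 / (2 * Real.pi) : ℂ) * ∫ t : ℝ, gm m (((5 / 2 : ℝ) : ℂ) + t * I) *
        Wh A (1 - (((5 / 2 : ℝ) : ℂ) + t * I) - τ * I) * (Y : ℂ) ^ (-(((5 / 2 : ℝ) : ℂ) + t * I)) *
          Dall b (((5 / 2 : ℝ) : ℂ) + t * I) := by
  have e5 : ((1 + ((4 : ℕ) : ℝ)) / 2 : ℝ) = 5 / 2 := by norm_num
  have hG0 := integrable_gm_Wh m hA 4 τ
  rw [e5] at hG0
  have hG : Integrable fun t : ℝ => gm m (((5 / 2 : ℝ) : ℂ) + t * I) *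
      Wh A (1 - (((5 / 2 : ℝ) : ℂ) + t * I) - τ * I) *
        (Y : ℂ) ^ (-(((5 / 2 : ℝ) : ℂ) + t * I)) := by
    refine hG0.mul_bdd (c := Y ^ (-(5 / 2 : ℝ))) (Continuous.aestronglyMeasurable ?_)
      (Eventually.of_forall fun t => ?_)
    · simp only [w2_cpow hY]
      fun_prop
    · rw [Complex.norm_cpow_eq_rpow_re_of_pos hY]
      simp
  have h := v3t_swap hb hG (σ := 5 / 2) (by norm_num)
    (s := fun t : ℝ => ((5 / 2 : ℝ) : ℂ) + t * I) (by fun_prop) (fun t => by simp)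
  rw [h, ← tsum_mul_left]
  refine tsum_congr fun c => ?_
  split_ifs with hc
  · simp
  · have hN := Nr_pos hc
    rw [Vm_eq m hA 4 τ (mul_pos hN hY), e5, mul_left_comm]
    congr 2
    refine integral_congr_ae (Eventually.of_forall fun t => ?_)
    simp only [Complex.ofReal_mul]
    rw [Complex.mul_cpow_ofReal_nonneg hN.le hY.le]
    ring

/-- `tsum_W_eq`, `shift_Wh_pole` from `Re s = 2` to `Re s = -3/2` (pole at `5/6 - i τ`). -/
theorem voronoi_abs' (m : ℕ) {a b : O → ℂ} {K : ℝ} (ha : ∀ c, ‖a c‖ ≤ K * Real.sqrt (Nr c))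
    (hb : ∀ c, ‖b c‖ ≤ K * Real.sqrt (Nr c)) {ε ρ : ℂ} {N : ℝ} (hN : 0 < N) (hρ : m ≠ 0 → ρ = 0)
    (h : ∀ v : ℝ, 0 < v → Jl m a v = ε * (((((N * v ^ 2) ^ (m + 1))⁻¹ : ℝ) : ℂ) * Jl m b (N * v)⁻¹ +
      ρ * ((v ^ (-(5 / 3) : ℝ) : ℝ) : ℂ)))
    {A L : ℝ} (hA : 0 < A) (hL : 0 < L) (τ : ℝ) :
    (∑' c : O, if c = 0 then 0 else a c * (Nr c : ℂ) ^ (-(τ * I)) * (W A (Nr c / L) : ℂ)) =
      ε * ρ * (((c0 / 9) ^ (5 / 3 : ℝ) / Real.Gamma (2 / 3) : ℝ) : ℂ) *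
          (L : ℂ) ^ (5 / 6 - τ * I) * Wh A (5 / 6 - τ * I) +
        ε * (L : ℂ) ^ (1 - τ * I) / (N : ℂ) *
          ∑' c : O, if c = 0 then 0 else b c * Vm m A τ (Nr c * L / N ^ 2) := by
  obtain ⟨D, hD, hgr, hDa, hres, hFE⟩ := exists_FE' m ha hb hN hρ h
  have hY : 0 < L / N ^ 2 := by positivity
  simp only [mul_div_assoc (Nr _) L]
  rw [tsum_W_eq ha hA hL τ, tsum_Vm_eq m hb hA hY τ]
  have hL0 : (L : ℂ) ≠ 0 := Complex.ofReal_ne_zero.2 hL.ne'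
  have hre : ((5 / 6 : ℂ) - τ * I).re = 5 / 6 := by
    simp
  have hsh := shift_Wh_pole hA (H := fun s => D (s + τ * I) * (L : ℂ) ^ s) (σ₁ := -(3 / 2))
    (σ₂ := 2) (s₀ := 5 / 6 - τ * I) (by rw [hre]; norm_num) (by rw [hre]; norm_num)
    (Differentiable.differentiableOn (by simp only [w2_cpow hL]; fun_prop))
    (((hgr _ _).comp_add_I τ).mul (expGr_cpow hL _ _))
  have e1 : ∀ t : ℝ, Dall a (((2 : ℝ) : ℂ) + t * I + τ * I) * (L : ℂ) ^ (((2 : ℝ) : ℂ) + t * I) =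
      D (((2 : ℝ) : ℂ) + t * I + τ * I) * (L : ℂ) ^ (((2 : ℝ) : ℂ) + t * I) /
        (((2 : ℝ) : ℂ) + t * I - (5 / 6 - τ * I)) := by
    intro t
    have hne : (((2 : ℝ) : ℂ) + t * I - (5 / 6 - τ * I)) ≠ 0 := by
      intro h0
      have := congrArg Complex.re h0
      simp at this
      norm_num at this
    rw [hDa _ (by simp; norm_num), eq_div_iff hne]
    ring
  simp only [e1]
  have hpi : (Real.pi : ℂ) ≠ 0 := Complex.ofReal_ne_zero.2 Real.pi_ne_zero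
  rw [hsh, mul_add, sub_add_cancel, hres]
  congr 1
  · field_simp
  rw [v3t_subst _ τ, mul_left_comm _ (1 / (2 * Real.pi) : ℂ)]
  congr 1
  rw [← integral_const_mul]
  refine integral_congr_ae (Eventually.of_forall fun t => ?_)
  have e2 : ((-(3 / 2) : ℝ) : ℂ) + ((-(t + τ) : ℝ) : ℂ) * I =
      1 - (((5 / 2 : ℝ) : ℂ) + t * I) - τ * I := by push_cast; ring
  simp only
  rw [e2, sub_add_cancel, hFE _ (by simp; norm_num)]
  have hne : 1 - (((5 / 2 : ℝ) : ℂ) + t * I) - 5 / 6 ≠ 0 := by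
    intro h0
    have := congrArg Complex.re h0
    simp at this
    norm_num at this
  set w : ℂ := ((5 / 2 : ℝ) : ℂ) + t * I
  rw [show 1 - w - τ * I - (5 / 6 - τ * I) = 1 - w - 5 / 6 by ring, mul_assoc (1 - w - 5 / 6),
    mul_div_cancel_left₀ _ hne]
  have hN0 : (N : ℂ) = Complex.exp (Real.log N : ℝ) := by
    rw [← Complex.ofReal_exp, Real.exp_log hN]
  have e3 : (N : ℂ) ^ (2 * w - 1) * (L : ℂ) ^ (1 - w - τ * I) * (N : ℂ) =
      (L : ℂ) ^ (1 - τ * I) * ((L / N ^ 2 : ℝ) : ℂ) ^ (-w) := by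
    rw [w2_cpow hN, w2_cpow hL, w2_cpow hL, w2_cpow hY, Real.log_div hL.ne' (by positivity),
      Real.log_pow]
    conv_lhs => rw [mul_assoc]; enter [2, 2]; rw [hN0]
    rw [← Complex.exp_add, ← Complex.exp_add, ← Complex.exp_add]
    congr 1
    push_cast
    ring
  have hN1 : (N : ℂ) ≠ 0 := Complex.ofReal_ne_zero.2 hN.ne'
  field_simp
  linear_combination ε * gm m w * Dall b w * Wh A (1 - w - τ * I) * e3

end Crest.Agent.R012

end
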