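import Crest.Agent.R012.TC
import Crest.Agent.R012.TV3

/-! # Row 12: the twisted summation formula -/

set_option autoImplicit false

noncomputable section

open scoped BigOperators ComplexConjugate Topology
open Complex MeasureTheory Filter Set Crest.Agent.R017 Crest.Agent.R017.Theta

namespace Crest.Agent.R012

open Classical in
theorem TS_cr_term {d e : O} (hd : d ≠ 0) (he : e ≠ 0) (h : O) :
    ∑ x ∈ reps (d * e), (if d ∣ x then (1 : ℂ) else 0) * eO (h * x) (d * e) =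
      if e ∣ h then (Nr e : ℂ) else 0 := by
  rw [sum_reps_tower hd he _ (g1_per (n := d) (f := fun x => if d ∣ x then (1 : ℂ) else 0)
    (fun x y hxy => if_congr (dvd_iff_dvd_of_dvd_sub hxy) rfl rfl) (dvd_mul_right d e) h)]
  have h1 : ∀ x, ∑ y ∈ reps e, (if d ∣ x + d * y then (1 : ℂ) else 0) *
      eO (h * (x + d * y)) (d * e) =
      (if d ∣ x - 0 then (1 : ℂ) else 0) * if e ∣ h then (Nr e : ℂ) else 0 := by
    intro x
    have h2 : ∀ y, (if d ∣ x + d * y then (1 : ℂ) else 0) * eO (h * (x + d * y)) (d * e) =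
        (if d ∣ x then (1 : ℂ) else 0) * eO (h * x) (d * e) * eO (h * y) e := by
      intro y
      rw [show h * (x + d * y) = h * x + d * (h * y) by ring, eO_add, eO_mul_cancel hd,
        if_congr (dvd_add_left (dvd_mul_right d y)) rfl rfl, mul_assoc]
    simp only [h2]
    rw [← Finset.mul_sum, sum_reps_eO he, sub_zero]
    by_cases h3 : d ∣ x
    · by_cases h4 : e ∣ h
      · rw [eO_of_dvd (by rw [mul_comm h x]; exact mul_dvd_mul h3 h4), mul_one]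
      · simp [h4]
    · simp [h3]
  simp only [h1]
  rw [← Finset.sum_mul, ga_one hd, one_mul]

open Classical in
theorem TS_cr_eq {r : O} (hr : Prim r) (h : O) :
    tcr r h = ∑ d ∈ pdiv r, mu d * if r / d ∣ h then (Nr (r / d) : ℂ) else 0 := by
  rw [tcr, gs]
  have h1 : ∀ x, (if IsCoprime x r then (1 : ℂ) else 0) =
      ∑ d ∈ pdiv r, mu d * if d ∣ x then 1 else 0 := by
    intro x
    rw [if_congr isCoprime_comm rfl rfl]
    refine Eq.trans ?_ (Finset.sum_congr rfl (f := fun d => if d ∣ x then mu d else 0)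
      fun d _ => by split_ifs <;> simp)
    convert (sum_pdiv_mu_dvd hr x).symm
  simp only [h1, Finset.sum_mul]
  rw [Finset.sum_comm]
  refine Finset.sum_congr rfl fun d hd => ?_
  obtain ⟨hd1, e, rfl⟩ := (mem_pdiv hr.ne_zero).1 hd
  rw [mul_div_cancel_left₀ e hd1.ne_zero, ← TS_cr_term hd1.ne_zero (hd1.of_mul hr).ne_zero h,
    Finset.mul_sum]
  exact Finset.sum_congr rfl fun x _ => mul_assoc _ _ _

theorem TS_div_mem {r d : O} (hr : Prim r) (hd : d ∈ pdiv r) :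
    r / d ∈ pdiv r ∧ r / (r / d) = d := by
  obtain ⟨hd1, e, rfl⟩ := (mem_pdiv hr.ne_zero).1 hd
  have he := hd1.of_mul hr
  rw [mul_div_cancel_left₀ e hd1.ne_zero, mul_div_cancel_right₀ d he.ne_zero]
  exact ⟨(mem_pdiv hr.ne_zero).2 ⟨he, dvd_mul_left e d⟩, rfl⟩

open Classical in
theorem norm_cr_le {r : O} (hr : Prim r) (hs : Squarefree r) (h : O) :
    ‖tcr r h‖ ≤ ∑ d ∈ pdiv r, if d ∣ h then Nr d else 0 := by
  classical
  have _ := hs
  rw [TS_cr_eq hr]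
  refine (norm_sum_le _ _).trans ((Finset.sum_le_sum
    (g := fun d => if r / d ∣ h then Nr (r / d) else 0) fun d _ => ?_).trans (le_of_eq ?_))
  · rw [norm_mul]
    refine (mul_le_of_le_one_left (norm_nonneg _) (norm_mu_le d)).trans (le_of_eq ?_)
    split_ifs
    · rw [Complex.norm_real, Real.norm_of_nonneg (Nr_nonneg _)]
    · exact norm_zero
  · exact Finset.sum_nbij' (fun d => r / d) (fun d => r / d) (fun d hd => (TS_div_mem hr hd).1)
      (fun d hd => (TS_div_mem hr hd).1) (fun d hd => (TS_div_mem hr hd).2)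
      (fun d hd => (TS_div_mem hr hd).2) fun _ _ => by convert rfl

theorem cr_zero {r : O} (hr : Prim r) (hs : Squarefree r) : tcr r 0 = (Nr r : ℂ) * ph r := by
  have _ := hs
  rw [TS_cr_eq hr, ph, Finset.mul_sum]
  refine Finset.sum_congr rfl fun d hd => ?_
  obtain ⟨hd1, e, rfl⟩ := (mem_pdiv hr.ne_zero).1 hd
  have h1 : (Nr d : ℂ) ≠ 0 := Complex.ofReal_ne_zero.2 (Nr_pos hd1.ne_zero).ne'
  rw [if_pos (dvd_zero _), mul_div_cancel_left₀ e hd1.ne_zero, Nr_mul, Complex.ofReal_mul]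
  field_simp

theorem TS_cover {α β : Type} {f : α → ℝ} {G : β → ℝ} (φ : β → α) (hG0 : ∀ b, 0 ≤ G b)
    (hG : Summable G) (hf0 : ∀ a, 0 ≤ f a) (h : ∀ a, f a = 0 ∨ ∃ b, φ b = a ∧ f a ≤ G b) :
    Summable f ∧ ∑' a, f a ≤ ∑' b, G b := by
  have h1 := hG.hasSum.tsum_fiberwise φ
  have h2 : ∀ a, f a ≤ ∑' b : φ ⁻¹' {a}, G b := by
    intro a
    rcases h a with h0 | ⟨b, hb, h0⟩
    · rw [h0]
      exact tsum_nonneg fun b => hG0 b
    · exact h0.trans ((hG.subtype (φ ⁻¹' {a})).le_tsum ⟨b, hb⟩ fun c _ => hG0 c)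
  have h3 : Summable f := Summable.of_nonneg_of_le hf0 h2 h1.summable
  exact ⟨h3, (h3.tsum_le_tsum h2 h1.summable).trans_eq h1.tsum_eq⟩

open Classical in
/-- All divisors. -/
def TS_dv (r : O) : Finset O := (box (Nr r)).filter (fun d => d ∣ r)

theorem TS_mem_dv {r d : O} (hr : r ≠ 0) : d ∈ TS_dv r ↔ d ∣ r := by
  classical
  rw [TS_dv, Finset.mem_filter, mem_box]
  exact ⟨fun h => h.2, fun h => ⟨⟨ne_zero_of_dvd_ne_zero hr h, Nr_le_of_dvd hr h⟩, h⟩⟩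

open Classical in
/-- The sum of the norms of the common divisors. -/
def TS_gd (r x : O) : ℝ := ∑ d ∈ TS_dv r, if d ∣ x then Nr d else 0

theorem TS_gd_nonneg (r x : O) : 0 ≤ TS_gd r x :=
  Finset.sum_nonneg fun d _ => by split_ifs; exacts [Nr_nonneg d, le_rfl]

theorem TS_le_gd {r x d : O} (hr : r ≠ 0) (h1 : d ∣ r) (h2 : d ∣ x) : Nr d ≤ TS_gd r x := by
  classical
  refine le_trans (le_of_eq (if_pos h2).symm) (Finset.single_le_sum
    (f := fun d => if d ∣ x then Nr d else 0) (fun d _ => ?_) ((TS_mem_dv hr).2 h1))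
  split_ifs
  exacts [Nr_nonneg d, le_rfl]

theorem TS_cr_le {r u n j : O} (hr : Prim r) (hs : Squarefree r) (hu : IsUnit u) (k : ℕ) :
    ‖tcr r (u * lam ^ k * (n * j ^ 3))‖ ≤ (TS_dv r).card * (TS_gd r n * TS_gd r j) := by
  classical
  have h0 : 0 ≤ TS_gd r n * TS_gd r j := mul_nonneg (TS_gd_nonneg _ _) (TS_gd_nonneg _ _)
  refine (norm_cr_le hr hs _).trans ((Finset.sum_le_card_nsmul _ _ (TS_gd r n * TS_gd r j)
    fun d hd => ?_).trans ?_)
  · obtain ⟨hd1, hd2⟩ := (mem_pdiv hr.ne_zero).1 hd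
    split_ifs with h
    · have hc : IsCoprime d (u * lam ^ k) :=
        (isCoprime_mul_unit_left_right hu d _).2
          (((prime_lam.irreducible.coprime_iff_not_dvd).2 hd1.not_lam_dvd).symm.pow_right)
      obtain ⟨d₁, d₂, h1, h2, rfl⟩ := exists_dvd_and_dvd_of_dvd_mul (hc.dvd_of_dvd_mul_left h)
      have h3 : d₂ ∣ j :=
        (((hs.squarefree_of_dvd hd2).of_mul_right).dvd_pow_iff_dvd three_ne_zero).1 h2
      rw [Nr_mul]
      exact mul_le_mul (TS_le_gd hr.ne_zero ((dvd_mul_right _ _).trans hd2) h1)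
        (TS_le_gd hr.ne_zero ((dvd_mul_left _ _).trans hd2) h3) (Nr_nonneg _) (TS_gd_nonneg _ _)
    · exact h0
  · rw [nsmul_eq_mul]
    refine mul_le_mul_of_nonneg_right (Nat.cast_le.2 (Finset.card_le_card fun d hd => ?_)) h0
    exact (TS_mem_dv hr.ne_zero).2 ((mem_pdiv hr.ne_zero).1 hd).2

open Classical in
theorem TS_dvd_sum {σ : ℝ} (hσ : 1 < σ) {d : O} (hd : d ≠ 0) :
    Summable (fun n : O => (if d ∣ n then Nr d else 0) * Nr n ^ (-σ)) ∧
      ∑' n : O, (if d ∣ n then Nr d else 0) * Nr n ^ (-σ) ≤ ∑' n : O, Nr n ^ (-σ) := by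
  refine TS_cover (fun m => d * m) (fun m => Real.rpow_nonneg (Nr_nonneg m) _)
    (summable_Nr_rpow hσ) (fun n => mul_nonneg ?_ (Real.rpow_nonneg (Nr_nonneg n) _)) fun n => ?_
  · split_ifs
    exacts [Nr_nonneg d, le_rfl]
  · by_cases h : d ∣ n
    · obtain ⟨m, rfl⟩ := h
      refine Or.inr ⟨m, rfl, ?_⟩
      rw [if_pos (dvd_mul_right d m), Nr_mul, Real.mul_rpow (Nr_nonneg d) (Nr_nonneg m),
        ← mul_assoc]
      refine mul_le_of_le_one_left (Real.rpow_nonneg (Nr_nonneg m) _) ?_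
      rw [← Real.rpow_one_add' (Nr_nonneg d) (by linarith)]
      exact Real.rpow_le_one_of_one_le_of_nonpos (one_le_Nr hd) (by linarith)
    · exact Or.inl (by rw [if_neg h, zero_mul])

theorem TS_gd_sum {σ : ℝ} (hσ : 1 < σ) {r : O} (hr : r ≠ 0) :
    Summable (fun n : O => TS_gd r n * Nr n ^ (-σ)) ∧
      ∑' n : O, TS_gd r n * Nr n ^ (-σ) ≤ (TS_dv r).card * ∑' n : O, Nr n ^ (-σ) := by
  classical
  have hd : ∀ d ∈ TS_dv r, d ≠ 0 := fun d hd => ne_zero_of_dvd_ne_zero hr ((TS_mem_dv hr).1 hd)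
  simp only [TS_gd, Finset.sum_mul]
  refine ⟨summable_sum fun d h => (TS_dvd_sum hσ (hd d h)).1, ?_⟩
  rw [Summable.tsum_finsetSum fun d h => (TS_dvd_sum hσ (hd d h)).1, ← nsmul_eq_mul]
  exact Finset.sum_le_card_nsmul _ _ _ fun d h => (TS_dvd_sum hσ (hd d h)).2

/-- `c = u λ^k n j³` (`Tc_size`, `Tc_support`); a squarefree `d ∣ n j³` is `d₁ d₂` with `d₁ ∣ n`,
`d₂ ∣ j`. -/
theorem tsum_Tc_cr {ε : ℝ} (hε : 0 < ε) : ∃ C : ℝ, 0 ≤ C ∧ ∀ B : O × O → ℂ, Per B → ∀ r : O, Prim r →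
    Squarefree r → Summable (fun c : O => ‖Tc B c‖ * ‖tcr r c‖ * Nr c ^ (-(1 + ε))) ∧
    ∑' c : O, ‖Tc B c‖ * ‖tcr r c‖ * Nr c ^ (-(1 + ε)) ≤ C * Nr r ^ ε := by
  obtain ⟨K, hK⟩ := Tc_size
  obtain ⟨D, hD⟩ := card_div_le (ε := ε / 3) (by positivity)
  have hσ : 1 < 1 + ε := by linarith
  set σ : ℝ := 1 + ε with hσ'
  set Z : ℝ := ∑' n : O, Nr n ^ (-σ) with hZ
  have hZ0 : 0 ≤ Z := tsum_nonneg fun n => Real.rpow_nonneg (Nr_nonneg n) _
  set q : ℝ := (3 : ℝ) ^ (1 / 6 - σ) with hq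
  have hq0 : 0 ≤ q := by positivity
  have hq1 : q < 1 := Real.rpow_lt_one_of_one_lt_of_neg (by norm_num) (by linarith)
  have hq2 : 0 ≤ (1 - q)⁻¹ := inv_nonneg.2 (by linarith)
  refine ⟨|K| * |D| ^ 3 * Z ^ 3 * (1 - q)⁻¹, by positivity, fun B hB r hr hs => ?_⟩
  set t : ℝ := ((TS_dv r).card : ℝ) with ht
  have ht0 : 0 ≤ t := Nat.cast_nonneg _
  obtain ⟨hs1, hs2⟩ := TS_gd_sum hσ hr.ne_zero
  set g : O → ℝ := fun n => TS_gd r n * Nr n ^ (-σ) with hg
  have hg0 : ∀ n, 0 ≤ g n := fun n =>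
    mul_nonneg (TS_gd_nonneg _ _) (Real.rpow_nonneg (Nr_nonneg n) _)
  have hN0 : ∀ n : O, 0 ≤ Nr n ^ (-σ) := fun n => Real.rpow_nonneg (Nr_nonneg n) _
  have hgeo := summable_geometric_of_lt_one hq0 hq1
  have s1 : Summable fun p : O × O => g p.1 * g p.2 := hs1.mul_of_nonneg hs1 hg0 hg0
  have s2 : Summable fun p : O × ℕ => Nr p.1 ^ (-σ) * q ^ p.2 :=
    (summable_Nr_rpow hσ).mul_of_nonneg hgeo hN0 fun k => pow_nonneg hq0 k
  have s3 : Summable fun p : (O × ℕ) × O × O =>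
      (Nr p.1.1 ^ (-σ) * q ^ p.1.2) * (g p.2.1 * g p.2.2) :=
    s2.mul_of_nonneg s1 (fun p => mul_nonneg (hN0 _) (pow_nonneg hq0 _))
      fun p => mul_nonneg (hg0 _) (hg0 _)
  obtain ⟨h1, h2⟩ := TS_cover (f := fun c : O => ‖Tc B c‖ * ‖tcr r c‖ * Nr c ^ (-σ))
    (G := fun p : (O × ℕ) × O × O =>
      |K| * t * ((Nr p.1.1 ^ (-σ) * q ^ p.1.2) * (g p.2.1 * g p.2.2)))
    (fun p => p.1.1 * lam ^ p.1.2 * (p.2.1 * p.2.2 ^ 3))
    (fun p => mul_nonneg (by positivity) (mul_nonneg (mul_nonneg (hN0 _) (pow_nonneg hq0 _))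
      (mul_nonneg (hg0 _) (hg0 _)))) (s3.mul_left _)
    (fun c => mul_nonneg (by positivity) (hN0 c)) (by
      intro c
      by_cases hc : c = 0
      · left
        rw [hc, Nr_zero, Real.zero_rpow (by linarith), mul_zero]
      obtain ⟨u, k, N, hu, hN, rfl⟩ := exists_decomp hc
      by_cases h : ∃ n j : O, Prim n ∧ Squarefree n ∧ Prim j ∧ N = n * j ^ 3
      · obtain ⟨n, j, hn, hsn, hj, rfl⟩ := h
        refine Or.inr ⟨((u, k), n, j), rfl, ?_⟩
        have e1 := (hK B hB u k n j hu hn hsn hj).trans (mul_le_mul_of_nonneg_right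
          (mul_le_mul_of_nonneg_right (le_abs_self K) (by positivity)) (Real.sqrt_nonneg _))
        have e2 := TS_cr_le (n := n) (j := j) hr hs hu k
        have hj0 := Nr_pos hj.ne_zero
        have e3 : Nr (u * lam ^ k * (n * j ^ 3)) ^ (-σ) =
            (3 : ℝ) ^ (-(σ * k)) * Nr n ^ (-σ) * Nr j ^ (-(3 * σ)) := by
          rw [Nr_mul, Nr_mul, Nr_mul, isUnit_iff_Nr.1 hu, one_mul, Nr_pow, Nr_pow, Nr_lam,
            Real.mul_rpow (by positivity) (mul_nonneg (Nr_nonneg n) (by positivity)),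
            Real.mul_rpow (Nr_nonneg n) (by positivity), ← Real.rpow_natCast, ← Real.rpow_natCast,
            ← Real.rpow_mul (by norm_num), ← Real.rpow_mul hj0.le, mul_assoc]
          congr 2
          · ring
          · congr 1
            push_cast
            ring
        have e4 : (3 : ℝ) ^ ((k : ℝ) / 6) * (3 : ℝ) ^ (-(σ * k)) = q ^ k := by
          rw [hq, ← Real.rpow_add (by norm_num), ← Real.rpow_natCast,
            ← Real.rpow_mul (by norm_num)]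
          congr 1
          ring
        have e5 : Real.sqrt (Nr j) * Nr j ^ (-(3 * σ)) ≤ Nr j ^ (-σ) := by
          rw [Real.sqrt_eq_rpow, ← Real.rpow_add hj0]
          exact Real.rpow_le_rpow_of_exponent_le (one_le_Nr hj.ne_zero) (by linarith)
        have g1 := TS_gd_nonneg r n
        have g2 := TS_gd_nonneg r j
        have g3 := hN0 n
        simp only [hg, isUnit_iff_Nr.1 hu, Real.one_rpow, one_mul]
        rw [e3]
        calc _ ≤ |K| * (3 : ℝ) ^ ((k : ℝ) / 6) * Real.sqrt (Nr j) * (t * (TS_gd r n * TS_gd r j)) *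
              ((3 : ℝ) ^ (-(σ * k)) * Nr n ^ (-σ) * Nr j ^ (-(3 * σ))) := by gcongr
          _ = |K| * t * (((3 : ℝ) ^ ((k : ℝ) / 6) * (3 : ℝ) ^ (-(σ * k))) *
              (TS_gd r n * Nr n ^ (-σ) *
                (TS_gd r j * (Real.sqrt (Nr j) * Nr j ^ (-(3 * σ)))))) := by ring
          _ ≤ _ := by rw [e4]; gcongr
      · left
        rw [Tc_support hB k hu hN h, norm_zero, zero_mul, zero_mul])
  refine ⟨h1, h2.trans ?_⟩
  rw [tsum_mul_left, ← s2.tsum_mul_tsum s1 s3, ← (summable_Nr_rpow hσ).tsum_mul_tsum hgeo s2,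
    ← hs1.tsum_mul_tsum hs1 s1, tsum_geometric_of_lt_one hq0 hq1]
  have h3 : t ≤ |D| * Nr r ^ (ε / 3) :=
    (hD r hr.ne_zero).trans (mul_le_mul_of_nonneg_right (le_abs_self D)
      (Real.rpow_nonneg (Nr_nonneg r) _))
  have h4 : (Nr r ^ (ε / 3)) ^ 3 = Nr r ^ ε := by
    rw [← Real.rpow_natCast, ← Real.rpow_mul (Nr_nonneg r)]
    congr 1
    push_cast
    ring
  have h5 : 0 ≤ ∑' n, g n := tsum_nonneg hg0
  calc _ ≤ |K| * t * (Z * (1 - q)⁻¹ * ((t * Z) * (t * Z))) := by gcongr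
    _ = |K| * t ^ 3 * Z ^ 3 * (1 - q)⁻¹ := by ring
    _ ≤ |K| * (|D| * Nr r ^ (ε / 3)) ^ 3 * Z ^ 3 * (1 - q)⁻¹ := by gcongr
    _ = _ := by rw [mul_pow, h4]; ring

theorem TS_bd {B : O × O → ℂ} (hB : Per B) : ∃ K : ℝ, 0 ≤ K ∧ ∀ (l : ℤ) (c : O) (y : ℂ) (G : ℝ),
    ‖y‖ ≤ G → ‖Tc B c * az l c * y‖ ≤ K * G * Real.sqrt (Nr c) := by
  obtain ⟨K, hK0, hK⟩ := norm_Tc_le
  refine ⟨K, hK0, fun l c y G hy => ?_⟩
  have h1 := hK B hB c
  by_cases hc : c = 0
  · rw [hc, Nr_zero, Real.sqrt_zero, mul_zero] at h1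
    rw [hc, norm_le_zero_iff.1 h1, zero_mul, zero_mul, norm_zero, Nr_zero, Real.sqrt_zero, mul_zero]
  · rw [norm_mul, norm_mul, norm_az l hc, mul_one, mul_right_comm]
    exact mul_le_mul h1 hy (norm_nonneg _) (by positivity)

theorem TS_az_three (l : ℤ) : az l 3 = 1 := by
  have h : emb 3 = 3 := map_ofNat emb 3
  rw [az, ang, h]
  simp

theorem TS_Nr_three : Nr 3 = 9 := by
  have := Nr_natCast 3
  norm_num at this
  exact this

theorem TS_nine_cpow {x : ℝ} (hx : 0 < x) (s : ℂ) :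
    ((9 * x : ℝ) : ℂ) ^ s = ((9 : ℝ) : ℂ) ^ s * (x : ℂ) ^ s := by
  rw [Complex.ofReal_mul, Complex.mul_cpow_ofReal_nonneg (by norm_num) hx.le]

theorem TS_const : (9 : ℝ) ^ (7 / 3 : ℝ) * (c0 / 9) ^ (5 / 3 : ℝ) * (9 : ℝ) ^ (5 / 6 : ℝ) =
    27 * c0 ^ (5 / 3 : ℝ) := by
  have h : (9 : ℝ) ^ (7 / 3 : ℝ) * ((9 : ℝ) ^ (5 / 3 : ℝ))⁻¹ * (9 : ℝ) ^ (5 / 6 : ℝ) = 27 := by
    rw [← Real.rpow_neg (by norm_num), ← Real.rpow_add (by norm_num),
      ← Real.rpow_add (by norm_num), show (9 : ℝ) = 3 ^ (2 : ℝ) by norm_num,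
      ← Real.rpow_mul (by norm_num)]
    norm_num
  rw [Real.div_rpow c0_pos.le (by norm_num), ← h]
  ring

/-- One additive twist: `cf_Bs_ra`, `Jl_geod`, `voronoi_abs'` with length `9 L`, `tsum_three`,
`Tc_three_mul`; `9^{7/3 + 5/6 - 5/3} = 27`, `27 sig0 Bd = 9 b0`. -/
theorem vor_add (l : ℤ) {a b r d₀ : O} (hdet : a * d₀ - b * r = 1) (ha : (9 : O) ∣ a)
    (hd : (9 : O) ∣ d₀) (hr : Prim r) {A L : ℝ} (hA : 0 < A) (hL : 0 < L) (τ : ℝ) :
    T0 * sm A (fun N => tg N * az l N * eO (3 * N * a) (9 * r)) L τ =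
      conj (kap r d₀) * az l r ^ 2 *
        ((if l = 0 then mT * ((Nr r ^ (-(2 / 3) : ℝ) : ℝ) : ℂ) * (L : ℂ) ^ (5 / 6 - τ * I) *
            Wh A (5 / 6 - τ * I) else 0) +
          9 * (L : ℂ) ^ (1 - τ * I) / (Nr r : ℂ) * ∑' c : O, if c = 0 then 0 else
            Tc Bd c * az (-l) c * eO (-(c * d₀)) (9 * r) *
              Vm l.natAbs A τ (Nr c * (9 * L) / Nr r ^ 2)) := by
  classical
  obtain ⟨K₁, hK₁, h₁⟩ := TS_bd per_Bs
  obtain ⟨K₂, hK₂, h₂⟩ := TS_bd per_Bd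
  have key := voronoi_abs' l.natAbs (K := K₁ + K₂)
    (a := fun c => Tc Bs c * az l c * eO (c * a) (9 * r))
    (b := fun c => Tc Bd c * az (-l) c * eO (-(c * d₀)) (9 * r))
    (fun c => (h₁ l c _ 1 (norm_eO _ _).le).trans (by gcongr; linarith))
    (fun c => (h₂ (-l) c _ 1 (norm_eO _ _).le).trans (by gcongr; linarith))
    (ε := conj (kap r d₀) * az l r ^ 2)
    (ρ := if l = 0 then
      sig0 Bd * (((9 : ℝ) ^ (7 / 3 : ℝ) * Nr r ^ (-(2 / 3) : ℝ) : ℝ) : ℂ) else 0)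
    (Nr_pos hr.ne_zero) (fun h => if_neg (Int.natAbs_ne_zero.1 h))
    (fun v hv => Jl_geod (g := mkSG a b r d₀ hdet) per_Bs per_Bd sig0_Bs hr.ne_zero
      (cf_Bs_ra hdet ha hd hr) l hv) hA (L := 9 * L) (by positivity) τ
  have h9 : ((9 : ℝ) : ℂ) ^ (-(τ * I)) ≠ 0 := by
    rw [Ne, Complex.cpow_eq_zero_iff]
    norm_num
  have hl : (∑' c : O, if c = 0 then 0 else Tc Bs c * az l c * eO (c * a) (9 * r) *
      (Nr c : ℂ) ^ (-(τ * I)) * (W A (Nr c / (9 * L)) : ℂ)) = ((9 : ℝ) : ℂ) ^ (-(τ * I)) *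
        (T0 * sm A (fun N => tg N * az l N * eO (3 * N * a) (9 * r)) L τ) := by
    rw [tsum_three fun h hh => by simp only [Tc_Bs_of_not hh, zero_mul, ite_self], sm,
      ← tsum_mul_left, ← tsum_mul_left]
    refine tsum_congr fun N => ?_
    split_ifs with hN h0
    · exact absurd h0 (mul_ne_zero (by decide) hN.ne_zero)
    · rw [Tc_three_mul per_Bs (fun n hn => op_Bs hn) hN, az_mul, TS_az_three, Nr_mul, TS_Nr_three,
        TS_nine_cpow (Nr_pos hN.ne_zero), mul_div_mul_left _ _ (by norm_num : (9 : ℝ) ≠ 0), T0]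
      ring
    · simp
  have e1 : ((9 : ℝ) : ℂ) ^ (5 / 6 - τ * I) =
      (((9 : ℝ) ^ (5 / 6 : ℝ) : ℝ) : ℂ) * ((9 : ℝ) : ℂ) ^ (-(τ * I)) := by
    rw [sub_eq_add_neg, Complex.cpow_add _ _ (by norm_num), Complex.ofReal_cpow (by norm_num)]
    norm_num
  have e2 : ((9 : ℝ) : ℂ) ^ (1 - τ * I) = 9 * ((9 : ℝ) : ℂ) ^ (-(τ * I)) := by
    rw [sub_eq_add_neg, Complex.cpow_add _ _ (by norm_num), Complex.cpow_one]
    norm_num
  rw [hl, TS_nine_cpow hL, TS_nine_cpow hL, e1, e2] at key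
  refine mul_left_cancel₀ h9 (key.trans ?_)
  split_ifs
  · have e3 := congrArg (fun x : ℝ => (x : ℂ)) TS_const
    simp only [Complex.ofReal_mul] at e3
    rw [sig0_Bd, mT, Complex.ofReal_div _ (Real.Gamma _), Complex.ofReal_div _ (Real.Gamma _)]
    simp only [Complex.ofReal_mul, Complex.ofReal_ofNat] at e3 ⊢
    linear_combination (conj (kap r d₀) * az l r ^ 2 * (b0 / 3) *
      ((Nr r ^ (-(2 / 3) : ℝ) : ℝ) : ℂ) / (Real.Gamma (2 / 3) : ℂ) * (9 : ℂ) ^ (-(τ * I)) *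
      (L : ℂ) ^ (5 / 6 - τ * I) * Wh A (5 / 6 - τ * I)) * e3
  · ring

open Classical in
theorem TS_inv {r : O} (hr : r ≠ 0) (u : O) :
    ∑ y ∈ reps r, (if r ∣ u * y + 1 then (1 : ℂ) else 0) = if IsCoprime u r then 1 else 0 := by
  by_cases h : IsCoprime u r
  · rw [if_pos h, sum_reps_affine hr (fun z => if r ∣ z then (1 : ℂ) else 0)
      (fun x y hxy => if_congr (dvd_iff_dvd_of_dvd_sub hxy) rfl rfl) h 1]
    simpa only [sub_zero] using ga_one hr 0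
  · rw [if_neg h]
    refine Finset.sum_eq_zero fun y _ => if_neg ?_
    rintro ⟨z, hz⟩
    exact h ⟨-y, z, by linear_combination -hz⟩

theorem TS_kap_three {r : O} (hr : Prim r) (hs : Squarefree r) : kap r 3 * g3 r = gt r := by
  rw [gt_eq hr hs, conj_kap, ← kap_pow_right _ _ two_ne_zero, sq3_sq, kap_neg_right]

theorem TS_kap_expand {r : O} (hr : Prim r) (hs : Squarefree r) (N : O) :
    kap r N = g3 r / (Real.sqrt (Nr r) : ℂ) * ∑ x ∈ reps r, conj (kap r x) * eO (N * x) r := by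
  have h1 := conj_gs (kap r) r (-N)
  rw [neg_neg, gt_gs hr hs, kap_neg_right, map_mul, Complex.conj_conj] at h1
  have h2 : (Real.sqrt (Nr r) : ℂ) ≠ 0 :=
    Complex.ofReal_ne_zero.2 (Real.sqrt_pos.2 (Nr_pos hr.ne_zero)).ne'
  have h3 := g1_conj_mul (norm_g3 hr.not_lam_dvd hs)
  have h4 : gs (kap r) r 1 = g3 r * (Real.sqrt (Nr r) : ℂ) := by rw [g3, div_mul_cancel₀ _ h2]
  change _ = _ * gs (fun x => conj (kap r x)) r N
  rw [← h1, h4, map_mul, Complex.conj_ofReal]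
  field_simp
  linear_combination (-kap r N) * h3

open Classical in
theorem TS_summable (l : ℤ) (m : ℕ) {A y : ℝ} (hA : 0 < A) (hy : 0 < y) (τ : ℝ) {g : O → ℂ}
    (hg : ∀ c, ‖g c‖ ≤ 1) {Y : O → ℝ} (hY : ∀ c, Y c = Nr c * y) :
    Summable fun c : O => if c = 0 then 0 else Tc Bd c * az l c * g c * Vm m A τ (Y c) := by
  obtain ⟨K, hK, h⟩ := TS_bd per_Bd
  obtain ⟨C, hC0, hC⟩ := norm_Vm_le m hA 4
  refine Summable.of_norm_bounded ((summable_Nr_rpow (σ := 2) (by norm_num)).mul_left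
    (K * 1 * (C * (1 + |τ|) ^ (2 * 4) * y ^ (-((1 + (4 : ℕ)) / 2 : ℝ))))) fun c => ?_
  by_cases hc : c = 0
  · simp [hc, Nr_zero]
  have hN := Nr_pos hc
  rw [if_neg hc, norm_mul, hY]
  have h1 := h l c _ 1 (hg c)
  have h4 := hC τ _ (mul_pos hN hy)
  rw [Real.mul_rpow hN.le hy.le] at h4
  have e : Real.sqrt (Nr c) * Nr c ^ (-((1 + (4 : ℕ)) / 2 : ℝ)) = Nr c ^ (-(2 : ℝ)) := by
    rw [Real.sqrt_eq_rpow, ← Real.rpow_add hN]
    norm_num
  calc _ ≤ K * 1 * Real.sqrt (Nr c) * (C * (1 + |τ|) ^ (2 * 4) *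
        (Nr c ^ (-((1 + (4 : ℕ)) / 2 : ℝ)) * y ^ (-((1 + (4 : ℕ)) / 2 : ℝ)))) := by gcongr
    _ = _ := by rw [← e]; ring

/-- One additive character modulo `r`. -/
theorem TS_one (l : ℤ) {r x y : O} (hr : Prim r) (h : r ∣ 27 * x * y + 1) {A L : ℝ} (hA : 0 < A)
    (hL : 0 < L) (τ : ℝ) :
    conj (kap r x) * (T0 * sm A (fun N => tg N * az l N * eO (N * x) r) L τ) =
      kap r 3 * az l r ^ 2 *
        ((if l = 0 then mT * ((Nr r ^ (-(2 / 3) : ℝ) : ℝ) : ℂ) * (L : ℂ) ^ (5 / 6 - τ * I) *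
            Wh A (5 / 6 - τ * I) else 0) +
          9 * (L : ℂ) ^ (1 - τ * I) / (Nr r : ℂ) * ∑' c : O, if c = 0 then 0 else
            Tc Bd c * az (-l) c * eO (c * y) r *
              Vm l.natAbs A τ (Nr c * (9 * L) / Nr r ^ 2)) := by
  obtain ⟨s, hs⟩ := id hr
  obtain ⟨z, hz⟩ := id h
  have hdet : 9 * (-s * x) * (9 * -y) - (27 * x * y - z) * r = 1 := by
    linear_combination (-27 * x * y) * hs - hz
  have key := vor_add l hdet (dvd_mul_right _ _) (dvd_mul_right _ _) hr hA hL τ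
  have e1 : ∀ N : O, eO (3 * N * (9 * (-s * x))) (9 * r) = eO (N * x) r := by
    intro N
    rw [show 3 * N * (9 * (-s * x)) = 9 * (3 * N * (-s * x)) by ring, eO_mul_cancel ga_nine]
    exact eO_congr ⟨-(N * x), by linear_combination (N * x) * hs⟩
  have e2 : ∀ c : O, eO (-(c * (9 * -y))) (9 * r) = eO (c * y) r := by
    intro c
    rw [show -(c * (9 * -y)) = 9 * (c * y) by ring, eO_mul_cancel ga_nine]
  have e3 : kap r 3 * (kap r x * kap r (9 * -y)) = 1 := by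
    rw [← kap_mul_right, ← kap_mul_right, ← kap_one_right hr.not_lam_dvd]
    exact kap_congr' hr.ne_zero ⟨-z, by linear_combination -hz⟩
  have e4 : conj (kap r x) * conj (kap r (9 * -y)) = kap r 3 := by
    have e5 : kap r 3 ≠ 0 := left_ne_zero_of_mul_eq_one e3
    have e6 := congrArg conj e3
    rw [map_mul, map_mul, map_one] at e6
    linear_combination kap r 3 * e6 -
      conj (kap r x) * conj (kap r (9 * -y)) * g1_conj_mul (norm_kap e5)
  simp only [e1, e2] at key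
  rw [key, ← e4]
  ring

/-- Expand `kap r N` by Gauss sums (`gs_kap_pow` with `k = 2`): for `x` prime to `r` take
`a = 9 a'`, `3 a' ≡ x`, `d₀ = 9 d'`, `a d₀ ≡ 1 mod r`; `conj (x/r) conj (d₀/r) = (3/r)` and
`(3/r) g3 r = gt r`. -/
theorem vor_mul (l : ℤ) {r : O} (hr : Prim r) (hs : Squarefree r) {A L : ℝ} (hA : 0 < A) (hL : 0 < L)
    (τ : ℝ) :
    T0 * sm A (fun N => tg N * az l N * kap r N) L τ =
      gt r * az l r ^ 2 *
        ((if l = 0 then mT * ph r * ((Nr r ^ (-(1 / 6) : ℝ) : ℝ) : ℂ) * (L : ℂ) ^ (5 / 6 - τ * I) *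
            Wh A (5 / 6 - τ * I) else 0) +
          9 * (L : ℂ) ^ (1 - τ * I) / ((Nr r ^ (3 / 2 : ℝ) : ℝ) : ℂ) * ∑' c : O, if c = 0 then 0 else
            Tc Bd c * az (-l) c * tcr r c * Vm l.natAbs A τ (Nr c * (9 * L) / Nr r ^ 2)) := by
  classical
  have hr0 := hr.ne_zero
  have hN := Nr_pos hr0
  -- step 1: expansion into additive characters
  have s1 : sm A (fun N => tg N * az l N * kap r N) L τ = g3 r / (Real.sqrt (Nr r) : ℂ) *
      ∑ x ∈ reps r, conj (kap r x) * sm A (fun N => tg N * az l N * eO (N * x) r) L τ := by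
    have hsum : ∀ x : O, Summable fun N : O => if Prim N then tg N * az l N * eO (N * x) r *
        (Nr N : ℂ) ^ (-(τ * I)) * (W A (Nr N / L) : ℂ) else 0 := fun x =>
      summable_sm hA hL (c := fun N => tg N * az l N * eO (N * x) r) (K := 1) (A := 1 / 6)
        (fun N hN => by
          rw [norm_mul, norm_mul, norm_az l hN.ne_zero, norm_eO, mul_one, mul_one, one_mul]
          exact norm_tg_le hN) τ
    simp only [sm, ← tsum_mul_left]
    rw [← Summable.tsum_finsetSum fun x _ => (hsum x).mul_left (conj (kap r x)), ← tsum_mul_left]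
    refine tsum_congr fun N => ?_
    by_cases h : Prim N
    · simp only [if_pos h]
      rw [TS_kap_expand hr hs N, Finset.mul_sum, Finset.mul_sum, Finset.mul_sum, Finset.sum_mul,
        Finset.sum_mul]
      exact Finset.sum_congr rfl fun x _ => by ring
    · simp [h]
  have h3 : IsCoprime (27 : O) r := by
    have := (coprime_three_iff.2 hr.not_lam_dvd).symm.pow_left (m := 3)
    norm_num at this
    exact this
  set M : ℂ := if l = 0 then mT * ((Nr r ^ (-(2 / 3) : ℝ) : ℝ) : ℂ) * (L : ℂ) ^ (5 / 6 - τ * I) *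
    Wh A (5 / 6 - τ * I) else 0 with hM
  set E : ℂ := 9 * (L : ℂ) ^ (1 - τ * I) / (Nr r : ℂ) with hE
  set D : O → ℂ := fun y => ∑' c : O, if c = 0 then 0 else Tc Bd c * az (-l) c * eO (c * y) r *
    Vm l.natAbs A τ (Nr c * (9 * L) / Nr r ^ 2) with hD
  -- step 2: Voronoi for each character
  have s2 : ∑ x ∈ reps r, conj (kap r x) *
      (T0 * sm A (fun N => tg N * az l N * eO (N * x) r) L τ) =
      ∑ y ∈ reps r, (if IsCoprime y r then (1 : ℂ) else 0) *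
        (kap r 3 * az l r ^ 2 * (M + E * D y)) := by
    have e1 : ∀ x, conj (kap r x) * (T0 * sm A (fun N => tg N * az l N * eO (N * x) r) L τ) =
        ∑ y ∈ reps r, (if r ∣ 27 * x * y + 1 then (1 : ℂ) else 0) *
          (kap r 3 * az l r ^ 2 * (M + E * D y)) := by
      intro x
      rw [Finset.sum_congr rfl (g := fun y => (if r ∣ 27 * x * y + 1 then (1 : ℂ) else 0) *
        (conj (kap r x) * (T0 * sm A (fun N => tg N * az l N * eO (N * x) r) L τ))) fun y _ => ?_,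
        ← Finset.sum_mul, TS_inv hr0]
      · split_ifs with h
        · rw [one_mul]
        · rw [(kap_eq_zero hr0).2 (Or.inr fun h' => h (h3.mul_left h'.symm)), map_zero, zero_mul,
            zero_mul]
      · split_ifs with h
        · rw [TS_one l hr h hA hL τ]
        · rw [zero_mul, zero_mul]
    simp only [e1]
    rw [Finset.sum_comm]
    refine Finset.sum_congr rfl fun y _ => ?_
    simp only [mul_right_comm 27 _ y]
    rw [← Finset.sum_mul, TS_inv hr0,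
      if_congr ⟨fun h => h.of_mul_left_right, fun h => h3.mul_left h⟩ rfl rfl]
  -- step 3: Ramanujan sums
  have s3 : ∑ y ∈ reps r, (if IsCoprime y r then (1 : ℂ) else 0) = (Nr r : ℂ) * ph r := by
    rw [← cr_zero hr hs, tcr, ga_gs_zero]
  have s4 : ∑ y ∈ reps r, (if IsCoprime y r then (1 : ℂ) else 0) * D y =
      ∑' c : O, if c = 0 then 0 else
        Tc Bd c * az (-l) c * tcr r c * Vm l.natAbs A τ (Nr c * (9 * L) / Nr r ^ 2) := by
    simp only [hD, ← tsum_mul_left]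
    rw [← Summable.tsum_finsetSum fun y _ => (TS_summable (-l) l.natAbs hA
      (y := 9 * L / Nr r ^ 2) (by positivity) τ (g := fun c => eO (c * y) r)
      (fun c => (norm_eO _ _).le) (fun c => mul_div_assoc _ _ _)).mul_left _]
    refine tsum_congr fun c => ?_
    by_cases hc : c = 0
    · simp [hc]
    · simp only [if_neg hc]
      rw [tcr, gs, Finset.mul_sum, Finset.sum_mul]
      exact Finset.sum_congr rfl fun y _ => by ring
  have s5 : ∑ y ∈ reps r, (if IsCoprime y r then (1 : ℂ) else 0) *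
      (kap r 3 * az l r ^ 2 * (M + E * D y)) = kap r 3 * az l r ^ 2 *
        (M * ∑ y ∈ reps r, (if IsCoprime y r then (1 : ℂ) else 0) +
          E * ∑ y ∈ reps r, (if IsCoprime y r then (1 : ℂ) else 0) * D y) := by
    rw [Finset.mul_sum, Finset.mul_sum, ← Finset.sum_add_distrib, Finset.mul_sum]
    exact Finset.sum_congr rfl fun y _ => by ring
  have q0 : (Real.sqrt (Nr r) : ℂ) ≠ 0 := Complex.ofReal_ne_zero.2 (Real.sqrt_pos.2 hN).ne'
  have q0' : (Nr r : ℂ) ≠ 0 := Complex.ofReal_ne_zero.2 hN.ne'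
  have q1 : ((Nr r ^ (3 / 2 : ℝ) : ℝ) : ℂ) = (Nr r : ℂ) * (Real.sqrt (Nr r) : ℂ) := by
    rw [← Complex.ofReal_mul, Real.sqrt_eq_rpow, ← Real.rpow_one_add' hN.le (by norm_num)]
    norm_num
  have q2 : ((Nr r ^ (-(1 / 6) : ℝ) : ℝ) : ℂ) =
      ((Nr r ^ (-(2 / 3) : ℝ) : ℝ) : ℂ) * (Nr r : ℂ) / (Real.sqrt (Nr r) : ℂ) := by
    rw [← Complex.ofReal_mul, ← Complex.ofReal_div, Real.sqrt_eq_rpow,
      ← Real.rpow_add_one hN.ne', ← Real.rpow_sub hN]
    norm_num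
  rw [s1, mul_left_comm, Finset.mul_sum]
  simp only [mul_left_comm T0]
  rw [s2, s5, s3, s4, ← TS_kap_three hr hs, q1, q2, hM, hE]
  generalize (∑' c : O, if c = 0 then 0 else
    Tc Bd c * az (-l) c * tcr r c * Vm l.natAbs A τ (Nr c * (9 * L) / Nr r ^ 2)) = S
  split_ifs
  · field_simp
  · rw [zero_mul, zero_add, zero_add]
    field_simp

/-- `norm_Vm_le'`, `tsum_Tc_cr`. -/
theorem vor_bound (l : ℤ) {A ε : ℝ} (hA : 0 < A) (hε : 0 < ε) : ∃ C : ℝ, 0 ≤ C ∧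
    ∀ (r : O) (L τ : ℝ), Prim r → Squarefree r → 0 < L →
    ‖T0 * sm A (fun N => tg N * az l N * kap r N) L τ -
      (if l = 0 then gt r * mT * ph r * ((Nr r ^ (-(1 / 6) : ℝ) : ℝ) : ℂ) * (L : ℂ) ^ (5 / 6 - τ * I) *
        Wh A (5 / 6 - τ * I) else 0)‖ ≤
      C * (Nr r * (1 + |τ|) * (1 + L⁻¹)) ^ ε * Real.sqrt (Nr r) * (1 + |τ|) ^ 2 := by
  classical
  obtain ⟨δ, hδ, hδ1, hδ2⟩ : ∃ δ : ℝ, 0 < δ ∧ δ ≤ 1 / 2 ∧ 4 * δ ≤ ε :=
    ⟨min (1 / 2) (ε / 4), by positivity, min_le_left _ _, by linarith [min_le_right (1 / 2) (ε / 4)]⟩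
  obtain ⟨C₁, hC₁, h₁⟩ := norm_Vm_le' l.natAbs hA hδ hδ1
  obtain ⟨C₂, hC₂, h₂⟩ := tsum_Tc_cr hδ
  refine ⟨C₁ * C₂, by positivity, fun r L τ hr hs hL => ?_⟩
  obtain ⟨h₃, h₄⟩ := h₂ Bd per_Bd r hr hs
  have hN := Nr_pos hr.ne_zero
  have hN1 := one_le_Nr hr.ne_zero
  have hτ : 1 ≤ 1 + |τ| := le_add_of_nonneg_right (abs_nonneg τ)
  set S : ℂ := ∑' c : O, if c = 0 then 0 else
    Tc Bd c * az (-l) c * tcr r c * Vm l.natAbs A τ (Nr c * (9 * L) / Nr r ^ 2) with hS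
  have e1 : T0 * sm A (fun N => tg N * az l N * kap r N) L τ -
      (if l = 0 then gt r * mT * ph r * ((Nr r ^ (-(1 / 6) : ℝ) : ℝ) : ℂ) *
        (L : ℂ) ^ (5 / 6 - τ * I) * Wh A (5 / 6 - τ * I) else 0) =
      gt r * az l r ^ 2 * (9 * (L : ℂ) ^ (1 - τ * I) / ((Nr r ^ (3 / 2 : ℝ) : ℝ) : ℂ) * S) := by
    rw [vor_mul l hr hs hA hL τ, ← hS]
    split_ifs with h
    · subst h
      rw [az_zero]
      ring
    · ring
  have e2 : ‖S‖ ≤ C₁ * (1 + |τ|) ^ (2 + 4 * δ) * (9 * L / Nr r ^ 2) ^ (-(1 + δ)) *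
      (C₂ * Nr r ^ δ) := by
    refine (tsum_of_norm_bounded ((h₃.hasSum).mul_left
      (C₁ * (1 + |τ|) ^ (2 + 4 * δ) * (9 * L / Nr r ^ 2) ^ (-(1 + δ)))) fun c => ?_).trans
      (mul_le_mul_of_nonneg_left h₄ (by positivity))
    by_cases hc : c = 0
    · rw [if_pos hc, norm_zero]
      have := Nr_nonneg c
      positivity
    · have hc0 := Nr_pos hc
      have h5 := h₁ τ (Nr c * (9 * L / Nr r ^ 2)) (by positivity)
      rw [Real.mul_rpow hc0.le (by positivity)] at h5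
      rw [if_neg hc, norm_mul, norm_mul, norm_mul, norm_az _ hc, mul_one, mul_div_assoc]
      calc _ ≤ ‖Tc Bd c‖ * ‖tcr r c‖ * (C₁ * (1 + |τ|) ^ (2 + 4 * δ) *
            (Nr c ^ (-(1 + δ)) * (9 * L / Nr r ^ 2) ^ (-(1 + δ)))) := by gcongr
        _ = _ := by ring
  have e3 : ‖(L : ℂ) ^ (1 - τ * I)‖ = L := by
    rw [Complex.norm_cpow_eq_rpow_re_of_pos hL]
    simp
  have e4 : 9 * L / Nr r ^ (3 / 2 : ℝ) * (9 * L / Nr r ^ 2) ^ (-(1 + δ)) * Nr r ^ δ =
      (9 * L) ^ (-δ) * Nr r ^ (3 * δ) * Real.sqrt (Nr r) := by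
    have hL9 : 0 < 9 * L := by positivity
    rw [Real.div_rpow hL9.le (by positivity), ← Real.rpow_natCast (Nr r) 2,
      ← Real.rpow_mul hN.le, Real.sqrt_eq_rpow, show -δ = 1 + -(1 + δ) by ring,
      Real.rpow_add hL9, Real.rpow_one, div_eq_mul_inv (9 * L), div_eq_mul_inv ((9 * L) ^ _),
      ← Real.rpow_neg hN.le, ← Real.rpow_neg hN.le]
    have : Nr r ^ (-(3 / 2 : ℝ)) * Nr r ^ (-(((2 : ℕ) : ℝ) * -(1 + δ))) * Nr r ^ δ =
        Nr r ^ (3 * δ) * Nr r ^ (1 / 2 : ℝ) := by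
      rw [← Real.rpow_add hN, ← Real.rpow_add hN, ← Real.rpow_add hN]
      congr 1
      push_cast
      ring
    linear_combination (9 * L * (9 * L) ^ (-(1 + δ))) * this
  have e5 : (9 * L) ^ (-δ) ≤ (1 + L⁻¹) ^ ε := by
    have hi : 0 < L⁻¹ := inv_pos.2 hL
    rw [Real.rpow_neg (by positivity), ← Real.inv_rpow (by positivity)]
    refine (Real.rpow_le_rpow (by positivity) (show (9 * L)⁻¹ ≤ 1 + L⁻¹ by
      rw [mul_inv]; linarith) hδ.le).trans ?_
    exact Real.rpow_le_rpow_of_exponent_le (by linarith) (by linarith)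
  have e6 : Nr r ^ (3 * δ) ≤ Nr r ^ ε := Real.rpow_le_rpow_of_exponent_le hN1 (by linarith)
  have e7 : (1 + |τ|) ^ (2 + 4 * δ) ≤ (1 + |τ|) ^ ε * (1 + |τ|) ^ 2 := by
    rw [← Real.rpow_natCast, ← Real.rpow_add (by positivity)]
    exact Real.rpow_le_rpow_of_exponent_le hτ (by push_cast; linarith)
  rw [e1, norm_mul, norm_mul, norm_pow, norm_gt hr hs, norm_az l hr.ne_zero, one_pow, one_mul,
    one_mul, norm_mul, norm_div, norm_mul, e3, Complex.norm_real,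
    Real.norm_of_nonneg (by positivity), Complex.norm_ofNat,
    Real.mul_rpow (by positivity) (by positivity), Real.mul_rpow hN.le (by positivity)]
  calc _ ≤ 9 * L / Nr r ^ (3 / 2 : ℝ) * (C₁ * (1 + |τ|) ^ (2 + 4 * δ) *
        (9 * L / Nr r ^ 2) ^ (-(1 + δ)) * (C₂ * Nr r ^ δ)) := by gcongr
    _ = C₁ * C₂ * (9 * L / Nr r ^ (3 / 2 : ℝ) * (9 * L / Nr r ^ 2) ^ (-(1 + δ)) * Nr r ^ δ) *
        (1 + |τ|) ^ (2 + 4 * δ) := by ring
    _ ≤ C₁ * C₂ * ((1 + L⁻¹) ^ ε * Nr r ^ ε * Real.sqrt (Nr r)) *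
        ((1 + |τ|) ^ ε * (1 + |τ|) ^ 2) := by rw [e4]; gcongr
    _ = _ := by ring

end Crest.Agent.R012

end
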