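import Crest.Agent.R012.TDefs
import Crest.Agent.R017.ThV1

/-! # Row 12: the dual weight (port of `R017/ThV1`) -/

set_option autoImplicit false

noncomputable section

open scoped BigOperators ComplexConjugate Topology
open Complex MeasureTheory Filter Set Crest.Agent.R017 Crest.Agent.R017.Theta

namespace Crest.Agent.R012

theorem differentiableOn_gm (m : ℕ) : DifferentiableOn ℂ (gm m) {w | (1 / 6 : ℝ) < w.re} := by
  intro w hw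
  have hw' : (1 / 6 : ℝ) < w.re := hw
  have hm : (0 : ℝ) ≤ m := m.cast_nonneg
  refine DifferentiableAt.differentiableWithinAt ?_
  have h0 : ((9 / c0 : ℝ) : ℂ) ≠ 0 := ofReal_ne_zero.2 v1t_c_pos.ne'
  have h1 : DifferentiableAt ℂ (fun w : ℂ => ((9 / c0 : ℝ) : ℂ) ^ (4 * w - 2)) w :=
    DifferentiableAt.const_cpow (by fun_prop) (Or.inl h0)
  have h2 : DifferentiableAt ℂ (fun w : ℂ => Complex.Gamma (w + m / 2 + 1 / 6)) w :=
    (v1t_diff_Gamma (w := w + m / 2 + 1 / 6) (by simp; linarith)).comp w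
      (f := fun w : ℂ => w + m / 2 + 1 / 6) (by fun_prop)
  have h3 : DifferentiableAt ℂ (fun w : ℂ => Complex.Gamma (w + m / 2 - 1 / 6)) w :=
    (v1t_diff_Gamma (w := w + m / 2 - 1 / 6) (by simp; linarith)).comp w
      (f := fun w : ℂ => w + m / 2 - 1 / 6) (by fun_prop)
  have h4 : DifferentiableAt ℂ (fun w : ℂ => (Complex.Gamma (1 - w + m / 2 + 1 / 6))⁻¹) w :=
    (Complex.differentiable_one_div_Gamma (1 - w + m / 2 + 1 / 6)).comp w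
      (f := fun w : ℂ => 1 - w + m / 2 + 1 / 6) (by fun_prop)
  have h5 : DifferentiableAt ℂ (fun w : ℂ => (Complex.Gamma (1 - w + m / 2 - 1 / 6))⁻¹) w :=
    (Complex.differentiable_one_div_Gamma (1 - w + m / 2 - 1 / 6)).comp w
      (f := fun w : ℂ => 1 - w + m / 2 - 1 / 6) (by fun_prop)
  exact (h1.mul (h2.mul h3)).mul (h4.mul h5)

theorem expGr_gm (m : ℕ) {σ₁ σ₂ : ℝ} (h : (1 / 6 : ℝ) < σ₁) : ExpGr (gm m) σ₁ σ₂ := by
  have hm : (0 : ℝ) ≤ m := m.cast_nonneg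
  have h1 : ExpGr (fun w : ℂ => ((9 / c0 : ℝ) : ℂ) ^ (4 * w - 2)) σ₁ σ₂ := by
    refine ExpGr.of_bdd ((9 / c0) ^ (4 * σ₁ - 2) + (9 / c0) ^ (4 * σ₂ - 2)) 0 fun s hs _ => ?_
    rw [norm_cpow_eq_rpow_re_of_pos v1t_c_pos]
    have e : (4 * s - 2).re = 4 * s.re - 2 := by simp
    rw [e]
    rcases le_total 1 (9 / c0) with h | h
    · linarith [Real.rpow_le_rpow_of_exponent_le h (show 4 * s.re - 2 ≤ 4 * σ₂ - 2 by
        linarith [hs.2]), Real.rpow_pos_of_pos v1t_c_pos (4 * σ₁ - 2)]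
    · linarith [Real.rpow_le_rpow_of_exponent_ge v1t_c_pos h (show 4 * σ₁ - 2 ≤ 4 * s.re - 2 by
        linarith [hs.1]), Real.rpow_pos_of_pos v1t_c_pos (4 * σ₂ - 2)]
  have h2 : ExpGr (fun w : ℂ => Complex.Gamma (w + (m / 2 + 1 / 6))) σ₁ σ₂ :=
    ExpGr.comp_add _ (expGr_Gamma (by simp; linarith))
  have h3 : ExpGr (fun w : ℂ => Complex.Gamma (w + (m / 2 - 1 / 6))) σ₁ σ₂ :=
    ExpGr.comp_add _ (expGr_Gamma (by simp; linarith))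
  have h4 : ExpGr (fun w : ℂ => (Complex.Gamma ((1 + m / 2 + 1 / 6) - w))⁻¹) σ₁ σ₂ :=
    v1t_comp_sub (F := fun s => (Complex.Gamma s)⁻¹) _ (expGr_inv_Gamma _ _)
  have h5 : ExpGr (fun w : ℂ => (Complex.Gamma ((1 + m / 2 - 1 / 6) - w))⁻¹) σ₁ σ₂ :=
    v1t_comp_sub (F := fun s => (Complex.Gamma s)⁻¹) _ (expGr_inv_Gamma _ _)
  have h6 := (h1.mul (h2.mul h3)).mul (h4.mul h5)
  have e : gm m = fun w : ℂ => ((9 / c0 : ℝ) : ℂ) ^ (4 * w - 2) *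
      (Complex.Gamma (w + (m / 2 + 1 / 6)) * Complex.Gamma (w + (m / 2 - 1 / 6))) *
      ((Complex.Gamma ((1 + m / 2 + 1 / 6) - w))⁻¹ *
        (Complex.Gamma ((1 + m / 2 - 1 / 6) - w))⁻¹) := by
    funext w
    have e1 : w + m / 2 + 1 / 6 = w + (m / 2 + 1 / 6) := by ring
    have e2 : w + m / 2 - 1 / 6 = w + (m / 2 - 1 / 6) := by ring
    have e3 : 1 - w + m / 2 + 1 / 6 = (1 + m / 2 + 1 / 6) - w := by ring
    have e4 : 1 - w + m / 2 - 1 / 6 = (1 + m / 2 - 1 / 6) - w := by ring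
    rw [gm, e1, e2, e3, e4]
  rw [e]
  exact h6

theorem tv1_norm_le (a : ℝ) (m : ℕ) (ha : |a| ≤ 1) (k : ℕ) (t : ℝ) :
    ‖((a + m / 2 - k / 2 : ℝ) : ℂ) - t * I‖ + (k : ℝ) ≤ (1 + m + 2 * k) * (1 + |t|) := by
  have h1 : ‖((a + m / 2 - k / 2 : ℝ) : ℂ) - t * I‖ ≤ |a + m / 2 - k / 2| + |t| := by
    refine (norm_sub_le _ _).trans (le_of_eq ?_)
    rw [norm_mul, norm_I, mul_one, norm_real, norm_real, Real.norm_eq_abs, Real.norm_eq_abs]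
  have hk : (0 : ℝ) ≤ k := k.cast_nonneg
  have hm : (0 : ℝ) ≤ m := m.cast_nonneg
  have h2 : |a + m / 2 - k / 2| ≤ 1 + m + k := by
    rw [abs_le] at ha ⊢
    constructor <;> linarith [ha.1, ha.2]
  have ht := abs_nonneg t
  nlinarith [mul_nonneg hk ht, mul_nonneg hm ht]

/-- On `Re w = (1 + k)/2` the ratio is unimodular times a polynomial of degree `2 k` (recurrence
and `Complex.Gamma_conj`; at a pole of a denominator the inverse is `0`). -/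
theorem norm_gm_le (m k : ℕ) : ∃ C : ℝ, 0 ≤ C ∧ ∀ t : ℝ,
    ‖gm m ((((1 + k) / 2 : ℝ) : ℂ) + t * I)‖ ≤ C * (1 + |t|) ^ (2 * k) := by
  refine ⟨(9 / c0) ^ (2 * (k : ℝ)) * (1 + m + 2 * k) ^ (2 * k),
    by have := v1t_c_pos; positivity, fun t => ?_⟩
  set w : ℂ := (((1 + k) / 2 : ℝ) : ℂ) + t * I with hw
  have hwre : w.re = (1 + k) / 2 := by
    simp only [hw, add_re, ofReal_re, mul_re, I_re, mul_zero, ofReal_im, I_im, mul_one,
      sub_self, add_zero]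
  have hwim : w.im = t := by
    simp only [hw, add_im, ofReal_im, mul_im, ofReal_re, I_im, mul_one, I_re, mul_zero,
      add_zero, zero_add]
  have e0 : ‖((9 / c0 : ℝ) : ℂ) ^ (4 * w - 2)‖ = (9 / c0) ^ (2 * (k : ℝ)) := by
    rw [norm_cpow_eq_rpow_re_of_pos v1t_c_pos]
    congr 1
    simp [hwre]
    ring
  have e1 : 1 - w + m / 2 + 1 / 6 = ((2 / 3 + m / 2 - k / 2 : ℝ) : ℂ) - t * I := by
    rw [hw]; push_cast; ring
  have e2 : 1 - w + m / 2 - 1 / 6 = ((1 / 3 + m / 2 - k / 2 : ℝ) : ℂ) - t * I := by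
    rw [hw]; push_cast; ring
  have r1 := v1t_ratio (w + m / 2 + 1 / 6) (1 - w + m / 2 + 1 / 6) k (by
    apply Complex.ext
    · rw [conj_re]; simp [hwre]; ring
    · rw [conj_im]; simp [hwim])
  have r2 := v1t_ratio (w + m / 2 - 1 / 6) (1 - w + m / 2 - 1 / 6) k (by
    apply Complex.ext
    · rw [conj_re]; simp [hwre]; ring
    · rw [conj_im]; simp [hwim])
  have b1 : (‖1 - w + m / 2 + 1 / 6‖ + (k : ℝ)) ^ k ≤ ((1 + m + 2 * k) * (1 + |t|)) ^ k := by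
    refine pow_le_pow_left₀ (by positivity) ?_ _
    rw [e1]
    exact tv1_norm_le _ m (by rw [abs_of_pos] <;> norm_num) k t
  have b2 : (‖1 - w + m / 2 - 1 / 6‖ + (k : ℝ)) ^ k ≤ ((1 + m + 2 * k) * (1 + |t|)) ^ k := by
    refine pow_le_pow_left₀ (by positivity) ?_ _
    rw [e2]
    exact tv1_norm_le _ m (by rw [abs_of_pos] <;> norm_num) k t
  have hc := Real.rpow_pos_of_pos v1t_c_pos (2 * (k : ℝ))
  calc ‖gm m w‖ = (9 / c0) ^ (2 * (k : ℝ)) *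
        ((‖Complex.Gamma (w + m / 2 + 1 / 6)‖ * ‖(Complex.Gamma (1 - w + m / 2 + 1 / 6))⁻¹‖) *
          (‖Complex.Gamma (w + m / 2 - 1 / 6)‖ *
            ‖(Complex.Gamma (1 - w + m / 2 - 1 / 6))⁻¹‖)) := by
        rw [gm, norm_mul, norm_mul, norm_mul, norm_mul, e0]; ring
    _ ≤ (9 / c0) ^ (2 * (k : ℝ)) *
        (((1 + m + 2 * k) * (1 + |t|)) ^ k * ((1 + m + 2 * k) * (1 + |t|)) ^ k) := by
        refine mul_le_mul_of_nonneg_left ?_ hc.le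
        exact mul_le_mul (r1.trans b1) (r2.trans b2) (by positivity) (by positivity)
    _ = _ := by
        rw [← pow_add, mul_pow, show k + k = 2 * k by ring]; ring

theorem tv1_bd {A : ℝ} (m k : ℕ) {C : ℝ} (hC : 0 ≤ C)
    (h : ∀ t : ℝ, ‖gm m ((((1 + k) / 2 : ℝ) : ℂ) + t * I)‖ ≤ C * (1 + |t|) ^ (2 * k)) (τ t : ℝ) :
    ‖gm m ((((1 + k) / 2 : ℝ) : ℂ) + t * I) *
      Wh A (1 - ((((1 + k) / 2 : ℝ) : ℂ) + t * I) - τ * I)‖ ≤
      C * (1 + |τ|) ^ (2 * k) * (Real.exp ((2 * k : ℕ) * |(-τ - t)|) *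
        ‖Wh A ((((1 - k) / 2 : ℝ) : ℂ) + ((-τ - t : ℝ) : ℂ) * I)‖) := by
  have e : 1 - ((((1 + k) / 2 : ℝ) : ℂ) + t * I) - τ * I =
      (((1 - k) / 2 : ℝ) : ℂ) + ((-τ - t : ℝ) : ℂ) * I := by push_cast; ring
  rw [norm_mul, e, ← mul_assoc]
  refine mul_le_mul_of_nonneg_right ((h t).trans ?_) (norm_nonneg _)
  rw [mul_assoc]
  refine mul_le_mul_of_nonneg_left ?_ hC
  have h1 : 1 + |t| ≤ (1 + |τ|) * Real.exp |(-τ - t)| := by
    have h2 : |t| ≤ |τ| + |(-τ - t)| := by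
      have := abs_add_le τ (-τ - t)
      rwa [show τ + (-τ - t) = -t by ring, abs_neg] at this
    have h3 := Real.add_one_le_exp |(-τ - t)|
    nlinarith [abs_nonneg τ, abs_nonneg (-τ - t), mul_nonneg (abs_nonneg τ) (abs_nonneg (-τ - t)),
      mul_le_mul_of_nonneg_left h3 (show (0 : ℝ) ≤ 1 + |τ| by positivity)]
  rw [Real.exp_nat_mul, ← mul_pow]
  exact pow_le_pow_left₀ (by positivity) h1 _

theorem tv1_cont_gm (m k : ℕ) :
    Continuous fun t : ℝ => gm m ((((1 + k) / 2 : ℝ) : ℂ) + t * I) := by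
  refine (differentiableOn_gm m).continuousOn.comp_continuous (by fun_prop) fun t => ?_
  have hk : (0 : ℝ) ≤ k := k.cast_nonneg
  simp only [mem_ofPred_eq, add_re, ofReal_re, mul_re, I_re, mul_zero, ofReal_im, I_im, mul_one,
    sub_self, add_zero]
  linarith

theorem integrable_gm_Wh (m : ℕ) {A : ℝ} (hA : 0 < A) (k : ℕ) (τ : ℝ) :
    Integrable (fun t : ℝ => gm m ((((1 + k) / 2 : ℝ) : ℂ) + t * I) *
      Wh A (1 - ((((1 + k) / 2 : ℝ) : ℂ) + t * I) - τ * I)) := by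
  obtain ⟨C, hC, h⟩ := norm_gm_le m k
  refine ((v1t_int hA (2 * k : ℕ) ((1 - k) / 2) τ).const_mul (C * (1 + |τ|) ^ (2 * k))).mono' ?_
    (Eventually.of_forall fun t => tv1_bd m k hC h τ t)
  have h1 := tv1_cont_gm m k
  have h2 := (differentiable_Wh A).continuous
  exact Continuous.aestronglyMeasurable (h1.mul (h2.comp (by fun_prop)))

theorem integral_gm_Wh_le (m : ℕ) {A : ℝ} (hA : 0 < A) (k : ℕ) : ∃ C : ℝ, 0 ≤ C ∧ ∀ τ : ℝ,
    ∫ t : ℝ, ‖gm m ((((1 + k) / 2 : ℝ) : ℂ) + t * I) *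
      Wh A (1 - ((((1 + k) / 2 : ℝ) : ℂ) + t * I) - τ * I)‖ ≤ C * (1 + |τ|) ^ (2 * k) := by
  obtain ⟨C, hC, h⟩ := norm_gm_le m k
  refine ⟨C * ∫ t : ℝ, Real.exp ((2 * k : ℕ) * |t|) * ‖Wh A ((((1 - k) / 2 : ℝ) : ℂ) + t * I)‖,
    mul_nonneg hC (integral_nonneg fun t => by positivity), fun τ => ?_⟩
  refine (integral_mono (integrable_gm_Wh m hA k τ).norm
    ((v1t_int hA (2 * k : ℕ) ((1 - k) / 2) τ).const_mul (C * (1 + |τ|) ^ (2 * k)))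
    fun t => tv1_bd m k hC h τ t).trans (le_of_eq ?_)
  rw [integral_const_mul, integral_sub_left_eq_self (fun t : ℝ =>
    Real.exp ((2 * k : ℕ) * |t|) * ‖Wh A ((((1 - k) / 2 : ℝ) : ℂ) + t * I)‖) volume (-τ)]
  ring

theorem tv1_line (m : ℕ) (A τ y : ℝ) (k : ℕ) :
    ∫ t : ℝ, gm m ((((1 + k) / 2 : ℝ) : ℂ) + t * I) *
      Wh A (1 - ((((1 + k) / 2 : ℝ) : ℂ) + t * I) - τ * I) *
        (y : ℂ) ^ (-((((1 + k) / 2 : ℝ) : ℂ) + t * I)) =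
    ∫ t : ℝ, (gm m ((1 - τ * I) - ((((1 - k) / 2 : ℝ) : ℂ) + t * I)) *
      (y : ℂ) ^ (-((1 - τ * I) - ((((1 - k) / 2 : ℝ) : ℂ) + t * I)))) *
        Wh A ((((1 - k) / 2 : ℝ) : ℂ) + t * I) := by
  rw [← integral_sub_left_eq_self (fun t : ℝ =>
    (gm m ((1 - τ * I) - ((((1 - k) / 2 : ℝ) : ℂ) + t * I)) *
      (y : ℂ) ^ (-((1 - τ * I) - ((((1 - k) / 2 : ℝ) : ℂ) + t * I)))) *
        Wh A ((((1 - k) / 2 : ℝ) : ℂ) + t * I)) volume (-τ)]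
  congr 1
  funext t
  have e1 : (1 - τ * I) - ((((1 - k) / 2 : ℝ) : ℂ) + ((-τ - t : ℝ) : ℂ) * I) =
      (((1 + k) / 2 : ℝ) : ℂ) + t * I := by push_cast; ring
  have e2 : 1 - ((((1 + k) / 2 : ℝ) : ℂ) + t * I) - τ * I =
      (((1 - k) / 2 : ℝ) : ℂ) + ((-τ - t : ℝ) : ℂ) * I := by push_cast; ring
  rw [e1, e2]
  ring

theorem tv1_shift (m : ℕ) {A : ℝ} (hA : 0 < A) (k : ℕ) (τ : ℝ) {y : ℝ} (hy : 0 < y) :
    ∫ t : ℝ, gm m ((((1 + k) / 2 : ℝ) : ℂ) + t * I) *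
      Wh A (1 - ((((1 + k) / 2 : ℝ) : ℂ) + t * I) - τ * I) *
        (y : ℂ) ^ (-((((1 + k) / 2 : ℝ) : ℂ) + t * I)) =
    ∫ t : ℝ, gm m ((((1 + (0 : ℕ)) / 2 : ℝ) : ℂ) + t * I) *
      Wh A (1 - ((((1 + (0 : ℕ)) / 2 : ℝ) : ℂ) + t * I) - τ * I) *
        (y : ℂ) ^ (-((((1 + (0 : ℕ)) / 2 : ℝ) : ℂ) + t * I)) := by
  have hk : (0 : ℝ) ≤ k := k.cast_nonneg
  rw [tv1_line, tv1_line]
  have hre : (1 - τ * I : ℂ).re = 1 := by simp
  have hy' : (y : ℂ) ≠ 0 := ofReal_ne_zero.2 hy.ne'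
  refine shift_Wh hA (F := fun s => gm m ((1 - τ * I) - s) * (y : ℂ) ^ (-((1 - τ * I) - s)))
    (σ₁ := (1 - k) / 2) (σ₂ := (1 - (0 : ℕ)) / 2) (by simp only [Nat.cast_zero]; linarith) ?_ ?_
  · refine DifferentiableOn.mul ?_ ?_
    · refine (differentiableOn_gm m).comp (f := fun s : ℂ => (1 - τ * I) - s) (by fun_prop)
        fun s hs => ?_
      have := hs.2
      simp only [mem_ofPred_eq, sub_re, hre]
      simp only [Nat.cast_zero] at this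
      linarith
    · exact fun s _ => (DifferentiableAt.const_cpow (by fun_prop)
        (Or.inl hy')).differentiableWithinAt
  · refine ExpGr.mul (v1t_comp_sub (F := gm m) _ (expGr_gm m ?_))
      (v1t_comp_sub (F := fun s => (y : ℂ) ^ (-s)) _ (expGr_cpow_neg hy _ _))
    rw [hre]
    norm_num

theorem Vm_eq (m : ℕ) {A : ℝ} (hA : 0 < A) (k : ℕ) (τ : ℝ) {y : ℝ} (hy : 0 < y) :
    Vm m A τ y = (1 / (2 * Real.pi) : ℂ) * ∫ t : ℝ, gm m ((((1 + k) / 2 : ℝ) : ℂ) + t * I) *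
      Wh A (1 - ((((1 + k) / 2 : ℝ) : ℂ) + t * I) - τ * I) *
        (y : ℂ) ^ (-((((1 + k) / 2 : ℝ) : ℂ) + t * I)) := by
  rw [tv1_shift m hA k τ hy, ← tv1_shift m hA 1 τ hy, Vm]
  have e : (((1 + (1 : ℕ)) / 2 : ℝ) : ℂ) = 1 := by push_cast; ring
  rw [e]

theorem norm_Vm_le (m : ℕ) {A : ℝ} (hA : 0 < A) (k : ℕ) : ∃ C : ℝ, 0 ≤ C ∧ ∀ τ y, 0 < y →
    ‖Vm m A τ y‖ ≤ C * (1 + |τ|) ^ (2 * k) * y ^ (-((1 + k) / 2 : ℝ)) := by
  obtain ⟨C, hC, h⟩ := integral_gm_Wh_le m hA k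
  refine ⟨‖(1 / (2 * Real.pi) : ℂ)‖ * C, mul_nonneg (norm_nonneg _) hC, fun τ y hy => ?_⟩
  rw [Vm_eq m hA k τ hy, norm_mul, mul_assoc, mul_assoc]
  refine mul_le_mul_of_nonneg_left ?_ (norm_nonneg _)
  refine (norm_integral_le_integral_norm _).trans ?_
  have e : (fun t : ℝ => ‖gm m ((((1 + k) / 2 : ℝ) : ℂ) + t * I) *
      Wh A (1 - ((((1 + k) / 2 : ℝ) : ℂ) + t * I) - τ * I) *
        (y : ℂ) ^ (-((((1 + k) / 2 : ℝ) : ℂ) + t * I))‖) = fun t : ℝ =>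
      ‖gm m ((((1 + k) / 2 : ℝ) : ℂ) + t * I) *
        Wh A (1 - ((((1 + k) / 2 : ℝ) : ℂ) + t * I) - τ * I)‖ * y ^ (-((1 + k) / 2 : ℝ)) := by
    funext t
    rw [norm_mul, norm_cpow_eq_rpow_re_of_pos hy]
    congr 2
    simp only [neg_re, add_re, ofReal_re, mul_re, I_re, mul_zero, ofReal_im, I_im, mul_one,
      sub_self, add_zero]
  rw [e, integral_mul_const, ← mul_assoc]
  exact mul_le_mul_of_nonneg_right (h τ) (Real.rpow_pos_of_pos hy _).le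

theorem tv1_interp {x a b θ : ℝ} (hx : 0 ≤ x) (ha : x ≤ a) (hb : x ≤ b) (h0 : 0 ≤ θ)
    (h1 : θ ≤ 1) : x ≤ a ^ (1 - θ) * b ^ θ := by
  calc x = x ^ ((1 - θ) + θ) := by simp
    _ = x ^ (1 - θ) * x ^ θ := by
        rw [Real.rpow_add' hx (by simp)]
    _ ≤ a ^ (1 - θ) * b ^ θ :=
        mul_le_mul (Real.rpow_le_rpow hx ha (by linarith)) (Real.rpow_le_rpow hx hb h0)
          (Real.rpow_nonneg hx _) (Real.rpow_nonneg (hx.trans ha) _)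

/-- Interpolation between `k = 1` and `k = 2`. -/
theorem norm_Vm_le' (m : ℕ) {A ε : ℝ} (hA : 0 < A) (hε : 0 < ε) (hε' : ε ≤ 1 / 2) :
    ∃ C : ℝ, 0 ≤ C ∧ ∀ τ y, 0 < y →
    ‖Vm m A τ y‖ ≤ C * (1 + |τ|) ^ (2 + 4 * ε) * y ^ (-(1 + ε)) := by
  obtain ⟨C1, hC1, h1⟩ := norm_Vm_le m hA 1
  obtain ⟨C2, hC2, h2⟩ := norm_Vm_le m hA 2
  refine ⟨C1 ^ (1 - 2 * ε) * C2 ^ (2 * ε), by positivity, fun τ y hy => ?_⟩
  refine (tv1_interp (norm_nonneg _) (h1 τ y hy) (h2 τ y hy) (θ := 2 * ε) (by linarith)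
    (by linarith)).trans (le_of_eq ?_)
  have hp : (0 : ℝ) < 1 + |τ| := by positivity
  have hy1 := Real.rpow_pos_of_pos hy (-((1 + (1 : ℕ)) / 2 : ℝ))
  have hy2 := Real.rpow_pos_of_pos hy (-((1 + (2 : ℕ)) / 2 : ℝ))
  rw [Real.mul_rpow (by positivity) hy1.le, Real.mul_rpow (by positivity) hy2.le,
    Real.mul_rpow hC1 (by positivity), Real.mul_rpow hC2 (by positivity),
    ← Real.rpow_mul hy.le, ← Real.rpow_mul hy.le, ← Real.rpow_natCast, ← Real.rpow_natCast,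
    ← Real.rpow_mul hp.le, ← Real.rpow_mul hp.le]
  have e1 : (1 + |τ|) ^ (2 + 4 * ε) = (1 + |τ|) ^ (((2 * 1 : ℕ) : ℝ) * (1 - 2 * ε)) *
      (1 + |τ|) ^ (((2 * 2 : ℕ) : ℝ) * (2 * ε)) := by
    rw [← Real.rpow_add hp]
    congr 1
    push_cast
    ring
  have e2 : y ^ (-(1 + ε)) = y ^ (-((1 + (1 : ℕ)) / 2 : ℝ) * (1 - 2 * ε)) *
      y ^ (-((1 + (2 : ℕ)) / 2 : ℝ) * (2 * ε)) := by
    rw [← Real.rpow_add hy]
    congr 1
    push_cast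
    ring
  rw [e1, e2]
  ring

end Crest.Agent.R012

end
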