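import Crest.Agent.R012.TV1

/-! # Row 12: the functional equation (port of `R017/ThV2`, with a pole) -/

set_option autoImplicit false

noncomputable section

open scoped BigOperators ComplexConjugate Topology
open Complex MeasureTheory Filter Set Crest.Agent.R017 Crest.Agent.R017.Theta

namespace Crest.Agent.R012

theorem tv2_pow (m : ℕ) (c : O) : Nr c ^ (((m : ℝ) + 1) / 2) = ‖emb c‖ ^ (m + 1) := by
  rw [← norm_emb_sq, ← Real.rpow_natCast, ← Real.rpow_mul (norm_nonneg _), ← Real.rpow_natCast]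
  congr 1
  push_cast
  ring

open Classical in
theorem tv2_term (m : ℕ) {a : O → ℂ} {K : ℝ} (ha : ∀ c, ‖a c‖ ≤ K * Real.sqrt (Nr c)) {v : ℝ}
    (hv : 0 < v) (c : O) :
    ‖if c = 0 then 0 else a c * ((‖emb c‖ ^ m * K1 (v * ‖emb c‖ / 9) : ℝ) : ℂ)‖ ≤
      |K| * (Nr c ^ (((m : ℝ) + 1) / 2) * if c = 0 then 0 else K1 (v / 9 * ‖emb c‖)) := by
  split_ifs with h0
  · simp
  · have h3 := v2t_pos h0
    have h4 : 0 < K1 (v * ‖emb c‖ / 9) := K1_pos (by positivity)
    have h5 := ha c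
    rw [← norm_emb] at h5
    rw [norm_mul, Complex.norm_real, Real.norm_of_nonneg (by positivity), tv2_pow,
      show v / 9 * ‖emb c‖ = v * ‖emb c‖ / 9 by ring]
    calc _ ≤ (|K| * ‖emb c‖) * (‖emb c‖ ^ m * K1 (v * ‖emb c‖ / 9)) := by
          gcongr
          exact h5.trans (by gcongr; exact le_abs_self _)
      _ = _ := by ring

theorem tv2_integrable_tsum {ι α : Type*} [Countable ι] [MeasurableSpace α] {μ : Measure α}
    {F : ι → α → ℂ} (hi : ∀ i, Integrable (F i) μ) (hs : Summable fun i => ∫ a, ‖F i a‖ ∂μ)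
    (hm : AEStronglyMeasurable (fun a => ∑' i, F i a) μ) : Integrable (fun a => ∑' i, F i a) μ := by
  refine ⟨hm, lt_of_le_of_lt (lintegral_mono fun a => enorm_tsum_le_tsum_enorm) ?_⟩
  rw [lintegral_tsum fun i => (hi i).1.enorm]
  simp only [fun i => (ofReal_integral_norm_eq_lintegral_enorm (hi i)).symm]
  rw [← ENNReal.ofReal_tsum_of_nonneg (fun i => integral_nonneg fun _ => norm_nonneg _) hs]
  exact ENNReal.ofReal_lt_top

theorem tv2_Ioi (a : ℂ) {s : ℂ} (hs : s.re + a.re < 0) :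
    HasMellin (indicator (Ioi 1) (fun t => ↑t ^ a : ℝ → ℂ)) s (-(1 / (s + a))) := by
  have h1 : (s + a - 1).re < -1 := by simp; linarith
  have h2 : ∀ t ∈ Ioi (0 : ℝ), (t : ℂ) ^ (s - 1) • indicator (Ioi 1) (fun t => ↑t ^ a : ℝ → ℂ) t =
      indicator (Ioi 1) (fun t => ↑t ^ (s + a - 1) : ℝ → ℂ) t := fun t ht => by
    have ht : (t : ℂ) ≠ 0 := by exact_mod_cast (mem_Ioi.1 ht).ne'
    by_cases h : t ∈ Ioi (1 : ℝ)
    · rw [indicator_of_mem h, indicator_of_mem h, smul_eq_mul, ← Complex.cpow_add _ _ ht]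
      congr 1
      ring
    · rw [indicator_of_notMem h, indicator_of_notMem h, smul_zero]
  constructor
  · refine (integrableOn_congr_fun h2 measurableSet_Ioi).2 ?_
    exact ((integrable_indicator_iff measurableSet_Ioi).2
      (integrableOn_Ioi_cpow_of_lt h1 one_pos)).integrableOn
  · rw [mellin, setIntegral_congr_fun measurableSet_Ioi h2, setIntegral_indicator measurableSet_Ioi,
      inter_eq_right.2 (Ioi_subset_Ioi zero_le_one), integral_Ioi_cpow_of_lt h1 one_pos]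
    simp [neg_div]

theorem continuousOn_Jl (m : ℕ) {a : O → ℂ} {K : ℝ} (ha : ∀ c, ‖a c‖ ≤ K * Real.sqrt (Nr c)) :
    ContinuousOn (Jl m a) (Ioi 0) := by
  intro t ht
  have ht : 0 < t := ht
  refine ContinuousAt.continuousWithinAt ?_
  have h1 : ContinuousOn (Jl m a) (Ioi (t / 2)) := by
    unfold Jl
    refine continuousOn_tsum
      (u := fun c : O => |K| * (Nr c ^ (((m : ℝ) + 1) / 2) *
        if c = 0 then 0 else K1 (t / 18 * ‖emb c‖)))
      (fun c => ?_) ((summable_K1 (by positivity) _).mul_left _) (fun c s hs => ?_)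
    · by_cases h0 : c = 0
      · simp only [if_pos h0]; exact continuousOn_const
      · simp only [if_neg h0]
        refine continuousOn_const.mul (Complex.continuous_ofReal.comp_continuousOn
          (continuousOn_const.mul (continuousOn_K1.comp (by fun_prop) fun s hs => ?_)))
        have h2 : t / 2 < s := hs
        have h3 := v2t_pos h0
        have h4 : 0 < s := by linarith
        exact mem_Ioi.2 (by positivity)
    · have hs : t / 2 < s := hs
      refine (tv2_term m ha (by linarith) c).trans ?_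
      have := Nr_nonneg c
      gcongr
      split_ifs with h0
      · exact le_rfl
      · have h3 := v2t_pos h0
        exact K1_anti (by positivity) (by nlinarith)
  exact h1.continuousAt (Ioi_mem_nhds (by linarith))

theorem norm_Jl_le (m : ℕ) {a : O → ℂ} {K : ℝ} (ha : ∀ c, ‖a c‖ ≤ K * Real.sqrt (Nr c)) {δ : ℝ}
    (hδ : 0 < δ) : ∃ C : ℝ, ∀ v, δ ≤ v → ‖Jl m a v‖ ≤ C * Real.exp (-(v / 9)) := by
  obtain ⟨C, hC⟩ := tsum_K1_le (δ := δ / 9) (by positivity) (((m : ℝ) + 1) / 2)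
  refine ⟨|K| * C, fun v hv => ?_⟩
  have hv0 : 0 < v := hδ.trans_le hv
  have h1 := tsum_of_norm_bounded
    (((summable_K1 (δ := v / 9) (by positivity) _).mul_left |K|).hasSum) (tv2_term m ha hv0)
  rw [tsum_mul_left] at h1
  unfold Jl
  refine h1.trans ?_
  rw [mul_assoc]
  exact mul_le_mul_of_nonneg_left (hC (v / 9) (by linarith)) (abs_nonneg _)

theorem mellin_Jl (m : ℕ) {a : O → ℂ} {K : ℝ} (ha : ∀ c, ‖a c‖ ≤ K * Real.sqrt (Nr c)) {s : ℂ}
    (hs : 3 / 2 < s.re) : MellinConvergent (Jl m a) (2 * s + m) ∧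
    mellin (Jl m a) (2 * s + m) = (1 / 2 : ℂ) * ((9 / c0 : ℝ) : ℂ) ^ (2 * s + m) *
      (Complex.Gamma (s + m / 2 + 1 / 6) * Complex.Gamma (s + m / 2 - 1 / 6)) * Dall a s := by
  have hre : (2 * s + m).re = 2 * s.re + m := by simp
  have hm0 : (0 : ℝ) ≤ m := Nat.cast_nonneg m
  have hw : 1 / 3 < (2 * s + m).re := by rw [hre]; linarith
  have hK := mellinConvergent_K1 hw
  set T : O → ℝ → ℂ := fun c v => (v : ℂ) ^ (2 * s + m - 1) •
    (if c = 0 then 0 else a c * ((‖emb c‖ ^ m * K1 (v * ‖emb c‖ / 9) : ℝ) : ℂ)) with hT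
  have hT' : ∀ c : O, c ≠ 0 → T c = fun v : ℝ => (a c * (‖emb c‖ : ℂ) ^ m) *
      ((v : ℂ) ^ (2 * s + m - 1) • (K1 (‖emb c‖ / 9 * v) : ℂ)) := by
    intro c h0
    funext v
    simp only [hT, if_neg h0, smul_eq_mul]
    rw [show v * ‖emb c‖ / 9 = ‖emb c‖ / 9 * v by ring]
    push_cast
    ring
  have hint : ∀ c : O, IntegrableOn (T c) (Ioi 0) := by
    intro c
    by_cases h0 : c = 0
    · simp only [hT, if_pos h0, smul_zero]; exact integrableOn_zero
    · rw [hT' c h0]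
      have h3 := v2t_pos h0
      exact Integrable.const_mul
        ((MellinConvergent.comp_mul_left (f := fun x => (K1 x : ℂ)) (a := ‖emb c‖ / 9)
          (by positivity)).2 hK) _
  set g : ℝ → ℝ := fun v => ‖(v : ℂ) ^ (2 * s + m - 1) • (K1 v : ℂ)‖ with hg
  have hM : 0 ≤ ∫ v in Ioi (0 : ℝ), g v := integral_nonneg fun _ => norm_nonneg _
  have hsum : Summable fun c : O => ∫ v in Ioi (0 : ℝ), ‖T c v‖ := by
    refine Summable.of_nonneg_of_le (fun c => integral_nonneg fun _ => norm_nonneg _) (fun c => ?_)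
      ((summable_Nr_rpow (σ := s.re - 1 / 2) (by linarith)).mul_left
        (|K| * 9 ^ (2 * s.re + m) * ∫ v in Ioi (0 : ℝ), g v))
    have hN := Nr_nonneg c
    by_cases h0 : c = 0
    · simp only [hT, if_pos h0, smul_zero, norm_zero, integral_zero]
      positivity
    · have h3 := v2t_pos h0
      have hr : 0 < ‖emb c‖ / 9 := by positivity
      have e1 : ∫ v in Ioi (0 : ℝ), ‖T c v‖ = ∫ v in Ioi (0 : ℝ),
          (‖a c‖ * ‖emb c‖ ^ m * (‖emb c‖ / 9) ^ (-(2 * s.re + m - 1))) * g (‖emb c‖ / 9 * v) := by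
        rw [hT' c h0]
        refine setIntegral_congr_fun measurableSet_Ioi fun v hv => ?_
        have hv : 0 < v := hv
        simp only [hg, norm_mul, norm_smul, norm_pow]
        rw [Complex.norm_cpow_eq_rpow_re_of_pos hv,
          Complex.norm_cpow_eq_rpow_re_of_pos (mul_pos hr hv), Real.mul_rpow hr.le hv.le,
          Complex.norm_real, Real.norm_of_nonneg h3.le, Real.rpow_neg hr.le,
          show (2 * s + m - 1).re = 2 * s.re + m - 1 by simp]
        have : 0 < (‖emb c‖ / 9) ^ (2 * s.re + m - 1) := by positivity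
        field_simp
      rw [e1, integral_const_mul, integral_comp_mul_left_Ioi g 0 hr, mul_zero, smul_eq_mul]
      have h5 := ha c
      rw [← norm_emb] at h5
      have h6 : ‖a c‖ ≤ |K| * ‖emb c‖ := h5.trans (by gcongr; exact le_abs_self _)
      have e2 : ‖emb c‖ * ‖emb c‖ ^ m * (‖emb c‖ / 9) ^ (-(2 * s.re + m - 1)) * (‖emb c‖ / 9)⁻¹ =
          9 ^ (2 * s.re + m) * Nr c ^ (-(s.re - 1 / 2)) := by
        refine Real.log_injOn_pos (mem_Ioi.2 (by positivity))
          (mem_Ioi.2 (by have := Nr_pos h0; positivity)) ?_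
        have := Nr_pos h0
        rw [Real.log_mul (by positivity) (by positivity), Real.log_mul (by positivity) (by positivity),
          Real.log_mul (by positivity) (by positivity), Real.log_mul (by positivity) (by positivity),
          Real.log_rpow hr, Real.log_rpow (by norm_num), Real.log_rpow this, ← norm_emb_sq,
          Real.log_pow, Real.log_pow, Real.log_inv, Real.log_div h3.ne' (by norm_num)]
        push_cast
        ring
      calc _ ≤ (|K| * ‖emb c‖) * ‖emb c‖ ^ m * (‖emb c‖ / 9) ^ (-(2 * s.re + m - 1)) *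
            ((‖emb c‖ / 9)⁻¹ * ∫ v in Ioi (0 : ℝ), g v) := by gcongr
        _ = |K| * (‖emb c‖ * ‖emb c‖ ^ m * (‖emb c‖ / 9) ^ (-(2 * s.re + m - 1)) *
            (‖emb c‖ / 9)⁻¹) * ∫ v in Ioi (0 : ℝ), g v := by ring
        _ = _ := by rw [e2]; ring
  have key := integral_tsum_of_summable_integral_norm hint hsum
  have e0 : (fun v : ℝ => (v : ℂ) ^ (2 * s + m - 1) • Jl m a v) = fun v => ∑' c : O, T c v := by
    funext v
    unfold Jl
    simp only [hT, smul_eq_mul]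
    rw [tsum_mul_left]
  constructor
  · unfold MellinConvergent
    have hmeas : AEStronglyMeasurable (fun v : ℝ => (v : ℂ) ^ (2 * s + m - 1) • Jl m a v)
        (volume.restrict (Ioi 0)) :=
      ContinuousOn.aestronglyMeasurable (ContinuousOn.smul (fun t ht =>
        (Complex.continuousAt_ofReal_cpow_const _ _
          (Or.inr (mem_Ioi.1 ht).ne')).continuousWithinAt) (continuousOn_Jl m ha)) measurableSet_Ioi
    rw [e0] at hmeas ⊢
    exact tv2_integrable_tsum hint hsum hmeas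
  rw [mellin, e0, ← key]
  unfold Dall
  rw [← tsum_mul_left]
  refine tsum_congr fun c => ?_
  by_cases h0 : c = 0
  · simp [hT, h0]
  · have h3 := v2t_pos h0
    have hr : 0 < ‖emb c‖ / 9 := by positivity
    have hc0 := c0_pos
    rw [hT' c h0, if_neg h0, integral_const_mul]
    have e4 := mellin_comp_mul_left (fun x => (K1 x : ℂ)) (2 * s + m) hr
    rw [mellin_K1 hw] at e4
    unfold mellin at e4
    rw [e4, smul_eq_mul, show (2 * s + m) / 2 + 1 / 6 = s + m / 2 + 1 / 6 by ring,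
      show (2 * s + m) / 2 - 1 / 6 = s + m / 2 - 1 / 6 by ring]
    have e5 : (‖emb c‖ : ℂ) ^ m * ((‖emb c‖ / 9 : ℝ) : ℂ) ^ (-(2 * s + m)) *
        (c0 : ℂ) ^ (-(2 * s + m)) = ((9 / c0 : ℝ) : ℂ) ^ (2 * s + m) * (Nr c : ℂ) ^ (-s) := by
      rw [← Complex.cpow_natCast, v2t_cpow h3, v2t_cpow hr, v2t_cpow hc0,
        v2t_cpow (by positivity : (0 : ℝ) < 9 / c0),
        v2t_cpow (Nr_pos h0), ← norm_emb_sq, Real.log_pow, Real.log_div h3.ne' (by norm_num),
        Real.log_div (by norm_num) hc0.ne', ← Complex.exp_add, ← Complex.exp_add,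
        ← Complex.exp_add]
      congr 1
      push_cast
      ring
    linear_combination (a c * (1 / 2) * (Complex.Gamma (s + m / 2 + 1 / 6) *
      Complex.Gamma (s + m / 2 - 1 / 6))) * e5

/-- A function decaying rapidly at `0` and exponentially at `∞` has an entire Mellin transform,
bounded in vertical strips. -/
theorem tv2_entire {f : ℝ → ℂ} (hloc : LocallyIntegrableOn f (Ioi 0))
    (htop : f =O[atTop] fun t => Real.exp (-(1 / 9) * t))
    (hbot : ∀ β : ℝ, f =O[𝓝[>] 0] (· ^ (-β))) :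
    Differentiable ℂ (mellin f) ∧ (∀ s, MellinConvergent f s) ∧
      ∀ σ₁ σ₂ : ℝ, ∃ M : ℝ, ∀ s : ℂ, σ₁ ≤ s.re → s.re ≤ σ₂ → ‖mellin f s‖ ≤ M := by
  have hconv : ∀ s : ℂ, MellinConvergent f s := fun s =>
    mellinConvergent_of_isBigO_rpow_exp (by norm_num) hloc htop (hbot (s.re - 1)) (by linarith)
  refine ⟨fun s => mellin_differentiableAt_of_isBigO_rpow_exp (by norm_num) hloc htop
    (hbot (s.re - 1)) (by linarith), hconv, fun σ₁ σ₂ => ?_⟩
  have hi := (hconv σ₁).norm.add (hconv σ₂).norm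
  refine ⟨_, fun s h1 h2 => norm_integral_le_of_norm_le hi ?_⟩
  refine (ae_restrict_iff' measurableSet_Ioi).2 (Eventually.of_forall fun v hv => ?_)
  have hv : 0 < v := hv
  simp only [norm_smul, Pi.add_apply]
  rw [Complex.norm_cpow_eq_rpow_re_of_pos hv, Complex.norm_cpow_eq_rpow_re_of_pos hv,
    Complex.norm_cpow_eq_rpow_re_of_pos hv, ← add_mul]
  refine mul_le_mul_of_nonneg_right ?_ (norm_nonneg _)
  simp only [Complex.sub_re, Complex.ofReal_re, Complex.one_re]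
  rcases le_total 1 v with h3 | h3
  · have := Real.rpow_le_rpow_of_exponent_le h3 (show s.re - 1 ≤ σ₂ - 1 by linarith)
    have := Real.rpow_pos_of_pos hv (σ₁ - 1)
    linarith
  · have := Real.rpow_le_rpow_of_exponent_ge hv h3 (show σ₁ - 1 ≤ s.re - 1 by linarith)
    have := Real.rpow_pos_of_pos hv (σ₂ - 1)
    linarith

theorem tv2_bot (m : ℕ) {b : O → ℂ} {K : ℝ} (hb : ∀ c, ‖b c‖ ≤ K * Real.sqrt (Nr c)) (ε : ℂ)
    {N : ℝ} (hN : 0 < N) (β : ℝ) :
    (fun v : ℝ => ε * (((((N * v ^ 2) ^ (m + 1))⁻¹ : ℝ) : ℂ) * Jl m b (N * v)⁻¹)) =O[𝓝[>] 0]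
      (· ^ (-β)) := by
  have hc0 := c0_pos
  obtain ⟨C, hC⟩ := norm_Jl_le m hb one_pos
  obtain ⟨K', hK'⟩ := Phi_le_rpow (A := |β| + (2 * (m + 1) : ℕ)) (by positivity)
  refine Asymptotics.IsBigO.of_bound
    (‖ε‖ * (N ^ (m + 1))⁻¹ * (|C| * (|K'| * (9 * c0 * N) ^ (|β| + (2 * (m + 1) : ℕ))))) ?_
  have h1 : ∀ᶠ v in 𝓝[>] (0 : ℝ), v < min 1 N⁻¹ :=
    nhdsWithin_le_nhds (gt_mem_nhds (by positivity))
  filter_upwards [h1, self_mem_nhdsWithin] with v hv hv0
  have hv0 : 0 < v := hv0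
  have hv1 : v ≤ 1 := (hv.trans_le (min_le_left _ _)).le
  have hv2 : v < N⁻¹ := hv.trans_le (min_le_right _ _)
  have h2 : 1 ≤ (N * v)⁻¹ := by
    refine (one_le_inv₀ (by positivity)).2 ?_
    calc N * v ≤ N * N⁻¹ := by gcongr
      _ = 1 := by field_simp
  have h3 := hC _ h2
  have h4 := hK' (9 * c0 * N * v)⁻¹ (by positivity)
  have h5 : Phi (9 * c0 * N * v)⁻¹ = Real.exp (-((N * v)⁻¹ / 9)) := by
    unfold Phi; congr 1; field_simp
  rw [h5, Real.inv_rpow (by positivity), Real.rpow_neg (by positivity), inv_inv,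
    Real.mul_rpow (by positivity) hv0.le, Real.rpow_add hv0, Real.rpow_natCast] at h4
  have h6 : v ^ |β| ≤ v ^ (-β) := Real.rpow_le_rpow_of_exponent_ge hv0 hv1 (neg_le_abs β)
  rw [norm_mul, norm_mul, Complex.norm_real, Real.norm_of_nonneg (by positivity),
    Real.norm_of_nonneg (by positivity)]
  calc _ ≤ ‖ε‖ * (((N * v ^ 2) ^ (m + 1))⁻¹ * (|C| * (|K'| *
        ((9 * c0 * N) ^ (|β| + (2 * (m + 1) : ℕ)) * (v ^ (-β) * v ^ (2 * (m + 1))))))) := by
        gcongr
        refine h3.trans ((mul_le_mul_of_nonneg_right (le_abs_self _) (Real.exp_pos _).le).trans ?_)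
        gcongr
        refine h4.trans ((mul_le_mul_of_nonneg_right (le_abs_self _) (by positivity)).trans ?_)
        gcongr
    _ = _ := by
        rw [mul_pow, pow_mul]
        field_simp

theorem tv2_dual (m : ℕ) (b : O → ℂ) (ε : ℂ) {N : ℝ} (hN : 0 < N) (w : ℂ) :
    mellin (fun v : ℝ => ε * (((((N * v ^ 2) ^ (m + 1))⁻¹ : ℝ) : ℂ) * Jl m b (N * v)⁻¹))
      (2 * (1 - w) + m) = ε * (N : ℂ) ^ (2 * w - 1) * mellin (Jl m b) (2 * w + m) := by
  have hN' : (N : ℂ) ≠ 0 := by exact_mod_cast hN.ne'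
  have e1 : mellin (fun v : ℝ => ε * (((((N * v ^ 2) ^ (m + 1))⁻¹ : ℝ) : ℂ) * Jl m b (N * v)⁻¹))
      (2 * (1 - w) + m) = mellin (fun v : ℝ => (ε * ((N : ℂ) ^ (m + 1))⁻¹) •
      ((v : ℂ) ^ (-((2 * (m + 1) : ℕ) : ℂ)) • (fun u : ℝ => Jl m b u⁻¹) (N * v)))
        (2 * (1 - w) + m) := by
    refine setIntegral_congr_fun measurableSet_Ioi fun v hv => ?_
    have hv : 0 < v := hv
    have hv' : (v : ℂ) ≠ 0 := by exact_mod_cast hv.ne'
    simp only [smul_eq_mul]
    rw [Complex.cpow_neg, Complex.cpow_natCast, mul_pow, pow_mul]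
    push_cast
    field_simp
  rw [e1, mellin_const_smul, mellin_cpow_smul,
    mellin_comp_mul_left (fun u : ℝ => Jl m b u⁻¹) _ hN, mellin_comp_inv,
    show -(2 * (1 - w) + m + -((2 * (m + 1) : ℕ) : ℂ)) = 2 * w + m by push_cast; ring,
    smul_eq_mul, smul_eq_mul,
    show (N : ℂ) ^ (2 * w + m) = (N : ℂ) ^ (2 * w - 1) * (N : ℂ) ^ (m + 1) by
      rw [← Complex.cpow_natCast, ← Complex.cpow_add _ _ hN']
      congr 1
      push_cast
      ring]
  field_simp

/-- `Λ(s) = ∫₁^∞ J_a v^{2s+m-1} + ε N^{1-2s} ∫_{1/N}^∞ J_b u^{2(1-s)+m-1} + ε ρ / (2 s - 5/3)`, and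
`H s = (s - 5/6) · 2 Λ(s) (9/c₀)^{-(2s+m)} / (Γ(s + m/2 + 1/6) Γ(s + m/2 - 1/6))`. -/
theorem exists_FE' (m : ℕ) {a b : O → ℂ} {K : ℝ} (ha : ∀ c, ‖a c‖ ≤ K * Real.sqrt (Nr c))
    (hb : ∀ c, ‖b c‖ ≤ K * Real.sqrt (Nr c)) {ε ρ : ℂ} {N : ℝ} (hN : 0 < N) (hρ : m ≠ 0 → ρ = 0)
    (h : ∀ v : ℝ, 0 < v → Jl m a v = ε * (((((N * v ^ 2) ^ (m + 1))⁻¹ : ℝ) : ℂ) * Jl m b (N * v)⁻¹ +
      ρ * ((v ^ (-(5 / 3) : ℝ) : ℝ) : ℂ))) :
    ∃ H : ℂ → ℂ, Differentiable ℂ H ∧ (∀ σ₁ σ₂, ExpGr H σ₁ σ₂) ∧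
      (∀ s : ℂ, 3 / 2 < s.re → H s = (s - 5 / 6) * Dall a s) ∧
      H (5 / 6) = ε * ρ * (((c0 / 9) ^ (5 / 3 : ℝ) / Real.Gamma (2 / 3) : ℝ) : ℂ) ∧
      ∀ w : ℂ, 3 / 2 < w.re →
        H (1 - w) = (1 - w - 5 / 6) * (ε * (N : ℂ) ^ (2 * w - 1) * gm m w * Dall b w) := by
  have hc0 := c0_pos
  have hm0 : (0 : ℝ) ≤ m := Nat.cast_nonneg m
  have hp : ∀ v : ℝ, 0 < v → ((v ^ (-(5 / 3) : ℝ) : ℝ) : ℂ) = (v : ℂ) ^ (-(5 / 3) : ℂ) :=
    fun v hv => by rw [Complex.ofReal_cpow hv.le]; norm_num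
  obtain ⟨f, hf⟩ : ∃ f : ℝ → ℂ, f = fun v => Jl m a v -
    (ε * ρ) • indicator (Ioc 0 1) (fun t => ↑t ^ (-(5 / 3) : ℂ) : ℝ → ℂ) v := ⟨_, rfl⟩
  have hloc : LocallyIntegrableOn f (Ioi 0) := by
    rw [hf]
    refine ((continuousOn_Jl m ha).locallyIntegrableOn measurableSet_Ioi).sub
      (LocallyIntegrableOn.smul (fun x hx => ?_) (ε * ρ))
    obtain ⟨t, ht, h1⟩ := ContinuousOn.locallyIntegrableOn
      (f := (fun t => ↑t ^ (-(5 / 3) : ℂ) : ℝ → ℂ)) (μ := volume) (fun t ht =>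
        (Complex.continuousAt_ofReal_cpow_const _ _
          (Or.inr (mem_Ioi.1 ht).ne')).continuousWithinAt) measurableSet_Ioi x hx
    exact ⟨t, ht, h1.indicator measurableSet_Ioc⟩
  have htop : f =O[atTop] fun t => Real.exp (-(1 / 9) * t) := by
    obtain ⟨C, hC⟩ := norm_Jl_le m ha one_pos
    refine Asymptotics.IsBigO.of_bound C ?_
    filter_upwards [eventually_gt_atTop (1 : ℝ)] with v hv
    rw [Real.norm_of_nonneg (Real.exp_pos _).le, show -(1 / 9) * v = -(v / 9) by ring, hf]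
    simp only
    rw [indicator_of_notMem (fun h => not_lt.2 h.2 hv), smul_zero, sub_zero]
    exact hC v hv.le
  have hbot : ∀ β : ℝ, f =O[𝓝[>] 0] (· ^ (-β)) := fun β => by
    refine (tv2_bot m hb ε hN β).congr' ?_ EventuallyEq.rfl
    filter_upwards [Ioc_mem_nhdsGT one_pos] with v hv
    rw [hf]
    simp only
    rw [indicator_of_mem hv, h v hv.1, hp v hv.1, smul_eq_mul]
    ring
  obtain ⟨hdiff, hconv, hbdd⟩ := tv2_entire hloc htop hbot
  have hA : ∀ s : ℂ, 3 / 2 < s.re → (s - 5 / 6) * mellin f (2 * s + m) + ε * ρ / 2 =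
      (s - 5 / 6) * mellin (Jl m a) (2 * s + m) := fun s hs => by
    have h1 := hasMellin_cpow_Ioc (-(5 / 3) : ℂ) (s := 2 * s + m) (by norm_num; linarith)
    have h2 := hasMellin_const_smul h1.1 (ε * ρ)
    rw [hf, (hasMellin_sub (mellin_Jl m ha hs).1 h2.1).2, h2.2, h1.2, smul_eq_mul]
    by_cases hm : m = 0
    · have h3 : 2 * s + (m : ℂ) + -(5 / 3) ≠ 0 := fun h0 => by
        have := congrArg Complex.re h0
        norm_num at this
        linarith
      have h4 : s - 5 / 6 = (2 * s + (m : ℂ) + -(5 / 3)) / 2 := by rw [hm]; push_cast; ring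
      rw [h4]
      generalize 2 * s + (m : ℂ) + -(5 / 3) = z at h3 ⊢
      field_simp
      ring
    · rw [hρ hm]
      ring
  have hB : ∀ w : ℂ, 3 / 2 < w.re → (1 - w - 5 / 6) * mellin f (2 * (1 - w) + m) + ε * ρ / 2 =
      (1 - w - 5 / 6) * (ε * (N : ℂ) ^ (2 * w - 1) * mellin (Jl m b) (2 * w + m)) := fun w hw => by
    rw [← tv2_dual m b ε hN w]
    have e1 : mellin (fun v : ℝ => ε * (((((N * v ^ 2) ^ (m + 1))⁻¹ : ℝ) : ℂ) * Jl m b (N * v)⁻¹))
        (2 * (1 - w) + m) = mellin (fun v => f v -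
          (ε * ρ) • indicator (Ioi 1) (fun t => ↑t ^ (-(5 / 3) : ℂ) : ℝ → ℂ) v)
          (2 * (1 - w) + m) := by
      refine setIntegral_congr_fun measurableSet_Ioi fun v hv => ?_
      have hv : 0 < v := hv
      rw [hf]
      simp only
      congr 1
      rw [h v hv, hp v hv]
      rcases le_or_gt v 1 with h1 | h1
      · rw [indicator_of_mem (show v ∈ Ioc 0 1 from ⟨hv, h1⟩),
          indicator_of_notMem (show v ∉ Ioi 1 from not_lt.2 h1), smul_eq_mul, smul_zero]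
        ring
      · rw [indicator_of_mem (show v ∈ Ioi 1 from h1),
          indicator_of_notMem (fun h => not_lt.2 h.2 h1), smul_zero, smul_eq_mul]
        ring
    rw [e1]
    by_cases hm : m = 0
    · have h1 := tv2_Ioi (-(5 / 3) : ℂ) (s := 2 * (1 - w) + m) (by rw [hm]; norm_num; linarith)
      have h2 := hasMellin_const_smul h1.1 (ε * ρ)
      rw [(hasMellin_sub (hconv _) h2.1).2, h2.2, h1.2, smul_eq_mul]
      have h3 : 2 * (1 - w) + (m : ℂ) + -(5 / 3) ≠ 0 := fun h0 => by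
        have := congrArg Complex.re h0
        rw [hm] at this
        norm_num at this
        linarith
      have h4 : 1 - w - 5 / 6 = (2 * (1 - w) + (m : ℂ) + -(5 / 3)) / 2 := by
        rw [hm]; push_cast; ring
      rw [h4]
      generalize 2 * (1 - w) + (m : ℂ) + -(5 / 3) = z at h3 ⊢
      field_simp
      ring
    · simp [hρ hm]
  obtain ⟨L, hL⟩ : ∃ L : ℂ, L = (Real.log (9 / c0) : ℂ) := ⟨_, rfl⟩
  have hcp : ∀ w : ℂ, ((9 / c0 : ℝ) : ℂ) ^ w = Complex.exp (L * w) :=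
    hL ▸ v2t_cpow (by positivity : (0 : ℝ) < 9 / c0)
  refine ⟨fun s => 2 * Complex.exp (-L * m) * Complex.exp ((-2 * L) * s) *
    ((s - 5 / 6) * mellin f (2 * s + m) + ε * ρ / 2) *
    ((Complex.Gamma (s + (m / 2 + 1 / 6)))⁻¹ * (Complex.Gamma (s + (m / 2 - 1 / 6)))⁻¹), ?_,
    fun σ₁ σ₂ => ?_, fun s hs => ?_, ?_, fun w hw => ?_⟩
  · refine Differentiable.mul (Differentiable.mul (by fun_prop)
      ((Differentiable.mul (by fun_prop) (hdiff.comp (by fun_prop))).add_const _)) ?_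
    exact (Complex.differentiable_one_div_Gamma.comp (by fun_prop)).mul
      (Complex.differentiable_one_div_Gamma.comp (by fun_prop))
  · obtain ⟨M, hM⟩ := hbdd (2 * σ₁ + m) (2 * σ₂ + m)
    refine ExpGr.mul (ExpGr.mul ((ExpGr.const _ _ _).mul (expGr_exp_mul _ _ _))
      ((ExpGr.mul ((expGr_id _ _).sub (ExpGr.const _ _ _))
        (ExpGr.of_bdd M 0 fun s hs _ => hM _ ?_ ?_)).add (ExpGr.const _ _ _)))
      ((ExpGr.comp_add (F := fun s => (Complex.Gamma s)⁻¹) _ (expGr_inv_Gamma _ _)).mul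
        (ExpGr.comp_add (F := fun s => (Complex.Gamma s)⁻¹) _ (expGr_inv_Gamma _ _)))
    · have := hs.1
      simp only [Complex.add_re, Complex.mul_re, Complex.re_ofNat, Complex.im_ofNat, zero_mul,
        sub_zero, Complex.natCast_re]
      linarith
    · have := hs.2
      simp only [Complex.add_re, Complex.mul_re, Complex.re_ofNat, Complex.im_ofNat, zero_mul,
        sub_zero, Complex.natCast_re]
      linarith
  · have g1 : Complex.Gamma (s + m / 2 + 1 / 6) ≠ 0 := Complex.Gamma_ne_zero_of_re_pos (by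
      have : (s + m / 2 + 1 / 6).re = s.re + m / 2 + 1 / 6 := by norm_num
      rw [this]; linarith)
    have g2 : Complex.Gamma (s + m / 2 - 1 / 6) ≠ 0 := Complex.Gamma_ne_zero_of_re_pos (by
      have : (s + m / 2 - 1 / 6).re = s.re + m / 2 - 1 / 6 := by norm_num
      rw [this]; linarith)
    have e1 : Complex.exp (-L * m) * Complex.exp ((-2 * L) * s) * Complex.exp (L * (2 * s + m)) =
        1 := by
      rw [← Complex.exp_add, ← Complex.exp_add,
        show -L * m + -2 * L * s + L * (2 * s + m) = 0 by ring, Complex.exp_zero]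
    simp only
    rw [hA s hs, (mellin_Jl m ha hs).2, hcp, ← add_assoc, ← add_sub_assoc]
    have g3 := mul_inv_cancel₀ g1
    have g4 := mul_inv_cancel₀ g2
    generalize Complex.Gamma (s + m / 2 + 1 / 6) = G₁ at *
    generalize Complex.Gamma (s + m / 2 - 1 / 6) = G₂ at *
    linear_combination ((s - 5 / 6) * Dall a s * (G₁ * G₁⁻¹) * (G₂ * G₂⁻¹)) * e1 +
      ((s - 5 / 6) * Dall a s * (G₂ * G₂⁻¹)) * g3 + (s - 5 / 6) * Dall a s * g4
  · by_cases hm : m = 0
    · have e1 : (((c0 / 9) ^ (5 / 3 : ℝ) : ℝ) : ℂ) = Complex.exp ((-2 * L) * (5 / 6)) := by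
        rw [Complex.ofReal_cpow (by positivity), v2t_cpow (by positivity), hL,
          ← inv_div 9 c0, Real.log_inv]
        congr 1
        push_cast
        ring
      have e2 : Complex.Gamma (5 / 6 + ((m : ℂ) / 2 + 1 / 6)) = 1 := by
        rw [hm, ← Complex.Gamma_one]
        norm_num
      have e3 : Complex.Gamma (5 / 6 + ((m : ℂ) / 2 - 1 / 6)) = (Real.Gamma (2 / 3) : ℝ) := by
        rw [hm, ← Complex.Gamma_ofReal]
        norm_num
      simp only
      rw [e2, e3, Complex.ofReal_div, e1, hm]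
      simp only [Nat.cast_zero, mul_zero, Complex.exp_zero]
      ring
    · simp [hρ hm]
  · have e1 : Complex.exp (-L * m) * Complex.exp ((-2 * L) * (1 - w)) *
        Complex.exp (L * (2 * w + m)) = Complex.exp (L * (4 * w - 2)) := by
      rw [← Complex.exp_add, ← Complex.exp_add]; congr 1; ring
    simp only
    unfold gm
    rw [hB w hw, (mellin_Jl m hb hw).2, hcp, hcp, ← add_assoc, ← add_sub_assoc, ← e1]
    ring

end Crest.Agent.R012

end
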