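import Crest.Agent.R012.U2b
import Crest.Agent.R012.Ang

/-! # Row 12: thin annuli -/

set_option autoImplicit false

noncomputable section

open scoped BigOperators ComplexConjugate Topology
open Complex MeasureTheory Filter Set Crest.Agent.R017

namespace Crest.Agent.R012

theorem u2_W_sq {a : ℝ} (ha : 0 < a) (y : ℝ) : W a y = W (2 * a) y * W (2 * a) y := by
  unfold W
  rw [← Real.exp_add]
  congr 1
  field_simp
  ring

theorem u2_W_mono {a a' : ℝ} (ha : 0 < a) (h : a ≤ a') (y : ℝ) : W a y ≤ W a' y := by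
  unfold W
  rw [Real.exp_le_exp, neg_div, neg_div, neg_le_neg_iff]
  exact div_le_div_of_nonneg_left (sq_nonneg _) (by positivity) (by linarith)

theorem u2_poly (k : ℕ) : ∃ K : ℝ, 0 ≤ K ∧ ∀ a y : ℝ, 0 < a → a ≤ 32 → 0 < y →
    W a y * (1 + y) ^ k ≤ K := by
  refine ⟨2 ^ k * Real.exp (32 * (-(k : ℝ)) ^ 2), by positivity, fun a y ha ha' hy => ?_⟩
  have h1 : 1 ≤ Real.exp (32 * (-(k : ℝ)) ^ 2) := Real.one_le_exp (by positivity)
  rcases le_total y 1 with h | h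
  · calc W a y * (1 + y) ^ k ≤ 1 * 2 ^ k := by
          gcongr
          · exact W_le_one ha y
          · linarith
      _ ≤ _ := by rw [one_mul]; exact le_mul_of_one_le_right (by positivity) h1
  · have h2 := (u2_W_mono ha ha' y).trans (W_le_rpow (by norm_num) hy (-(k : ℝ)))
    rw [Real.rpow_neg hy.le, Real.rpow_natCast] at h2
    calc W a y * (1 + y) ^ k ≤ Real.exp (32 * (-(k : ℝ)) ^ 2) * (y ^ k)⁻¹ * (2 * y) ^ k := by
          gcongr; linarith
      _ = _ := by rw [mul_pow]; field_simp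

theorem u2_poly' (k : ℕ) : ∃ K : ℝ, 0 ≤ K ∧ ∀ θ y : ℝ, 0 < θ → θ ≤ 16 → 0 < y →
    W θ y * (1 + y) ^ k ≤ K * W (2 * θ) y := by
  obtain ⟨K, hK, h⟩ := u2_poly k
  refine ⟨K, hK, fun θ y h1 h2 hy => ?_⟩
  rw [u2_W_sq h1 y, mul_right_comm]
  exact mul_le_mul_of_nonneg_right (h _ y (by linarith) (by linarith) hy) (W_pos _ _).le

theorem u2_summable {a B : ℝ} (ha : 0 < a) (hB : 0 < B) :
    Summable (fun n : O => if Prim n then W a (Nr n / B) * (1 + Nr n / B) ^ 2 else 0) := by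
  refine Summable.of_nonneg_of_le (fun n => ?_) (fun n => ?_)
    (((summable_W ha hB 0).mul_left 2).add ((summable_W ha hB 2).mul_left (2 / B ^ 2)))
  · have := W_pos a (Nr n / B)
    split_ifs <;> positivity
  · by_cases hn : Prim n
    · rw [if_pos hn, if_neg hn.ne_zero, if_neg hn.ne_zero, Real.rpow_zero, Real.rpow_two]
      have h1 := W_pos a (Nr n / B)
      have h2 : (1 + Nr n / B) ^ 2 ≤ 2 + 2 * (Nr n / B) ^ 2 := by nlinarith [sq_nonneg (1 - Nr n / B)]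
      calc _ ≤ W a (Nr n / B) * (2 + 2 * (Nr n / B) ^ 2) := by gcongr
        _ = _ := by ring
    · rw [if_neg hn]
      have h1 := w1_nonneg a B 0 n
      have h2 := w1_nonneg a B 2 n
      positivity

theorem u2_sm {a B : ℝ} (ha : 0 < a) (hB : 0 < B) :
    Summable (fun n : O => if Prim n then W a (Nr n / B) else 0) ∧
    (∑' n : O, if Prim n then W a (Nr n / B) else 0) ≤ ‖sm a (az 0) B 0‖ := by
  constructor
  · refine Summable.of_nonneg_of_le (fun n => ?_) (fun n => ?_) (summable_W ha hB 0)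
    · have := W_pos a (Nr n / B)
      split_ifs <;> positivity
    · by_cases hn : Prim n
      · rw [if_pos hn, if_neg hn.ne_zero, Real.rpow_zero, one_mul]
      · rw [if_neg hn]; exact w1_nonneg a B 0 n
  · have : sm a (az 0) B 0 = ((∑' n : O, if Prim n then W a (Nr n / B) else 0 : ℝ) : ℂ) := by
      rw [Complex.ofReal_tsum]
      refine tsum_congr fun n => ?_
      split_ifs <;> simp [az]
    rw [this, Complex.norm_real]
    exact le_abs_self _

theorem u2_count : ∃ C : ℝ, 0 ≤ C ∧ ∀ θ B : ℝ, 0 < θ → θ ≤ 8 → 0 < B →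
    ‖sm (2 * θ) (az 0) B 0‖ ≤ C * (B * Real.sqrt θ + θ⁻¹) := by
  obtain ⟨C₁, hC₁, h₁⟩ := sm_az (a := 32) (by norm_num) 0
  obtain ⟨C₂, hC₂, h₂⟩ := og_moment (k := 2) (by norm_num)
  obtain ⟨C₃, hC₃⟩ : ∃ C₃ : ℝ, C₃ = c0 / 9 * (Real.sqrt (4 * Real.pi * 32) * Real.exp 32) := ⟨_, rfl⟩
  have hC₃0 : 0 ≤ C₃ := by have := c0_pos; rw [hC₃]; positivity
  refine ⟨C₃ + 16 * (C₁ * C₂), by positivity, fun θ B hθ hθ' hB => ?_⟩
  obtain ⟨b, hb⟩ : ∃ b : ℝ, b = 32 * θ / (16 - θ) := ⟨_, rfl⟩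
  have h16 : 0 < 16 - θ := by linarith
  have hb1 : θ ≤ b := by rw [hb, le_div_iff₀ h16]; nlinarith
  have hb2 : b ≤ 4 * θ := by rw [hb, div_le_iff₀ h16]; nlinarith
  have hb0 : 0 < b := by linarith
  obtain ⟨hi, hle⟩ := coarse0 (a := 2 * θ) (a' := 32) (b := b) (Y := B) (by linarith) (by norm_num) hb0
    (by rw [hb]; field_simp; ring) hB (c := az 0) (K := 1) (A := 0) (fun n _ => by simp [az]) 0
  have hpt : ∀ t : ℝ, og b t * ‖sm 32 (az 0) B (0 + t)‖ ≤
      C₃ * B * Real.sqrt (b / Real.pi) * Real.exp (-32 * t ^ 2) + C₁ * (og b t * (1 + |0 + t|) ^ (2 : ℝ)) := by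
    intro t
    have e1 := h₁ B t hB
    rw [if_pos rfl] at e1
    have e2 : ‖((c0 / 9 : ℝ) : ℂ) * (B : ℂ) ^ (1 - t * I) * Wh 32 (1 - t * I)‖ =
        C₃ * B * Real.exp (-32 * t ^ 2) := by
      have e3 := norm_Wh (a := 32) (by norm_num) 1 (-t)
      rw [show ((1 : ℝ) : ℂ) + ((-t : ℝ) : ℂ) * I = 1 - t * I by push_cast; ring] at e3
      have := c0_pos
      rw [norm_mul, norm_mul, e3, Complex.norm_cpow_eq_rpow_re_of_pos hB, Complex.norm_real,
        Real.norm_of_nonneg (by positivity), hC₃,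
        show (32 : ℝ) * (1 ^ 2 - (-t) ^ 2) = 32 + -32 * t ^ 2 by ring, Real.exp_add]
      simp; ring
    have e4 : ‖sm 32 (az 0) B t‖ ≤ C₃ * B * Real.exp (-32 * t ^ 2) + C₁ * (1 + |t|) ^ 2 := by
      rw [← e2]
      exact (norm_le_norm_add_norm_sub' _ _).trans (by linarith)
    have e5 : og b t ≤ Real.sqrt (b / Real.pi) :=
      mul_le_of_le_one_right (Real.sqrt_nonneg _) (Real.exp_le_one_iff.2 (by
        rw [neg_nonpos]; positivity))
    have e6 := og_nonneg (b := b) t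
    rw [zero_add, Real.rpow_two]
    calc _ ≤ og b t * (C₃ * B * Real.exp (-32 * t ^ 2) + C₁ * (1 + |t|) ^ 2) := by gcongr
      _ = og b t * (C₃ * B * Real.exp (-32 * t ^ 2)) + C₁ * (og b t * (1 + |t|) ^ 2) := by ring
      _ ≤ Real.sqrt (b / Real.pi) * (C₃ * B * Real.exp (-32 * t ^ 2)) + C₁ * (og b t * (1 + |t|) ^ 2) := by
          gcongr
      _ = _ := by ring
  have i1 : Integrable fun t : ℝ => C₃ * B * Real.sqrt (b / Real.pi) * Real.exp (-32 * t ^ 2) :=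
    (integrable_exp_neg_mul_sq (by norm_num : (0 : ℝ) < 32)).const_mul _
  have i2 : Integrable fun t : ℝ => C₁ * (og b t * (1 + |0 + t|) ^ (2 : ℝ)) := by
    simp only [zero_add]; exact (integrable_og_mul hb0 2).const_mul _
  refine hle.trans ((integral_mono hi (i1.add i2) hpt).trans ?_)
  have e7 : ∫ t : ℝ, Real.exp (-32 * t ^ 2) = Real.sqrt (Real.pi / 32) := integral_gaussian 32
  rw [integral_add' i1 i2, integral_const_mul, integral_const_mul, e7]
  have e8 : Real.sqrt (b / Real.pi) * Real.sqrt (Real.pi / 32) ≤ Real.sqrt θ := by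
    rw [← Real.sqrt_mul (by positivity)]
    refine Real.sqrt_le_sqrt ?_
    have := Real.pi_pos
    rw [show b / Real.pi * (Real.pi / 32) = b / 32 by field_simp]
    linarith
  have e9 : (1 + |(0 : ℝ)| + (Real.sqrt b)⁻¹) ^ (2 : ℝ) ≤ 16 * θ⁻¹ := by
    have s0 : 0 < Real.sqrt θ := Real.sqrt_pos.2 hθ
    have s1 : (Real.sqrt b)⁻¹ ≤ (Real.sqrt θ)⁻¹ := inv_anti₀ s0 (Real.sqrt_le_sqrt hb1)
    have s2 : Real.sqrt θ ≤ 3 := Real.sqrt_le_iff.2 ⟨by norm_num, by linarith⟩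
    have s3 : 1 ≤ 3 * (Real.sqrt θ)⁻¹ := by rw [← div_eq_mul_inv, le_div_iff₀ s0]; linarith
    rw [Real.rpow_two, abs_zero, add_zero]
    calc _ ≤ (4 * (Real.sqrt θ)⁻¹) ^ 2 := by gcongr; linarith
      _ = _ := by rw [mul_pow, inv_pow, Real.sq_sqrt hθ.le]; norm_num
  have e10 := (h₂ b 0 hb0).1.trans (mul_le_mul_of_nonneg_left e9 hC₂)
  have e11 : 0 ≤ B * Real.sqrt θ := by positivity
  have e12 : 0 ≤ θ⁻¹ := by positivity
  calc _ ≤ C₃ * B * Real.sqrt θ + C₁ * (C₂ * (16 * θ⁻¹)) := by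
        rw [mul_assoc (C₃ * B)]; gcongr
    _ ≤ _ := by nlinarith [mul_nonneg hC₃0 e12, mul_nonneg (mul_nonneg hC₁ hC₂) e11]

theorem u2_abs_le {y : ℝ} (hy : 0 < y) : |y - 1| ≤ |Real.log y| * (1 + y) := by
  rcases le_total y 1 with h | h
  · have h1 := Real.log_le_sub_one_of_pos hy
    rw [abs_of_nonpos (by linarith), abs_of_nonpos (by linarith)]
    nlinarith
  · have h1 := Real.one_sub_inv_le_log_of_pos hy
    have h2 := Real.log_nonneg h
    have h3 : y - 1 ≤ Real.log y * y := by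
      have := mul_le_mul_of_nonneg_right h1 hy.le
      rwa [sub_mul, one_mul, inv_mul_cancel₀ hy.ne'] at this
    rw [abs_of_nonneg (by linarith), abs_of_nonneg h2]
    nlinarith

theorem u2_peak : ∃ K : ℝ, 0 ≤ K ∧ ∀ a y : ℝ, 0 < a → a ≤ 16 → 0 < y →
    W a y ≤ K * ((1 + |y - 1| / Real.sqrt a) ^ 2)⁻¹ := by
  obtain ⟨K, hK, h⟩ := u2_poly 2
  refine ⟨2 + 16 * K, by positivity, fun a y ha ha' hy => ?_⟩
  have s0 : 0 < Real.sqrt a := Real.sqrt_pos.2 ha
  rw [← div_eq_mul_inv, le_div_iff₀ (by positivity)]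
  have h1 : W (2 * a) y * (Real.log y ^ 2 / a) ≤ 8 := by
    have e1 := Real.add_one_le_exp (Real.log y ^ 2 / (4 * (2 * a)))
    unfold W
    rw [neg_div, Real.exp_neg, inv_mul_le_iff₀ (Real.exp_pos _)]
    have : Real.log y ^ 2 / a = 8 * (Real.log y ^ 2 / (4 * (2 * a))) := by field_simp; ring
    linarith
  have h2 : (|y - 1| / Real.sqrt a) ^ 2 ≤ Real.log y ^ 2 / a * (1 + y) ^ 2 := by
    rw [div_pow, Real.sq_sqrt ha.le, div_mul_eq_mul_div, ← sq_abs (Real.log y), ← mul_pow]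
    gcongr
    exact u2_abs_le hy
  have h3 : W a y * (|y - 1| / Real.sqrt a) ^ 2 ≤ 8 * K := by
    have p := W_pos (2 * a) y
    calc _ ≤ W a y * (Real.log y ^ 2 / a * (1 + y) ^ 2) :=
          mul_le_mul_of_nonneg_left h2 (W_pos _ _).le
      _ = (W (2 * a) y * (Real.log y ^ 2 / a)) * (W (2 * a) y * (1 + y) ^ 2) := by
          rw [u2_W_sq ha y]; ring
      _ ≤ _ := mul_le_mul h1 (h _ y (by linarith) (by linarith) hy) (by positivity) (by norm_num)
  have h4 := W_le_one ha y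
  have h5 := W_pos a y
  nlinarith [mul_nonneg h5.le (sq_nonneg (1 - |y - 1| / Real.sqrt a))]

theorem u2_tele {δ : ℝ} (hδ : 0 < δ) (T : Finset ℕ) : ∑ j ∈ T, ((1 + (j : ℝ) / δ) ^ 2)⁻¹ ≤ 1 + δ := by
  have key : ∀ n : ℕ, ∑ j ∈ Finset.range (n + 1), ((1 + (j : ℝ) / δ) ^ 2)⁻¹ ≤
      1 + δ - δ * (1 + (n : ℝ) / δ)⁻¹ := by
    intro n
    induction n with
    | zero => simp
    | succ n ih =>
      rw [Finset.sum_range_succ]
      have h1 : ((1 + ((n + 1 : ℕ) : ℝ) / δ) ^ 2)⁻¹ ≤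
          δ * (1 + (n : ℝ) / δ)⁻¹ - δ * (1 + ((n + 1 : ℕ) : ℝ) / δ)⁻¹ := by
        have : δ * (1 + (n : ℝ) / δ)⁻¹ - δ * (1 + ((n + 1 : ℕ) : ℝ) / δ)⁻¹ =
            ((1 + (n : ℝ) / δ) * (1 + ((n + 1 : ℕ) : ℝ) / δ))⁻¹ := by
          push_cast; field_simp; ring
        rw [this, sq]
        gcongr
        omega
      linarith
  refine (Finset.sum_le_sum_of_subset_of_nonneg (t := Finset.range (T.sup id + 1))
    (fun j hj => Finset.mem_range.2 (Nat.lt_succ_of_le (Finset.le_sup (f := id) hj)))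
    fun j _ _ => by positivity).trans ((key _).trans ?_)
  exact sub_le_self _ (by positivity)

theorem u2_line {δ B : ℝ} (hδ : 0 < δ) (hB : 0 ≤ B) (S : Finset ℕ) :
    ∑ m ∈ S, ((1 + |(m : ℝ) - B| / δ) ^ 2)⁻¹ ≤ 2 * (1 + δ) := by
  have key : ∀ (S' : Finset ℕ) (φ : ℕ → ℕ), Set.InjOn φ S' → (∀ m ∈ S', (φ m : ℝ) ≤ |(m : ℝ) - B|) →
      ∑ m ∈ S', ((1 + |(m : ℝ) - B| / δ) ^ 2)⁻¹ ≤ 1 + δ := by
    intro S' φ hφ h
    refine le_trans ?_ (u2_tele hδ (S'.image φ))
    rw [Finset.sum_image hφ]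
    refine Finset.sum_le_sum fun m hm => ?_
    have := h m hm
    gcongr
  have h1 := Nat.floor_le hB
  have h2 := Nat.lt_floor_add_one B
  rw [← Finset.sum_filter_add_sum_filter_not S (fun m => m ≤ ⌊B⌋₊), two_mul]
  refine add_le_add (key _ (fun m => ⌊B⌋₊ - m) (fun a ha b hb e => ?_) fun m hm => ?_)
    (key _ (fun m => m - (⌊B⌋₊ + 1)) (fun a ha b hb e => ?_) fun m hm => ?_)
  · have := (Finset.mem_filter.1 ha).2
    have := (Finset.mem_filter.1 hb).2
    simp only at e; omega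
  · rw [Nat.cast_sub (Finset.mem_filter.1 hm).2, abs_sub_comm]
    exact le_trans (by linarith) (le_abs_self _)
  · have := (Finset.mem_filter.1 ha).2
    have := (Finset.mem_filter.1 hb).2
    simp only at e; omega
  · rw [Nat.cast_sub (by have := (Finset.mem_filter.1 hm).2; omega)]
    push_cast
    exact le_trans (by linarith) (le_abs_self _)

/-- Lattice points in thin annuli: `W θ = (W (2θ))²`, `coarse0` with `a' = 32` and `sm_az` for `l = 0`. -/
theorem thinA : ∃ C : ℝ, 0 ≤ C ∧ ∀ θ B : ℝ, 0 < θ → θ ≤ 8 → 1 ≤ B →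
    Summable (fun n : O => if Prim n then W θ (Nr n / B) * (1 + Nr n / B) ^ 2 else 0) ∧
    (∑' n : O, if Prim n then W θ (Nr n / B) * (1 + Nr n / B) ^ 2 else 0) ≤
      C * (B * Real.sqrt θ + θ⁻¹) := by
  obtain ⟨K, hK, h⟩ := u2_poly' 2
  obtain ⟨C, hC, h'⟩ := u2_count
  refine ⟨K * C, by positivity, fun θ B hθ hθ' hB => ?_⟩
  have hB0 : 0 < B := by linarith
  obtain ⟨s1, s2⟩ := u2_sm (a := 2 * θ) (by linarith) hB0
  refine ⟨u2_summable hθ hB0, ?_⟩
  calc _ ≤ ∑' n : O, K * (if Prim n then W (2 * θ) (Nr n / B) else 0) := by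
        refine (u2_summable hθ hB0).tsum_le_tsum (fun n => ?_) (s1.mul_left K)
        split_ifs with hn
        · exact h θ _ hθ (by linarith) (div_pos (Nr_pos hn.ne_zero) hB0)
        · simp
    _ ≤ _ := by
        rw [tsum_mul_left, mul_assoc]
        exact mul_le_mul_of_nonneg_left (s2.trans (h' θ B hθ hθ' hB0)) hK

/-- The number of elements of norm `m` is `≪ m^ε` (they divide `m`; `card_div_le`), and
`∑_m W θ' (m / B) ≤ C (B √θ + 1)` (unimodal function). -/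
theorem thinB {ε : ℝ} (hε : 0 < ε) : ∃ C : ℝ, 0 ≤ C ∧ ∀ θ B : ℝ, 0 < θ → θ ≤ 8 → 1 ≤ B →
    (∑' n : O, if Prim n then W θ (Nr n / B) * (1 + Nr n / B) ^ 2 else 0) ≤
      C * B ^ ε * (B * Real.sqrt θ + 1) := by
  classical
  obtain ⟨K, hK, h⟩ := u2_poly' (2 + ⌈ε⌉₊)
  obtain ⟨K', hK', h'⟩ := u2_peak
  obtain ⟨C, hC⟩ := a2_card_div (half_pos hε)
  refine ⟨4 * (|C| * K * K'), by positivity, fun θ B hθ hθ' hB => ?_⟩
  have hB0 : 0 < B := by linarith
  have s0 : 0 < Real.sqrt (2 * θ) := Real.sqrt_pos.2 (by linarith)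
  refine Real.tsum_le_of_sum_le (fun n => ?_) fun u => ?_
  · have := W_pos θ (Nr n / B)
    split_ifs <;> positivity
  rw [← Finset.sum_filter]
  have e1 := Finset.sum_comp (s := u.filter Prim)
    (fun m : ℕ => W θ ((m : ℝ) / B) * (1 + (m : ℝ) / B) ^ 2) nm
  refine e1.le.trans ?_
  calc _ ≤ ∑ m ∈ (u.filter Prim).image nm, |C| * K * K' * B ^ ε *
        ((1 + |(m : ℝ) - B| / (B * Real.sqrt (2 * θ))) ^ 2)⁻¹ := by
        refine Finset.sum_le_sum fun m hm => ?_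
        obtain ⟨n, hn, e⟩ := Finset.mem_image.1 hm
        have hm0 : m ≠ 0 := fun h0 => (Finset.mem_filter.1 hn).2.ne_zero (nm_eq_zero.1 (e.trans h0))
        have hm1 : (0 : ℝ) < m := by positivity
        have hy : 0 < (m : ℝ) / B := by positivity
        have c1 := hC (m : O) (by exact_mod_cast hm0) ((u.filter Prim).filter (fun a => nm a = m))
          (fun d hd => ⟨star d, by rw [← (Finset.mem_filter.1 hd).2, r1_nm_cast]⟩)
        have c2 : Nr (m : O) ^ (ε / 2) ≤ B ^ ε * (1 + (m : ℝ) / B) ^ ⌈ε⌉₊ := by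
          rw [Nr_natCast, ← Real.rpow_two, ← Real.rpow_mul hm1.le, show 2 * (ε / 2) = ε by ring]
          calc (m : ℝ) ^ ε = B ^ ε * ((m : ℝ) / B) ^ ε := by
                rw [← Real.mul_rpow hB0.le hy.le, mul_div_cancel₀ _ hB0.ne']
            _ ≤ B ^ ε * (1 + (m : ℝ) / B) ^ ε := by gcongr; linarith
            _ ≤ _ := by
                rw [← Real.rpow_natCast]
                exact mul_le_mul_of_nonneg_left
                  (Real.rpow_le_rpow_of_exponent_le (by linarith) (Nat.le_ceil ε)) (by positivity)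
        have c3 := c1.trans ((mul_le_mul_of_nonneg_right (le_abs_self C)
          (Real.rpow_nonneg (Nr_nonneg _) _)).trans (mul_le_mul_of_nonneg_left c2 (abs_nonneg C)))
        have c4 := (h θ _ hθ (by linarith) hy).trans
          (mul_le_mul_of_nonneg_left (h' (2 * θ) _ (by linarith) (by linarith) hy) hK)
        have c5 : |(m : ℝ) / B - 1| / Real.sqrt (2 * θ) = |(m : ℝ) - B| / (B * Real.sqrt (2 * θ)) := by
          rw [div_sub_one hB0.ne', abs_div, abs_of_pos hB0, div_div]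
        rw [c5] at c4
        have := W_pos θ ((m : ℝ) / B)
        rw [nsmul_eq_mul]
        calc _ ≤ |C| * (B ^ ε * (1 + (m : ℝ) / B) ^ ⌈ε⌉₊) * (W θ ((m : ℝ) / B) * (1 + (m : ℝ) / B) ^ 2) := by
              gcongr
          _ = |C| * B ^ ε * (W θ ((m : ℝ) / B) * (1 + (m : ℝ) / B) ^ (2 + ⌈ε⌉₊)) := by ring
          _ ≤ |C| * B ^ ε * (K * (K' * ((1 + |(m : ℝ) - B| / (B * Real.sqrt (2 * θ))) ^ 2)⁻¹)) := by
              gcongr
          _ = _ := by ring
    _ ≤ |C| * K * K' * B ^ ε * (2 * (1 + B * Real.sqrt (2 * θ))) := by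
        rw [← Finset.mul_sum]
        exact mul_le_mul_of_nonneg_left (u2_line (by positivity) hB0.le _) (by positivity)
    _ ≤ |C| * K * K' * B ^ ε * (4 * (B * Real.sqrt θ + 1)) := by
        have s1 : Real.sqrt (2 * θ) ≤ 2 * Real.sqrt θ := by
          rw [Real.sqrt_le_left (by positivity), mul_pow, Real.sq_sqrt hθ.le]; linarith
        have := mul_le_mul_of_nonneg_left s1 hB0.le
        gcongr ?_ * ?_
        linarith
    _ = _ := by ring

theorem cn_le_thin {M x a B : ℝ} {f : O → ℂ} (hf : EnvS M x f) (ha : 0 < a) (hB : 0 < B) (hBx : B ≤ x) :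
    cn a B f ≤ M ^ 2 * ∑' n : O, if Prim n then W a (Nr n / B) * (1 + Nr n / B) ^ 2 else 0 := by
  classical
  have hle : ∀ b : O, (if Prim b ∧ Squarefree b then ‖f b‖ ^ 2 * W a (Nr b / B) else 0) ≤
      M ^ 2 * (if Prim b then W a (Nr b / B) * (1 + Nr b / B) ^ 2 else 0) := by
    intro b
    have p := W_pos a (Nr b / B)
    have q := Nr_nonneg b
    by_cases h : Prim b ∧ Squarefree b
    · rw [if_pos h, if_pos h.1]
      have h1 : ‖f b‖ ^ 2 ≤ (M * (1 + Nr b / x)) ^ 2 := pow_le_pow_left₀ (norm_nonneg _) (hf b h.1 h.2) 2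
      have hx : 0 < x := by linarith
      have h2 : (1 + Nr b / x) ^ 2 ≤ (1 + Nr b / B) ^ 2 := by gcongr
      rw [mul_pow] at h1
      calc _ ≤ M ^ 2 * (1 + Nr b / B) ^ 2 * W a (Nr b / B) :=
            mul_le_mul_of_nonneg_right (h1.trans (by gcongr)) p.le
        _ = _ := by ring
    · rw [if_neg h]
      split_ifs <;> positivity
  have hs := (u2_summable ha hB).mul_left (M ^ 2)
  unfold cn
  rw [← tsum_mul_left]
  refine Summable.tsum_le_tsum hle (Summable.of_nonneg_of_le (fun b => ?_) hle hs) hs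
  have p := W_pos a (Nr b / B)
  split_ifs <;> positivity

end Crest.Agent.R012

end
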