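import Crest.Agent.R012.U14a
import Crest.Agent.R012.U2

/-! # Row 12: the sharp cut-off -/

set_option autoImplicit false

noncomputable section

open scoped BigOperators ComplexConjugate Topology
open Complex MeasureTheory Filter Set Crest.Agent.R017

namespace Crest.Agent.R012

/-- Fubini for a series against non-negative kernels. -/
theorem u14_fub (μ : Measure ℝ) (c : O → ℂ) (ψ : O → ℝ → ℝ) (h0 : ∀ n v, 0 ≤ ψ n v)
    (hi : ∀ n, Integrable (ψ n) μ) (hs : Summable fun n => c n * ((∫ v, ψ n v ∂μ : ℝ) : ℂ))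
    {g : ℝ → ℝ} (hg : Integrable g μ) (hb : ∀ᵐ v ∂μ, ‖∑' n, c n * (ψ n v : ℂ)‖ ≤ g v) :
    ‖∑' n, c n * ((∫ v, ψ n v ∂μ : ℝ) : ℂ)‖ ≤ ∫ v, g v ∂μ := by
  have h2 : ∀ n, Integrable (fun v => c n * (ψ n v : ℂ)) μ := fun n => (hi n).ofReal.const_mul _
  have h3 : ∀ n, ∫ v, c n * (ψ n v : ℂ) ∂μ = c n * ((∫ v, ψ n v ∂μ : ℝ) : ℂ) := fun n => by
    rw [integral_const_mul, integral_complex_ofReal]
  have h4 : ∀ n, ∫ v, ‖c n * (ψ n v : ℂ)‖ ∂μ = ‖c n * ((∫ v, ψ n v ∂μ : ℝ) : ℂ)‖ := fun n => by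
    have : ∀ v, ‖c n * (ψ n v : ℂ)‖ = ‖c n‖ * ψ n v := fun v => by
      rw [norm_mul, Complex.norm_real, Real.norm_of_nonneg (h0 n v)]
    simp only [this]
    rw [integral_const_mul, norm_mul, Complex.norm_real,
      Real.norm_of_nonneg (integral_nonneg (h0 n))]
  have h5 : Summable fun n => ∫ v, ‖c n * (ψ n v : ℂ)‖ ∂μ := by
    simp only [h4]
    exact summable_norm_iff.2 hs
  have h6 := integral_tsum_of_summable_integral_norm h2 h5
  simp only [h3] at h6
  rw [h6]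
  exact norm_integral_le_of_norm_le hg hb

theorem u14_kappa : 0 < (2 * Real.sqrt Real.pi)⁻¹ ∧ (2 * Real.sqrt Real.pi)⁻¹ ≤ 1 := by
  have h1 : 1 ≤ Real.sqrt Real.pi := Real.one_le_sqrt.2 (by linarith [Real.pi_gt_three])
  exact ⟨by positivity, inv_le_one_of_one_le₀ (by linarith)⟩

theorem u14_sumPh {c : O → ℂ} {K A : ℝ} (hc : ∀ n, Prim n → ‖c n‖ ≤ K * Nr n ^ A) {X T : ℝ}
    (hX : 0 < X) (hT : 0 < T) :
    Summable (fun n : O => if Prim n then c n * (Ph T (Nr n / X) : ℂ) else 0) := by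
  classical
  have h1 : Summable (fun n : O => if n ∈ box X then ‖c n‖ else 0) :=
    summable_of_ne_finset_zero (s := box X) fun n hn => if_neg hn
  have h2 := (summable_W (a := (T ^ 2)⁻¹) (by positivity) hX A).mul_left |K|
  refine Summable.of_norm_bounded (h1.add h2) fun n => ?_
  have hW := W_pos (T ^ 2)⁻¹ (Nr n / X)
  have hp := Real.rpow_nonneg (Nr_nonneg n) A
  by_cases hn : Prim n
  · have hN := Nr_pos hn.ne_zero
    have h3 := abs_le.1 (Ph_approx hT (div_pos hN hX))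
    have h4 : ‖c n‖ ≤ |K| * Nr n ^ A :=
      (hc n hn).trans (mul_le_mul_of_nonneg_right (le_abs_self K) hp)
    have h5 : ‖c n‖ * W (T ^ 2)⁻¹ (Nr n / X) ≤ |K| * (Nr n ^ A * W (T ^ 2)⁻¹ (Nr n / X)) := by
      rw [← mul_assoc]; exact mul_le_mul_of_nonneg_right h4 hW.le
    rw [if_pos hn, if_neg hn.ne_zero, norm_mul, Complex.norm_real, Real.norm_eq_abs]
    by_cases hb : n ∈ box X
    · rw [if_pos hb]
      have : |Ph T (Nr n / X)| ≤ 1 + W (T ^ 2)⁻¹ (Nr n / X) := by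
        rw [abs_le]
        split_ifs at h3 <;> constructor <;> linarith [h3.1, h3.2]
      nlinarith [norm_nonneg (c n)]
    · rw [if_neg hb]
      have hx : ¬ Nr n / X ≤ 1 := fun h => hb (mem_box.2 ⟨hn.ne_zero, (div_le_one hX).1 h⟩)
      rw [if_neg hx] at h3
      have : |Ph T (Nr n / X)| ≤ W (T ^ 2)⁻¹ (Nr n / X) := by
        rw [abs_le]
        constructor <;> linarith [h3.1, h3.2]
      nlinarith [norm_nonneg (c n)]
  · rw [if_neg hn, norm_zero]
    refine add_nonneg ?_ (mul_nonneg (abs_nonneg _) ?_) <;> split_ifs <;> positivity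

theorem u14_SF (l : ℤ) (a : ℝ) (f : O → ℂ) (Y : ℝ) : SF l a f Y 0 =
    ∑' n : O, (if Prim n then f n * az l n * FF n else 0) * (W a (Nr n / Y) : ℂ) := by
  unfold SF sm
  refine tsum_congr fun n => ?_
  split_ifs <;> simp

theorem u14_W (s x : ℝ) : W (s ^ 2)⁻¹ x = Real.exp (-(Real.log x) ^ 2 / 4 * s ^ 2) := by
  unfold W
  congr 1
  rw [← div_div, div_inv_eq_mul]

theorem cut_one (l : ℤ) {f : O → ℂ} (hf : Pg f) {X : ℝ} (hX : 0 < X) {g : ℝ → ℝ}
    (hg : IntegrableOn g (Iic (Real.log X)))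
    (h : ∀ v, v ≤ Real.log X → ‖SF l 1 f (Real.exp v) 0‖ ≤ g v) :
    Summable (fun n : O => if Prim n then f n * az l n * FF n * (Ph 1 (Nr n / X) : ℂ) else 0) ∧
    ‖∑' n : O, if Prim n then f n * az l n * FF n * (Ph 1 (Nr n / X) : ℂ) else 0‖ ≤
      ∫ v in Iic (Real.log X), g v := by
  obtain ⟨K, A, hc⟩ := hf.bound l
  have hs := u14_sumPh hc hX one_pos
  refine ⟨hs, ?_⟩
  obtain ⟨k0, k1⟩ := u14_kappa
  set κ := (2 * Real.sqrt Real.pi)⁻¹ with hκ
  set c : O → ℂ := fun n => if Prim n then f n * az l n * FF n else 0 with hcd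
  set ψ : O → ℝ → ℝ := fun n v => W 1 (Nr n / Real.exp v) with hψ
  have e : ∀ n : O, (if Prim n then f n * az l n * FF n * (Ph 1 (Nr n / X) : ℂ) else 0) =
      (κ : ℂ) * (c n * ((∫ v in Iic (Real.log X), ψ n v : ℝ) : ℂ)) := fun n => by
    simp only [hcd, hψ]
    split_ifs with hn
    · rw [Ph_one (Nr_pos hn.ne_zero) hX, ← hκ]; push_cast; ring
    · simp
  have hκ' : (κ : ℂ) ≠ 0 := Complex.ofReal_ne_zero.2 k0.ne'
  simp only [e] at hs ⊢
  rw [summable_mul_left_iff hκ'] at hs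
  have hb : ∀ᵐ v ∂(volume.restrict (Iic (Real.log X))), ‖∑' n, c n * (ψ n v : ℂ)‖ ≤ g v := by
    refine ae_restrict_of_forall_mem measurableSet_Iic fun v hv => ?_
    have := h v hv
    rwa [u14_SF] at this
  have hg0 : 0 ≤ ∫ v in Iic (Real.log X), g v :=
    integral_nonneg_of_ae (hb.mono fun v hv => (norm_nonneg _).trans hv)
  -- replace the kernel at `n = 0`
  set ψ' : O → ℝ → ℝ := fun n v => if Prim n then ψ n v else 0 with hψ'
  have e1 : ∀ n v, c n * (ψ n v : ℂ) = c n * (ψ' n v : ℂ) := fun n v => by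
    simp only [hcd, hψ']
    split_ifs <;> simp
  have e2 : ∀ n, c n * ((∫ v in Iic (Real.log X), ψ n v : ℝ) : ℂ) =
      c n * ((∫ v in Iic (Real.log X), ψ' n v : ℝ) : ℂ) := fun n => by
    simp only [hcd, hψ']
    split_ifs <;> simp
  simp only [e1] at hb
  simp only [e2] at hs ⊢
  have hi : ∀ n, Integrable (ψ' n) (volume.restrict (Iic (Real.log X))) := fun n => by
    by_cases hn : Prim n
    · have hN := Nr_pos hn.ne_zero
      have : ψ' n = fun v => Real.exp (-(1 / 4) * (v - Real.log (Nr n)) ^ 2) := by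
        funext v
        simp only [hψ', hψ, if_pos hn, W]
        rw [Real.log_div hN.ne' (Real.exp_pos v).ne', Real.log_exp]
        congr 1; ring
      rw [this]
      exact ((integrable_exp_neg_mul_sq (b := 1 / 4) (by norm_num)).comp_sub_right _).integrableOn
    · have : ψ' n = fun _ => 0 := by
        funext v
        simp only [hψ', if_neg hn]
      rw [this]
      exact integrable_zero _ _ _
  have h0 : ∀ n v, 0 ≤ ψ' n v := fun n v => by
    simp only [hψ', hψ]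
    split_ifs
    · exact (W_pos _ _).le
    · exact le_rfl
  have key := u14_fub _ c ψ' h0 hi hs hg hb
  rw [tsum_mul_left, norm_mul, Complex.norm_real, Real.norm_of_nonneg k0.le]
  nlinarith [norm_nonneg (∑' n, c n * ((∫ v in Iic (Real.log X), ψ' n v : ℝ) : ℂ))]

theorem cut_two (l : ℤ) {f : O → ℂ} (hf : Pg f) {X T : ℝ} (hX : 0 < X) (hT : 1 ≤ T) {g : ℝ → ℝ}
    (hg : IntervalIntegrable g volume 1 T)
    (h : ∀ s ∈ Icc 1 T, ‖SF l (s ^ 2)⁻¹ (fun n => f n * (lgn n - (Real.log X : ℂ))) X 0‖ ≤ g s) :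
    Summable (fun n : O => if Prim n then
      f n * az l n * FF n * ((Ph 1 (Nr n / X) - Ph T (Nr n / X) : ℝ) : ℂ) else 0) ∧
    ‖∑' n : O, if Prim n then
      f n * az l n * FF n * ((Ph 1 (Nr n / X) - Ph T (Nr n / X) : ℝ) : ℂ) else 0‖ ≤
      ∫ s in (1 : ℝ)..T, g s := by
  obtain ⟨K, A, hc⟩ := hf.bound l
  have hs : Summable (fun n : O => if Prim n then
      f n * az l n * FF n * ((Ph 1 (Nr n / X) - Ph T (Nr n / X) : ℝ) : ℂ) else 0) := by
    refine ((u14_sumPh hc hX one_pos).sub (u14_sumPh hc hX (T := T) (by linarith))).congr fun n => ?_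
    split_ifs
    · push_cast; ring
    · simp
  refine ⟨hs, ?_⟩
  obtain ⟨k0, k1⟩ := u14_kappa
  set κ := (2 * Real.sqrt Real.pi)⁻¹ with hκ
  set c : O → ℂ := fun n =>
    if Prim n then f n * (lgn n - (Real.log X : ℂ)) * az l n * FF n else 0 with hcd
  set ψ : O → ℝ → ℝ := fun n s => W (s ^ 2)⁻¹ (Nr n / X) with hψ
  have e : ∀ n : O, (if Prim n then
      f n * az l n * FF n * ((Ph 1 (Nr n / X) - Ph T (Nr n / X) : ℝ) : ℂ) else 0) =
      (κ : ℂ) * (c n * ((∫ s in Ioc 1 T, ψ n s : ℝ) : ℂ)) := fun n => by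
    simp only [hcd, hψ]
    split_ifs with hn
    · have hN := Nr_pos hn.ne_zero
      rw [Ph_sub hT (div_pos hN hX), ← hκ, intervalIntegral.integral_const_mul,
        intervalIntegral.integral_of_le hT, Real.log_div hN.ne' hX.ne', lgn]
      push_cast; ring
    · simp
  have hκ' : (κ : ℂ) ≠ 0 := Complex.ofReal_ne_zero.2 k0.ne'
  simp only [e] at hs ⊢
  rw [summable_mul_left_iff hκ'] at hs
  have hb : ∀ᵐ s ∂(volume.restrict (Ioc 1 T)), ‖∑' n, c n * (ψ n s : ℂ)‖ ≤ g s := by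
    refine ae_restrict_of_forall_mem measurableSet_Ioc fun s hs => ?_
    have := h s ⟨hs.1.le, hs.2⟩
    rwa [u14_SF] at this
  have hg0 : 0 ≤ ∫ s in Ioc 1 T, g s :=
    integral_nonneg_of_ae (hb.mono fun v hv => (norm_nonneg _).trans hv)
  have hi : ∀ n, Integrable (ψ n) (volume.restrict (Ioc 1 T)) := fun n => by
    have : Continuous (ψ n) := by
      simp only [hψ, u14_W]
      fun_prop
    exact (this.intervalIntegrable 1 T).1
  have key := u14_fub _ c ψ (fun n s => (W_pos _ _).le) hi hs hg.1 hb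
  rw [tsum_mul_left, norm_mul, Complex.norm_real, Real.norm_of_nonneg k0.le,
    intervalIntegral.integral_of_le hT]
  nlinarith [norm_nonneg (∑' n, c n * ((∫ s in Ioc 1 T, ψ n s : ℝ) : ℂ))]

/-- `Ph_approx`, `thinA`. -/
theorem cutoff : ∃ C : ℝ, 0 ≤ C ∧ ∀ (l : ℤ) (X T : ℝ) (g₁ g₂ : ℝ → ℝ), 3 ≤ X → 1 ≤ T →
    IntegrableOn g₁ (Iic (Real.log X)) →
    (∀ v, v ≤ Real.log X → ‖SF l 1 Lp (Real.exp v) 0‖ ≤ g₁ v) → IntervalIntegrable g₂ volume 1 T →
    (∀ s ∈ Icc 1 T, ‖SF l (s ^ 2)⁻¹ (fun n => Lp n * (lgn n - (Real.log X : ℂ))) X 0‖ ≤ g₂ s) →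
    ‖∑ n ∈ sbox X, Lp n * az l n * FF n‖ ≤ (∫ v in Iic (Real.log X), g₁ v) +
      (∫ s in (1 : ℝ)..T, g₂ s) + C * Real.log X * (X / T + T ^ 2) := by
  classical
  obtain ⟨C, hC, hA⟩ := thinA
  have hcst := cst_pos
  refine ⟨(1 + cst) * C, by positivity, fun l X T g₁ g₂ hX hT hg₁ h₁ hg₂ h₂ => ?_⟩
  have hX0 : 0 < X := by linarith
  have hT0 : 0 < T := by linarith
  obtain ⟨s1, b1⟩ := cut_one l pg_Lp hX0 hg₁ h₁
  obtain ⟨s2, b2⟩ := cut_two l pg_Lp hX0 hT hg₂ h₂
  have hθ : (T ^ 2)⁻¹ ≤ 8 := (inv_le_one_of_one_le₀ (one_le_pow₀ hT)).trans (by norm_num)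
  obtain ⟨s3, b3⟩ := hA (T ^ 2)⁻¹ X (by positivity) hθ (by linarith)
  rw [Real.sqrt_inv, Real.sqrt_sq hT0.le, inv_inv, ← div_eq_mul_inv] at b3
  have hL : 1 ≤ Real.log X := by
    rw [Real.le_log_iff_exp_le hX0]
    linarith [Real.exp_one_lt_d9]
  set r : O → ℂ := fun n => if Prim n then Lp n * az l n * FF n *
    (((if Nr n / X ≤ 1 then (1 : ℝ) else 0) - Ph T (Nr n / X) : ℝ) : ℂ) else 0 with hr
  have hrb : ∀ n, ‖r n‖ ≤ (1 + cst) * Real.log X *
      (if Prim n then W (T ^ 2)⁻¹ (Nr n / X) * (1 + Nr n / X) ^ 2 else 0) := fun n => by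
    simp only [hr]
    by_cases hn : Prim n
    · have hN := Nr_pos hn.ne_zero
      have hx := div_pos hN hX0
      rw [if_pos hn, if_pos hn, norm_mul, norm_mul, norm_mul, norm_az l hn.ne_zero, mul_one,
        Complex.norm_real, Real.norm_eq_abs]
      have a1 : ‖Lp n‖ ≤ Real.log X * (1 + Nr n / X) ^ 2 := by
        refine (norm_Lp_le hn.ne_zero).trans ?_
        have e1 : Real.log (Nr n) = Real.log X + Real.log (Nr n / X) := by
          rw [Real.log_div hN.ne' hX0.ne']; ring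
        have e2 := Real.log_le_sub_one_of_pos hx
        rw [e1]
        nlinarith [mul_nonneg (sub_nonneg.2 hL) hx.le, mul_nonneg (zero_le_one.trans hL) (sq_nonneg (Nr n / X))]
      have a2 := norm_FF_le hn
      have a3 := Ph_approx hT0 hx
      calc _ ≤ (Real.log X * (1 + Nr n / X) ^ 2) * (1 + cst) * W (T ^ 2)⁻¹ (Nr n / X) := by
            gcongr
        _ = _ := by ring
    · rw [if_neg hn, if_neg hn]; simp
  have s4 := s3.mul_left ((1 + cst) * Real.log X)
  have sr : Summable r := Summable.of_norm_bounded s4 hrb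
  have br : ‖∑' n, r n‖ ≤ (1 + cst) * C * Real.log X * (X / T + T ^ 2) := by
    refine (tsum_of_norm_bounded s4.hasSum hrb).trans ?_
    rw [tsum_mul_left]
    calc _ ≤ (1 + cst) * Real.log X * (C * (X / T + T ^ 2)) :=
          mul_le_mul_of_nonneg_left b3 (by positivity)
      _ = _ := by ring
  have e : ∑ n ∈ sbox X, Lp n * az l n * FF n =
      (∑' n : O, if Prim n then Lp n * az l n * FF n * (Ph 1 (Nr n / X) : ℂ) else 0) -
      (∑' n : O, if Prim n then
        Lp n * az l n * FF n * ((Ph 1 (Nr n / X) - Ph T (Nr n / X) : ℝ) : ℂ) else 0) +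
      ∑' n, r n := by
    rw [← s1.tsum_sub s2, ← (s1.sub s2).tsum_add sr, tsum_eq_sum (s := sbox X)]
    · refine Finset.sum_congr rfl fun n hn => ?_
      obtain ⟨h1, -, h3⟩ := q_mem_sbox.1 hn
      simp only [hr, if_pos h1, if_pos ((div_le_one hX0).2 h3)]
      push_cast; ring
    · intro n hn
      simp only [hr]
      by_cases h1 : Prim n
      · simp only [if_pos h1]
        by_cases h2 : Squarefree n
        · have h3 : ¬ Nr n / X ≤ 1 := fun h => hn (q_mem_sbox.2 ⟨h1, h2, (div_le_one hX0).1 h⟩)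
          rw [if_neg h3]
          push_cast; ring
        · simp [FF_of_not h2]
      · simp [if_neg h1]
  rw [e]
  refine (norm_add_le _ _).trans (add_le_add ((norm_sub_le _ _).trans (add_le_add b1 b2)) br)

end Crest.Agent.R012

end
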