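import Crest.Agent.R012.TopA
import Crest.Agent.R012.U14

/-! # Row 12: the main estimate -/

set_option autoImplicit false

noncomputable section

open scoped BigOperators ComplexConjugate Topology
open Complex MeasureTheory Filter Set Crest.Agent.R017

namespace Crest.Agent.R012

/-- The bound for the normalised sum, in terms of `u = log X`. -/
def top_B (C₁ C₂ C₃ u : ℝ) : ℝ :=
  C₁ * (6 / 5 * u ^ (-(1 / 50) : ℝ) + 2 * Real.exp (-(1 / 12 * u))) +
    C₂ * (6000 * u ^ (-(1 / 100) : ℝ) + 4 * u ^ (-2 : ℝ)) +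
    C₃ * (u ^ (-2 : ℝ) + 128 * ((1 / 2 * u) ^ 7 * Real.exp (-(1 / 2 * u))))

theorem top_B_tendsto (C₁ C₂ C₃ : ℝ) : Tendsto (top_B C₁ C₂ C₃) atTop (𝓝 0) := by
  have h1 := tendsto_rpow_neg_atTop (y := 1 / 50) (by norm_num)
  have h2 := tendsto_rpow_neg_atTop (y := 1 / 100) (by norm_num)
  have h3 := tendsto_rpow_neg_atTop (y := 2) (by norm_num)
  have h4 := Real.tendsto_exp_neg_atTop_nhds_zero.comp
    (tendsto_id.const_mul_atTop (show (0 : ℝ) < 1 / 12 by norm_num))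
  have h5 := (Real.tendsto_pow_mul_exp_neg_atTop_nhds_zero 7).comp
    (tendsto_id.const_mul_atTop (show (0 : ℝ) < 1 / 2 by norm_num))
  have := ((((h1.const_mul (6 / 5)).add (h4.const_mul 2)).const_mul C₁).add
    (((h2.const_mul 6000).add (h3.const_mul 4)).const_mul C₂)).add
    ((h3.add (h5.const_mul 128)).const_mul C₃)
  simp only [mul_zero, add_zero] at this
  exact this

theorem top_int1 (a b u : ℝ) :
    IntegrableOn (fun v : ℝ => a * Real.exp (5 / 6 * v) + b * Real.exp (1 / 2 * v)) (Iic u) ∧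
    ∫ v in Iic u, (a * Real.exp (5 / 6 * v) + b * Real.exp (1 / 2 * v)) =
      6 / 5 * a * Real.exp (5 / 6 * u) + 2 * b * Real.exp (1 / 2 * u) := by
  have h1 := (integrableOn_exp_mul_Iic (a := 5 / 6) (by norm_num) u).const_mul a
  have h2 := (integrableOn_exp_mul_Iic (a := 1 / 2) (by norm_num) u).const_mul b
  refine ⟨h1.add h2, ?_⟩
  rw [integral_add h1 h2, integral_const_mul, integral_const_mul,
    integral_exp_mul_Iic (by norm_num), integral_exp_mul_Iic (by norm_num)]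
  ring

theorem top_int2 {a b T : ℝ} (ha : 0 ≤ a) (hT : 1 ≤ T) :
    IntervalIntegrable (fun s : ℝ => a * s ^ (-(6001 / 6000) : ℝ) + b * s⁻¹) volume 1 T ∧
    ∫ s in (1 : ℝ)..T, (a * s ^ (-(6001 / 6000) : ℝ) + b * s⁻¹) ≤ 6000 * a + b * Real.log T := by
  have h0 : (0 : ℝ) ∉ uIcc 1 T := notMem_uIcc_of_lt one_pos (by linarith)
  have h1 : IntervalIntegrable (fun s : ℝ => a * s ^ (-(6001 / 6000) : ℝ)) volume 1 T :=
    (intervalIntegral.intervalIntegrable_rpow (Or.inr h0)).const_mul a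
  have h2 : IntervalIntegrable (fun s : ℝ => b * s⁻¹) volume 1 T :=
    (intervalIntegrable_inv_iff.2 (Or.inr h0)).const_mul b
  refine ⟨h1.add h2, ?_⟩
  rw [intervalIntegral.integral_add h1 h2, intervalIntegral.integral_const_mul,
    intervalIntegral.integral_const_mul, integral_inv_of_pos one_pos (by linarith), div_one,
    integral_rpow (Or.inr ⟨by norm_num, h0⟩), Real.one_rpow]
  have h3 : 0 ≤ T ^ (-(6001 / 6000) + 1 : ℝ) := Real.rpow_nonneg (by linarith) _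
  have h4 : (T ^ (-(6001 / 6000) + 1 : ℝ) - 1) / (-(6001 / 6000) + 1) ≤ 6000 := by
    rw [div_le_iff_of_neg (by norm_num)]
    linarith
  nlinarith [mul_le_mul_of_nonneg_left h4 ha]

theorem top_ind {u s : ℝ} (hu : 1 ≤ u) (hs : 1 ≤ s) :
    u ^ (-(1 / 50) : ℝ) * (Iic (u ^ 60)).indicator (fun s => s⁻¹) s ≤
      u ^ (-(1 / 100) : ℝ) * s ^ (-(6001 / 6000) : ℝ) := by
  have hu0 : 0 < u := by linarith
  have hs0 : 0 < s := by linarith
  by_cases h : s ∈ Iic (u ^ 60)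
  · rw [indicator_of_mem h]
    have h1 : s ^ (1 / 6000 : ℝ) ≤ u ^ (1 / 100 : ℝ) := by
      refine (Real.rpow_le_rpow hs0.le h (by norm_num)).trans (le_of_eq ?_)
      rw [← Real.rpow_natCast, ← Real.rpow_mul hu0.le]
      norm_num
    have e1 : s⁻¹ = s ^ (1 / 6000 : ℝ) * s ^ (-(6001 / 6000) : ℝ) := by
      rw [← Real.rpow_add hs0, ← Real.rpow_neg_one]
      norm_num
    have e2 : u ^ (-(1 / 100) : ℝ) = u ^ (-(1 / 50) : ℝ) * u ^ (1 / 100 : ℝ) := by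
      rw [← Real.rpow_add hu0]
      norm_num
    rw [e1, e2, mul_assoc]
    gcongr
  · rw [indicator_of_notMem h, mul_zero]
    positivity

theorem top_bound (l : ℤ) : ∃ C₁ C₂ C₃ x₀ : ℝ, ∀ X : ℝ, x₀ ≤ X →
    ‖∑ n ∈ sbox X, Lp n * az l n * FF n‖ ≤ top_B C₁ C₂ C₃ (Real.log X) * X ^ (5 / 6 : ℝ) := by
  obtain ⟨C₁, x₁, hC₁, h₁⟩ := top_one l
  obtain ⟨C₂, x₂, hC₂, h₂⟩ := top_two l
  obtain ⟨C₃, hC₃, h₃⟩ := cutoff
  refine ⟨C₁, C₂, C₃, max 3 (max x₁ x₂), fun X hX => ?_⟩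
  have hX3 : 3 ≤ X := (le_max_left _ _).trans hX
  have hX1 : x₁ ≤ X := (le_max_left _ _).trans ((le_max_right _ _).trans hX)
  have hX2 : x₂ ≤ X := (le_max_right _ _).trans ((le_max_right _ _).trans hX)
  have hX0 : 0 < X := by linarith
  have hu : 1 ≤ Real.log X := by
    rw [Real.le_log_iff_exp_le hX0]
    linarith [Real.exp_one_lt_d9]
  have hp : ∀ r : ℝ, X ^ r = Real.exp (r * Real.log X) := fun r => by
    rw [Real.rpow_def_of_pos hX0, mul_comm]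
  set u := Real.log X with hudef
  have hu0 : 0 < u := by linarith
  set T := X ^ (1 / 6 : ℝ) * u ^ 3 with hT
  have hT1 : 1 ≤ T := one_le_mul_of_one_le_of_one_le (Real.one_le_rpow (by linarith) (by norm_num))
    (one_le_pow₀ hu)
  have hP : 0 < X ^ (5 / 6 : ℝ) := by positivity
  obtain ⟨i1, j1⟩ := top_int1 (C₁ * u ^ (-(1 / 50) : ℝ)) (C₁ * X ^ (1 / 4 : ℝ)) u
  obtain ⟨i2, j2⟩ := top_int2 (a := C₂ * X ^ (5 / 6 : ℝ) * u ^ (-(1 / 100) : ℝ))
    (b := C₂ * X ^ (5 / 6 : ℝ) * (u ^ 3)⁻¹) (by positivity) hT1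
  have h4 := h₃ l X T _ _ hX3 hT1 i1
    (fun v hv => (h₁ X v hX1 hv).trans (le_of_eq (by
      rw [show v / 2 = 1 / 2 * v by ring]; ring))) i2
    (fun s hs => (h₂ X s hX2 hs.1 hs.2).trans (by
      have := mul_le_mul_of_nonneg_left (top_ind hu hs.1) (mul_nonneg hC₂ hP.le)
      rw [← hudef]
      nlinarith))
  rw [j1] at h4
  have hlogT : Real.log T ≤ 4 * u := by
    rw [hT, Real.log_mul (by positivity) (by positivity), Real.log_rpow hX0, Real.log_pow, ← hudef]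
    have := Real.log_le_sub_one_of_pos hu0
    push_cast
    linarith
  have e2 : u ^ (-2 : ℝ) = (u ^ 2)⁻¹ := by rw [Real.rpow_neg hu0.le, Real.rpow_two]
  have k1 : 6 / 5 * (C₁ * u ^ (-(1 / 50) : ℝ)) * Real.exp (5 / 6 * u) +
      2 * (C₁ * X ^ (1 / 4 : ℝ)) * Real.exp (1 / 2 * u) =
      C₁ * (6 / 5 * u ^ (-(1 / 50) : ℝ) + 2 * Real.exp (-(1 / 12 * u))) * X ^ (5 / 6 : ℝ) := by
    have : Real.exp (1 / 4 * u) * Real.exp (1 / 2 * u) =
        Real.exp (-(1 / 12 * u)) * Real.exp (5 / 6 * u) := by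
      rw [← Real.exp_add, ← Real.exp_add]; congr 1; ring
    rw [hp, hp]
    linear_combination (2 * C₁) * this
  have k2 : 6000 * (C₂ * X ^ (5 / 6 : ℝ) * u ^ (-(1 / 100) : ℝ)) +
      C₂ * X ^ (5 / 6 : ℝ) * (u ^ 3)⁻¹ * Real.log T ≤
      C₂ * (6000 * u ^ (-(1 / 100) : ℝ) + 4 * u ^ (-2 : ℝ)) * X ^ (5 / 6 : ℝ) := by
    have : C₂ * X ^ (5 / 6 : ℝ) * (u ^ 3)⁻¹ * Real.log T ≤
        C₂ * X ^ (5 / 6 : ℝ) * (u ^ 3)⁻¹ * (4 * u) := by gcongr
    have e : C₂ * X ^ (5 / 6 : ℝ) * (u ^ 3)⁻¹ * (4 * u) =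
        C₂ * (4 * u ^ (-2 : ℝ)) * X ^ (5 / 6 : ℝ) := by rw [e2]; field_simp
    nlinarith
  have k3 : C₃ * u * (X / T + T ^ 2) =
      C₃ * (u ^ (-2 : ℝ) + 128 * ((1 / 2 * u) ^ 7 * Real.exp (-(1 / 2 * u)))) * X ^ (5 / 6 : ℝ) := by
    have a1 : X = Real.exp (5 / 6 * u) * Real.exp (1 / 6 * u) := by
      rw [← Real.exp_add, show 5 / 6 * u + 1 / 6 * u = u by ring, hudef, Real.exp_log hX0]
    have a2 : Real.exp (1 / 6 * u) ^ 2 = Real.exp (-(1 / 2 * u)) * Real.exp (5 / 6 * u) := by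
      rw [← Real.exp_nat_mul, ← Real.exp_add]; congr 1; push_cast; ring
    have a3 : X / T = Real.exp (5 / 6 * u) / u ^ 3 := by
      rw [hT, hp, div_eq_div_iff (by positivity) (by positivity)]
      linear_combination u ^ 3 * a1
    rw [a3, hT, hp, hp, mul_pow, a2, e2]
    field_simp
    ring
  rw [k1, k3] at h4
  unfold top_B
  linarith

theorem main_log (l : ℤ) :
    Tendsto (fun X : ℝ => (∑ n ∈ sbox X, Lp n * az l n * FF n) / ((X ^ (5 / 6 : ℝ) : ℝ) : ℂ))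
      atTop (𝓝 0) := by
  obtain ⟨C₁, C₂, C₃, x₀, h⟩ := top_bound l
  refine squeeze_zero_norm' ?_ ((top_B_tendsto C₁ C₂ C₃).comp Real.tendsto_log_atTop)
  filter_upwards [eventually_ge_atTop x₀, eventually_gt_atTop 0] with X h1 h2
  have hP : 0 < X ^ (5 / 6 : ℝ) := by positivity
  rw [norm_div, Complex.norm_real, Real.norm_of_nonneg hP.le, div_le_iff₀ hP]
  exact h X h1

end Crest.Agent.R012

end
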