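import Crest.Agent.R012.U10b

/-! # Row 12: type II sums, weight of logarithmic width, II -/

set_option autoImplicit false

noncomputable section

open scoped BigOperators ComplexConjugate Topology
open Complex MeasureTheory Filter Set Crest.Agent.R017

namespace Crest.Agent.R012

theorem u10_log (K : ℝ) {ε : ℝ} (hε : 0 < ε) : ∀ᶠ x : ℝ in atTop, Real.log x ^ K ≤ x ^ ε := by
  filter_upwards [(isLittleO_log_rpow_rpow_atTop K hε).bound one_pos, eventually_ge_atTop 1]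
    with x h hx
  rw [one_mul, Real.norm_of_nonneg (Real.rpow_nonneg (Real.log_nonneg hx) _),
    Real.norm_of_nonneg (Real.rpow_nonneg (by linarith) _)] at h
  exact h

theorem u10_const (c : ℝ) {ε : ℝ} (hε : 0 < ε) : ∀ᶠ x : ℝ in atTop, c ≤ x ^ ε :=
  (tendsto_rpow_atTop hε).eventually (eventually_ge_atTop c)

/-- The norm of the prime coefficient for the thin weight. -/
theorem u10_cn2 : ∃ C : ℝ, 0 ≤ C ∧ ∀ (l : ℤ) (V B x : ℝ), 1 ≤ B → B ≤ x → 1 ≤ Real.log x →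
    Real.log x ^ (180 : ℝ) ≤ B →
    cn2 (2 * Real.log x ^ (-120 : ℝ)) B (LpV l V) ≤
      C * (Real.log x ^ 2 * (B * Real.log x ^ (-60 : ℝ))) := by
  obtain ⟨C, hC, H⟩ := cn2_LpV_thin
  refine ⟨12 * C, by positivity, fun l V B x hB hBx hL h180 => ?_⟩
  set L := Real.log x with hLdef
  have hL0 : 0 < L := by linarith
  have hθ0 : 0 < L ^ (-120 : ℝ) := Real.rpow_pos_of_pos hL0 _
  have hθ1 : L ^ (-120 : ℝ) ≤ 1 := Real.rpow_le_one_of_one_le_of_nonpos hL (by norm_num)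
  have h60 : 0 < L ^ (-60 : ℝ) := Real.rpow_pos_of_pos hL0 _
  have h1 := H l V B (2 * L ^ (-120 : ℝ)) hB (by positivity) (by linarith)
  have hsq : Real.sqrt (2 * L ^ (-120 : ℝ)) ≤ 2 * L ^ (-60 : ℝ) := by
    refine Real.sqrt_le_iff.2 ⟨by positivity, ?_⟩
    have e : L ^ (-120 : ℝ) = (L ^ (-60 : ℝ)) ^ 2 := by
      rw [← Real.rpow_natCast, ← Real.rpow_mul hL0.le]; norm_num
    rw [e]
    nlinarith [sq_nonneg (L ^ (-60 : ℝ))]
  have hinv : (2 * L ^ (-120 : ℝ))⁻¹ ≤ B * L ^ (-60 : ℝ) := by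
    have e1 : (L ^ (-120 : ℝ))⁻¹ = L ^ (180 : ℝ) * L ^ (-60 : ℝ) := by
      rw [← Real.rpow_neg hL0.le, ← Real.rpow_add hL0]; norm_num
    calc (2 * L ^ (-120 : ℝ))⁻¹ ≤ (L ^ (-120 : ℝ))⁻¹ := inv_anti₀ hθ0 (by linarith)
      _ = L ^ (180 : ℝ) * L ^ (-60 : ℝ) := e1
      _ ≤ B * L ^ (-60 : ℝ) := mul_le_mul_of_nonneg_right h180 h60.le
  have hlogB : Real.log B ≤ L := Real.log_le_log (by linarith) hBx
  have hlogB0 : 0 ≤ Real.log B := Real.log_nonneg hB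
  have h2 : (1 + Real.log B) ^ 2 ≤ 4 * L ^ 2 := by nlinarith
  have h3 : B * Real.sqrt (2 * L ^ (-120 : ℝ)) + (2 * L ^ (-120 : ℝ))⁻¹ ≤
      3 * (B * L ^ (-60 : ℝ)) := by
    have := mul_le_mul_of_nonneg_left hsq (by linarith : (0 : ℝ) ≤ B)
    linarith
  calc _ ≤ C * (1 + Real.log B) ^ 2 *
        (B * Real.sqrt (2 * L ^ (-120 : ℝ)) + (2 * L ^ (-120 : ℝ))⁻¹) := h1
    _ ≤ C * (4 * L ^ 2) * (3 * (B * L ^ (-60 : ℝ))) :=
        mul_le_mul (mul_le_mul_of_nonneg_left h2 hC) h3 (by positivity) (by positivity)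
    _ = _ := by ring

/-- The dispersion bound in the whole range of `B`. -/
theorem u10_DD (l : ℤ) : ∃ η : ℝ, 0 < η ∧ η ≤ 1 / 200 ∧ ∃ s : ℝ, 0 < s ∧ ∃ C : ℝ, 0 ≤ C ∧
    ∀ᶠ x : ℝ in atTop, ∀ B τ : ℝ, x ^ (3 / 10 : ℝ) ≤ B → B ≤ x ^ (1 / 2 + 2 * η) →
      |τ| ≤ x ^ (2 * η) →
      DD FF (Real.log x ^ (-120 : ℝ)) (x / B) B τ (LpV l (UU x)) ≤
        C * ((x / B * Real.log x ^ (-60 : ℝ) + x ^ (2 / 3 : ℝ) * Real.log x ^ (-20 : ℝ)) *
          (Real.log x ^ 2 * (B * Real.log x ^ (-60 : ℝ))) +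
          Real.log x ^ 2 * (x / B) ^ (2 / 3 - s) * B ^ (5 / 3 : ℝ)) := by
  obtain ⟨η₀, hη₀, hη₀', CP, hCP, HP⟩ := UB_P_F l
  obtain ⟨s₁, hs₁, CF, hCF, HF⟩ := UB_F hη₀
  obtain ⟨C₂, hC₂, H₂⟩ := u10_cn2
  refine ⟨η₀ / 20, by positivity, by linarith, min s₁ η₀, lt_min hs₁ hη₀,
    (CF + CP) * (C₂ + 4), by positivity, ?_⟩
  have hs0 : 0 < min s₁ η₀ := lt_min hs₁ hη₀
  filter_upwards [eventually_ge_atTop (Real.exp 1), u10_log 180 (ε := 3 / 10) (by norm_num),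
    u10_log 120 (ε := 2 / 5 * min s₁ η₀) (by positivity),
    u10_log (1 / 4) (ε := 1 / 20) (by norm_num)] with x hxe h180 h120 h14 B τ hB1 hB2 hτ
  have hx1 : 1 < x := lt_of_lt_of_le (Real.one_lt_exp_iff.2 one_pos) hxe
  have hx0 : 0 < x := by linarith
  have hL : 1 ≤ Real.log x := by
    rw [Real.le_log_iff_exp_le hx0]; exact hxe
  set L := Real.log x with hLdef
  have hL0 : 0 < L := by linarith
  have hB : 1 ≤ B := (Real.one_le_rpow hx1.le (by norm_num)).trans hB1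
  have hB0 : 0 < B := by linarith
  have hBx : B ≤ x := by
    refine hB2.trans ?_
    conv_rhs => rw [← Real.rpow_one x]
    exact Real.rpow_le_rpow_of_exponent_le hx1.le (by linarith)
  set A := x / B with hAdef
  have hA0 : 0 < A := div_pos hx0 hB0
  have hAB : A * B = x := div_mul_cancel₀ x hB0.ne'
  have hA1 : x ^ (1 / 2 - 2 * (η₀ / 20)) ≤ A := by
    rw [hAdef, le_div_iff₀ hB0]
    calc x ^ (1 / 2 - 2 * (η₀ / 20)) * B
        ≤ x ^ (1 / 2 - 2 * (η₀ / 20)) * x ^ (1 / 2 + 2 * (η₀ / 20)) :=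
          mul_le_mul_of_nonneg_left hB2 (Real.rpow_nonneg hx0.le _)
      _ = x := by rw [← Real.rpow_add hx0]; norm_num
  have hA2 : x ^ (2 / 5 : ℝ) ≤ A :=
    (Real.rpow_le_rpow_of_exponent_le hx1.le (by linarith)).trans hA1
  have hA : 1 ≤ A := (Real.one_le_rpow hx1.le (by norm_num)).trans hA2
  have hA3 : A ≤ x ^ (7 / 10 : ℝ) := by
    rw [hAdef, div_le_iff₀ hB0]
    calc x = x ^ (7 / 10 : ℝ) * x ^ (3 / 10 : ℝ) := by rw [← Real.rpow_add hx0]; norm_num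
      _ ≤ x ^ (7 / 10 : ℝ) * B := mul_le_mul_of_nonneg_left hB1 (Real.rpow_nonneg hx0.le _)
  have hθ0 : 0 < L ^ (-120 : ℝ) := Real.rpow_pos_of_pos hL0 _
  have hθ1 : L ^ (-120 : ℝ) ≤ 1 := Real.rpow_le_one_of_one_le_of_nonpos hL (by norm_num)
  have hθA : ∀ r : ℝ, min s₁ η₀ ≤ r → A ^ (-r) ≤ L ^ (-120 : ℝ) := by
    intro r hr
    rw [Real.rpow_neg hA0.le, Real.rpow_neg hL0.le]
    refine inv_anti₀ (Real.rpow_pos_of_pos hL0 _) (h120.trans ?_)
    rw [Real.rpow_mul hx0.le]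
    exact (Real.rpow_le_rpow (Real.rpow_nonneg hx0.le _) hA2 hs0.le).trans
      (Real.rpow_le_rpow_of_exponent_le hA hr)
  have hsq : Real.sqrt (L ^ (-120 : ℝ)) = L ^ (-60 : ℝ) := by
    rw [Real.sqrt_eq_rpow, ← Real.rpow_mul hL0.le]; norm_num
  have hsix : (L ^ (-120 : ℝ)) ^ (1 / 6 : ℝ) = L ^ (-20 : ℝ) := by
    rw [← Real.rpow_mul hL0.le]; norm_num
  have hcn := H₂ l (UU x) B x hB hBx hL (h180.trans hB1)
  rw [← hLdef] at hcn
  have hpow : ∀ r : ℝ, min s₁ η₀ ≤ r → A ^ (2 / 3 - r) ≤ A ^ (2 / 3 - min s₁ η₀) :=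
    fun r hr => Real.rpow_le_rpow_of_exponent_le hA (by linarith)
  set P := A * L ^ (-60 : ℝ) with hP
  set Q := x ^ (2 / 3 : ℝ) * L ^ (-20 : ℝ) with hQ
  set S := L ^ 2 * (B * L ^ (-60 : ℝ)) with hS
  set T := A ^ (2 / 3 - min s₁ η₀) with hT
  set Z := B ^ (5 / 3 : ℝ) with hZ
  have hP0 : 0 ≤ P := by positivity
  have hQ0 : 0 ≤ Q := by positivity
  have hS0 : 0 ≤ S := by positivity
  have hT0 : 0 ≤ T := by positivity
  have hZ0 : 0 ≤ Z := by positivity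
  have hL2 : 1 ≤ L ^ 2 := one_le_pow₀ hL
  have fin : ∀ c : ℝ, 0 ≤ c → c ≤ CF + CP →
      c * ((P + Q) * (C₂ * S) + 4 * L ^ 2 * T * Z) ≤
        (CF + CP) * (C₂ + 4) * ((P + Q) * S + L ^ 2 * T * Z) := by
    intro c hc hc'
    have a1 : 0 ≤ (P + Q) * S := by positivity
    have a2 : 0 ≤ L ^ 2 * T * Z := by positivity
    rw [mul_assoc (CF + CP)]
    refine mul_le_mul hc' ?_ (by positivity) (by positivity)
    nlinarith [mul_nonneg hC₂ a2]
  rcases le_total B (A ^ (1 - η₀)) with hc | hc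
  · have h25 : A ^ (2 / 5 : ℝ) ≤ B := by
      refine le_trans ?_ hB1
      refine (Real.rpow_le_rpow hA0.le hA3 (by norm_num)).trans ?_
      rw [← Real.rpow_mul hx0.le]
      exact Real.rpow_le_rpow_of_exponent_le hx1.le (by norm_num)
    have h1 := HF _ A B τ _ _ hA h25 hc (hθA s₁ (min_le_left _ _)) hθ1 (env_LpV l (UU x) hB)
    rw [hsq, hsix, hAB] at h1
    refine h1.trans (le_trans (mul_le_mul_of_nonneg_left ?_ hCF) (fin CF hCF (by linarith)))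
    have hlogB : Real.log B ≤ L := Real.log_le_log hB0 hBx
    have hlogB0 : 0 ≤ Real.log B := Real.log_nonneg hB
    have h2 : (1 + Real.log B) ^ 2 ≤ 4 * L ^ 2 := by nlinarith
    refine add_le_add (mul_le_mul_of_nonneg_left hcn (by positivity)) ?_
    exact mul_le_mul_of_nonneg_right
      (mul_le_mul h2 (hpow s₁ (min_le_left _ _)) (by positivity) (by positivity)) hZ0
  · have h2 : B ≤ A ^ (1 + η₀) := by
      refine hB2.trans (le_trans ?_
        (Real.rpow_le_rpow (Real.rpow_nonneg hx0.le _) hA1 (by positivity)))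
      rw [← Real.rpow_mul hx0.le]
      exact Real.rpow_le_rpow_of_exponent_le hx1.le (by nlinarith)
    have h3 : |τ| ≤ A ^ η₀ := by
      refine hτ.trans (le_trans ?_
        (Real.rpow_le_rpow (Real.rpow_nonneg hx0.le _) hA2 hη₀.le))
      rw [← Real.rpow_mul hx0.le]
      exact Real.rpow_le_rpow_of_exponent_le hx1.le (by linarith)
    have h4 : UU x ≤ B ^ (9 / 10 : ℝ) := by
      have b1 : x ^ (44 / 100 : ℝ) ≤ B := by
        refine le_trans ?_ hc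
        refine le_trans ?_ (Real.rpow_le_rpow (Real.rpow_nonneg hx0.le _) hA1 (by linarith))
        rw [← Real.rpow_mul hx0.le]
        exact Real.rpow_le_rpow_of_exponent_le hx1.le (by nlinarith)
      refine le_trans ?_ (Real.rpow_le_rpow (Real.rpow_nonneg hx0.le _) b1 (by norm_num))
      rw [← Real.rpow_mul hx0.le]
      calc UU x ≤ x ^ (1 / 3 : ℝ) * x ^ (1 / 20 : ℝ) :=
            mul_le_mul_of_nonneg_left h14 (Real.rpow_nonneg hx0.le _)
        _ = x ^ (1 / 3 + 1 / 20 : ℝ) := (Real.rpow_add hx0 _ _).symm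
        _ ≤ _ := Real.rpow_le_rpow_of_exponent_le hx1.le (by norm_num)
    have h1 := HP _ A B τ (UU x) hA hc h2 (hθA η₀ (min_le_right _ _)) hθ1 h3 h4
    rw [hsix, hAB] at h1
    refine h1.trans (le_trans (mul_le_mul_of_nonneg_left ?_ hCP) (fin CP hCP (by linarith)))
    refine add_le_add ((mul_le_mul_of_nonneg_left hcn hQ0).trans
      (mul_le_mul_of_nonneg_right (by linarith) (by positivity))) ?_
    refine mul_le_mul_of_nonneg_right ((hpow η₀ (min_le_right _ _)).trans ?_) hZ0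
    exact le_mul_of_one_le_left hT0 (by linarith)

/-- `E_gen` with `B₁ = U / e`, `B₂ = x^{1/2+η} e²`; `UB_F` for `B ≤ A^{1-η₀}`, `UB_P_F` otherwise
(`η = η₀/20`); `cn2_LpV_thin`, `env_LpV`, `LpV_eq`. -/
theorem E_three_b (l : ℤ) : ∃ η : ℝ, 0 < η ∧ η ≤ 1 / 10 ∧ ∃ C x₀ : ℝ, 0 ≤ C ∧
    ∀ x τ : ℝ, x₀ ≤ x → |τ| ≤ x ^ η →
    ‖SF l (2 * Real.log x ^ (-120 : ℝ))
      (cv (cv (cut (Ioi (x ^ (1 / 2 - η))) (mr (ww x))) (rg (ww x))) (cut (Ioi (UU x)) Lp)) x τ‖ ≤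
      C * x ^ (5 / 6 : ℝ) / Real.log x ^ 3 := by
  obtain ⟨η, hη, hη', s, hs, C₀, hC₀, HD⟩ := u10_DD l
  obtain ⟨C₁, hC₁, H₁⟩ := envS_mr_rg
  obtain ⟨C, x₁, hC, H⟩ := E_gen hs (C₀ := C₀ + C₁ + 1) (by positivity)
  refine ⟨η, hη, by linarith, ?_⟩
  have ev : ∀ᶠ x : ℝ in atTop, ∀ τ : ℝ, |τ| ≤ x ^ η →
      ‖SF l (2 * Real.log x ^ (-120 : ℝ))
        (cv (cv (cut (Ioi (x ^ (1 / 2 - η))) (mr (ww x))) (rg (ww x))) (cut (Ioi (UU x)) Lp)) x τ‖ ≤
        C * x ^ (5 / 6 : ℝ) / Real.log x ^ 3 := by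
    filter_upwards [HD, eventually_ge_atTop x₁, eventually_ge_atTop 16,
      eventually_ge_atTop (Real.exp (Real.exp 1)), u10_log (1 / 4) (ε := 1 / 6) (by norm_num),
      u10_log 1 (ε := 1 / 30) (by norm_num), u10_log 61 hη, u10_const 2 hη,
      u10_const (Real.exp 2) hη] with x hD hx₁ hx16 hxe h14 h1 h61 h2 he2 τ hτ
    have hx0 : 0 < x := by linarith
    have hx1 : 1 ≤ x := by linarith
    have hLe : Real.exp 1 ≤ Real.log x := by
      rw [Real.le_log_iff_exp_le hx0]; exact hxe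
    have he1 : 1 ≤ Real.exp 1 := Real.one_le_exp zero_le_one
    have hL : 1 ≤ Real.log x := he1.trans hLe
    have hL0 : 0 < Real.log x := by linarith
    have h13 : 0 < x ^ (1 / 3 : ℝ) := Real.rpow_pos_of_pos hx0 _
    have hU : x ^ (1 / 3 : ℝ) ≤ UU x :=
      le_mul_of_one_le_right h13.le (Real.one_le_rpow hL (by norm_num))
    have hU0 : 0 < UU x := h13.trans_le hU
    have hB₁ : x ^ (1 / 3 : ℝ) / Real.log x ≤ UU x / Real.exp 1 :=
      div_le_div₀ hU0.le hU (Real.exp_pos 1) hLe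
    have hB₂ : x ^ (1 / 2 + η) * Real.exp 2 ≤ x ^ (1 / 2 + 2 * η) := by
      calc x ^ (1 / 2 + η) * Real.exp 2 ≤ x ^ (1 / 2 + η) * x ^ η :=
            mul_le_mul_of_nonneg_left he2 (Real.rpow_nonneg hx0.le _)
        _ = _ := by rw [← Real.rpow_add hx0]; congr 1; ring
    refine H l x τ (UU x / Real.exp 1) (x ^ (1 / 2 + η) * Real.exp 2) _ _ hx₁ hB₁ ?_ ?_ ?_ ?_ ?_ ?_
    · calc UU x / Real.exp 1 ≤ UU x := div_le_self hU0.le he1
        _ ≤ x ^ (1 / 3 : ℝ) * x ^ (1 / 6 : ℝ) := mul_le_mul_of_nonneg_left h14 h13.le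
        _ = x ^ (1 / 3 + 1 / 6 : ℝ) := (Real.rpow_add hx0 _ _).symm
        _ ≤ x ^ (1 / 2 + η) := Real.rpow_le_rpow_of_exponent_le hx1 (by linarith)
        _ ≤ _ := le_mul_of_one_le_right (Real.rpow_nonneg hx0.le _) (Real.one_le_exp (by norm_num))
    · exact hB₂.trans (Real.rpow_le_rpow_of_exponent_le hx1 (by linarith))
    · refine (H₁ x _ hx16).mono ?_ hx0 le_rfl
      refine mul_le_mul (by linarith) ?_ (by positivity) (by positivity)
      conv_rhs => rw [← Real.rpow_one (Real.log x)]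
      exact Real.rpow_le_rpow_of_exponent_le hL (by norm_num)
    · exact (envS_Lp _ (by linarith)).mono (le_mul_of_one_le_left hL0.le (by linarith)) hx0 le_rfl
    · intro a b ha hb hαa hβb _ hab
      obtain ⟨d, m, hd, hm, rfl, h3, -⟩ := cv_ne_zero ha hαa
      have h4 : x ^ (1 / 2 - η) < Nr d := (cut_ne_zero h3).1
      have h5 : UU x < Nr b := (cut_ne_zero hβb).1
      have h6 : 1 ≤ Nr m := one_le_Nr hm.ne_zero
      have hD0 : 0 < x ^ (1 / 2 - η) := Real.rpow_pos_of_pos hx0 _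
      refine ⟨by rw [div_mul_cancel₀ _ (Real.exp_pos 1).ne']; exact h5.le, ?_⟩
      rw [Nr_mul, Nr_mul] at hab
      have h7 : x ^ (1 / 2 - η) * Nr b ≤ x * Real.exp 1 := by
        refine le_trans (mul_le_mul_of_nonneg_right ?_ (Nr_nonneg b)) hab
        exact h4.le.trans (le_mul_of_one_le_right (Nr_nonneg d) h6)
      have e1 : x = x ^ (1 / 2 - η) * x ^ (1 / 2 + η) := by
        rw [← Real.rpow_add hx0]; norm_num
      have e2 : Real.exp 2 * Real.exp (-1) = Real.exp 1 := by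
        rw [← Real.exp_add]; norm_num
      rw [mul_assoc, e2]
      refine le_of_mul_le_mul_left (h7.trans (le_of_eq ?_)) hD0
      rw [← mul_assoc, ← e1]
    · intro B hB hB' t ht
      have h3 : x ^ (3 / 10 : ℝ) ≤ B := by
        refine le_trans ?_ (hB₁.trans hB)
        rw [le_div_iff₀ hL0]
        rw [Real.rpow_one] at h1
        calc x ^ (3 / 10 : ℝ) * Real.log x ≤ x ^ (3 / 10 : ℝ) * x ^ (1 / 30 : ℝ) :=
              mul_le_mul_of_nonneg_left h1 (Real.rpow_nonneg hx0.le _)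
          _ = _ := by rw [← Real.rpow_add hx0]; norm_num
      have hB0 : 0 < B := (Real.rpow_pos_of_pos hx0 _).trans_le h3
      have h4 : |τ + t| ≤ x ^ (2 * η) := by
        calc |τ + t| ≤ |τ| + |t| := abs_add_le _ _
          _ ≤ 2 * x ^ η := by linarith
          _ ≤ x ^ η * x ^ η := mul_le_mul_of_nonneg_right h2 (Real.rpow_nonneg hx0.le _)
          _ = _ := by rw [← Real.rpow_add hx0]; congr 1; ring
      rw [← LpV_eq]
      refine (hD B (τ + t) h3 (hB'.trans hB₂) h4).trans ?_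
      exact mul_le_mul_of_nonneg_right (by linarith) (by positivity)
  obtain ⟨x₀, hx₀⟩ := eventually_atTop.1 ev
  exact ⟨C, x₀, hC, fun x τ hx hτ => hx₀ x hx τ hτ⟩

end Crest.Agent.R012

end
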