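import Crest.Agent.R012.U9a

/-! # Row 12: type II sums, wide weight, auxiliary facts -/

set_option autoImplicit false

noncomputable section

open scoped BigOperators ComplexConjugate Topology
open Complex MeasureTheory Filter Set Crest.Agent.R017

namespace Crest.Agent.R012

theorem u9x_shape : ∃ C : ℝ, 0 ≤ C ∧ ∀ x B : ℝ, 3 ≤ x → 0 < B →
    min 1 (B / UU x) ^ 3 * (x / B + x ^ (2 / 3 : ℝ) * (x / B ^ 3) ^ (1 / 12 : ℝ)) ≤
      C * x ^ (2 / 3 : ℝ) * Real.log x ^ (-(1 / 16) : ℝ) *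
        min (B / UU x) (UU x / B) ^ (1 / 8 : ℝ) := by
  obtain ⟨C, hC, h⟩ := shape
  refine ⟨2 * C, by positivity, fun x B hx hB => ?_⟩
  have hx0 : 0 < x := by linarith
  have hL : 1 ≤ Real.log x := by
    rw [Real.le_log_iff_exp_le hx0]; linarith [Real.exp_one_lt_d9]
  set L := Real.log x with hLdef
  have hL0 : 0 < L := by linarith
  have hU : 0 < UU x := by unfold UU; positivity
  set ρ := UU x / B with hρ
  have hρ0 : 0 < ρ := by positivity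
  have hinv : ρ⁻¹ = B / UU x := by rw [hρ, inv_div]
  have h13 : x ^ (1 / 3 : ℝ) / B = ρ * L ^ (-(1 / 4) : ℝ) := by
    rw [hρ, UU, ← hLdef, Real.rpow_neg hL0.le]
    have : 0 < L ^ (1 / 4 : ℝ) := by positivity
    field_simp
  have e1 : x / B = x ^ (2 / 3 : ℝ) * (ρ * L ^ (-(1 / 4) : ℝ)) := by
    rw [← h13, ← mul_div_assoc, ← Real.rpow_add hx0]; norm_num
  have e2 : (x / B ^ 3) ^ (1 / 12 : ℝ) = ρ ^ (1 / 4 : ℝ) * L ^ (-(1 / 16) : ℝ) := by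
    have : x / B ^ 3 = (x ^ (1 / 3 : ℝ) / B) ^ (3 : ℝ) := by
      rw [Real.div_rpow (by positivity) hB.le, ← Real.rpow_mul hx0.le]; norm_num
    rw [this, ← Real.rpow_mul (by positivity), h13, Real.mul_rpow hρ0.le (by positivity),
      ← Real.rpow_mul hL0.le]
    norm_num
  have h1 := h ρ (L ^ (-(1 / 4) : ℝ)) (L ^ (-(1 / 16) : ℝ)) hρ0 (by positivity) (by positivity)
  have h2 : L ^ (-(1 / 4) : ℝ) ≤ L ^ (-(1 / 16) : ℝ) :=
    Real.rpow_le_rpow_of_exponent_le hL (by norm_num)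
  have h3 : (1 : ℝ) ≤ 1 + max 0 (Real.log ρ⁻¹) := by linarith [le_max_left 0 (Real.log ρ⁻¹)]
  rw [e1, e2, ← hinv]
  have hm : 0 ≤ min 1 ρ⁻¹ ^ 3 := by positivity
  have hs : 0 ≤ ρ * L ^ (-(1 / 4) : ℝ) + ρ ^ (1 / 4 : ℝ) * L ^ (-(1 / 16) : ℝ) := by positivity
  have hq : 0 ≤ min ρ⁻¹ ρ ^ (1 / 8 : ℝ) := by positivity
  have h4 : min 1 ρ⁻¹ ^ 3 * (ρ * L ^ (-(1 / 4) : ℝ) + ρ ^ (1 / 4 : ℝ) * L ^ (-(1 / 16) : ℝ)) ≤
      C * min ρ⁻¹ ρ ^ (1 / 8 : ℝ) * (2 * L ^ (-(1 / 16) : ℝ)) := by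
    refine le_trans ?_ (h1.trans (mul_le_mul_of_nonneg_left (by linarith) (by positivity)))
    exact mul_le_mul_of_nonneg_right (le_mul_of_one_le_right hm h3) hs
  calc _ = x ^ (2 / 3 : ℝ) * (min 1 ρ⁻¹ ^ 3 *
        (ρ * L ^ (-(1 / 4) : ℝ) + ρ ^ (1 / 4 : ℝ) * L ^ (-(1 / 16) : ℝ))) := by ring
    _ ≤ x ^ (2 / 3 : ℝ) * (C * min ρ⁻¹ ρ ^ (1 / 8 : ℝ) * (2 * L ^ (-(1 / 16) : ℝ))) :=
        mul_le_mul_of_nonneg_left h4 (by positivity)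
    _ = _ := by ring

/-- The facts about the parameters used in the wide type II estimates. -/
theorem u9x_facts (K C : ℝ) {ρ : ℝ} (hρ : 0 < ρ) (hρ' : ρ ≤ 1 / 100) : ∃ x₀ : ℝ, 16 ≤ x₀ ∧ ∀ x, x₀ ≤ x →
    2 ≤ Real.log x ∧ Real.log x ≤ x ^ ρ ∧ Real.exp (Real.sqrt (1000 * Real.log x)) ≤ x ^ ρ ∧
    ww x ≤ UU x ∧ x ^ (1 / 3 : ℝ) ≤ UU x ∧ UU x ≤ x ^ (1 / 3 + ρ) ∧
    x ^ (3 / 10 : ℝ) ≤ UU x * Real.exp (-Real.sqrt (1000 * Real.log x)) ∧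
    Real.log (Real.log x) ^ C ≤ Real.log x ^ (1 / 400 : ℝ) ∧
    ∀ τ t : ℝ, |τ| ≤ Real.log x ^ K → |t| ≤ Real.log x → |τ + t| ≤ Real.log x ^ (max K 1 + 1) := by
  obtain ⟨x₁, h₁, hw⟩ := ww_facts 1 hρ
  obtain ⟨x₂, -, hl⟩ := loglog_le C (ρ := 1 / 400) (by norm_num)
  refine ⟨max x₁ x₂, le_max_of_le_left h₁, fun x hx => ?_⟩
  obtain ⟨-, -, -, w1, w2, w3⟩ := hw x (le_of_max_le_left hx)
  have hx16 : 16 ≤ x := h₁.trans (le_of_max_le_left hx)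
  have hx0 : 0 < x := by linarith
  have hx1 : 1 ≤ x := by linarith
  have hL : 2 ≤ Real.log x := by
    rw [Real.le_log_iff_exp_le hx0]
    have : Real.exp 2 = Real.exp 1 * Real.exp 1 := by rw [← Real.exp_add]; norm_num
    nlinarith [Real.exp_one_lt_d9, Real.exp_pos 1]
  rw [Real.rpow_one] at w3
  have hU1 : x ^ (1 / 3 : ℝ) ≤ UU x :=
    le_mul_of_one_le_right (by positivity) (Real.one_le_rpow (by linarith) (by norm_num))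
  refine ⟨hL, w3, w2, ?_, hU1, ?_, ?_, (hl x (le_of_max_le_right hx)).2, fun τ t hτ ht => ?_⟩
  · exact w1.trans ((Real.rpow_le_rpow_of_exponent_le hx1 (by linarith)).trans hU1)
  · rw [Real.rpow_add hx0]
    refine mul_le_mul_of_nonneg_left (le_trans ?_ w3) (by positivity)
    simpa using Real.rpow_le_rpow_of_exponent_le (by linarith : 1 ≤ Real.log x)
      (by norm_num : (1 / 4 : ℝ) ≤ 1)
  · rw [Real.exp_neg, ← div_eq_mul_inv, le_div_iff₀ (Real.exp_pos _)]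
    refine le_trans ?_ hU1
    refine (mul_le_mul_of_nonneg_left w2 (by positivity)).trans ?_
    rw [← Real.rpow_add hx0]
    exact Real.rpow_le_rpow_of_exponent_le hx1 (by linarith)
  · have h1 : Real.log x ^ K ≤ Real.log x ^ max K 1 :=
      Real.rpow_le_rpow_of_exponent_le (by linarith) (le_max_left _ _)
    have h2 : Real.log x ≤ Real.log x ^ max K 1 := by
      simpa using Real.rpow_le_rpow_of_exponent_le (by linarith : 1 ≤ Real.log x) (le_max_right K 1)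
    rw [Real.rpow_add (by linarith), Real.rpow_one]
    have := abs_add_le τ t
    nlinarith

/-- The final step. -/
theorem u9x_final {x c₀ c₁ c₂ : ℝ} (hx : 1 ≤ x) (hL : 2 ≤ Real.log x)
    (hx' : Real.log x ≤ x ^ (1 / 100 : ℝ)) (h₁ : 0 ≤ c₁) (h₂ : 0 ≤ c₂) {M : ℝ}
    (hM : M ≤ c₂ * Real.log x ^ 2) :
    c₀ * x ^ (5 / 6 : ℝ) * Real.log x ^ (-(1 / 50) : ℝ) +
      Real.log x * (c₁ * x ^ (5 / 6 : ℝ) / Real.log x ^ 5) + M / x ≤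
      (c₀ + c₁ + c₂) * x ^ (5 / 6 : ℝ) * Real.log x ^ (-(1 / 50) : ℝ) := by
  set L := Real.log x
  have hL0 : 0 < L := by linarith
  have hx0 : 0 < x := by linarith
  have a1 : L⁻¹ ≤ L ^ (-(1 / 50) : ℝ) := by
    rw [← Real.rpow_neg_one]; exact Real.rpow_le_rpow_of_exponent_le (by linarith) (by norm_num)
  have hX : 1 ≤ x ^ (5 / 6 : ℝ) := Real.one_le_rpow hx (by norm_num)
  have a2 : L * (c₁ * x ^ (5 / 6 : ℝ) / L ^ 5) ≤ c₁ * x ^ (5 / 6 : ℝ) * L⁻¹ := by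
    have : L * (c₁ * x ^ (5 / 6 : ℝ) / L ^ 5) = c₁ * x ^ (5 / 6 : ℝ) * L⁻¹ * (L ^ 3)⁻¹ := by
      field_simp
    rw [this]
    exact mul_le_of_le_one_right (by positivity)
      (inv_le_one_of_one_le₀ (one_le_pow₀ (by linarith)))
  have a3 : L ^ 3 ≤ x := by
    calc L ^ 3 ≤ (x ^ (1 / 100 : ℝ)) ^ 3 := by gcongr
      _ = x ^ (3 / 100 : ℝ) := by rw [← Real.rpow_natCast, ← Real.rpow_mul hx0.le]; norm_num
      _ ≤ x ^ (1 : ℝ) := Real.rpow_le_rpow_of_exponent_le hx (by norm_num)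
      _ = x := Real.rpow_one x
  have a4 : M / x ≤ c₂ * x ^ (5 / 6 : ℝ) * L⁻¹ := by
    calc M / x ≤ c₂ * L ^ 2 / L ^ 3 := by gcongr
      _ = c₂ * 1 * L⁻¹ := by field_simp
      _ ≤ _ := by gcongr
  have a5 : c₁ * x ^ (5 / 6 : ℝ) * L⁻¹ ≤ c₁ * x ^ (5 / 6 : ℝ) * L ^ (-(1 / 50) : ℝ) := by gcongr
  have a6 : c₂ * x ^ (5 / 6 : ℝ) * L⁻¹ ≤ c₂ * x ^ (5 / 6 : ℝ) * L ^ (-(1 / 50) : ℝ) := by gcongr
  linarith

theorem u9x_sq₀ {x : ℝ} (hx : 0 < x) (hL : 0 < Real.log x) {c : ℝ} (hc : 0 ≤ c) :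
    (Real.sqrt c * x ^ (5 / 6 : ℝ) * Real.log x ^ (-(1 / 50) : ℝ)) ^ 2 =
      c * (x * x ^ (2 / 3 : ℝ)) * Real.log x ^ (-(1 / 25) : ℝ) := by
  rw [mul_pow, mul_pow, Real.sq_sqrt hc, ← Real.rpow_natCast (x ^ _), ← Real.rpow_mul hx.le,
    ← Real.rpow_natCast (Real.log x ^ _), ← Real.rpow_mul hL.le, ← Real.rpow_one_add' hx.le (by norm_num)]
  norm_num

theorem u9x_sq₁ {x : ℝ} (hx : 0 < x) {c : ℝ} (hc : 0 ≤ c) :
    (Real.sqrt c * x ^ (5 / 6 : ℝ) / Real.log x ^ 5) ^ 2 =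
      c * (x * x ^ (2 / 3 : ℝ)) / Real.log x ^ 10 := by
  rw [div_pow, mul_pow, Real.sq_sqrt hc, ← Real.rpow_natCast (x ^ _), ← Real.rpow_mul hx.le,
    ← Real.rpow_one_add' hx.le (by norm_num), ← pow_mul]
  norm_num

theorem u9x_pg_tw {f : O → ℂ} (hf : Pg f) (l : ℤ) : Pg (tw l f) := by
  obtain ⟨K, A, h⟩ := hf
  exact ⟨K, A, fun n hn hs => by rw [norm_tw l f hn.ne_zero]; exact h n hn hs⟩

theorem u9x_tw_ne {l : ℤ} {f : O → ℂ} {n : O} (h : tw l f n ≠ 0) : f n ≠ 0 :=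
  fun h0 => h (by rw [tw, h0, zero_mul])

end Crest.Agent.R012

end
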