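import Crest.Agent.R012.U9a

/-! # Row 12: type II sums, wide weight, II -/

set_option autoImplicit false

noncomputable section

open scoped BigOperators ComplexConjugate Topology
open Complex MeasureTheory Filter Set Crest.Agent.R017

namespace Crest.Agent.R012

theorem u9c_div {x B : ℝ} (hx : 0 < x) (hL : 0 < Real.log x) :
    x / B = UU x / B * (x ^ (2 / 3 : ℝ) * Real.log x ^ (-(1 / 4) : ℝ)) := by
  have h1 : x ^ (1 / 3 : ℝ) * x ^ (2 / 3 : ℝ) = x := by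
    rw [← Real.rpow_add hx]; norm_num
  have h2 : Real.log x ^ (1 / 4 : ℝ) * Real.log x ^ (-(1 / 4) : ℝ) = 1 := by
    rw [← Real.rpow_add hL]; norm_num
  rw [UU, div_mul_eq_mul_div, mul_mul_mul_comm, h1, h2, mul_one]

theorem u9c_root {x B : ℝ} (hx : 0 < x) (hL : 0 < Real.log x) (hB : 0 < B) :
    (x / B ^ 3) ^ (1 / 12 : ℝ) = (UU x / B) ^ (1 / 4 : ℝ) * Real.log x ^ (-(1 / 16) : ℝ) := by
  have h2 : Real.log x ^ (1 / 16 : ℝ) * Real.log x ^ (-(1 / 16) : ℝ) = 1 := by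
    rw [← Real.rpow_add hL]; norm_num
  rw [UU, Real.div_rpow hx.le (by positivity), Real.div_rpow (by positivity) hB.le,
    Real.mul_rpow (by positivity) (by positivity), ← Real.rpow_natCast, ← Real.rpow_mul hB.le,
    ← Real.rpow_mul hx.le, ← Real.rpow_mul hL.le, div_mul_eq_mul_div, mul_assoc,
    show (1 / 4 * (1 / 4) : ℝ) = 1 / 16 by norm_num, h2, mul_one]
  norm_num

theorem u9c_sq {x : ℝ} (hx : 0 < x) (hL : 0 < Real.log x) :
    (x ^ (5 / 6 : ℝ) * Real.log x ^ (-(1 / 50) : ℝ)) ^ 2 =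
      x * x ^ (2 / 3 : ℝ) * Real.log x ^ (-(1 / 25) : ℝ) := by
  rw [mul_pow, ← Real.rpow_natCast, ← Real.rpow_natCast, ← Real.rpow_mul hx.le,
    ← Real.rpow_mul hL.le, mul_comm x, ← Real.rpow_add_one hx.ne']
  norm_num

theorem u9c_tau {L K τ t : ℝ} (hL : 2 ≤ L) (hτ : |τ| ≤ L ^ K) (ht : |t| ≤ L) :
    |τ + t| ≤ L ^ (max K 1 + 1) := by
  have h1 : L ^ K ≤ L ^ max K 1 := Real.rpow_le_rpow_of_exponent_le (by linarith) (le_max_left _ _)
  have h2 : L ≤ L ^ max K 1 := by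
    simpa using Real.rpow_le_rpow_of_exponent_le (by linarith : 1 ≤ L) (le_max_right K 1)
  rw [Real.rpow_add_one (by linarith)]
  nlinarith [abs_add_le τ t]

/-- `bilr_exp` with `B₀ = U`, `B₁ = U e^{-m}`, `B₂ = x^{1/2-η} e^m`, `AS_sw`, `shape` (`ρ = U / B`);
 `x / B³ = (U / B)³ (log x)^{-3/4}`; `cn_rg_Lp`, `cn2_supp`, `cn2_rough`. -/
theorem B_three_a (l : ℤ) (K : ℝ) {η : ℝ} (hη : 0 < η) (hη' : η ≤ 1 / 10) : ∃ C x₀ : ℝ, 0 ≤ C ∧
    ∀ x τ : ℝ, x₀ ≤ x → |τ| ≤ Real.log x ^ K →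
    ‖SF l 2 (cv (cv (rg (ww x)) (cut (Ioi (UU x)) Lp))
        (cut (Ioc (UU x) (x ^ (1 / 2 - η))) (mr (ww x)))) x τ‖ ≤
      C * x ^ (5 / 6 : ℝ) * Real.log x ^ (-(1 / 50) : ℝ) := by
  obtain ⟨C₀, hC₀, H₀⟩ := bilr_exp
  obtain ⟨C₁, x₁, hC₁, H₁⟩ := cn_rg_Lp
  obtain ⟨C₂, x₂, hC₂, H₂⟩ := AS_sw l (max K 1 + 1) hη (by linarith)
  obtain ⟨C₃, hC₃, H₃⟩ := cn2_supp
  obtain ⟨C₄, x₄, hC₄, H₄⟩ := cn2_rough
  obtain ⟨C₅, hC₅, H₅⟩ := shape
  obtain ⟨x₆, -, H₆⟩ := loglog_le (C₁ + C₄) (ρ := 1 / 100) (by norm_num)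
  obtain ⟨x₇, hx₇, H₇⟩ := ww_facts 1 (ρ := η / 4) (by positivity)
  set D₀ := 2 * C₁ * C₂ * C₃ * C₄ * C₅ with hD₀
  have hD : 0 ≤ D₀ := by positivity
  refine ⟨C₀ * (D₀ + 1 + (C₁ * C₂ + 1) + 2), max (max x₁ x₂) (max x₄ (max x₆ x₇)), by positivity,
    fun x τ hx hτ => ?_⟩
  simp only [max_le_iff] at hx
  obtain ⟨⟨h₁, h₂⟩, h₄, h₆, h₇⟩ := hx
  obtain ⟨hLL, hLC⟩ := H₆ x h₆
  obtain ⟨-, -, -, -, hm, hLx⟩ := H₇ x h₇
  have hx16 : 16 ≤ x := hx₇.trans h₇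
  have hx0 : 0 < x := by linarith
  have hx1 : 1 ≤ x := by linarith
  have hL2 : 2 ≤ Real.log x := by
    rw [Real.le_log_iff_exp_le hx0]
    have := Real.exp_one_lt_d9
    have e : Real.exp 2 = Real.exp 1 * Real.exp 1 := by rw [← Real.exp_add]; norm_num
    nlinarith [Real.exp_pos 1]
  have hL0 : 0 < Real.log x := by linarith
  have hL1 : 1 ≤ Real.log x := by linarith
  rw [Real.rpow_one] at hLx
  have pw : ∀ {a b : ℝ}, a ≤ b → x ^ a ≤ x ^ b := fun h => Real.rpow_le_rpow_of_exponent_le hx1 h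
  have pL : ∀ {a b : ℝ}, a ≤ b → Real.log x ^ a ≤ Real.log x ^ b := fun h =>
    Real.rpow_le_rpow_of_exponent_le hL1 h
  set m := Real.sqrt (1000 * Real.log x) with hmdef
  have hm0 : 0 ≤ m := Real.sqrt_nonneg _
  have hem : Real.exp (-m) * Real.exp m = 1 := by rw [← Real.exp_add]; simp
  have hem1 : 1 ≤ Real.exp m := Real.one_le_exp hm0
  have hem2 : Real.exp (-m) ≤ 1 := Real.exp_le_one_iff.2 (by linarith)
  have hU0 : 0 < UU x := by unfold UU; positivity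
  have hU1 : x ^ (1 / 3 : ℝ) ≤ UU x :=
    le_mul_of_one_le_right (by positivity) (Real.one_le_rpow hL1 (by norm_num))
  have hU2 : UU x ≤ x ^ (1 / 2 - η) := by
    have h1 : Real.log x ^ (1 / 4 : ℝ) ≤ x ^ (η / 4) := by
      refine le_trans ?_ hLx
      simpa using pL (show (1 / 4 : ℝ) ≤ 1 by norm_num)
    calc UU x ≤ x ^ (1 / 3 : ℝ) * x ^ (η / 4) := mul_le_mul_of_nonneg_left h1 (by positivity)
      _ ≤ _ := by rw [← Real.rpow_add hx0]; exact pw (by linarith)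
  have hB₁ : x ^ (3 / 10 : ℝ) ≤ UU x * Real.exp (-m) := by
    rw [Real.exp_neg, ← div_eq_mul_inv, le_div_iff₀ (by linarith)]
    calc _ ≤ x ^ (3 / 10 : ℝ) * x ^ (η / 4) := mul_le_mul_of_nonneg_left hm (by positivity)
      _ ≤ x ^ (1 / 3 : ℝ) := by rw [← Real.rpow_add hx0]; exact pw (by linarith)
      _ ≤ _ := hU1
  have hB₂ : x ^ (1 / 2 - η) * Real.exp m ≤ x ^ (1 / 2 * (1 - η)) := by
    calc _ ≤ x ^ (1 / 2 - η) * x ^ (η / 4) := mul_le_mul_of_nonneg_left hm (by positivity)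
      _ ≤ _ := by rw [← Real.rpow_add hx0]; exact pw (by linarith)
  have hx3 : 1 ≤ x ^ (3 / 10 : ℝ) := Real.one_le_rpow hx1 (by norm_num)
  have hxh : x ^ (1 / 2 : ℝ) ≤ x := by simpa using pw (show (1 / 2 : ℝ) ≤ 1 by norm_num)
  set G := x ^ (5 / 6 : ℝ) * Real.log x ^ (-(1 / 50) : ℝ) with hG
  have hG1 : 1 ≤ G := by
    rw [hG, Real.rpow_neg hL0.le, ← div_eq_mul_inv, one_le_div (by positivity)]
    refine le_trans ?_ (hLx.trans (pw (by linarith)))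
    simpa using pL (show (1 / 50 : ℝ) ≤ 1 by norm_num)
  set β := cut (Ioc (UU x) (x ^ (1 / 2 - η))) (mr (ww x)) with hβ
  have hβ1 : ∀ n, ‖β n‖ ≤ 1 := fun n => (norm_cut_le _ _ n).trans (u1v_norm_mr_le _ n)
  refine (H₀ l x τ m (UU x * Real.exp (-m)) (x ^ (1 / 2 - η) * Real.exp m) (UU x) (2 * Real.log x) 1
    ((D₀ + 1) * G) ((C₁ * C₂ + 1) * G / Real.log x) _ β (by linarith) hm0
    (Real.sq_sqrt (by positivity)).ge (hx3.trans hB₁)
    (mul_le_mul hU2 (hem2.trans hem1) (Real.exp_pos _).le (by positivity))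
    (hB₂.trans ((pw (by linarith)).trans hxh)) hU0
    ((envS_rg_Lp _ _ (by linarith)).gr hx1)
    (fun n hn _ => (hβ1 n).trans (by rw [one_mul]; exact one_le_Nr hn.ne_zero))
    (fun a b _ _ _ hb _ _ => ?_) (by positivity) (by positivity) fun B hB hB' t ht => ?_).trans ?_
  · have := (cut_ne_zero hb).1
    rw [mul_assoc, hem, mul_one, mul_assoc, mul_comm (Real.exp m), hem, mul_one]
    exact ⟨this.1.le, this.2⟩
  swap
  · have h1 : 2 * Real.log x * 1 / x ≤ 2 * G := by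
      rw [mul_one, mul_div_assoc]
      refine mul_le_mul_of_nonneg_left (le_trans ?_ hG1) zero_le_two
      rw [div_le_one hx0]
      exact (hLx.trans (pw (by linarith))).trans hxh
    rw [mul_div_cancel₀ _ hL0.ne', mul_assoc _ (x ^ (5 / 6 : ℝ)), ← hG, mul_assoc C₀]
    exact mul_le_mul_of_nonneg_left (by linarith) hC₀
  have hBa : x ^ (3 / 10 : ℝ) ≤ B := hB₁.trans hB
  have hB1 : 1 ≤ B := hx3.trans hBa
  have hB0 : 0 < B := by linarith
  have hBb : B ≤ x ^ (1 / 2 * (1 - η)) := hB'.trans hB₂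
  have hBc : B ≤ x ^ (1 / 2 : ℝ) := hBb.trans (pw (by linarith))
  have hBd : x ^ (1 / 2 : ℝ) ≤ x / B := by
    rw [le_div_iff₀ hB0]
    calc _ ≤ x ^ (1 / 2 : ℝ) * x ^ (1 / 2 : ℝ) := mul_le_mul_of_nonneg_left hBc (by positivity)
      _ = x := by rw [← Real.rpow_add hx0]; norm_num
  have a₁ := H₁ x (x / B) (Ioi (UU x)) h₁ ((Real.one_le_rpow hx1 (by norm_num)).trans hBd)
    (div_le_self hx0.le hB1)
  have a₂ := H₂ x B (τ + t) (Ioc (UU x) (x ^ (1 / 2 - η))) (mr (ww x)) h₂ hBa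
    (hBb.trans (by
      rw [Real.rpow_mul hx0.le]
      exact Real.rpow_le_rpow (by positivity) hBd (by linarith)))
    (u9c_tau hL2 hτ ht) ordConnected_Ioc (Or.inr (Or.inr rfl))
  have a₃ := H₃ (tw l β) B (UU x) (pg_of_bdd (M := 1) fun n hn _ => by
      rw [norm_tw l β hn.ne_zero]; exact hβ1 n) hB0 hU0
    fun n _ h => (cut_ne_zero (left_ne_zero_of_mul h)).1.1.le
  have a₄ := H₄ x B (tw l β) h₄ ((pw (by norm_num)).trans hBa) (hBc.trans hxh) fun n hn => by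
    rw [norm_tw l β hn.ne_zero, ← norm_mr]
    exact norm_cut_le _ _ n
  have a₅ := H₅ (UU x / B) (x ^ (2 / 3 : ℝ) * Real.log x ^ (-(1 / 4) : ℝ))
    (x ^ (2 / 3 : ℝ) * Real.log x ^ (-(1 / 16) : ℝ)) (by positivity) (by positivity) (by positivity)
  rw [← u9c_div hx0 hL0, mul_left_comm, ← u9c_root hx0 hL0 hB0, inv_div] at a₅
  rw [← hβ] at a₂
  rw [mul_pow _ G, div_pow, mul_pow _ G, hG, u9c_sq hx0 hL0]
  have hμ : 0 ≤ min 1 (B / UU x) := by positivity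
  have hν : 0 ≤ min (B / UU x) (UU x / B) ^ (1 / 8 : ℝ) := by positivity
  have hcn := cn2_nonneg 2 B (tw l β)
  have hDD := DD_nonneg FF 1 (x / B) B (τ + t) (tw l β)
  set L := Real.log x with hL
  set P := x ^ (2 / 3 : ℝ) with hP
  set μ := min 1 (B / UU x) with hμ'
  set ν := min (B / UU x) (UU x / B) ^ (1 / 8 : ℝ) with hν'
  set S := x / B + P * (x / B ^ 3) ^ (1 / 12 : ℝ) with hS
  have hP0 : 0 < P := by positivity
  have hS0 : 0 ≤ S := by positivity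
  have b₁ : μ ^ 3 * S ≤ C₅ * ν * (2 * (P * L ^ (-(1 / 16) : ℝ))) := by
    have h1 : P * L ^ (-(1 / 4) : ℝ) ≤ P * L ^ (-(1 / 16) : ℝ) :=
      mul_le_mul_of_nonneg_left (pL (by norm_num)) hP0.le
    calc μ ^ 3 * S ≤ μ ^ 3 * (1 + max 0 (Real.log (B / UU x))) * S := by
          have := le_max_left 0 (Real.log (B / UU x))
          exact mul_le_mul_of_nonneg_right (le_mul_of_one_le_right (by positivity) (by linarith)) hS0
      _ ≤ _ := a₅.trans (mul_le_mul_of_nonneg_left (by linarith) (by positivity))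
  have hl0 : 0 < Real.log L := by linarith
  have b₂ : Real.log L ^ C₁ * Real.log L ^ C₄ * L ^ (1 / 100 : ℝ) * L ^ (-(1 / 16) : ℝ) ≤
      L ^ (-(1 / 25) : ℝ) := by
    rw [← Real.rpow_add hl0]
    calc _ ≤ L ^ (1 / 100 : ℝ) * L ^ (1 / 100 : ℝ) * L ^ (-(1 / 16) : ℝ) := by gcongr
      _ ≤ _ := by
        rw [← Real.rpow_add hL0, ← Real.rpow_add hL0]
        exact pL (by norm_num)
  have b₃ : Real.log L ^ C₁ / L ^ 19 ≤ L ^ (-(1 / 25) : ℝ) / L ^ 2 := by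
    have h1 : Real.log L ^ C₁ ≤ L ^ (1 / 100 : ℝ) :=
      (Real.rpow_le_rpow_of_exponent_le hLL (by linarith)).trans hLC
    calc _ ≤ L ^ (1 / 100 : ℝ) / L ^ 19 := by gcongr
      _ ≤ _ := by
        rw [← Real.rpow_natCast, ← Real.rpow_natCast, ← Real.rpow_sub hL0, ← Real.rpow_sub hL0]
        exact pL (by norm_num)
  calc _ ≤ C₁ * (x / B) * L * Real.log L ^ C₁ * (C₂ * (S * (C₃ * μ ^ 3 *
        (C₄ * B * L ^ (1 / 100 : ℝ) * Real.log L ^ C₄ / L)) + P * B / L ^ 20)) :=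
        mul_le_mul a₁ (a₂.trans (by
          have := a₃.trans (mul_le_mul_of_nonneg_left a₄ (by positivity))
          gcongr)) hDD (by positivity)
    _ = C₁ * C₂ * C₃ * C₄ * x * (Real.log L ^ C₁ * Real.log L ^ C₄ * L ^ (1 / 100 : ℝ)) *
        (μ ^ 3 * S) + C₁ * C₂ * (x * P) * (Real.log L ^ C₁ / L ^ 19) := by field_simp
    _ ≤ C₁ * C₂ * C₃ * C₄ * x * (Real.log L ^ C₁ * Real.log L ^ C₄ * L ^ (1 / 100 : ℝ)) *
        (C₅ * ν * (2 * (P * L ^ (-(1 / 16) : ℝ)))) +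
        C₁ * C₂ * (x * P) * (L ^ (-(1 / 25) : ℝ) / L ^ 2) := by gcongr
    _ = D₀ * (x * P * (Real.log L ^ C₁ * Real.log L ^ C₄ * L ^ (1 / 100 : ℝ) *
        L ^ (-(1 / 16) : ℝ))) * ν + C₁ * C₂ * (x * P * L ^ (-(1 / 25) : ℝ)) / L ^ 2 := by
        rw [hD₀]; ring
    _ ≤ _ := by
        have := mul_nonneg hC₁ hC₂
        gcongr <;> nlinarith

end Crest.Agent.R012

end
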