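import Crest.Agent.R012.U9b
import Crest.Agent.R012.U9c
import Crest.Agent.R012.U9Aux

/-! # Row 12: type II sums, wide weight, III -/

set_option autoImplicit false

noncomputable section

open scoped BigOperators ComplexConjugate Topology
open Complex MeasureTheory Filter Set Crest.Agent.R017

namespace Crest.Agent.R012

theorem u9_supp {w D : ℝ} {a : O} (ha : Prim a) (h : cv (cut (Ioi D) (mr w)) (rg w) a ≠ 0) :
    D < Nr a := by
  obtain ⟨a₁, a₂, -, h₂, rfl, h₃, -⟩ := cv_ne_zero ha h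
  have h₄ : D < Nr a₁ := (cut_ne_zero h₃).1
  rw [Nr_mul]
  exact h₄.trans_le (le_mul_of_one_le_right (Nr_nonneg _) (one_le_Nr h₂.ne_zero))

set_option maxHeartbeats 800000 in
/-- `bilr_exp` with `B₀ = U`, `B₁ = U e^{-m}`, `B₂ = x^{1/2+η} e^{2m}`; `AS_sw` for `B ≤ A^{1-η₀}`,
`AS_P_sw` otherwise (`η = η₀/20`); `LpV_eq`, `shape`, `cn_mr_rg`,
`cn2_supp`, `cn2_LpV`. -/
theorem B_three_b (l : ℤ) : ∃ η : ℝ, 0 < η ∧ η ≤ 1 / 10 ∧ ∀ K : ℝ, ∃ C x₀ : ℝ, 0 ≤ C ∧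
    ∀ x τ : ℝ, x₀ ≤ x → |τ| ≤ Real.log x ^ K →
    ‖SF l 2 (cv (cv (cut (Ioi (x ^ (1 / 2 - η))) (mr (ww x))) (rg (ww x))) (cut (Ioi (UU x)) Lp)) x τ‖ ≤
      C * x ^ (5 / 6 : ℝ) * Real.log x ^ (-(1 / 50) : ℝ) := by
  obtain ⟨η₀, hη₀, hη₀', hP⟩ := AS_P_sw l
  refine ⟨η₀ / 20, by positivity, by linarith, fun K => ?_⟩
  set η := η₀ / 20 with hηdef
  have hη : 0 < η := by positivity
  obtain ⟨C₁, hC₁, h₁⟩ := bilr_exp
  obtain ⟨C₂, x₂, hC₂, h₂⟩ := AS_sw l (max K 1 + 1) hη₀ (by linarith)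
  obtain ⟨C₃, x₃, hC₃, h₃⟩ := hP (max K 1 + 1)
  obtain ⟨C₄, x₄, hC₄, h₄⟩ := cn_mr_rg
  obtain ⟨C₅, hC₅, h₅⟩ := cn2_supp
  obtain ⟨C₆, hC₆, h₆⟩ := cn2_LpV
  obtain ⟨C₇, hC₇, h₇⟩ := u9x_shape
  obtain ⟨x₈, hx₈, h₈⟩ := u9x_facts K C₄ (ρ := η / 2) (by positivity) (by linarith)
  obtain ⟨C₉, hC₉, h₉⟩ := envS_mr_rg
  refine ⟨C₁ * (Real.sqrt (2 * C₂ * C₄ * C₅ * C₆ * C₇) + Real.sqrt ((C₂ + C₃) * C₄) + 4 * C₉),
    max (max x₂ x₃) (max x₄ x₈), by positivity, fun x τ hx hτ => ?_⟩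
  simp only [max_le_iff] at hx
  obtain ⟨⟨hx₂, hx₃⟩, hx₄, hx₈'⟩ := hx
  obtain ⟨hL, f1, f2, f3, f4, f5, f6, f7, f8⟩ := h₈ x hx₈'
  have hx16 : 16 ≤ x := hx₈.trans hx₈'
  have hx0 : 0 < x := by linarith
  have hx1 : 1 ≤ x := by linarith
  set L := Real.log x with hLdef
  have hL0 : 0 < L := by linarith
  set m := Real.sqrt (1000 * L) with hm
  have hm0 : 0 ≤ m := Real.sqrt_nonneg _
  have hem : 1 ≤ Real.exp m := Real.one_le_exp hm0
  have hU0 : 0 < UU x := lt_of_lt_of_le (by positivity) f4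
  have h310 : 1 ≤ x ^ (3 / 10 : ℝ) := Real.one_le_rpow hx1 (by norm_num)
  have hB₂ : x ^ (1 / 2 + η) * Real.exp m * Real.exp m ≤ x ^ (1 / 2 + 2 * η) := by
    calc _ ≤ x ^ (1 / 2 + η) * x ^ (η / 2) * x ^ (η / 2) := by gcongr
      _ = _ := by rw [← Real.rpow_add hx0, ← Real.rpow_add hx0]; congr 1; ring
  have hx2 : x ^ (1 / 2 + 2 * η) ≤ x := by
    simpa using Real.rpow_le_rpow_of_exponent_le hx1 (by linarith : 1 / 2 + 2 * η ≤ 1)
  have hGβ : Gr (2 * L) (cut (Ioi (UU x)) Lp) := (envS_Lp _ (by linarith)).gr hx1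
  have key := h₁ l x τ m (UU x * Real.exp (-m)) (x ^ (1 / 2 + η) * Real.exp m * Real.exp m) (UU x)
    (2 * (C₉ * L ^ (1 / 100 : ℝ))) (2 * L)
    (Real.sqrt (2 * C₂ * C₄ * C₅ * C₆ * C₇) * x ^ (5 / 6 : ℝ) * L ^ (-(1 / 50) : ℝ))
    (Real.sqrt ((C₂ + C₃) * C₄) * x ^ (5 / 6 : ℝ) / L ^ 5)
    (cv (cut (Ioi (x ^ (1 / 2 - η))) (mr (ww x))) (rg (ww x))) (cut (Ioi (UU x)) Lp)
    (by linarith) hm0 (by rw [hm, Real.sq_sqrt (by positivity)]) (h310.trans f6) ?_ (hB₂.trans hx2)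
    hU0 ((h₉ x _ hx16).gr hx1) hGβ ?_ (by positivity) (by positivity) ?_
  · refine key.trans ?_
    rw [mul_assoc C₁, mul_assoc C₁]
    refine mul_le_mul_of_nonneg_left (u9x_final hx1 hL
      (f1.trans (Real.rpow_le_rpow_of_exponent_le hx1 (by linarith))) (Real.sqrt_nonneg _)
      (by positivity) ?_) hC₁
    have : L ^ (1 / 100 : ℝ) ≤ L := by
      simpa using Real.rpow_le_rpow_of_exponent_le (by linarith : 1 ≤ L)
        (by norm_num : (1 / 100 : ℝ) ≤ 1)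
    calc _ = 4 * C₉ * (L ^ (1 / 100 : ℝ) * L) := by ring
      _ ≤ 4 * C₉ * (L * L) := by gcongr
      _ = _ := by ring
  · calc UU x * Real.exp (-m) ≤ UU x :=
          mul_le_of_le_one_right hU0.le (Real.exp_le_one_iff.2 (by linarith))
      _ ≤ x ^ (1 / 2 + η) := f5.trans (Real.rpow_le_rpow_of_exponent_le hx1 (by linarith))
      _ ≤ x ^ (1 / 2 + η) * Real.exp m := le_mul_of_one_le_right (by positivity) hem
      _ ≤ _ := le_mul_of_one_le_right (by positivity) hem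
  · intro a b ha _ hα hb _ hab
    have b1 : UU x < Nr b := (cut_ne_zero hb).1
    have a1 := u9_supp ha hα
    constructor
    · rw [mul_assoc, ← Real.exp_add, neg_add_cancel, Real.exp_zero, mul_one]; exact b1.le
    · rw [mul_assoc, ← Real.exp_add, add_neg_cancel, Real.exp_zero, mul_one]
      have hD : 0 < x ^ (1 / 2 - η) := by positivity
      refine le_of_mul_le_mul_left ?_ hD
      rw [← mul_assoc, ← Real.rpow_add hx0, show 1 / 2 - η + (1 / 2 + η) = 1 by ring, Real.rpow_one]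
      refine le_trans ?_ hab
      rw [Nr_mul]
      exact mul_le_mul_of_nonneg_right a1.le (Nr_nonneg _)
  · intro B hB1 hB2 t ht
    have hB3 : x ^ (3 / 10 : ℝ) ≤ B := f6.trans hB1
    have hB0 : 0 < B := by linarith
    have hB4 : B ≤ x ^ (1 / 2 + 2 * η) := hB2.trans hB₂
    have hBx : B ≤ x := hB4.trans hx2
    have hA1 : x ^ (1 / 2 - 2 * η) ≤ x / B := by
      rw [le_div_iff₀ hB0]
      refine (mul_le_mul_of_nonneg_left hB4 (by positivity)).trans (le_of_eq ?_)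
      rw [← Real.rpow_add hx0]; norm_num
    have d2 := h₄ x (x / B) (Ioi (x ^ (1 / 2 - η))) hx₄
      ((Real.rpow_le_rpow_of_exponent_le hx1 (by linarith)).trans hA1)
      (div_le_self hx0.le (by linarith))
    rw [← hLdef] at d2
    rw [u9x_sq₀ hx0 hL0 (by positivity), u9x_sq₁ hx0 (by positivity), ← hLdef]
    set ll := Real.log L with hll
    have hll0 : 0 < ll := Real.log_pos (by linarith)
    set ν := min (B / UU x) (UU x / B) ^ (1 / 8 : ℝ) with hν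
    have hν0 : 0 ≤ ν := by positivity
    have e0 : L ^ (1 / 50 : ℝ) * ll ^ C₄ ≤ L ^ (9 / 400 : ℝ) := by
      calc _ ≤ L ^ (1 / 50 : ℝ) * L ^ (1 / 400 : ℝ) := by gcongr
        _ = _ := by rw [← Real.rpow_add hL0]; norm_num
    have e2 : L ^ (9 / 400 : ℝ) / L / L ^ 20 ≤ 1 / L ^ 10 := by
      have : L ^ (9 / 400 : ℝ) ≤ L := by
        simpa using Real.rpow_le_rpow_of_exponent_le (by linarith : 1 ≤ L)
          (by norm_num : (9 / 400 : ℝ) ≤ 1)
      exact div_le_div₀ zero_le_one ((div_le_one hL0).2 this) (by positivity)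
        (pow_le_pow_right₀ (by linarith) (by norm_num))
    have d2' : cn 4 (x / B) (cv (cut (Ioi (x ^ (1 / 2 - η))) (mr (ww x))) (rg (ww x))) ≤
        C₄ * (x / B) * L ^ (9 / 400 : ℝ) / L := by
      refine d2.trans ?_
      rw [mul_assoc (C₄ * (x / B))]
      gcongr
    rcases le_total B ((x / B) ^ (1 - η₀)) with hBA | hBA
    · have d1 := h₂ x B (τ + t) (Ioi (UU x)) Lp hx₂ hB3 hBA (f8 τ t hτ ht)
        ordConnected_Ioi (Or.inl ⟨rfl, Ioi_subset_Ioi f3⟩)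
      have d3 := h₅ (tw l (cut (Ioi (UU x)) Lp)) B (UU x)
        (u9x_pg_tw hGβ.pg l) hB0 hU0 (fun n _ h => (cut_ne_zero (u9x_tw_ne h)).1.le)
      have d4 : cn2 4 B (tw l (cut (Ioi (UU x)) Lp)) ≤ C₆ * B * (2 * L) := by
        rw [← LpV_eq]
        refine (h₆ l (UU x) B (by linarith)).trans (mul_le_mul_of_nonneg_left ?_ (by positivity))
        have := Real.log_le_log hB0 hBx
        linarith
      have d5 := h₇ x B (by linarith) hB0
      rw [← hLdef] at d1 d5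
      set S := x / B + x ^ (2 / 3 : ℝ) * (x / B ^ 3) ^ (1 / 12 : ℝ) with hS
      set μ := min 1 (B / UU x) ^ 3 with hμ
      have hS0 : 0 ≤ S := by positivity
      have hμ0 : 0 ≤ μ := by positivity
      have d6 := d3.trans (mul_le_mul_of_nonneg_left d4 (by positivity))
      have d7 := d1.trans (mul_le_mul_of_nonneg_left (add_le_add_left
        (mul_le_mul_of_nonneg_left d6 hS0) _) hC₂)
      refine (mul_le_mul d2' d7 (DD_nonneg _ _ _ _ _ _) (by positivity)).trans ?_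
      have e1 : L ^ (9 / 400 : ℝ) * L ^ (-(1 / 16) : ℝ) = L ^ (-(1 / 25) : ℝ) := by
        rw [← Real.rpow_add hL0]; norm_num
      calc _ = 2 * C₂ * C₄ * C₅ * C₆ * x * L ^ (9 / 400 : ℝ) * (μ * S) +
            C₂ * C₄ * (x * x ^ (2 / 3 : ℝ)) * (L ^ (9 / 400 : ℝ) / L / L ^ 20) := by field_simp
        _ ≤ 2 * C₂ * C₄ * C₅ * C₆ * x * L ^ (9 / 400 : ℝ) *
              (C₇ * x ^ (2 / 3 : ℝ) * L ^ (-(1 / 16) : ℝ) * ν) +
            (C₂ + C₃) * C₄ * (x * x ^ (2 / 3 : ℝ)) * (1 / L ^ 10) := by gcongr; linarith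
        _ = _ := by rw [← e1]; ring
    · have hBA' : B ≤ (x / B) ^ (1 + η₀) := by
        refine hB4.trans (le_trans ?_ (Real.rpow_le_rpow (by positivity) hA1 (by linarith)))
        rw [← Real.rpow_mul hx0.le]
        exact Real.rpow_le_rpow_of_exponent_le hx1 (by rw [hηdef]; nlinarith)
      have d1 := h₃ x B (τ + t) hx₃ (by linarith) hBA hBA' (f8 τ t hτ ht)
      rw [LpV_eq, ← hLdef] at d1
      refine (mul_le_mul d2' d1 (DD_nonneg _ _ _ _ _ _) (by positivity)).trans ?_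
      refine le_add_of_nonneg_of_le (by positivity) ?_
      calc _ = C₃ * C₄ * (x * x ^ (2 / 3 : ℝ)) * (L ^ (9 / 400 : ℝ) / L / L ^ 20) := by field_simp
        _ ≤ (C₂ + C₃) * C₄ * (x * x ^ (2 / 3 : ℝ)) * (1 / L ^ 10) := by gcongr; linarith
        _ = _ := by ring

end Crest.Agent.R012

end
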