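import Crest.Agent.R012.U6
import Crest.Agent.R012.U9
import Crest.Agent.R012.U10

/-! # Row 12: the prime sum for small and medium heights -/

set_option autoImplicit false

noncomputable section

open scoped BigOperators ComplexConjugate Topology
open Complex MeasureTheory Filter Set Crest.Agent.R017

namespace Crest.Agent.R012

/-- `vaughan`, `vaughan_split` for smooth sums. -/
theorem SF_vaughan (l : ℤ) {w U D : ℝ} (hw : w ≤ U) (hD : U ≤ D) (R : ℝ) {a Y : ℝ} (ha : 0 < a)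
    (hY : 0 < Y) (τ : ℝ) :
    ‖SF l a Lp Y τ‖ ≤ ‖SF l a (cut (Iic U) Lp) Y τ‖ + ‖SF l a (fI w U R) Y τ‖ +
      ‖SF l a (cv (cut (Ioi R) (al2 w U U)) (rg w)) Y τ‖ +
      ‖SF l a (cv (cv (rg w) (cut (Ioi U) Lp)) (cut (Ioc U D) (mr w))) Y τ‖ +
      ‖SF l a (cv (cv (cut (Ioi D) (mr w)) (rg w)) (cut (Ioi U) Lp)) Y τ‖ := by
  have p1 : Pg (cut (Iic U) Lp) := pg_Lp.cut _
  have p2 : Pg (fI w U R) := pg_fI w U R
  have p3 : Pg (cv (cut (Ioi R) (al2 w U U)) (rg w)) := ((pg_al2 w U U).cut _).cv (pg_rg w)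
  have p4 : Pg (cv (cv (rg w) (cut (Ioi U) Lp)) (cut (Ioc U D) (mr w))) :=
    ((pg_rg w).cv (pg_Lp.cut _)).cv ((pg_mr w).cut _)
  have p5 : Pg (cv (cv (cut (Ioi D) (mr w)) (rg w)) (cut (Ioi U) Lp)) :=
    (((pg_mr w).cut _).cv (pg_rg w)).cv (pg_Lp.cut _)
  have h := SF_congr (f := Lp) (g := fun n => cut (Iic U) Lp n + fI w U R n -
      cv (cut (Ioi R) (al2 w U U)) (rg w) n +
      cv (cv (rg w) (cut (Ioi U) Lp)) (cut (Ioc U D) (mr w)) n +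
      cv (cv (cut (Ioi D) (mr w)) (rg w)) (cut (Ioi U) Lp) n)
    (fun n hn hs => by rw [add_assoc, ← vaughan_split hD hn]; exact vaughan hw R hn hs) l a Y τ
  rw [h, SF_add (((p1.add p2).sub p3).add p4) p5 l ha hY, SF_add ((p1.add p2).sub p3) p4 l ha hY,
    SF_sub (p1.add p2) p3 l ha hY, SF_add p1 p2 l ha hY]
  refine (norm_add_le _ _).trans (add_le_add_left ?_ _)
  refine (norm_add_le _ _).trans (add_le_add_left ?_ _)
  exact (norm_sub_le _ _).trans (add_le_add_left (norm_add_le _ _) _)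

theorem u11_log {x : ℝ} (hx : 16 ≤ x) : 2 ≤ Real.log x := by
  have h := Real.log_le_log (by norm_num) hx
  rw [show (16 : ℝ) = 2 ^ 4 by norm_num, Real.log_pow] at h
  have := Real.log_two_gt_d9
  push_cast at h
  linarith

/-- The elementary facts on the parameters. -/
theorem u11_facts (K : ℝ) : ∃ x₀ : ℝ, ∀ x, x₀ ≤ x → 1 ≤ x ∧ 2 ≤ Real.log x ∧ ww x ≤ UU x ∧
    0 ≤ UU x ∧ UU x ≤ x ^ (2 / 5 : ℝ) ∧ ∀ k, k ≤ K → Real.log x ^ k ≤ x ^ (1 / 2000 : ℝ) := by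
  obtain ⟨x₀, h16, H⟩ := ww_facts (max K 1) (ρ := 1 / 2000) (by norm_num)
  refine ⟨x₀, fun x hx => ?_⟩
  obtain ⟨-, -, -, h1, -, h2⟩ := H x hx
  have hL := u11_log (h16.trans hx)
  have hx1 : 1 ≤ x := by linarith
  have hx0 : 0 < x := by linarith
  have h3 : ∀ k, k ≤ max K 1 → Real.log x ^ k ≤ x ^ (1 / 2000 : ℝ) := fun k hk =>
    (Real.rpow_le_rpow_of_exponent_le (by linarith) hk).trans h2
  refine ⟨hx1, hL, ?_, ?_, ?_, fun k hk => h3 k (hk.trans (le_max_left _ _))⟩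
  · refine h1.trans ((Real.rpow_le_rpow_of_exponent_le hx1 (show _ ≤ (1 / 3 : ℝ) by norm_num)).trans ?_)
    exact le_mul_of_one_le_right (by positivity) (Real.one_le_rpow (by linarith) (by norm_num))
  · unfold UU
    have : 0 ≤ Real.log x := by linarith
    positivity
  · refine (mul_le_mul_of_nonneg_left (h3 (1 / 4) (le_trans (by norm_num) (le_max_right _ _)))
      (by positivity)).trans ?_
    rw [← Real.rpow_add hx0]
    exact Real.rpow_le_rpow_of_exponent_le hx1 (by norm_num)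

theorem u11_save {x k e : ℝ} (hx : 1 ≤ x) (hL : 2 ≤ Real.log x)
    (h : Real.log x ^ k ≤ x ^ (1 / 2000 : ℝ)) (he : e + 1 / 2000 ≤ 5 / 6) :
    x ^ e ≤ x ^ (5 / 6 : ℝ) * Real.log x ^ (-k) := by
  have hx0 : 0 < x := by linarith
  have hL0 : 0 < Real.log x := by linarith
  rw [Real.rpow_neg hL0.le, ← div_eq_mul_inv, le_div_iff₀ (by positivity)]
  refine (mul_le_mul_of_nonneg_left h (by positivity)).trans ?_
  rw [← Real.rpow_add hx0]
  exact Real.rpow_le_rpow_of_exponent_le hx he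

theorem u11_cube {x y : ℝ} (hx : 1 ≤ x) (hy0 : 0 ≤ y) (hy : y ≤ 3 * x ^ (1 / 2000 : ℝ)) :
    x ^ (5 / 6 - 1 / 300 : ℝ) * y ^ 3 ≤ 27 * x ^ (5 / 6 - 1 / 300 + 3 / 2000 : ℝ) := by
  have hx0 : 0 < x := by linarith
  have h1 : y ^ 3 ≤ 27 * x ^ (3 / 2000 : ℝ) := by
    refine (pow_le_pow_left₀ hy0 hy 3).trans_eq ?_
    rw [mul_pow, ← Real.rpow_natCast (x ^ (1 / 2000 : ℝ)), ← Real.rpow_mul hx0.le]
    norm_num
  refine (mul_le_mul_of_nonneg_left h1 (by positivity)).trans_eq ?_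
  rw [Real.rpow_add hx0]
  ring

theorem thmB (l : ℤ) (K : ℝ) : ∃ C x₀ : ℝ, 0 ≤ C ∧ ∀ x τ : ℝ, x₀ ≤ x → |τ| ≤ Real.log x ^ K →
    ‖SF l 2 Lp x τ‖ ≤ C * x ^ (5 / 6 : ℝ) * Real.log x ^ (-(1 / 50) : ℝ) := by
  obtain ⟨η, hη, hη', H5⟩ := B_three_b l
  obtain ⟨C5, x5, hC5, H5⟩ := H5 K
  obtain ⟨C4, x4, hC4, H4⟩ := B_three_a l K hη hη'
  obtain ⟨C3, x3, hC3, H3⟩ := B_two l K
  obtain ⟨C2, x2, hC2, H2⟩ := partI l 1
  obtain ⟨C1, hC1, H1⟩ := small_primes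
  obtain ⟨x₀, H0⟩ := u11_facts (max K 1)
  refine ⟨C1 + C2 * 28 + C3 + C4 + C5, max (max (max x₀ x2) x3) (max x4 x5), by positivity,
    fun x τ hx hτ => ?_⟩
  simp only [max_le_iff] at hx
  obtain ⟨⟨⟨h0, h2⟩, h3⟩, h4, h5⟩ := hx
  obtain ⟨hx1, hL, hw, hU0, hU, hk⟩ := H0 x h0
  have hx0 : 0 < x := by linarith
  have hL0 : 0 < Real.log x := by linarith
  have hD : UU x ≤ x ^ (1 / 2 - η) := hU.trans (Real.rpow_le_rpow_of_exponent_le hx1 (by linarith))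
  have key := SF_vaughan l hw hD (x ^ (53 / 100 : ℝ)) (a := 2) (by norm_num) hx0 τ
  have hk1 := hk (1 / 50) (le_trans (by norm_num) (le_max_right _ _))
  set E := x ^ (5 / 6 : ℝ) * Real.log x ^ (-(1 / 50) : ℝ) with hE
  have a1 : ‖SF l 2 (cut (Iic (UU x)) Lp) x τ‖ ≤ C1 * E :=
    (H1 l 2 (UU x) x τ (by norm_num) hU0).trans
      (mul_le_mul_of_nonneg_left (hU.trans (u11_save hx1 hL hk1 (by norm_num))) hC1)
  have a2 : ‖SF l 2 (fI (ww x) (UU x) (x ^ (53 / 100 : ℝ))) x τ‖ ≤ C2 * (28 * E) := by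
    refine (H2 x τ h2).trans (mul_le_mul_of_nonneg_left ?_ hC2)
    have b1 : x ^ (5 / 6 : ℝ) / Real.log x ^ (1 : ℝ) ≤ E := by
      rw [hE, div_eq_mul_inv, ← Real.rpow_neg hL0.le]
      exact mul_le_mul_of_nonneg_left
        (Real.rpow_le_rpow_of_exponent_le (by linarith) (by norm_num)) (by positivity)
    have b2 : 1 ≤ x ^ (1 / 2000 : ℝ) := Real.one_le_rpow hx1 (by norm_num)
    have b3 := u11_cube hx1 (y := 1 + |τ|) (by positivity)
      (by linarith [hτ.trans (hk K (le_max_left _ _))])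
    have b4 : x ^ (5 / 6 - 1 / 300 + 3 / 2000 : ℝ) ≤ E := u11_save hx1 hL hk1 (by norm_num)
    linarith
  have a3 := H3 x τ h3 hτ
  have a4 := H4 x τ h4 hτ
  have a5 := H5 x τ h5 hτ
  rw [mul_assoc] at a3 a4 a5 ⊢
  rw [← hE] at a3 a4 a5 ⊢
  linarith

/-- `partI` through `coarse_poly` (`δ ≤ 1/2000`). -/
theorem thmEM (l : ℤ) : ∃ δ : ℝ, 0 < δ ∧ δ ≤ 1 / 100 ∧ ∃ C x₀ : ℝ, 0 ≤ C ∧ ∀ x τ : ℝ, x₀ ≤ x →
    |τ| ≤ x ^ δ →
    ‖SF l (2 * Real.log x ^ (-120 : ℝ)) Lp x τ‖ ≤ C * x ^ (5 / 6 : ℝ) / Real.log x ^ 3 := by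
  obtain ⟨η, hη, hη', C5, x5, hC5, H5⟩ := E_three_b l
  obtain ⟨C4, x4, hC4, H4⟩ := E_three_a l hη hη'
  obtain ⟨C3, x3, hC3, H3⟩ := E_two l
  obtain ⟨C2, x2, hC2, H2⟩ := partI l 3
  obtain ⟨C1, hC1, H1⟩ := small_primes
  obtain ⟨C0, hC0, Hc⟩ := coarse_poly (k₁ := 0) (k₂ := 3) le_rfl (by norm_num)
  obtain ⟨x₀, H0⟩ := u11_facts 60
  refine ⟨min η (1 / 2000), lt_min hη (by norm_num), (min_le_right _ _).trans (by norm_num),
    C1 + C0 * C2 * 28 + C3 + C4 + C5, max (max (max x₀ x2) x3) (max x4 x5), by positivity,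
    fun x τ hx hτ => ?_⟩
  simp only [max_le_iff] at hx
  obtain ⟨⟨⟨h0, h2⟩, h3⟩, h4, h5⟩ := hx
  obtain ⟨hx1, hL, hw, hU0, hU, hk⟩ := H0 x h0
  have hx0 : 0 < x := by linarith
  have hL0 : 0 < Real.log x := by linarith
  have hD : UU x ≤ x ^ (1 / 2 - η) := hU.trans (Real.rpow_le_rpow_of_exponent_le hx1 (by linarith))
  have ha : 0 < 2 * Real.log x ^ (-120 : ℝ) := by positivity
  have ha1 : 2 * Real.log x ^ (-120 : ℝ) ≤ 1 := by
    have c1 : Real.log x ^ (-120 : ℝ) ≤ Real.log x ^ (-1 : ℝ) :=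
      Real.rpow_le_rpow_of_exponent_le (by linarith) (by norm_num)
    rw [Real.rpow_neg_one] at c1
    have c2 : (Real.log x)⁻¹ ≤ 2⁻¹ := inv_anti₀ (by norm_num) hL
    linarith
  have hs : (Real.sqrt (2 * Real.log x ^ (-120 : ℝ)))⁻¹ ≤ x ^ (1 / 2000 : ℝ) := by
    refine le_trans ?_ (hk 60 le_rfl)
    rw [inv_le_comm₀ (Real.sqrt_pos.2 ha) (by positivity), ← Real.rpow_neg hL0.le]
    refine Real.le_sqrt_of_sq_le ?_
    rw [← Real.rpow_natCast, ← Real.rpow_mul hL0.le, show (-60 * (2 : ℕ) : ℝ) = -120 by norm_num]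
    linarith
  have key := SF_vaughan l hw hD (x ^ (53 / 100 : ℝ)) ha hx0 τ
  have e3 : ∀ y : ℝ, y ^ (3 : ℝ) = y ^ 3 := fun y => by exact_mod_cast Real.rpow_natCast y 3
  set E := x ^ (5 / 6 : ℝ) / Real.log x ^ 3 with hE
  have hsave : ∀ e : ℝ, e + 1 / 2000 ≤ 5 / 6 → x ^ e ≤ E := fun e he => by
    have := u11_save hx1 hL (hk 3 (by norm_num)) he
    rwa [Real.rpow_neg hL0.le, e3, ← div_eq_mul_inv] at this
  have a1 : ‖SF l (2 * Real.log x ^ (-120 : ℝ)) (cut (Iic (UU x)) Lp) x τ‖ ≤ C1 * E :=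
    (H1 l _ (UU x) x τ ha hU0).trans
      (mul_le_mul_of_nonneg_left (hU.trans (hsave _ (by norm_num))) hC1)
  have a2 : ‖SF l (2 * Real.log x ^ (-120 : ℝ)) (fI (ww x) (UU x) (x ^ (53 / 100 : ℝ))) x τ‖ ≤
      C0 * (C2 * (28 * E)) := by
    have hE0 : 0 ≤ E := by positivity
    have c := (Hc l (fI (ww x) (UU x) (x ^ (53 / 100 : ℝ))) _ x τ (C2 * E)
      (C2 * x ^ (5 / 6 - 1 / 300 : ℝ)) (pg_fI _ _ _) ha ha1 hx0 (by positivity) (by positivity)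
      fun t => by
        have := H2 x t h2
        rw [e3, ← hE] at this
        rw [Real.rpow_zero, e3]
        linarith).1
    refine c.trans (mul_le_mul_of_nonneg_left ?_ hC0)
    rw [Real.rpow_zero, e3, mul_one, mul_assoc, ← mul_add]
    refine mul_le_mul_of_nonneg_left ?_ hC2
    have b2 : 1 ≤ x ^ (1 / 2000 : ℝ) := Real.one_le_rpow hx1 (by norm_num)
    have b0 : |τ| ≤ x ^ (1 / 2000 : ℝ) :=
      hτ.trans (Real.rpow_le_rpow_of_exponent_le hx1 (min_le_right _ _))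
    have b3 := u11_cube hx1 (y := 1 + |τ| + (Real.sqrt (2 * Real.log x ^ (-120 : ℝ)))⁻¹)
      (by positivity) (by linarith)
    have b4 := hsave (5 / 6 - 1 / 300 + 3 / 2000) (by norm_num)
    linarith
  have a3 := H3 x τ h3
  have a4 := H4 x τ h4
  have a5 := H5 x τ h5 (hτ.trans (Real.rpow_le_rpow_of_exponent_le hx1 (min_le_left _ _)))
  rw [mul_div_assoc] at a3 a4 a5 ⊢
  rw [← hE] at a3 a4 a5 ⊢
  linarith

end Crest.Agent.R012

end
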