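import Crest.Agent.R012.U2
import Crest.Agent.R012.Sv1
import Crest.Agent.R012.TI

/-! # Row 12: type I sums with variable length -/

set_option autoImplicit false

noncomputable section

open scoped BigOperators ComplexConjugate Topology
open Complex MeasureTheory Filter Set Crest.Agent.R017

namespace Crest.Agent.R012

theorem u4_J {Y R : ℝ} (hR : 1 ≤ R) (hY : R ≤ Y) : ∃ J : ℝ, 1 ≤ J ∧ J ≤ Y ∧
    R * (R ^ 2 * J ^ 3) ≤ (Y ^ (3 / 200 : ℝ) * (R ^ (3 / 2 : ℝ) + R * Y ^ (1 / 6 : ℝ))) ^ 2 ∧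
    R * (R * (Y / R)) = ((R * Y) ^ (1 / 2 : ℝ)) ^ 2 ∧
    R * ((Y / R) ^ 2 * J ^ (-3 : ℝ)) ≤ (Y ^ (5 / 6 - 1 / 100 : ℝ)) ^ 2 ∧
    R * (R ^ (2 / 3 : ℝ) * (Y / R) ^ (5 / 3 : ℝ) * J ^ (-2 : ℝ)) ≤
      (Y ^ (5 / 6 - 1 / 100 : ℝ)) ^ 2 := by
  obtain ⟨ρ, rfl⟩ : ∃ ρ, R = Real.exp ρ := ⟨Real.log R, (Real.exp_log (by linarith)).symm⟩
  obtain ⟨y, rfl⟩ : ∃ y, Y = Real.exp y := ⟨Real.log Y, (Real.exp_log (by linarith)).symm⟩
  rw [Real.one_le_exp_iff] at hR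
  rw [Real.exp_le_exp] at hY
  have h1 := le_max_left 0 ((y / 3 - ρ) / 3)
  have h2 := le_max_right 0 ((y / 3 - ρ) / 3)
  have h3 := max_choice 0 ((y / 3 - ρ) / 3)
  generalize max 0 ((y / 3 - ρ) / 3) = m at h1 h2 h3
  refine ⟨Real.exp (y / 100 + m), Real.one_le_exp_iff.2 (by linarith), ?_, ?_, ?_, ?_, ?_⟩
  · rw [Real.exp_le_exp]
    rcases h3 with h | h <;> linarith
  · have e1 : Real.exp ρ * (Real.exp ρ ^ 2 * Real.exp (y / 100 + m) ^ 3) =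
        Real.exp (3 / 2 * (ρ + y / 100 + m)) ^ 2 := by
      simp only [← Real.exp_nat_mul, ← Real.exp_add]
      congr 1
      push_cast
      ring
    rw [e1]
    refine pow_le_pow_left₀ (Real.exp_pos _).le ?_ 2
    simp only [← Real.exp_mul, mul_add, ← Real.exp_add]
    rcases h3 with h | h
    · exact le_add_of_le_of_nonneg (Real.exp_le_exp.2 (by linarith)) (Real.exp_pos _).le
    · exact le_add_of_nonneg_of_le (Real.exp_pos _).le (Real.exp_le_exp.2 (by linarith))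
  · simp only [← Real.exp_sub, ← Real.exp_add, ← Real.exp_mul, ← Real.exp_nat_mul]
    congr 1
    push_cast
    ring
  · simp only [← Real.exp_sub, ← Real.exp_add, ← Real.exp_mul, ← Real.exp_nat_mul, Real.exp_le_exp]
    push_cast
    linarith
  · simp only [← Real.exp_sub, ← Real.exp_add, ← Real.exp_mul, ← Real.exp_nat_mul, Real.exp_le_exp]
    push_cast
    linarith

/-- the right-hand side. -/
def u4_F (ε Y R τ : ℝ) : ℝ :=
  (Y * (1 + |τ|)) ^ ε * (Y ^ (3 / 200 : ℝ) * (R ^ (3 / 2 : ℝ) + R * Y ^ (1 / 6 : ℝ)) *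
    (1 + |τ|) ^ 2 + (R * Y) ^ (1 / 2 : ℝ) + Y ^ (5 / 6 - 1 / 100 : ℝ))

theorem u4_F_nonneg (ε : ℝ) {Y R : ℝ} (hY : 0 ≤ Y) (hR : 0 ≤ R) (τ : ℝ) : 0 ≤ u4_F ε Y R τ := by
  unfold u4_F
  positivity

theorem u4_F_mono (ε : ℝ) {Y R R' : ℝ} (hY : 0 ≤ Y) (hR : 0 ≤ R) (h : R ≤ R') (τ : ℝ) :
    u4_F ε Y R τ ≤ u4_F ε Y R' τ := by
  unfold u4_F
  gcongr

theorem u4_F_shift {ε Y R : ℝ} (hε : 0 ≤ ε) (hY : 0 ≤ Y) (hR : 0 ≤ R) (τ t : ℝ) :
    u4_F ε Y R (τ + t) ≤ u4_F ε Y R τ * (1 + |t|) ^ (ε + 2) := by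
  have ht : 1 ≤ 1 + |t| := le_add_of_nonneg_right (abs_nonneg t)
  have h1 : 1 + |τ + t| ≤ (1 + |τ|) * (1 + |t|) := by
    nlinarith [abs_add_le τ t, mul_nonneg (abs_nonneg τ) (abs_nonneg t)]
  have h2 : (Y * (1 + |τ + t|)) ^ ε ≤ (Y * (1 + |τ|)) ^ ε * (1 + |t|) ^ ε := by
    rw [← Real.mul_rpow (by positivity) (by positivity), mul_assoc]
    gcongr
  have h3 : (1 + |τ + t|) ^ 2 ≤ (1 + |τ|) ^ 2 * (1 + |t|) ^ 2 := by
    rw [← mul_pow]
    gcongr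
  have h4 : (1 : ℝ) ≤ (1 + |t|) ^ 2 := one_le_pow₀ ht
  unfold u4_F
  rw [Real.rpow_add (by positivity), Real.rpow_two, mul_mul_mul_comm]
  refine mul_le_mul h2 ?_ (by positivity) (by positivity)
  have hA : 0 ≤ Y ^ (3 / 200 : ℝ) * (R ^ (3 / 2 : ℝ) + R * Y ^ (1 / 6 : ℝ)) := by positivity
  have hB : 0 ≤ (R * Y) ^ (1 / 2 : ℝ) := by positivity
  have hC : 0 ≤ Y ^ (5 / 6 - 1 / 100 : ℝ) := by positivity
  have h5 := mul_le_mul_of_nonneg_left h3 hA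
  have h6 := mul_le_mul_of_nonneg_left h4 hB
  have h7 := mul_le_mul_of_nonneg_left h4 hC
  linarith

theorem u4_card {R : ℝ} (hR : 0 ≤ R) : ((sbox R).card : ℝ) ≤ 25 * R := by
  classical
  refine le_trans ?_ (card_box_le hR)
  exact_mod_cast Finset.card_filter_le _ _

theorem u4_cs (l : ℤ) {ε : ℝ} (hε : 0 < ε) : ∃ C : ℝ, 0 ≤ C ∧ ∀ Y R τ : ℝ, 1 ≤ R → R ≤ Y →
    ∑ r ∈ sbox R, ‖sm 4 (fun b => az l b * FF (r * b)) (Y / R) τ‖ ≤ C * u4_F ε Y R τ := by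
  obtain ⟨C, hC, h⟩ := typeI l hε
  refine ⟨Real.sqrt (50 * C), Real.sqrt_nonneg _, fun Y R τ hR hY => ?_⟩
  have hR0 : 0 < R := by linarith
  have hY0 : 0 < Y := by linarith
  obtain ⟨J, hJ, hJY, e1, e2, e3, e4⟩ := u4_J hR hY
  have h1 := h R (Y / R) J τ hR ((one_le_div hR0).2 hY) hJ
  have hτ : 1 ≤ 1 + |τ| := le_add_of_nonneg_right (abs_nonneg τ)
  have h2 : (R * (Y / R) * J * (1 + |τ|)) ^ ε ≤ ((Y * (1 + |τ|)) ^ ε) ^ 2 := by
    rw [sq, ← Real.mul_rpow (by positivity) (by positivity), mul_div_cancel₀ _ hR0.ne']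
    refine Real.rpow_le_rpow (by positivity) ?_ hε.le
    calc Y * J * (1 + |τ|) = Y * (1 + |τ|) * (J * 1) := by ring
      _ ≤ _ := by gcongr
  refine abs_le_of_sq_le_sq' ?_ (mul_nonneg (Real.sqrt_nonneg _) (u4_F_nonneg ε hY0.le hR0.le τ)) |>.2
  refine (sq_sum_le_card_mul_sum_sq).trans ?_
  refine (mul_le_mul (u4_card hR0.le) h1 (Finset.sum_nonneg fun _ _ => sq_nonneg _)
    (by positivity)).trans ?_
  rw [mul_pow, Real.sq_sqrt (by positivity), u4_F, mul_pow]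
  have hA : 0 ≤ Y ^ (3 / 200 : ℝ) * (R ^ (3 / 2 : ℝ) + R * Y ^ (1 / 6 : ℝ)) := by positivity
  have hB : 0 ≤ (R * Y) ^ (1 / 2 : ℝ) := by positivity
  have hD : 0 ≤ Y ^ (5 / 6 - 1 / 100 : ℝ) := by positivity
  generalize Y ^ (3 / 200 : ℝ) * (R ^ (3 / 2 : ℝ) + R * Y ^ (1 / 6 : ℝ)) = A at *
  generalize (R * Y) ^ (1 / 2 : ℝ) = B at *
  generalize Y ^ (5 / 6 - 1 / 100 : ℝ) = D at *
  have h3 : R * (R ^ 2 * J ^ 3 * (1 + |τ|) ^ 4 + R * (Y / R) + (Y / R) ^ 2 * J ^ (-3 : ℝ) +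
      R ^ (2 / 3 : ℝ) * (Y / R) ^ (5 / 3 : ℝ) * J ^ (-2 : ℝ)) ≤
      2 * (A * (1 + |τ|) ^ 2 + B + D) ^ 2 := by
    have h4 := mul_le_mul_of_nonneg_right e1 (by positivity : (0 : ℝ) ≤ (1 + |τ|) ^ 4)
    have h5 : 0 ≤ A * (1 + |τ|) ^ 2 := by positivity
    have h6 : A ^ 2 * (1 + |τ|) ^ 4 = (A * (1 + |τ|) ^ 2) ^ 2 := by ring
    rw [h6] at h4
    nlinarith [mul_nonneg h5 hB, mul_nonneg h5 hD, mul_nonneg hB hD, sq_nonneg B,
      sq_nonneg (A * (1 + |τ|) ^ 2)]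
  calc _ = 25 * C * ((R * (Y / R) * J * (1 + |τ|)) ^ ε * (R * (R ^ 2 * J ^ 3 * (1 + |τ|) ^ 4 +
        R * (Y / R) + (Y / R) ^ 2 * J ^ (-3 : ℝ) +
        R ^ (2 / 3 : ℝ) * (Y / R) ^ (5 / 3 : ℝ) * J ^ (-2 : ℝ)))) := by ring
    _ ≤ 25 * C * (((Y * (1 + |τ|)) ^ ε) ^ 2 * (2 * (A * (1 + |τ|) ^ 2 + B + D) ^ 2)) := by
      gcongr
    _ = _ := by ring

theorem u4_bd (l : ℤ) {r : O} (hr : Prim r) (n : O) (hn : Prim n) :
    ‖az l n * FF (r * n)‖ ≤ (1 + cst) * Nr n ^ (0 : ℝ) := by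
  rw [norm_mul, norm_az l hn.ne_zero, one_mul, Real.rpow_zero, mul_one]
  exact norm_FF_le (hr.mul hn)

theorem u4_dyadic {g : O → ℝ} {E R : ℝ} (hE : 0 ≤ E)
    (h : ∀ R', 1 ≤ R' → R' ≤ R → ∑ r ∈ (sbox R').filter (fun r => R' / 2 < Nr r), g r ≤ E) (n : ℕ) :
    ∀ R', R' < 2 ^ n → R' ≤ R → ∑ r ∈ sbox R', g r ≤ n * E := by
  have h0 : ∀ R' : ℝ, R' < 1 → ∑ r ∈ sbox R', g r = 0 := fun R' h1 => by
    rw [sbox, box_eq_empty h1, Finset.filter_empty, Finset.sum_empty]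
  induction n with
  | zero =>
    intro R' h1 _
    rw [h0 R' (by simpa using h1)]
    simp
  | succ n ih =>
    intro R' h1 h2
    rcases lt_or_ge R' 1 with h3 | h3
    · rw [h0 R' h3]
      positivity
    · rw [← Finset.sum_filter_add_sum_filter_not (sbox R') (fun r => R' / 2 < Nr r)]
      have e : (sbox R').filter (fun r => ¬ R' / 2 < Nr r) = sbox (R' / 2) := by
        ext r
        simp only [Finset.mem_filter, q_mem_sbox, not_lt]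
        exact ⟨fun h => ⟨h.1.1, h.1.2.1, h.2⟩, fun h => ⟨⟨h.1, h.2.1, by linarith [h.2.2]⟩, h.2.2⟩⟩
      have h4 := ih (R' / 2) (by rw [pow_succ] at h1; linarith) (by linarith)
      have h5 := h R' h3 h2
      rw [e]
      push_cast
      linarith

/-- One dyadic block: `sm_shift`, Cauchy–Schwarz in `r`, `typeI` with
`J = Y^{1/100} max 1 (Y^{1/3} / R)^{1/3}`, `og_moment`. -/
theorem typeI_block (l : ℤ) {ε : ℝ} (hε : 0 < ε) : ∃ C : ℝ, 0 ≤ C ∧ ∀ Y R τ : ℝ, 1 ≤ R → R ≤ Y →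
    ∑ r ∈ (sbox R).filter (fun r => R / 2 < Nr r),
      ‖sm 2 (fun b => az l b * FF (r * b)) (Y / Nr r) τ‖ ≤
      C * (Y * (1 + |τ|)) ^ ε * (Y ^ (3 / 200 : ℝ) * (R ^ (3 / 2 : ℝ) + R * Y ^ (1 / 6 : ℝ)) *
        (1 + |τ|) ^ 2 + (R * Y) ^ (1 / 2 : ℝ) + Y ^ (5 / 6 - 1 / 100 : ℝ)) := by
  obtain ⟨C, hC, h⟩ := u4_cs l hε
  have hI := integrable_og_mul (b := 4) (by norm_num) (ε + 2)
  have hI0 : 0 ≤ ∫ t : ℝ, og 4 t * (1 + |t|) ^ (ε + 2) :=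
    integral_nonneg fun t => mul_nonneg (og_nonneg t) (by positivity)
  refine ⟨2 * C * ∫ t : ℝ, og 4 t * (1 + |t|) ^ (ε + 2), by positivity, fun Y R τ hR hY => ?_⟩
  have hR0 : 0 < R := by linarith
  have hY0 : 0 < Y := by linarith
  have hB : 0 < Y / R := div_pos hY0 hR0
  have hint : ∀ r ∈ sbox R, Integrable
      (fun t => og 4 t * ‖sm 4 (fun b => az l b * FF (r * b)) (Y / R) (τ + t)‖) := fun r hr =>
    (coarse0 (a := 2) (by norm_num) (by norm_num) (by norm_num) (by norm_num) hB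
      (u4_bd l (q_mem_sbox.1 hr).1) τ).1
  have h1 : ∀ r ∈ (sbox R).filter (fun r => R / 2 < Nr r),
      ‖sm 2 (fun b => az l b * FF (r * b)) (Y / Nr r) τ‖ ≤
        2 * ∫ t, og 4 t * ‖sm 4 (fun b => az l b * FF (r * b)) (Y / R) (τ + t)‖ := by
    intro r hr
    obtain ⟨hr, hr2⟩ := Finset.mem_filter.1 hr
    obtain ⟨hp, -, hr1⟩ := q_mem_sbox.1 hr
    have hN : 0 < Nr r := by linarith
    have hq : 0 < R / Nr r := div_pos hR0 hN
    have e : Y / Nr r = Y / R * Real.exp (Real.log (R / Nr r)) := by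
      rw [Real.exp_log hq]
      field_simp
    rw [e]
    refine sm_shift hB ?_ (u4_bd l hp) τ
    rw [abs_of_nonneg (Real.log_nonneg ((one_le_div hN).2 hr1))]
    have := Real.log_le_sub_one_of_pos hq
    have h2 : R / Nr r ≤ 2 := by rw [div_le_iff₀ hN]; linarith
    linarith
  refine (Finset.sum_le_sum h1).trans ?_
  refine (Finset.sum_le_sum_of_subset_of_nonneg (Finset.filter_subset _ _) fun r _ _ =>
    mul_nonneg zero_le_two (integral_nonneg fun t =>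
      mul_nonneg (og_nonneg t) (norm_nonneg _))).trans ?_
  rw [← Finset.mul_sum, ← integral_finsetSum _ hint]
  change _ ≤ _ * (Y * (1 + |τ|)) ^ ε * _
  rw [mul_assoc _ ((Y * (1 + |τ|)) ^ ε), ← u4_F]
  have h2 : ∫ t, ∑ r ∈ sbox R, og 4 t * ‖sm 4 (fun b => az l b * FF (r * b)) (Y / R) (τ + t)‖ ≤
      ∫ t, C * u4_F ε Y R τ * (og 4 t * (1 + |t|) ^ (ε + 2)) := by
    refine integral_mono (integrable_finsetSum _ hint) (hI.const_mul _) fun t => ?_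
    dsimp only
    rw [← Finset.mul_sum]
    have h3 := (h Y R (τ + t) hR hY).trans
      (mul_le_mul_of_nonneg_left (u4_F_shift hε.le hY0.le hR0.le τ t) hC)
    refine (mul_le_mul_of_nonneg_left h3 (og_nonneg t)).trans (le_of_eq ?_)
    ring
  rw [integral_const_mul] at h2
  linarith

theorem typeI_sum (l : ℤ) {ε : ℝ} (hε : 0 < ε) : ∃ C : ℝ, 0 ≤ C ∧
    ∀ (Y R τ M : ℝ) (α : O → ℂ), 1 ≤ R → R ≤ Y → (∀ r, Prim r → Squarefree r → ‖α r‖ ≤ M) →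
    (∀ r, Prim r → Squarefree r → α r ≠ 0 → Nr r ≤ R) →
    ‖SF l 2 (cv α (fun _ => 1)) Y τ‖ ≤
      C * M * (Y * (1 + |τ|)) ^ ε * (Y ^ (3 / 200 : ℝ) * (R ^ (3 / 2 : ℝ) + R * Y ^ (1 / 6 : ℝ)) *
        (1 + |τ|) ^ 2 + (R * Y) ^ (1 / 2 : ℝ) + Y ^ (5 / 6 - 1 / 100 : ℝ)) := by
  have hδ : 0 < ε / 2 := half_pos hε
  obtain ⟨C, hC, h⟩ := typeI_block l hδ
  refine ⟨(1 + 2 / (ε / 2)) * C, by positivity, fun Y R τ M α hR hY hM hs => ?_⟩
  have hR0 : 0 < R := by linarith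
  have hY1 : 1 ≤ Y := hR.trans hY
  have hY0 : 0 < Y := by linarith
  have hM0 : 0 ≤ M := (norm_nonneg _).trans (hM 1 prim_one squarefree_one)
  have hF := u4_F_nonneg (ε / 2) hY0.le hR0.le τ
  obtain ⟨k, hk1, hk2⟩ := exists_nat_pow_near hR one_lt_two
  have h1 := u4_dyadic (g := fun r => ‖sm 2 (fun b => az l b * FF (r * b)) (Y / Nr r) τ‖)
    (R := R) (mul_nonneg hC hF) (fun R' h1 h2 => (h Y R' τ h1 (h2.trans hY)).trans (by
      rw [mul_assoc]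
      exact mul_le_mul_of_nonneg_left (u4_F_mono _ hY0.le (by linarith) h2 τ) hC))
    (k + 1) R hk2 le_rfl
  have hτ : 1 ≤ 1 + |τ| := le_add_of_nonneg_right (abs_nonneg τ)
  have hZ : Y ^ (ε / 2) ≤ (Y * (1 + |τ|)) ^ (ε / 2) :=
    Real.rpow_le_rpow hY0.le (le_mul_of_one_le_right hY0.le hτ) hδ.le
  have hZ1 : 1 ≤ Y ^ (ε / 2) := Real.one_le_rpow hY1 hδ.le
  have hk : ((k + 1 : ℕ) : ℝ) ≤ (1 + 2 / (ε / 2)) * (Y * (1 + |τ|)) ^ (ε / 2) := by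
    have h2 : Real.log (2 ^ k) ≤ Real.log Y := Real.log_le_log (by positivity) (hk1.trans hY)
    have h3 := Real.log_le_rpow_div hY0.le hδ
    have h4 := Real.log_two_gt_d9
    rw [Real.log_pow] at h2
    have h5 : (k : ℝ) ≤ 2 / (ε / 2) * Y ^ (ε / 2) := by
      rw [div_mul_eq_mul_div, mul_div_assoc]
      nlinarith [(Nat.cast_nonneg k : (0 : ℝ) ≤ k)]
    have h6 := mul_le_mul_of_nonneg_left hZ (by positivity : 0 ≤ 1 + 2 / (ε / 2))
    push_cast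
    nlinarith
  rw [SF_cv (pg_of_bdd hM) (pg_of_bdd (M := 1) fun _ _ _ => by simp) l two_pos hY0,
    tsum_eq_sum (s := sbox R)]
  · refine (norm_sum_le _ _).trans ((Finset.sum_le_sum (g := fun r =>
      M * ‖sm 2 (fun b => az l b * FF (r * b)) (Y / Nr r) τ‖) fun r hr => ?_).trans ?_)
    · obtain ⟨hp, hq, -⟩ := q_mem_sbox.1 hr
      simp only [if_pos hp, one_mul, norm_mul, norm_az l hp.ne_zero, ti1_norm_cpow hp.ne_zero,
        mul_one]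
      exact mul_le_mul_of_nonneg_right (hM r hp hq) (norm_nonneg _)
    · rw [← Finset.mul_sum]
      refine (mul_le_mul_of_nonneg_left (h1.trans (mul_le_mul_of_nonneg_right hk
        (mul_nonneg hC hF))) hM0).trans (le_of_eq ?_)
      have e : (Y * (1 + |τ|)) ^ ε = (Y * (1 + |τ|)) ^ (ε / 2) * (Y * (1 + |τ|)) ^ (ε / 2) := by
        rw [← Real.rpow_add (by positivity), add_halves]
      rw [e, u4_F]
      ring
  · intro r hr
    split_ifs with hp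
    · by_cases hq : Squarefree r
      · have : α r = 0 := by
          by_contra h0
          exact hr (q_mem_sbox.2 ⟨hp, hq, hs r hp hq h0⟩)
        simp [this]
      · have : ∀ b, FF (r * b) = 0 := fun b => FF_of_not fun h' => hq h'.of_mul_left
        simp [this, sm]
    · rfl

/-- The primes of small norm. -/
theorem small_primes : ∃ C : ℝ, 0 ≤ C ∧ ∀ (l : ℤ) (a V Y τ : ℝ), 0 < a → 0 ≤ V →
    ‖SF l a (cut (Iic V) Lp) Y τ‖ ≤ C * V := by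
  obtain ⟨C, hC, h⟩ := cheb
  have hc := cst_pos
  refine ⟨(1 + cst) * C, by positivity, fun l a V Y τ ha hV => ?_⟩
  rw [SF, sm, tsum_eq_sum (s := sbox V)]
  · refine (norm_sum_le _ _).trans ((Finset.sum_le_sum (g := fun n => (1 + cst) * ‖Lp n‖)
      fun n hn => ?_).trans ?_)
    · have hp := (q_mem_sbox.1 hn).1
      rw [if_pos hp, w2_norm_term (c := fun n => cut (Iic V) Lp n * az l n * FF n) hp, norm_mul,
        norm_mul, norm_az l hp.ne_zero, mul_one]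
      refine (mul_le_of_le_one_right (by positivity) (W_le_one ha _)).trans ?_
      rw [mul_comm]
      exact mul_le_mul (norm_FF_le hp) (norm_cut_le _ _ _) (norm_nonneg _) (by positivity)
    · rw [← Finset.mul_sum, mul_assoc]
      exact mul_le_mul_of_nonneg_left (h V hV) (by positivity)
  · intro n hn
    split_ifs with hp
    · have : cut (Iic V) Lp n = 0 := by
        by_contra h0
        obtain ⟨h1, h2⟩ := cut_ne_zero h0
        exact hn (q_mem_sbox.2 ⟨hp, (Lp_ne_zero h2).squarefree, h1⟩)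
      simp [this]
    · rfl

end Crest.Agent.R012

end
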