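import Crest.Agent.R012.U12
import Crest.Agent.R012.U4
import Crest.Agent.R012.U11

/-! # Row 12: the prime sum at large height -/

set_option autoImplicit false

noncomputable section

open scoped BigOperators ComplexConjugate Topology
open Complex MeasureTheory Filter Set Crest.Agent.R017

namespace Crest.Agent.R012

theorem rough_one (n : O) : Rough 1 n := fun _ hp _ => by linarith [three_le_Nr_prime hp]

theorem u13_rg_one {n : O} (hs : Squarefree n) : rg 1 n = 1 := by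
  rw [rg, if_pos ⟨hs, rough_one n⟩]

/-- The basic inequalities between the parameters. -/
theorem u13_par {δ x T : ℝ} (hδ : 0 < δ) (hδ' : δ ≤ 1 / 100) (hx : (2 : ℝ) ^ δ⁻¹ ≤ x)
    (h1 : x ^ δ ≤ T) (h2 : T ≤ x ^ (1 / 6 + δ / 2)) :
    1 ≤ x ∧ 2 ≤ T ∧ 1 ≤ x ^ (1 / 3 + δ) / T ∧ x ^ (1 / 3 + δ) / T ≤ x ^ (1 / 3 : ℝ) := by
  have h3 : (1 : ℝ) ≤ 2 ^ δ⁻¹ := Real.one_le_rpow (by norm_num) (by positivity)
  have hx1 : 1 ≤ x := h3.trans hx
  have hx0 : 0 < x := by linarith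
  have h4 : 2 ≤ x ^ δ := by
    calc (2 : ℝ) = ((2 : ℝ) ^ δ⁻¹) ^ δ := (Real.rpow_inv_rpow (by norm_num) hδ.ne').symm
      _ ≤ x ^ δ := Real.rpow_le_rpow (by positivity) hx hδ.le
  have hT : 0 < T := by linarith
  refine ⟨hx1, by linarith, ?_, ?_⟩
  · rw [le_div_iff₀ hT, one_mul]
    exact h2.trans (Real.rpow_le_rpow_of_exponent_le hx1 (by linarith))
  · rw [div_le_iff₀ hT, Real.rpow_add hx0]
    exact mul_le_mul_of_nonneg_left h1 (by positivity)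

/-- One type I sum at large height. -/
theorem u13_one (l : ℤ) {δ : ℝ} (hδ : 0 < δ) (hδ' : δ ≤ 1 / 100) : ∃ C : ℝ, 0 ≤ C ∧
    ∀ (x T τ M : ℝ) (α : O → ℂ), (2 : ℝ) ^ δ⁻¹ ≤ x → x ^ δ ≤ T → T ≤ x ^ (1 / 6 + δ / 2) →
    |τ| ≤ T * x ^ δ → (∀ r, Prim r → Squarefree r → ‖α r‖ ≤ M) →
    (∀ r, Prim r → Squarefree r → α r ≠ 0 → Nr r ≤ x ^ (1 / 3 + δ) / T) →
    ‖SF l (2 * (T ^ 2)⁻¹) (cv α (rg 1)) x τ‖ ≤ C * M * x ^ (5 / 6 - 1 / 150 : ℝ) ∧
    ‖SF l (2 * (T ^ 2)⁻¹) (fun n => cv α (rg 1) n * (lgn n - (Real.log x : ℂ))) x τ‖ ≤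
      C * M * x ^ (5 / 6 - 1 / 150 : ℝ) := by
  obtain ⟨C₁, hC₁, hI⟩ := typeI_sum l (ε := 1 / 600) (by norm_num)
  obtain ⟨C₂, hC₂, hc⟩ := coarse_poly (k₁ := 1 / 600) (k₂ := 2 + 1 / 600) (by norm_num) (by norm_num)
  refine ⟨C₂ * C₁ * 60, by positivity, fun x T τ M α hx h1 h2 hτ hα hs => ?_⟩
  obtain ⟨hx1, hT2, hU1, hU⟩ := u13_par hδ hδ' hx h1 h2
  set U := x ^ (1 / 3 + δ) / T with hUdef
  have hx0 : 0 < x := by linarith
  have hT : 0 < T := by linarith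
  have hU0 : 0 < U := by linarith
  have hM : 0 ≤ M := (norm_nonneg _).trans (hα 1 prim_one squarefree_one)
  have hUx : U ≤ x := hU.trans (by
    simpa using Real.rpow_le_rpow_of_exponent_le hx1 (show (1 / 3 : ℝ) ≤ 1 by norm_num))
  have ha : 0 < 2 * (T ^ 2)⁻¹ := by positivity
  have ha1 : 2 * (T ^ 2)⁻¹ ≤ 1 := by
    rw [← div_eq_mul_inv, div_le_one (by positivity)]
    nlinarith
  have hsq : (Real.sqrt (2 * (T ^ 2)⁻¹))⁻¹ ≤ T := by
    rw [inv_le_comm₀ (Real.sqrt_pos.2 ha) hT]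
    refine Real.le_sqrt_of_sq_le ?_
    rw [inv_pow]
    have : 0 < (T ^ 2)⁻¹ := by positivity
    linarith
  have hxδ : 1 ≤ x ^ δ := Real.one_le_rpow hx1 hδ.le
  set P := T * x ^ δ with hP
  have hP1 : T ≤ P := le_mul_of_one_le_right hT.le hxδ
  have hP0 : 0 < P := by linarith
  have hQ : 1 + |τ| + (Real.sqrt (2 * (T ^ 2)⁻¹))⁻¹ ≤ 3 * P := by linarith
  have hQ0 : 0 ≤ 1 + |τ| + (Real.sqrt (2 * (T ^ 2)⁻¹))⁻¹ := by positivity
  have hPx : P ≤ x := by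
    calc P ≤ x ^ (1 / 6 + δ / 2) * x ^ δ := mul_le_mul_of_nonneg_right h2 (by positivity)
      _ = x ^ (1 / 6 + δ / 2 + δ) := (Real.rpow_add hx0 _ _).symm
      _ ≤ x ^ (1 : ℝ) := Real.rpow_le_rpow_of_exponent_le hx1 (by linarith)
      _ = x := Real.rpow_one x
  set E₁ := C₁ * M * x ^ (1 / 600 : ℝ) * ((U * x) ^ (1 / 2 : ℝ) + x ^ (5 / 6 - 1 / 100 : ℝ)) with hE₁
  set E₂ := C₁ * M * x ^ (1 / 600 : ℝ) *
    (x ^ (3 / 200 : ℝ) * (U ^ (3 / 2 : ℝ) + U * x ^ (1 / 6 : ℝ))) with hE₂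
  have hE₁0 : 0 ≤ E₁ := by positivity
  have hE₂0 : 0 ≤ E₂ := by positivity
  have hpg : Pg (cv α (rg 1)) := (pg_of_bdd hα).cv (pg_rg 1)
  have key : ∀ t, ‖SF l 2 (cv α (rg 1)) x t‖ ≤
      E₁ * (1 + |t|) ^ (1 / 600 : ℝ) + E₂ * (1 + |t|) ^ (2 + 1 / 600 : ℝ) := by
    intro t
    rw [SF_congr (g := cv α (fun _ => 1)) (fun n hn hsn =>
      cv_congr (fun _ _ _ => rfl) (fun d _ hd => u13_rg_one hd) hn hsn)]
    refine (hI x U t M α hU1 hUx hα hs).trans (le_of_eq ?_)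
    have ht : 0 < 1 + |t| := by positivity
    rw [Real.mul_rpow hx0.le ht.le, Real.rpow_add ht, hE₁, hE₂, Real.rpow_two]
    ring
  have hB := hc l _ _ x τ E₁ E₂ hpg ha ha1 hx0 hE₁0 hE₂0 key
  have hfin : C₂ * (E₁ * (1 + |τ| + (Real.sqrt (2 * (T ^ 2)⁻¹))⁻¹) ^ (1 / 600 : ℝ) +
      E₂ * (1 + |τ| + (Real.sqrt (2 * (T ^ 2)⁻¹))⁻¹) ^ (2 + 1 / 600 : ℝ)) ≤
      C₂ * C₁ * 60 * M * x ^ (5 / 6 - 1 / 150 : ℝ) := by
    set Q := 1 + |τ| + (Real.sqrt (2 * (T ^ 2)⁻¹))⁻¹ with hQdef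
    have hQp : 0 < Q := by positivity
    have q1 : Q ^ (1 / 600 : ℝ) ≤ 3 * x ^ (1 / 600 : ℝ) := by
      calc Q ^ (1 / 600 : ℝ) ≤ (3 * x) ^ (1 / 600 : ℝ) :=
            Real.rpow_le_rpow hQ0 (by linarith) (by norm_num)
        _ = 3 ^ (1 / 600 : ℝ) * x ^ (1 / 600 : ℝ) := Real.mul_rpow (by norm_num) hx0.le
        _ ≤ 3 * x ^ (1 / 600 : ℝ) := by
            refine mul_le_mul_of_nonneg_right ?_ (by positivity)
            simpa using Real.rpow_le_rpow_of_exponent_le (show (1 : ℝ) ≤ 3 by norm_num)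
              (show (1 / 600 : ℝ) ≤ 1 by norm_num)
    have q2 : Q ^ (2 + 1 / 600 : ℝ) ≤ 9 * P ^ 2 * (3 * x ^ (1 / 600 : ℝ)) := by
      rw [Real.rpow_add hQp, Real.rpow_two]
      refine mul_le_mul ?_ q1 (by positivity) (by positivity)
      nlinarith
    set X := x ^ (5 / 6 - 1 / 100 : ℝ) with hX
    have r1 : (U * x) ^ (1 / 2 : ℝ) ≤ X := by
      calc (U * x) ^ (1 / 2 : ℝ) ≤ (x ^ (1 / 3 : ℝ) * x ^ (1 : ℝ)) ^ (1 / 2 : ℝ) := by
            refine Real.rpow_le_rpow (by positivity) ?_ (by norm_num)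
            rw [Real.rpow_one]
            exact mul_le_mul_of_nonneg_right hU hx0.le
        _ = x ^ ((1 / 3 + 1) * (1 / 2) : ℝ) := by
            rw [← Real.rpow_add hx0, ← Real.rpow_mul hx0.le]
        _ ≤ X := Real.rpow_le_rpow_of_exponent_le hx1 (by norm_num)
    have r2 : U ^ (3 / 2 : ℝ) ≤ U * x ^ (1 / 6 : ℝ) := by
      calc U ^ (3 / 2 : ℝ) = U ^ (1 + 1 / 2 : ℝ) := by norm_num
        _ = U * U ^ (1 / 2 : ℝ) := by rw [Real.rpow_add hU0, Real.rpow_one]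
        _ ≤ U * (x ^ (1 / 3 : ℝ)) ^ (1 / 2 : ℝ) :=
            mul_le_mul_of_nonneg_left (Real.rpow_le_rpow hU0.le hU (by norm_num)) hU0.le
        _ = U * x ^ (1 / 6 : ℝ) := by
            rw [← Real.rpow_mul hx0.le]
            norm_num
    have r3 : x ^ (3 / 200 : ℝ) * (U * x ^ (1 / 6 : ℝ)) * P ^ 2 ≤ X := by
      calc x ^ (3 / 200 : ℝ) * (U * x ^ (1 / 6 : ℝ)) * P ^ 2
          = x ^ (3 / 200 : ℝ) * x ^ (1 / 3 + δ) * x ^ (1 / 6 : ℝ) * x ^ δ * x ^ δ * T := by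
            rw [hUdef, hP]
            field_simp
        _ ≤ x ^ (3 / 200 : ℝ) * x ^ (1 / 3 + δ) * x ^ (1 / 6 : ℝ) * x ^ δ * x ^ δ *
              x ^ (1 / 6 + δ / 2) := mul_le_mul_of_nonneg_left h2 (by positivity)
        _ = x ^ (3 / 200 + (1 / 3 + δ) + 1 / 6 + δ + δ + (1 / 6 + δ / 2) : ℝ) := by
            simp only [← Real.rpow_add hx0]
        _ ≤ X := Real.rpow_le_rpow_of_exponent_le hx1 (by linarith)
    have hXe : x ^ (5 / 6 - 1 / 150 : ℝ) = x ^ (1 / 600 : ℝ) * x ^ (1 / 600 : ℝ) * X := by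
      rw [hX, ← Real.rpow_add hx0, ← Real.rpow_add hx0]
      norm_num
    have hX0 : 0 < X := by positivity
    set y := x ^ (1 / 600 : ℝ) with hy
    have hy0 : 0 < y := by positivity
    have s1 : E₁ * Q ^ (1 / 600 : ℝ) ≤ C₁ * M * y * (2 * X) * (3 * y) :=
      mul_le_mul (mul_le_mul_of_nonneg_left (by linarith) (by positivity)) q1 (by positivity)
        (by positivity)
    have s2 : E₂ * Q ^ (2 + 1 / 600 : ℝ) ≤ C₁ * M * y * (18 * X) * (3 * y) := by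
      calc E₂ * Q ^ (2 + 1 / 600 : ℝ) ≤ (C₁ * M * y * (x ^ (3 / 200 : ℝ) *
            (2 * (U * x ^ (1 / 6 : ℝ))))) * (9 * P ^ 2 * (3 * y)) := by
            refine mul_le_mul (mul_le_mul_of_nonneg_left (mul_le_mul_of_nonneg_left (by linarith)
              (by positivity)) (by positivity)) q2 (by positivity) (by positivity)
        _ = C₁ * M * y * (18 * (x ^ (3 / 200 : ℝ) * (U * x ^ (1 / 6 : ℝ)) * P ^ 2)) * (3 * y) := by
            ring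
        _ ≤ _ := by gcongr
    calc C₂ * (E₁ * Q ^ (1 / 600 : ℝ) + E₂ * Q ^ (2 + 1 / 600 : ℝ))
        ≤ C₂ * (C₁ * M * y * (2 * X) * (3 * y) + C₁ * M * y * (18 * X) * (3 * y)) :=
          mul_le_mul_of_nonneg_left (add_le_add s1 s2) hC₂
      _ = _ := by rw [hXe]; ring
  exact ⟨hB.1.trans hfin, hB.2.trans hfin⟩

/-- `typeI_sum` (with `rg 1 = 1` on squarefree elements) through `coarse_poly` with the exponents
`ε` and `2 + ε`. -/
theorem H_partI (l : ℤ) {δ : ℝ} (hδ : 0 < δ) (hδ' : δ ≤ 1 / 100) : ∃ C x₀ : ℝ, 0 ≤ C ∧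
    ∀ x T τ : ℝ, x₀ ≤ x → x ^ δ ≤ T → T ≤ x ^ (1 / 6 + δ / 2) → |τ| ≤ T * x ^ δ →
    ‖SF l (2 * (T ^ 2)⁻¹) (fI 1 (x ^ (1 / 3 + δ) / T) (x ^ (1 / 3 + δ) / T)) x τ‖ ≤
      C * x ^ (5 / 6 - 1 / 200 : ℝ) := by
  obtain ⟨C, hC, h⟩ := u13_one l hδ hδ'
  refine ⟨C * 1801, 2 ^ δ⁻¹, by positivity, fun x T τ hx h1 h2 hτ => ?_⟩
  obtain ⟨hx1, hT2, hU1, hU⟩ := u13_par hδ hδ' hx h1 h2
  set U := x ^ (1 / 3 + δ) / T with hUdef
  have hx0 : 0 < x := by linarith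
  have hT : 0 < T := by linarith
  have hUx : U ≤ x := hU.trans (by
    simpa using Real.rpow_le_rpow_of_exponent_le hx1 (show (1 / 3 : ℝ) ≤ 1 by norm_num))
  have ha : 0 < 2 * (T ^ 2)⁻¹ := by positivity
  have hL0 : 0 ≤ Real.log x := Real.log_nonneg hx1
  have hcut : ∀ (f : O → ℂ), (∀ r, Prim r → Squarefree r → ‖f r‖ ≤ Real.log (Nr r)) →
      ∀ r, Prim r → Squarefree r → ‖cut (Iic U) f r‖ ≤ Real.log x := by
    intro f hf r hr hs
    by_cases h0 : cut (Iic U) f r = 0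
    · rw [h0, norm_zero]; exact hL0
    · exact (norm_cut_le _ _ _).trans ((hf r hr hs).trans
        (Real.log_le_log (Nr_pos hr.ne_zero) ((cut_ne_zero h0).1.trans hUx)))
  have hsupp : ∀ (f : O → ℂ) r, Prim r → Squarefree r → cut (Iic U) f r ≠ 0 → Nr r ≤ U :=
    fun f r _ _ h0 => (cut_ne_zero h0).1
  obtain ⟨b1, b1'⟩ := h x T τ 1 (cut (Iic U) (mr 1)) hx h1 h2 hτ
    (fun r _ _ => (norm_cut_le _ _ _).trans (u1v_norm_mr_le 1 r)) (hsupp _)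
  obtain ⟨b2, -⟩ := h x T τ (Real.log x) (cut (Iic U) (fun r => mr 1 r * lgn r)) hx h1 h2 hτ
    (hcut _ fun r hr _ => by
      have h0 := Real.log_nonneg (one_le_Nr hr.ne_zero)
      rw [norm_mul, lgn, Complex.norm_real, Real.norm_of_nonneg h0]
      exact mul_le_of_le_one_left h0 (u1v_norm_mr_le 1 r)) (hsupp _)
  obtain ⟨b3, -⟩ := h x T τ (Real.log x) (cut (Iic U) (al2 1 U U)) hx h1 h2 hτ
    (hcut _ fun r hr hs => norm_al2_le 1 U U hr hs) (hsupp _)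
  have p1 : Pg (cv (cut (Iic U) (mr 1)) (rg 1)) := ((pg_mr 1).cut _).cv (pg_rg 1)
  have p2 : Pg (cv (cut (Iic U) (fun r => mr 1 r * lgn r)) (rg 1)) :=
    (((pg_mr 1).mul pg_lg).cut _).cv (pg_rg 1)
  have p3 : Pg (cv (cut (Iic U) (al2 1 U U)) (rg 1)) := ((pg_al2 1 U U).cut _).cv (pg_rg 1)
  have pc : Pg (fun _ => (Real.log x : ℂ)) := pg_of_bdd (fun _ _ _ => le_rfl)
  have p1' : Pg (fun n => cv (cut (Iic U) (mr 1)) (rg 1) n * (lgn n - (Real.log x : ℂ))) :=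
    p1.mul (pg_lg.sub pc)
  have e : fI 1 U U = fun n => ((cv (cut (Iic U) (mr 1)) (rg 1) n * (lgn n - (Real.log x : ℂ)) +
      (Real.log x : ℂ) * cv (cut (Iic U) (mr 1)) (rg 1) n) -
      cv (cut (Iic U) (fun r => mr 1 r * lgn r)) (rg 1) n) - cv (cut (Iic U) (al2 1 U U)) (rg 1) n := by
    funext n
    rw [fI]
    ring
  rw [e, SF_sub ((p1'.add (pc.mul p1)).sub p2) p3 l ha hx0, SF_sub (p1'.add (pc.mul p1)) p2 l ha hx0,
    SF_add p1' (pc.mul p1) l ha hx0, SF_const_mul]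
  refine (norm_sub_le _ _).trans ((add_le_add ((norm_sub_le _ _).trans (add_le_add
    ((norm_add_le _ _).trans (add_le_add b1' (le_of_eq (norm_mul _ _)))) b2)) b3).trans ?_)
  rw [Complex.norm_real, Real.norm_of_nonneg hL0]
  have hL : Real.log x ≤ 600 * x ^ (1 / 600 : ℝ) := by
    have := Real.log_le_rpow_div hx0.le (show (0 : ℝ) < 1 / 600 by norm_num)
    linarith
  have hy : 1 ≤ x ^ (1 / 600 : ℝ) := Real.one_le_rpow hx1 (by norm_num)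
  have hXe : x ^ (5 / 6 - 1 / 200 : ℝ) = x ^ (1 / 600 : ℝ) * x ^ (5 / 6 - 1 / 150 : ℝ) := by
    rw [← Real.rpow_add hx0]
    norm_num
  rw [hXe]
  set X := x ^ (5 / 6 - 1 / 150 : ℝ) with hX
  have hX0 : 0 < X := by positivity
  have hCX : 0 ≤ C * X := by positivity
  have b4 := mul_le_mul_of_nonneg_left b1 hL0
  nlinarith [mul_le_mul_of_nonneg_left hL hCX, mul_le_mul_of_nonneg_left hy hCX]

/-- `vaughan` with `w = 1`, `U = R = x^{1/3+δ} / T` (so `U³ ≤ x`), `H_bil`, `small_primes`. -/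
theorem thmEH (l : ℤ) {δ : ℝ} (hδ : 0 < δ) (hδ' : δ ≤ 1 / 100) : ∃ s : ℝ, 0 < s ∧ ∃ C x₀ : ℝ, 0 ≤ C ∧
    ∀ x T τ : ℝ, x₀ ≤ x → x ^ δ ≤ T → T ≤ x ^ (1 / 6 + δ / 2) → |τ| ≤ T * x ^ δ →
    ‖SF l (2 * (T ^ 2)⁻¹) Lp x τ‖ ≤ C * x ^ (5 / 6 - s) := by
  obtain ⟨s, hs, C₁, x₁, hC₁, hb⟩ := H_bil hδ hδ'
  obtain ⟨C₂, x₂, hC₂, hI⟩ := H_partI l hδ hδ'
  obtain ⟨C₃, hC₃, hp⟩ := small_primes
  obtain ⟨D, hD, hd⟩ := dv_le hs
  set M := 1 + D + s⁻¹ with hM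
  have hsi : 0 < s⁻¹ := inv_pos.2 hs
  refine ⟨min s (1 / 200), lt_min hs (by norm_num), C₃ + C₂ + 2 * (C₁ * M ^ 2),
    max (2 ^ δ⁻¹) (max x₁ x₂), by positivity, fun x T τ hx h1 h2 hτ => ?_⟩
  obtain ⟨hx, hx₁, hx₂⟩ : 2 ^ δ⁻¹ ≤ x ∧ x₁ ≤ x ∧ x₂ ≤ x := by simpa using hx
  obtain ⟨hx1, hT2, hU1, hU⟩ := u13_par hδ hδ' hx h1 h2
  have b2 := hI x T τ hx₂ h1 h2 hτ
  have hb' := fun α β => hb l x T τ M α β hx₁ h1 h2
  set U := x ^ (1 / 3 + δ) / T with hUdef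
  have hx0 : 0 < x := by linarith
  have hT : 0 < T := by linarith
  have hU0 : 0 < U := by linarith
  have ha : 0 < 2 * (T ^ 2)⁻¹ := by positivity
  have he : Real.exp (-1) ≤ 1 := Real.exp_le_one_iff.2 (by norm_num)
  have he0 := Real.exp_pos (-1)
  have hUe : U * Real.exp (-1) ≤ U := mul_le_of_le_one_right hU0.le he
  have hU3 : U * U * U ≤ x := by
    calc U * U * U ≤ x ^ (1 / 3 : ℝ) * x ^ (1 / 3 : ℝ) * x ^ (1 / 3 : ℝ) := by gcongr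
      _ = x := by
        rw [← Real.rpow_add hx0, ← Real.rpow_add hx0]
        norm_num
  have m1 : ∀ n, Prim n → (1 : ℝ) ≤ M * Nr n ^ s := fun n hn =>
    one_le_mul_of_one_le_of_one_le (by linarith) (Real.one_le_rpow (one_le_Nr hn.ne_zero) hs.le)
  have m2 : ∀ n, Prim n → Real.log (Nr n) ≤ M * Nr n ^ s := fun n hn => by
    refine (Real.log_le_rpow_div (Nr_nonneg n) hs).trans ?_
    rw [div_eq_inv_mul]
    exact mul_le_mul_of_nonneg_right (by linarith) (Real.rpow_nonneg (Nr_nonneg n) _)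
  have m3 : ∀ n, Prim n → dv n ≤ M * Nr n ^ s := fun n hn =>
    (hd n hn.ne_zero).trans
      (mul_le_mul_of_nonneg_right (by linarith) (Real.rpow_nonneg (Nr_nonneg n) _))
  have b1 := hp l _ U x τ ha hU0.le
  have b3 := hb' (cut (Ioi U) (al2 1 U U)) (rg 1)
    (fun n hn hs => (norm_cut_le _ _ _).trans ((norm_al2_le 1 U U hn hs).trans (m2 n hn)))
    (fun n hn _ => (norm_rg_le 1 n).trans (m1 n hn)) (fun a b ha' hb' h3 _ h5 => by
      obtain ⟨h6, h7⟩ := cut_ne_zero h3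
      have h8 := (al2_supp ha' h7).2
      refine ⟨hUe.trans (le_of_lt h6), ?_⟩
      rw [Nr_mul] at h5
      have h9 := Nr_nonneg b
      refine le_of_mul_le_mul_left ?_ (mul_pos hU0 hU0)
      calc U * U * (U * Real.exp (-1)) = U * U * U * Real.exp (-1) := by ring
        _ ≤ x * Real.exp (-1) := mul_le_mul_of_nonneg_right hU3 he0.le
        _ ≤ Nr a * Nr b := h5
        _ ≤ U * U * Nr b := mul_le_mul_of_nonneg_right h8 h9)
  have b5 := hb' (cv (cut (Ioi U) (mr 1)) (rg 1)) (cut (Ioi U) Lp)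
    (fun n hn _ => by
      refine le_trans ?_ (m3 n hn)
      refine (norm_sum_le _ _).trans ((Finset.sum_le_card_nsmul _ _ 1 fun d _ => ?_).trans ?_)
      · rw [norm_mul]
        exact mul_le_one₀ ((norm_cut_le _ _ _).trans (u1v_norm_mr_le 1 d)) (norm_nonneg _)
          (norm_rg_le 1 _)
      · rw [nsmul_eq_mul, mul_one, dv])
    (fun n hn _ => (norm_cut_le _ _ _).trans ((norm_Lp_le hn.ne_zero).trans (m2 n hn)))
    (fun a b ha' hb' h3 h4 _ => by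
      refine ⟨hUe.trans ?_, hUe.trans (le_of_lt (cut_ne_zero h4).1)⟩
      obtain ⟨d, e, -, he', rfl, h6, -⟩ := cv_ne_zero ha' h3
      have h7 : U < Nr d := (cut_ne_zero h6).1
      rw [Nr_mul]
      exact h7.le.trans (le_mul_of_one_le_right (Nr_nonneg d) (one_le_Nr he'.ne_zero)))
  have b4 : ‖SF l (2 * (T ^ 2)⁻¹) (cv (cv (rg 1) (cut (Ioi U) Lp)) (cut (Ioc U U) (mr 1))) x τ‖ = 0 := by
    simp [SF, sm, cv, cut]
  refine (SF_vaughan l hU1 le_rfl U ha hx0 τ).trans ?_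
  set X := x ^ (5 / 6 - min s (1 / 200)) with hX
  have c1 : U ≤ X := hU.trans (Real.rpow_le_rpow_of_exponent_le hx1 (by
    linarith [min_le_right s (1 / 200)]))
  have c2 : x ^ (5 / 6 - 1 / 200 : ℝ) ≤ X := Real.rpow_le_rpow_of_exponent_le hx1 (by
    linarith [min_le_right s (1 / 200)])
  have c3 : x ^ (5 / 6 - s) ≤ X := Real.rpow_le_rpow_of_exponent_le hx1 (by
    linarith [min_le_left s (1 / 200)])
  have d1 := mul_le_mul_of_nonneg_left c1 hC₃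
  have d2 := mul_le_mul_of_nonneg_left c2 hC₂
  have d3 := mul_le_mul_of_nonneg_left c3 (show 0 ≤ C₁ * M ^ 2 by positivity)
  rw [b4]
  linarith

end Crest.Agent.R012

end
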