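import Crest.Agent.R012.U11
import Crest.Agent.R012.U13

/-! # Row 12: the two integrands -/

set_option autoImplicit false

noncomputable section

open scoped BigOperators ComplexConjugate Topology
open Complex MeasureTheory Filter Set Crest.Agent.R017

namespace Crest.Agent.R012

theorem topa_gr : Gr 1 Lp := fun n hn _ => by
  have h1 := Real.log_le_sub_one_of_pos (Nr_pos hn.ne_zero)
  have h2 := norm_Lp_le hn.ne_zero
  linarith

theorem topa_triv : ∃ C : ℝ, 0 ≤ C ∧ ∀ (l : ℤ) (Y : ℝ), 0 < Y → ‖SF l 1 Lp Y 0‖ ≤ C * Y := by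
  obtain ⟨C, hC, h⟩ := cheb_W
  have hc := cst_pos
  refine ⟨(1 + cst) * C, by positivity, fun l Y hY => ?_⟩
  obtain ⟨h1, h2⟩ := h Y hY
  have h3 : ‖SF l 1 Lp Y 0‖ ≤ (1 + cst) *
      ∑' n : O, if Prim n then ‖Lp n‖ * W 8 (Nr n / Y) * (1 + Nr n / Y) ^ 2 else 0 := by
    refine tsum_of_norm_bounded (h1.hasSum.mul_left (1 + cst)) fun n => ?_
    split_ifs with hn
    · rw [w2_norm_term (c := fun n => Lp n * az l n * FF n) hn, norm_mul, norm_mul,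
        norm_az l hn.ne_zero, mul_one]
      have h4 := W_mono one_pos (show (1 : ℝ) ≤ 8 by norm_num) (Nr n / Y)
      have h5 := norm_FF_le hn
      have h6 := (W_pos 1 (Nr n / Y)).le
      have h7 := (W_pos 8 (Nr n / Y)).le
      have h8 : 1 ≤ (1 + Nr n / Y) ^ 2 :=
        one_le_pow₀ (le_add_of_nonneg_right (div_nonneg (Nr_nonneg n) hY.le))
      calc ‖Lp n‖ * ‖FF n‖ * W 1 (Nr n / Y) ≤ ‖Lp n‖ * (1 + cst) * (W 8 (Nr n / Y) * 1) := by
            rw [mul_one]; gcongr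
        _ ≤ ‖Lp n‖ * (1 + cst) * (W 8 (Nr n / Y) * (1 + Nr n / Y) ^ 2) := by gcongr
        _ = _ := by ring
    · simp
  calc _ ≤ (1 + cst) * (C * Y * min 1 Y) := h3.trans (mul_le_mul_of_nonneg_left h2 (by positivity))
    _ ≤ (1 + cst) * (C * Y * 1) := by gcongr; exact min_le_left _ _
    _ = _ := by ring

/-- For `e^v ≥ √X` use `coarse_sup` (`1 → 2`) and `thmB`, otherwise `cheb_W`. -/
theorem top_one (l : ℤ) : ∃ C x₀ : ℝ, 0 ≤ C ∧ ∀ X v : ℝ, x₀ ≤ X → v ≤ Real.log X →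
    ‖SF l 1 Lp (Real.exp v) 0‖ ≤ C * (Real.exp (5 / 6 * v) * Real.log X ^ (-(1 / 50) : ℝ) +
      Real.exp (v / 2) * X ^ (1 / 4 : ℝ)) := by
  obtain ⟨C₀, hC₀, h₀⟩ := topa_triv
  obtain ⟨C₁, hC₁, h₁⟩ := coarse_sup
  obtain ⟨C₂, x₂, hC₂, h₂⟩ := thmB l 1
  refine ⟨C₀ + C₁ + 2 * C₂, (max x₂ 3) ^ 2, by positivity, fun X v hX hv => ?_⟩
  have hm : 3 ≤ max x₂ 3 := le_max_right _ _
  have hX9 : 9 ≤ X := by nlinarith
  have hX0 : 0 < X := by linarith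
  have hL : 0 < Real.log X := Real.log_pos (by linarith)
  have hA : 0 ≤ Real.exp (5 / 6 * v) * Real.log X ^ (-(1 / 50) : ℝ) := by positivity
  have hB : 0 ≤ Real.exp (v / 2) * X ^ (1 / 4 : ℝ) := by positivity
  rcases le_total v (Real.log X / 2) with h | h
  · have h3 : Real.exp v ≤ Real.exp (v / 2) * X ^ (1 / 4 : ℝ) := by
      rw [Real.rpow_def_of_pos hX0, ← Real.exp_add, Real.exp_le_exp]
      linarith
    have h4 := (h₀ l _ (Real.exp_pos v)).trans (mul_le_mul_of_nonneg_left h3 hC₀)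
    nlinarith [mul_nonneg hC₀ hA, mul_nonneg hC₁ hA, mul_nonneg hC₂ hA, mul_nonneg hC₁ hB,
      mul_nonneg hC₂ hB]
  · have hv0 : 0 < v := by linarith
    have h3 : max x₂ 3 ≤ Real.exp v := by
      refine (pow_le_pow_iff_left₀ (by linarith) (Real.exp_pos v).le two_ne_zero).1 ?_
      refine hX.trans ?_
      rw [← Real.exp_nat_mul, ← Real.exp_log hX0, Real.exp_le_exp]
      push_cast
      linarith
    have h4 := (h₁ l Lp 1 2 (Real.exp v) 0 v 1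
      (C₂ * Real.exp v ^ (5 / 6 : ℝ) * Real.log (Real.exp v) ^ (-(1 / 50) : ℝ)) topa_gr one_pos
      (by norm_num) (by norm_num) (hm.trans h3) (by simp) fun t ht =>
        h₂ _ _ ((le_max_left _ _).trans h3) (by simpa using ht)).1
    rw [Real.log_exp, ← Real.exp_mul, mul_comm v] at h4
    have h5 : v ^ (-(1 / 50) : ℝ) ≤ 2 * Real.log X ^ (-(1 / 50) : ℝ) := by
      calc _ ≤ (Real.log X / 2) ^ (-(1 / 50) : ℝ) :=
            Real.rpow_le_rpow_of_nonpos (by positivity) h (by norm_num)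
        _ = 2 ^ (1 / 50 : ℝ) * Real.log X ^ (-(1 / 50) : ℝ) := by
            rw [Real.div_rpow hL.le (by norm_num), Real.rpow_neg (show (0 : ℝ) ≤ 2 by norm_num),
              div_inv_eq_mul, mul_comm]
        _ ≤ _ := by
            refine mul_le_mul_of_nonneg_right ?_ (by positivity)
            simpa using Real.rpow_le_rpow_of_exponent_le (x := 2) one_le_two
              (show (1 / 50 : ℝ) ≤ 1 by norm_num)
    have h6 : C₁ * 1 / Real.exp v ≤ C₁ * (Real.exp (v / 2) * X ^ (1 / 4 : ℝ)) := by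
      rw [mul_div_assoc]
      refine mul_le_mul_of_nonneg_left ?_ hC₁
      have h7 : 1 / Real.exp v ≤ 1 := by
        rw [div_le_one (Real.exp_pos v)]
        exact Real.one_le_exp hv0.le
      exact h7.trans (one_le_mul_of_one_le_of_one_le (Real.one_le_exp (by linarith))
        (Real.one_le_rpow (by linarith) (by norm_num)))
    have h8 : C₂ * Real.exp (5 / 6 * v) * v ^ (-(1 / 50) : ℝ) ≤
        2 * C₂ * (Real.exp (5 / 6 * v) * Real.log X ^ (-(1 / 50) : ℝ)) :=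
      (mul_le_mul_of_nonneg_left h5 (by positivity)).trans (le_of_eq (by ring))
    nlinarith [mul_nonneg hC₀ hA, mul_nonneg hC₁ hA, mul_nonneg hC₀ hB, mul_nonneg hC₂ hB]

theorem topa_step : ∃ C : ℝ, 0 ≤ C ∧ ∀ (l : ℤ) (a' X s E : ℝ), 3 ≤ X → 1 ≤ s → 2 * (s ^ 2)⁻¹ ≤ a' →
    a' ≤ 4 → (∀ t, |t| ≤ Real.log X * s → ‖SF l a' Lp X t‖ ≤ E) →
    ‖SF l (s ^ 2)⁻¹ (fun n => Lp n * (lgn n - (Real.log X : ℂ))) X 0‖ ≤ C * (s⁻¹ * E + 1 / X) := by
  obtain ⟨C, hC, h⟩ := coarse_sup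
  refine ⟨C, hC, fun l a' X s E hX hs ha ha' hE => ?_⟩
  have hs0 : 0 < s := by linarith
  have e : Real.sqrt (s ^ 2)⁻¹ = s⁻¹ := by rw [Real.sqrt_inv, Real.sqrt_sq hs0.le]
  have h1 := (h l Lp (s ^ 2)⁻¹ a' X 0 (Real.log X * s) 1 E topa_gr (by positivity) ha ha' hX
    (by rw [e]; exact le_of_eq (by field_simp)) fun t ht => by rw [zero_add]; exact hE t ht).2
  rwa [e] at h1

/-- `coarse_sup` with `thmB` for `s ≤ (log X)^{60}`, `thmEM` for `s ≤ X^{δ/2}`, `thmEH` beyond. -/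
theorem top_two (l : ℤ) : ∃ C x₀ : ℝ, 0 ≤ C ∧ ∀ X s : ℝ, x₀ ≤ X → 1 ≤ s →
    s ≤ X ^ (1 / 6 : ℝ) * Real.log X ^ 3 →
    ‖SF l (s ^ 2)⁻¹ (fun n => Lp n * (lgn n - (Real.log X : ℂ))) X 0‖ ≤
      C * X ^ (5 / 6 : ℝ) * (Real.log X ^ (-(1 / 50) : ℝ) * (Iic (Real.log X ^ 60)).indicator (fun s => s⁻¹) s +
        (Real.log X ^ 3)⁻¹ * s⁻¹) := by
  obtain ⟨C₀, hC₀, h₀⟩ := topa_step
  obtain ⟨C₁, x₁, hC₁, h₁⟩ := thmB l 61
  obtain ⟨δ, hδ, hδ', C₂, x₂, hC₂, h₂⟩ := thmEM l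
  obtain ⟨σ, hσ, C₃, x₃, hC₃, h₃⟩ := thmEH l (δ := δ / 2) (by positivity) (by linarith)
  obtain ⟨x₄, hx₄, h₄⟩ := ww_facts 6 (ρ := min (δ / 4) σ) (lt_min (by positivity) hσ)
  refine ⟨C₀ * (C₁ + C₂ + C₃ + 1), max (max x₁ x₂) (max x₃ x₄), by positivity,
    fun X s hX hs hsX => ?_⟩
  simp only [max_le_iff] at hX
  obtain ⟨⟨hX₁, hX₂⟩, hX₃, hX₄⟩ := hX
  have hX16 : 16 ≤ X := hx₄.trans hX₄
  have hX1 : 1 ≤ X := by linarith
  have hX0 : 0 < X := by linarith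
  have hs0 : 0 < s := by linarith
  have hL : 1 ≤ Real.log X := by
    rw [Real.le_log_iff_exp_le hX0]
    have := Real.exp_one_lt_d9
    linarith
  have h6 : Real.log X ^ 6 ≤ X ^ min (δ / 4) σ := by
    have := (h₄ X hX₄).2.2.2.2.2
    rwa [show (6 : ℝ) = ((6 : ℕ) : ℝ) by norm_num, Real.rpow_natCast] at this
  set L := Real.log X with hLdef
  have hL0 : 0 < L := by linarith
  have h63 : L ^ 3 ≤ L ^ 6 := pow_le_pow_right₀ hL (by norm_num)
  have h31 : L ≤ L ^ 3 := le_self_pow₀ hL (by norm_num)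
  have g₁ : L ^ 6 ≤ X ^ (δ / 4) := h6.trans (Real.rpow_le_rpow_of_exponent_le hX1 (min_le_left _ _))
  have g₂ : L ^ 3 ≤ X ^ σ :=
    h63.trans (h6.trans (Real.rpow_le_rpow_of_exponent_le hX1 (min_le_right _ _)))
  have g₃ : L ≤ X ^ (δ / 2) :=
    h31.trans (h63.trans (g₁.trans (Real.rpow_le_rpow_of_exponent_le hX1 (by linarith))))
  have hP : 0 < X ^ (5 / 6 : ℝ) := by positivity
  -- the error `1 / X`
  have g₄ : 1 / X ≤ X ^ (5 / 6 : ℝ) * ((L ^ 3)⁻¹ * s⁻¹) := by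
    rw [← mul_inv, ← div_eq_mul_inv, div_le_div_iff₀ hX0 (by positivity), one_mul]
    calc L ^ 3 * s ≤ L ^ 3 * (X ^ (1 / 6 : ℝ) * L ^ 3) := by gcongr
      _ = X ^ (1 / 6 : ℝ) * L ^ 6 := by ring
      _ ≤ X ^ (5 / 6 : ℝ) * X ^ (1 : ℝ) :=
          mul_le_mul (Real.rpow_le_rpow_of_exponent_le hX1 (by norm_num))
            (g₁.trans (Real.rpow_le_rpow_of_exponent_le hX1 (by linarith))) (by positivity) hP.le
      _ = _ := by rw [Real.rpow_one]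
  have hs2 : (s ^ 2)⁻¹ ≤ 1 := inv_le_one_of_one_le₀ (one_le_pow₀ hs)
  have hB : 0 ≤ X ^ (5 / 6 : ℝ) * ((L ^ 3)⁻¹ * s⁻¹) := by positivity
  by_cases c1 : s ≤ L ^ 60
  · rw [Set.indicator_of_mem (show s ∈ Iic (L ^ 60) from c1)]
    have k := h₀ l 2 X s _ (by linarith) hs (by linarith) (by norm_num) fun t ht =>
      h₁ X t hX₁ (ht.trans (by
        rw [show (61 : ℝ) = ((61 : ℕ) : ℝ) by norm_num, Real.rpow_natCast, pow_succ' _ 60]
        exact mul_le_mul_of_nonneg_left c1 hL0.le))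
    have hA : 0 ≤ X ^ (5 / 6 : ℝ) * (L ^ (-(1 / 50) : ℝ) * s⁻¹) := by positivity
    refine k.trans ?_
    rw [mul_assoc C₀, mul_assoc C₀]
    refine mul_le_mul_of_nonneg_left ?_ hC₀
    nlinarith [mul_nonneg hC₁ hB, mul_nonneg hC₂ hA, mul_nonneg hC₂ hB, mul_nonneg hC₃ hA,
      mul_nonneg hC₃ hB]
  rw [Set.indicator_of_notMem (show s ∉ Iic (L ^ 60) from c1), mul_zero, zero_add]
  have c1' : L ^ 60 ≤ s := (not_le.1 c1).le
  have fin : ∀ C' E : ℝ, 0 ≤ C' → C' ≤ C₁ + C₂ + C₃ → E ≤ C' * X ^ (5 / 6 : ℝ) / L ^ 3 →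
      C₀ * (s⁻¹ * E + 1 / X) ≤ C₀ * (C₁ + C₂ + C₃ + 1) * X ^ (5 / 6 : ℝ) * ((L ^ 3)⁻¹ * s⁻¹) := by
    intro C' E h1 h2 h3
    rw [mul_assoc C₀, mul_assoc C₀]
    refine mul_le_mul_of_nonneg_left ?_ hC₀
    have h4 : s⁻¹ * E ≤ C' * (X ^ (5 / 6 : ℝ) * ((L ^ 3)⁻¹ * s⁻¹)) :=
      (mul_le_mul_of_nonneg_left h3 (by positivity)).trans (le_of_eq (by ring))
    nlinarith [mul_le_mul_of_nonneg_right h2 hB]
  by_cases c2 : s ≤ X ^ (δ / 2)
  · have e1 : L ^ (-120 : ℝ) = ((L ^ 60) ^ 2)⁻¹ := by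
      rw [Real.rpow_neg hL0.le, show (120 : ℝ) = ((120 : ℕ) : ℝ) by norm_num, Real.rpow_natCast,
        ← pow_mul]
    have e2 : (s ^ 2)⁻¹ ≤ L ^ (-120 : ℝ) := by
      rw [e1]
      exact inv_anti₀ (by positivity) (pow_le_pow_left₀ (by positivity) c1' 2)
    have e3 : L ^ (-120 : ℝ) ≤ 1 := Real.rpow_le_one_of_one_le_of_nonpos hL (by norm_num)
    have k := h₀ l (2 * L ^ (-120 : ℝ)) X s _ (by linarith) hs (by linarith) (by linarith)
      fun t ht => h₂ X t hX₂ (ht.trans (by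
        rw [show δ = δ / 2 + δ / 2 by ring, Real.rpow_add hX0]
        exact mul_le_mul g₃ c2 hs0.le (by positivity)))
    exact k.trans (fin C₂ _ hC₂ (by linarith) le_rfl)
  · have e1 : s ≤ X ^ (1 / 6 + δ / 2 / 2) := by
      rw [Real.rpow_add hX0, show δ / 2 / 2 = δ / 4 by ring]
      exact hsX.trans (mul_le_mul_of_nonneg_left (h63.trans g₁) (by positivity))
    have k := h₀ l (2 * (s ^ 2)⁻¹) X s _ (by linarith) hs le_rfl (by linarith)
      fun t ht => h₃ X s t hX₃ (not_le.1 c2).le e1 (ht.trans (by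
        rw [mul_comm]
        exact mul_le_mul_of_nonneg_left g₃ hs0.le))
    refine k.trans (fin C₃ _ hC₃ (by linarith) ?_)
    rw [Real.rpow_sub hX0, mul_div_assoc]
    exact mul_le_mul_of_nonneg_left (div_le_div_of_nonneg_left hP.le (by positivity) g₂) hC₃

end Crest.Agent.R012

end
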