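import Crest.Agent.R012.UDefs

/-! # Row 12: convolutions, growth conditions -/

set_option autoImplicit false

noncomputable section

open scoped BigOperators ComplexConjugate Topology
open Complex MeasureTheory Filter Set Crest.Agent.R017

namespace Crest.Agent.R012

theorem u1_div {n d : O} (hn : Prim n) (hd : d ∈ pdiv n) :
    Prim d ∧ Prim (n / d) ∧ d * (n / d) = n ∧ n / d ∈ pdiv n := by
  obtain ⟨h1, h2⟩ := (mem_pdiv hn.ne_zero).1 hd
  have e := EuclideanDomain.mul_div_cancel' h1.ne_zero h2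
  have h3 : Prim (n / d) := h1.of_mul (e.symm ▸ hn)
  exact ⟨h1, h3, e, (mem_pdiv hn.ne_zero).2 ⟨h3, Dvd.intro_left d e⟩⟩

theorem u1_div_div {n d : O} (hn : Prim n) (hd : d ∈ pdiv n) : n / (n / d) = d := by
  obtain ⟨-, h2, h3, -⟩ := u1_div hn hd
  conv_lhs => enter [1]; rw [← h3]
  exact mul_div_cancel_right₀ _ h2.ne_zero

theorem u1_mem {n d : O} (hn : Prim n) : d ∈ pdiv n ↔ ∃ m, Prim d ∧ Prim m ∧ n = d * m := by
  constructor
  · intro hd
    obtain ⟨h1, h2, h3, -⟩ := u1_div hn hd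
    exact ⟨_, h1, h2, h3.symm⟩
  · rintro ⟨m, h1, -, h3⟩
    exact (mem_pdiv hn.ne_zero).2 ⟨h1, Dvd.intro _ h3.symm⟩

theorem u1_env_nonneg {M x : ℝ} {f : O → ℂ} (h : EnvS M x f) (hx : 0 < x) : 0 ≤ M := by
  have h1 := (norm_nonneg _).trans (h 1 prim_one squarefree_one)
  rw [Nr_one] at h1
  exact nonneg_of_mul_nonneg_left h1 (by positivity)

theorem u1_norm {f : O → ℂ} (hf : Pg f) : ∃ K A : ℝ, 0 ≤ K ∧ 0 ≤ A ∧
    ∀ n, Prim n → Squarefree n → ‖f n‖ ≤ K * Nr n ^ A := by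
  obtain ⟨K, A, h⟩ := hf
  have hK : 0 ≤ K := by
    have := (norm_nonneg _).trans (h 1 prim_one squarefree_one)
    rwa [Nr_one, Real.one_rpow, mul_one] at this
  refine ⟨K, max A 0, hK, le_max_right _ _, fun n hn hs => (h n hn hs).trans ?_⟩
  exact mul_le_mul_of_nonneg_left
    (Real.rpow_le_rpow_of_exponent_le (one_le_Nr hn.ne_zero) (le_max_left _ _)) hK

theorem cv_comm (f g : O → ℂ) {n : O} (hn : Prim n) : cv f g n = cv g f n := by
  unfold cv
  refine Finset.sum_bij' (fun d _ => n / d) (fun d _ => n / d) ?_ ?_ ?_ ?_ ?_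
  · intro d hd
    exact (u1_div hn hd).2.2.2
  · intro d hd
    exact (u1_div hn hd).2.2.2
  · intro d hd
    exact u1_div_div hn hd
  · intro d hd
    exact u1_div_div hn hd
  · intro d hd
    rw [u1_div_div hn hd, mul_comm]

theorem cv_assoc (f g h : O → ℂ) {n : O} (hn : Prim n) : cv (cv f g) h n = cv f (cv g h) n := by
  unfold cv
  simp only [Finset.sum_mul, Finset.mul_sum]
  rw [Finset.sum_sigma', Finset.sum_sigma']
  refine Finset.sum_bij' (fun x _ => ⟨x.2, x.1 / x.2⟩) (fun x _ => ⟨x.1 * x.2, x.1⟩) ?_ ?_ ?_ ?_ ?_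
  · rintro ⟨d, e⟩ hx
    obtain ⟨h1, h2⟩ := Finset.mem_sigma.1 hx
    dsimp only at h1 h2 ⊢
    obtain ⟨m, hd, hm, rfl⟩ := (u1_mem hn).1 h1
    obtain ⟨k, he, hk, rfl⟩ := (u1_mem hd).1 h2
    refine Finset.mem_sigma.2 ⟨(u1_mem hn).2 ⟨k * m, he, hk.mul hm, mul_assoc _ _ _⟩, ?_⟩
    dsimp only
    rw [mul_assoc, mul_div_cancel_left₀ _ he.ne_zero, mul_div_cancel_left₀ _ he.ne_zero]
    exact (u1_mem (hk.mul hm)).2 ⟨m, hk, hm, rfl⟩
  · rintro ⟨e, k⟩ hx
    obtain ⟨h1, h2⟩ := Finset.mem_sigma.1 hx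
    dsimp only at h1 h2 ⊢
    obtain ⟨m, he, hm, rfl⟩ := (u1_mem hn).1 h1
    rw [mul_div_cancel_left₀ _ he.ne_zero] at h2
    obtain ⟨j, hk, hj, rfl⟩ := (u1_mem hm).1 h2
    exact Finset.mem_sigma.2 ⟨(u1_mem hn).2 ⟨j, he.mul hk, hj, (mul_assoc _ _ _).symm⟩,
      (u1_mem (he.mul hk)).2 ⟨k, he, hk, rfl⟩⟩
  · rintro ⟨d, e⟩ hx
    obtain ⟨h1, h2⟩ := Finset.mem_sigma.1 hx
    dsimp only at h1 h2 ⊢
    obtain ⟨m, hd, hm, rfl⟩ := (u1_mem hn).1 h1
    obtain ⟨k, he, hk, rfl⟩ := (u1_mem hd).1 h2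
    simp only [mul_div_cancel_left₀ _ he.ne_zero]
  · rintro ⟨e, k⟩ hx
    obtain ⟨h1, h2⟩ := Finset.mem_sigma.1 hx
    dsimp only at h1 h2 ⊢
    obtain ⟨m, he, hm, rfl⟩ := (u1_mem hn).1 h1
    simp only [mul_div_cancel_left₀ _ he.ne_zero]
  · rintro ⟨d, e⟩ hx
    obtain ⟨h1, h2⟩ := Finset.mem_sigma.1 hx
    dsimp only at h1 h2 ⊢
    obtain ⟨m, hd, hm, rfl⟩ := (u1_mem hn).1 h1
    obtain ⟨k, he, hk, rfl⟩ := (u1_mem hd).1 h2
    rw [mul_div_cancel_left₀ _ hd.ne_zero, mul_div_cancel_left₀ _ he.ne_zero, mul_assoc e k m,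
      mul_div_cancel_left₀ _ he.ne_zero, mul_div_cancel_left₀ _ hk.ne_zero, mul_assoc]

theorem cv_add_left (f f' g : O → ℂ) (n : O) :
    cv (fun d => f d + f' d) g n = cv f g n + cv f' g n := by
  simp only [cv, add_mul, Finset.sum_add_distrib]

theorem cv_add_right (f g g' : O → ℂ) (n : O) :
    cv f (fun d => g d + g' d) n = cv f g n + cv f g' n := by
  simp only [cv, mul_add, Finset.sum_add_distrib]

theorem cv_congr {f f' g g' : O → ℂ} (hf : ∀ d, Prim d → Squarefree d → f d = f' d)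
    (hg : ∀ d, Prim d → Squarefree d → g d = g' d) {n : O} (hn : Prim n) (hs : Squarefree n) :
    cv f g n = cv f' g' n := by
  refine Finset.sum_congr rfl fun d hd => ?_
  obtain ⟨h1, h2, h3, -⟩ := u1_div hn hd
  rw [← h3] at hs
  rw [hf d h1 hs.of_mul_left, hg _ h2 hs.of_mul_right]

theorem cv_ne_zero {f g : O → ℂ} {n : O} (hn : Prim n) (h : cv f g n ≠ 0) :
    ∃ a b : O, Prim a ∧ Prim b ∧ n = a * b ∧ f a ≠ 0 ∧ g b ≠ 0 := by
  obtain ⟨d, hd, h0⟩ := Finset.exists_ne_zero_of_sum_ne_zero h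
  obtain ⟨h1, h2, h3, -⟩ := u1_div hn hd
  exact ⟨d, n / d, h1, h2, h3.symm, left_ne_zero_of_mul h0, right_ne_zero_of_mul h0⟩

theorem cut_split (y : ℝ) (f : O → ℂ) (n : O) : f n = cut (Iic y) f n + cut (Ioi y) f n := by
  unfold cut
  by_cases h : Nr n ≤ y
  · rw [if_pos (mem_Iic.2 h), if_neg (fun h' => absurd (mem_Ioi.1 h') (not_lt.2 h)), add_zero]
  · rw [if_neg (fun h' => h (mem_Iic.1 h')), if_pos (mem_Ioi.2 (not_le.1 h)), zero_add]

theorem cut_cut (I J : Set ℝ) (f : O → ℂ) : cut I (cut J f) = cut (I ∩ J) f := by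
  funext n
  unfold cut
  by_cases h1 : Nr n ∈ I <;> by_cases h2 : Nr n ∈ J <;> simp [h1, h2]

theorem norm_cut_le (I : Set ℝ) (f : O → ℂ) (n : O) : ‖cut I f n‖ ≤ ‖f n‖ := by
  unfold cut
  split_ifs <;> simp

theorem cut_ne_zero {I : Set ℝ} {f : O → ℂ} {n : O} (h : cut I f n ≠ 0) : Nr n ∈ I ∧ f n ≠ 0 := by
  unfold cut at h
  split_ifs at h with h1
  · exact ⟨h1, h⟩
  · exact absurd rfl h

theorem tw_cut (l : ℤ) (I : Set ℝ) (g : O → ℂ) : tw l (cut I g) = cut I (fun b => g b * az l b) := by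
  funext n
  unfold tw cut
  split_ifs <;> simp

theorem LpV_eq (l : ℤ) (V : ℝ) : LpV l V = tw l (cut (Ioi V) Lp) := by
  rw [tw_cut, LpV]

theorem norm_tw (l : ℤ) (f : O → ℂ) {n : O} (hn : n ≠ 0) : ‖tw l f n‖ = ‖f n‖ := by
  rw [tw, norm_mul, norm_az l hn, mul_one]

theorem norm_mr (w : ℝ) (n : O) : ‖mr w n‖ = ‖rg w n‖ := by
  rw [mr, norm_mul]
  by_cases h : Squarefree n
  · have h1 : ‖mu n‖ = 1 := by
      unfold mu
      rw [if_pos h]
      simp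
    rw [h1, one_mul]
  · rw [rg, if_neg (fun h' => h h'.1), norm_zero, mul_zero]

theorem rg_ne_zero {w : ℝ} {n : O} : rg w n ≠ 0 ↔ Squarefree n ∧ Rough w n := by
  unfold rg
  split_ifs with h
  · exact ⟨fun _ => h, fun _ => one_ne_zero⟩
  · exact ⟨fun h' => absurd rfl h', fun h' => absurd h' h⟩

theorem Lp_ne_zero {n : O} (h : Lp n ≠ 0) : Prime n := by
  by_contra h'
  exact h (by rw [Lp, if_neg h'])

theorem Gr.pg {M : ℝ} {f : O → ℂ} (h : Gr M f) : Pg f :=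
  ⟨M, 1, fun n hn hs => by rw [Real.rpow_one]; exact h n hn hs⟩

theorem EnvS.gr {M x : ℝ} {f : O → ℂ} (h : EnvS M x f) (hx : 1 ≤ x) : Gr (2 * M) f := by
  intro n hn hs
  have hM := u1_env_nonneg h (by linarith)
  have h1 := one_le_Nr hn.ne_zero
  have h2 : Nr n / x ≤ Nr n := div_le_self (by linarith) hx
  refine (h n hn hs).trans ?_
  nlinarith

theorem EnvS.mono {M M' x x' : ℝ} {f : O → ℂ} (h : EnvS M x f) (hM : M ≤ M') (hx' : 0 < x')
    (hx : x' ≤ x) : EnvS M' x' f := by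
  intro n hn hs
  have hM0 := u1_env_nonneg h (by linarith)
  have h1 := Nr_nonneg n
  have h2 : 0 < x := by linarith
  refine (h n hn hs).trans ?_
  have h3 : Nr n / x ≤ Nr n / x' := by gcongr
  have h4 : 0 ≤ Nr n / x := by positivity
  exact mul_le_mul hM (by linarith) (by linarith) (by linarith)

theorem EnvS.env {M x : ℝ} {f : O → ℂ} (h : EnvS M x f) (hx : 0 < x)
    (hs : ∀ n, Prim n → ¬ Squarefree n → f n = 0) (l : ℤ) : Env M x (tw l f) := by
  intro n hn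
  rw [norm_tw l f hn.ne_zero]
  by_cases h1 : Squarefree n
  · exact h n hn h1
  · rw [hs n hn h1, norm_zero]
    have hM0 := u1_env_nonneg h hx
    have := Nr_nonneg n
    positivity

theorem pg_of_bdd {M : ℝ} {f : O → ℂ} (h : ∀ n, Prim n → Squarefree n → ‖f n‖ ≤ M) : Pg f :=
  ⟨M, 0, fun n hn hs => by rw [Real.rpow_zero, mul_one]; exact h n hn hs⟩

theorem Pg.add {f g : O → ℂ} (hf : Pg f) (hg : Pg g) : Pg (fun n => f n + g n) := by
  obtain ⟨K, A, hK, hA, h1⟩ := u1_norm hf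
  obtain ⟨K', A', hK', hA', h2⟩ := u1_norm hg
  refine ⟨K + K', A + A', fun n hn hs => (norm_add_le _ _).trans ?_⟩
  have h3 := one_le_Nr hn.ne_zero
  have h4 : Nr n ^ A ≤ Nr n ^ (A + A') := Real.rpow_le_rpow_of_exponent_le h3 (by linarith)
  have h5 : Nr n ^ A' ≤ Nr n ^ (A + A') := Real.rpow_le_rpow_of_exponent_le h3 (by linarith)
  rw [add_mul]
  exact add_le_add ((h1 n hn hs).trans (by gcongr)) ((h2 n hn hs).trans (by gcongr))

theorem Pg.sub {f g : O → ℂ} (hf : Pg f) (hg : Pg g) : Pg (fun n => f n - g n) := by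
  have h : Pg (fun n => -g n) := by
    obtain ⟨K, A, h⟩ := hg
    exact ⟨K, A, fun n hn hs => by rw [norm_neg]; exact h n hn hs⟩
  simpa only [sub_eq_add_neg] using hf.add h

theorem Pg.mul {f g : O → ℂ} (hf : Pg f) (hg : Pg g) : Pg (fun n => f n * g n) := by
  obtain ⟨K, A, hK, hA, h1⟩ := u1_norm hf
  obtain ⟨K', A', hK', hA', h2⟩ := u1_norm hg
  refine ⟨K * K', A + A', fun n hn hs => ?_⟩
  have h3 := Nr_pos hn.ne_zero
  rw [norm_mul, Real.rpow_add h3]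
  calc ‖f n‖ * ‖g n‖ ≤ (K * Nr n ^ A) * (K' * Nr n ^ A') :=
        mul_le_mul (h1 n hn hs) (h2 n hn hs) (norm_nonneg _) (by positivity)
    _ = _ := by ring

theorem Pg.cv {f g : O → ℂ} (hf : Pg f) (hg : Pg g) : Pg (cv f g) := by
  obtain ⟨K, A, hK, hA, h1⟩ := u1_norm hf
  obtain ⟨K', A', hK', hA', h2⟩ := u1_norm hg
  refine ⟨25 * (K * K'), 1 + (A + A'), fun n hn hs => ?_⟩
  have h3 := Nr_pos hn.ne_zero
  have h4 : ∀ d ∈ pdiv n, ‖f d * g (n / d)‖ ≤ (K * Nr n ^ A) * (K' * Nr n ^ A') := by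
    intro d hd
    obtain ⟨e1, e2, e3, -⟩ := u1_div hn hd
    have e4 : Squarefree (d * (n / d)) := by rwa [e3]
    have e5 : Nr d ≤ Nr n := Nr_le_of_dvd hn.ne_zero (Dvd.intro _ e3)
    have e6 : Nr (n / d) ≤ Nr n := Nr_le_of_dvd hn.ne_zero (Dvd.intro_left _ e3)
    have e7 := Nr_nonneg d
    have e8 := Nr_nonneg (n / d)
    rw [norm_mul]
    refine mul_le_mul ((h1 d e1 e4.of_mul_left).trans ?_) ((h2 _ e2 e4.of_mul_right).trans ?_)
      (norm_nonneg _) (by positivity)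
    · gcongr
    · gcongr
  refine (norm_sum_le _ _).trans ((Finset.sum_le_card_nsmul _ _ _ h4).trans ?_)
  rw [nsmul_eq_mul, Real.rpow_add h3, Real.rpow_add h3, Real.rpow_one]
  calc ((pdiv n).card : ℝ) * ((K * Nr n ^ A) * (K' * Nr n ^ A'))
      ≤ (25 * Nr n) * ((K * Nr n ^ A) * (K' * Nr n ^ A')) :=
        mul_le_mul_of_nonneg_right (card_pdiv_le_Nr n) (by positivity)
    _ = _ := by ring

theorem Pg.cut {f : O → ℂ} (hf : Pg f) (I : Set ℝ) : Pg (cut I f) := by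
  obtain ⟨K, A, h⟩ := hf
  exact ⟨K, A, fun n hn hs => (norm_cut_le I f n).trans (h n hn hs)⟩

theorem pg_rg (w : ℝ) : Pg (rg w) :=
  pg_of_bdd (fun n _ _ => norm_rg_le w n)

theorem pg_mr (w : ℝ) : Pg (mr w) :=
  pg_of_bdd (fun n _ _ => (norm_mr w n).trans_le (norm_rg_le w n))

theorem pg_Lp : Pg Lp :=
  Gr.pg (M := 1) (fun n hn _ => (norm_Lp_le hn.ne_zero).trans (by
    rw [one_mul]
    exact Real.log_le_self (Nr_nonneg n)))

theorem pg_lg : Pg lgn :=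
  Gr.pg (M := 1) (fun n hn _ => by
    rw [one_mul, lgn, Complex.norm_real, Real.norm_of_nonneg (Real.log_nonneg (one_le_Nr hn.ne_zero))]
    exact Real.log_le_self (Nr_nonneg n))

theorem pg_al2 (w U V : ℝ) : Pg (al2 w U V) :=
  ((pg_mr w).cut _).cv (pg_Lp.cut _)

theorem pg_fI (w U R : ℝ) : Pg (fI w U R) :=
  ((pg_lg.mul (((pg_mr w).cut _).cv (pg_rg w))).sub
    ((((pg_mr w).mul pg_lg).cut _).cv (pg_rg w))).sub (((pg_al2 w U U).cut _).cv (pg_rg w))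

theorem Pg.bound {f : O → ℂ} (hf : Pg f) (l : ℤ) :
    ∃ K A : ℝ, ∀ n, Prim n → ‖f n * az l n * FF n‖ ≤ K * Nr n ^ A := by
  obtain ⟨K, A, hK, -, h⟩ := u1_norm hf
  refine ⟨K * (1 + cst), A, fun n hn => ?_⟩
  have h1 := Nr_pos hn.ne_zero
  have h2 := cst_pos
  by_cases hs : Squarefree n
  · rw [norm_mul, norm_mul, norm_az l hn.ne_zero, mul_one]
    calc ‖f n‖ * ‖FF n‖ ≤ (K * Nr n ^ A) * (1 + cst) :=
          mul_le_mul (h n hn hs) (norm_FF_le hn) (norm_nonneg _) (by positivity)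
      _ = _ := by ring
  · rw [FF_of_not hs, mul_zero, norm_zero]
    positivity

theorem Gr.bound {M : ℝ} {f : O → ℂ} (hf : Gr M f) (l : ℤ) (n : O) (hn : Prim n) :
    ‖f n * az l n * FF n‖ ≤ (1 + cst) * M * Nr n := by
  have h1 := Nr_pos hn.ne_zero
  have h2 := cst_pos
  have hM : 0 ≤ M := by
    have := (norm_nonneg _).trans (hf 1 prim_one squarefree_one)
    rwa [Nr_one, mul_one] at this
  by_cases hs : Squarefree n
  · rw [norm_mul, norm_mul, norm_az l hn.ne_zero, mul_one]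
    calc ‖f n‖ * ‖FF n‖ ≤ (M * Nr n) * (1 + cst) :=
          mul_le_mul (hf n hn hs) (norm_FF_le hn) (norm_nonneg _) (by positivity)
      _ = _ := by ring
  · rw [FF_of_not hs, mul_zero, norm_zero]
    positivity

theorem SF_congr {f g : O → ℂ} (h : ∀ n, Prim n → Squarefree n → f n = g n) (l : ℤ) (a Y τ : ℝ) :
    SF l a f Y τ = SF l a g Y τ := by
  unfold SF sm
  refine tsum_congr fun n => ?_
  split_ifs with hn
  · by_cases hs : Squarefree n
    · simp only [h n hn hs]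
    · simp only [FF_of_not hs, mul_zero]
  · rfl

theorem SF_add {f g : O → ℂ} (hf : Pg f) (hg : Pg g) (l : ℤ) {a Y : ℝ} (ha : 0 < a) (hY : 0 < Y) (τ : ℝ) :
    SF l a (fun n => f n + g n) Y τ = SF l a f Y τ + SF l a g Y τ := by
  obtain ⟨K, A, h1⟩ := hf.bound l
  obtain ⟨K', A', h2⟩ := hg.bound l
  unfold SF sm
  rw [← (summable_sm ha hY h1 τ).tsum_add (summable_sm ha hY h2 τ)]
  refine tsum_congr fun n => ?_
  split_ifs
  · ring
  · ring

theorem SF_sub {f g : O → ℂ} (hf : Pg f) (hg : Pg g) (l : ℤ) {a Y : ℝ} (ha : 0 < a) (hY : 0 < Y) (τ : ℝ) :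
    SF l a (fun n => f n - g n) Y τ = SF l a f Y τ - SF l a g Y τ := by
  obtain ⟨K, A, h1⟩ := hf.bound l
  obtain ⟨K', A', h2⟩ := hg.bound l
  unfold SF sm
  rw [← (summable_sm ha hY h1 τ).tsum_sub (summable_sm ha hY h2 τ)]
  refine tsum_congr fun n => ?_
  split_ifs
  · ring
  · ring

theorem SF_const_mul (κ : ℂ) (f : O → ℂ) (l : ℤ) (a Y τ : ℝ) :
    SF l a (fun n => κ * f n) Y τ = κ * SF l a f Y τ := by
  unfold SF sm
  rw [← tsum_mul_left]
  refine tsum_congr fun n => ?_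
  split_ifs
  · ring
  · ring

theorem SF_sum {ι : Type} (S : Finset ι) {f : ι → O → ℂ} (hf : ∀ i ∈ S, Pg (f i)) (l : ℤ) {a Y : ℝ}
    (ha : 0 < a) (hY : 0 < Y) (τ : ℝ) :
    SF l a (fun n => ∑ i ∈ S, f i n) Y τ = ∑ i ∈ S, SF l a (f i) Y τ := by
  classical
  have key : ∀ T : Finset ι, (∀ i ∈ T, Pg (f i)) → Pg (fun n => ∑ i ∈ T, f i n) ∧
      SF l a (fun n => ∑ i ∈ T, f i n) Y τ = ∑ i ∈ T, SF l a (f i) Y τ := by
    intro T
    induction T using Finset.induction_on with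
    | empty =>
      intro _
      refine ⟨pg_of_bdd (M := 0) (fun n _ _ => by simp), ?_⟩
      simp [SF, sm]
    | insert i T hi ih =>
      intro h
      obtain ⟨h1, h2⟩ := ih (fun j hj => h j (Finset.mem_insert_of_mem hj))
      have h3 := h i (Finset.mem_insert_self _ _)
      simp only [Finset.sum_insert hi]
      exact ⟨h3.add h1, by rw [SF_add h3 h1 l ha hY, h2]⟩
  exact (key S hf).2

end Crest.Agent.R012

end
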