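import Crest.Agent.R012.U7a
import Crest.Agent.R012.Disp

/-! # Row 12: dispersion estimates for the corrected Gauss sums -/

set_option autoImplicit false

noncomputable section

open scoped BigOperators ComplexConjugate Topology
open Complex MeasureTheory Filter Set Crest.Agent.R017

namespace Crest.Agent.R012

theorem u7_sqrt8 {θ : ℝ} (_hθ : 0 < θ) : Real.sqrt (8 * θ) ≤ 3 * Real.sqrt θ := by
  rw [Real.sqrt_mul (by norm_num)]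
  refine mul_le_mul_of_nonneg_right ?_ (Real.sqrt_nonneg _)
  exact Real.sqrt_le_iff.2 ⟨by norm_num, by norm_num⟩

theorem u7_sqrt_le {θ x : ℝ} (hθ : 0 < θ) (hθ1 : θ ≤ 1) (hx : x ≤ 1 / 2) : Real.sqrt θ ≤ θ ^ x := by
  rw [Real.sqrt_eq_rpow]
  exact Real.rpow_le_rpow_of_exponent_ge hθ hθ1 hx

theorem u7_pow {A B : ℝ} (hA : 0 < A) (hB : 0 < B) :
    A ^ (-(1 / 3) : ℝ) * A * B ^ (2 / 3 : ℝ) = (A * B) ^ (2 / 3 : ℝ) := by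
  rw [Real.mul_rpow hA.le hB.le, ← Real.rpow_add_one hA.ne']
  norm_num

theorem u7_pg {M B : ℝ} {β : O → ℂ} (h : Env M B β) (hB : 0 < B) : Pg β :=
  ⟨M * (1 + B⁻¹), 1, fun n hn _ => h.poly hB n hn⟩

theorem u7_mdA : ∃ C : ℝ, 0 ≤ C ∧ ∀ (M θ A B τ : ℝ) (β : O → ℂ), Env M B β → θ ≤ 1 → 1 ≤ A →
    1 ≤ B → A ^ (-(1 / 2) : ℝ) ≤ θ →
    DD md θ A B τ β ≤ C * ((A * B) ^ (2 / 3 : ℝ) * θ ^ (1 / 6 : ℝ) * cn2 (2 * θ) B β) := by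
  obtain ⟨C, hC, h⟩ := DD_md_le
  obtain ⟨C', hC', h'⟩ := thinA
  refine ⟨C * C' * 4, by positivity, fun M θ A B τ β hβ hθ1 hA hB hAθ => ?_⟩
  have hA0 : 0 < A := by linarith
  have hB0 : 0 < B := by linarith
  have hθ : 0 < θ := lt_of_lt_of_le (Real.rpow_pos_of_pos hA0 _) hAθ
  have h1 := (h' (8 * θ) A (by positivity) (by linarith) hA).2
  have h2 : (8 * θ)⁻¹ ≤ A * θ ^ (1 / 6 : ℝ) := by
    have a1 : θ ≤ θ ^ (1 / 6 : ℝ) := by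
      simpa using Real.rpow_le_rpow_of_exponent_ge hθ hθ1 (show (1 / 6 : ℝ) ≤ 1 by norm_num)
    have a2 : A⁻¹ ≤ θ * θ := by
      have := mul_le_mul hAθ hAθ (Real.rpow_nonneg hA0.le _) hθ.le
      rwa [← Real.rpow_add hA0, show (-(1 / 2) + -(1 / 2) : ℝ) = -1 by norm_num,
        Real.rpow_neg_one] at this
    have a3 : 1 ≤ A * (θ * θ) := by
      have := mul_le_mul_of_nonneg_left a2 hA0.le
      rwa [mul_inv_cancel₀ hA0.ne'] at this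
    refine le_trans ?_ (mul_le_mul_of_nonneg_left a1 hA0.le)
    rw [inv_le_iff_one_le_mul₀ (by positivity)]
    nlinarith
  have h3 : A * Real.sqrt (8 * θ) ≤ 3 * (A * θ ^ (1 / 6 : ℝ)) := by
    have := (u7_sqrt8 hθ).trans (mul_le_mul_of_nonneg_left
      (u7_sqrt_le hθ hθ1 (show (1 / 6 : ℝ) ≤ 1 / 2 by norm_num)) (by norm_num : (0 : ℝ) ≤ 3))
    nlinarith
  have h4 := h1.trans (mul_le_mul_of_nonneg_left
    (show A * Real.sqrt (8 * θ) + (8 * θ)⁻¹ ≤ 4 * (A * θ ^ (1 / 6 : ℝ)) by linarith) hC')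
  have h5 := cn_le_cn2 (u7_pg hβ hB0) (a := 2 * θ) (by positivity) hB0
  have h6 := cn_nonneg (2 * θ) B β
  refine (h M θ A B τ β hβ hθ hθ1 hA hB).trans ?_
  rw [← u7_pow hA0 hB0]
  calc _ ≤ C * A ^ (-(1 / 3) : ℝ) * (C' * (4 * (A * θ ^ (1 / 6 : ℝ)))) * B ^ (2 / 3 : ℝ) *
        cn2 (2 * θ) B β := by gcongr
    _ = _ := by ring

theorem u7_mdB {ε : ℝ} (hε : 0 < ε) : ∃ C : ℝ, 0 ≤ C ∧ ∀ (M θ A B τ : ℝ) (β : O → ℂ), Env M B β →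
    0 < θ → θ ≤ 1 → 1 ≤ A → 1 ≤ B → DD md θ A B τ β ≤ C * ((A * B) ^ ε *
      (((A * B) ^ (2 / 3 : ℝ) * θ ^ (1 / 3 : ℝ) + B / Real.sqrt θ) * cn (2 * θ) B β)) := by
  obtain ⟨C, hC, h⟩ := DD_md_le
  obtain ⟨C', hC', h'⟩ := thinB hε
  refine ⟨C * C' * 3, by positivity, fun M θ A B τ β hβ hθ hθ1 hA hB => ?_⟩
  have hA0 : 0 < A := by linarith
  have hB0 : 0 < B := by linarith
  have h1 := h' (8 * θ) A (by positivity) (by linarith) hA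
  have h3 : A * Real.sqrt (8 * θ) ≤ 3 * (A * θ ^ (1 / 3 : ℝ)) := by
    have := (u7_sqrt8 hθ).trans (mul_le_mul_of_nonneg_left
      (u7_sqrt_le hθ hθ1 (show (1 / 3 : ℝ) ≤ 1 / 2 by norm_num)) (by norm_num : (0 : ℝ) ≤ 3))
    nlinarith
  have h2 : A ^ ε ≤ (A * B) ^ ε :=
    Real.rpow_le_rpow hA0.le (le_mul_of_one_le_right hA0.le hB) hε.le
  have h4 : A ^ (-(1 / 3) : ℝ) * B ^ (2 / 3 : ℝ) ≤ B / Real.sqrt θ := by
    have a1 : A ^ (-(1 / 3) : ℝ) ≤ 1 := Real.rpow_le_one_of_one_le_of_nonpos hA (by norm_num)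
    have a2 : B ^ (2 / 3 : ℝ) ≤ B := by
      simpa using Real.rpow_le_rpow_of_exponent_le hB (show (2 / 3 : ℝ) ≤ 1 by norm_num)
    have a3 : B ≤ B / Real.sqrt θ := by
      rw [le_div_iff₀ (Real.sqrt_pos.2 hθ)]
      exact mul_le_of_le_one_right hB0.le (Real.sqrt_le_one.2 hθ1)
    exact (mul_le_of_le_one_left (by positivity) a1).trans (a2.trans a3)
  have h6 := cn_nonneg (2 * θ) B β
  have h7 : A ^ (-(1 / 3) : ℝ) * (3 * (A * θ ^ (1 / 3 : ℝ)) + 1) * B ^ (2 / 3 : ℝ) ≤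
      3 * ((A * B) ^ (2 / 3 : ℝ) * θ ^ (1 / 3 : ℝ) + B / Real.sqrt θ) := by
    rw [← u7_pow hA0 hB0]
    have : 0 ≤ B / Real.sqrt θ := by positivity
    nlinarith
  refine (h M θ A B τ β hβ hθ hθ1 hA hB).trans ?_
  calc _ ≤ C * A ^ (-(1 / 3) : ℝ) * (C' * (A * B) ^ ε * (3 * (A * θ ^ (1 / 3 : ℝ)) + 1)) *
        B ^ (2 / 3 : ℝ) * cn (2 * θ) B β := by
        gcongr
        exact h1.trans (by gcongr)
    _ = C * C' * (A * B) ^ ε * (A ^ (-(1 / 3) : ℝ) * (3 * (A * θ ^ (1 / 3 : ℝ)) + 1) *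
        B ^ (2 / 3 : ℝ)) * cn (2 * θ) B β := by ring
    _ ≤ C * C' * (A * B) ^ ε * (3 * ((A * B) ^ (2 / 3 : ℝ) * θ ^ (1 / 3 : ℝ) + B / Real.sqrt θ)) *
        cn (2 * θ) B β := by gcongr
    _ = _ := by ring

theorem u7_fin {F G D C C' X X' Y : ℝ} (hC : 0 ≤ C) (hC' : 0 ≤ C') (h : F ≤ 2 * G + 2 * cst ^ 2 * D)
    (hG : G ≤ C * X) (hD : D ≤ C' * Y) (hX : X ≤ X') (hY : Y ≤ X') :
    F ≤ (2 * C + 2 * cst ^ 2 * C') * X' := by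
  have h1 := hG.trans (mul_le_mul_of_nonneg_left hX hC)
  have h2 := mul_le_mul_of_nonneg_left (hD.trans (mul_le_mul_of_nonneg_left hY hC'))
    (show 0 ≤ 2 * cst ^ 2 by positivity)
  linarith

theorem UB_F {η : ℝ} (hη : 0 < η) : ∃ s : ℝ, 0 < s ∧ ∃ C : ℝ, 0 ≤ C ∧
    ∀ (θ A B τ M : ℝ) (β : O → ℂ), 1 ≤ A → A ^ (2 / 5 : ℝ) ≤ B → B ≤ A ^ (1 - η) → A ^ (-s) ≤ θ → θ ≤ 1 →
    Env M B β →
    DD FF θ A B τ β ≤ C * ((A * Real.sqrt θ + (A * B) ^ (2 / 3 : ℝ) * θ ^ (1 / 6 : ℝ)) * cn2 (2 * θ) B β +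
      M ^ 2 * A ^ (2 / 3 - s) * B ^ (5 / 3 : ℝ)) := by
  obtain ⟨s, hs, C, hC, h⟩ := disp_UB hη
  obtain ⟨C', hC', h'⟩ := u7_mdA
  have m1 : min s (1 / 2) ≤ s := min_le_left _ _
  have m2 : min s (1 / 2) ≤ 1 / 2 := min_le_right _ _
  refine ⟨min s (1 / 2), lt_min hs (by norm_num), 2 * C + 2 * cst ^ 2 * C', by positivity,
    fun θ A B τ M β hA hAB hBA hAθ hθ1 hβ => ?_⟩
  have hA0 : 0 < A := by linarith
  have hB : 1 ≤ B := (Real.one_le_rpow hA (by norm_num)).trans hAB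
  have hB0 : 0 < B := by linarith
  have hθ : 0 < θ := lt_of_lt_of_le (Real.rpow_pos_of_pos hA0 _) hAθ
  have h6 := cn2_nonneg (2 * θ) B β
  refine u7_fin hC hC' (DD_FF_le hβ hθ hA0 hB0 τ)
    (h θ A B τ M β hA hAB hBA ((Real.rpow_le_rpow_of_exponent_le hA (by linarith)).trans hAθ) hθ1 hβ)
    (h' M θ A B τ β hβ hθ1 hA hB ((Real.rpow_le_rpow_of_exponent_le hA (by linarith)).trans hAθ))
    ?_ ?_
  · have : A ^ (2 / 3 - s) ≤ A ^ (2 / 3 - min s (1 / 2)) :=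
      Real.rpow_le_rpow_of_exponent_le hA (by linarith)
    gcongr
  · have a1 : 0 ≤ A * Real.sqrt θ * cn2 (2 * θ) B β := by positivity
    have a2 : 0 ≤ M ^ 2 * A ^ (2 / 3 - min s (1 / 2)) * B ^ (5 / 3 : ℝ) := by positivity
    rw [add_mul]
    linarith

theorem UB_P_F (l : ℤ) : ∃ η : ℝ, 0 < η ∧ η ≤ 1 / 10 ∧ ∃ C : ℝ, 0 ≤ C ∧
    ∀ θ A B τ V : ℝ, 1 ≤ A → A ^ (1 - η) ≤ B → B ≤ A ^ (1 + η) → A ^ (-η) ≤ θ → θ ≤ 1 → |τ| ≤ A ^ η →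
    V ≤ B ^ (9 / 10 : ℝ) →
    DD FF θ A B τ (LpV l V) ≤ C * ((A * B) ^ (2 / 3 : ℝ) * θ ^ (1 / 6 : ℝ) * cn2 (2 * θ) B (LpV l V) +
      A ^ (2 / 3 - η) * B ^ (5 / 3 : ℝ)) := by
  obtain ⟨η, hη, C, hC, h⟩ := disp_UB_P l
  obtain ⟨C', hC', h'⟩ := u7_mdA
  have m1 : min η (1 / 10) ≤ η := min_le_left _ _
  have m2 : min η (1 / 10) ≤ 1 / 10 := min_le_right _ _
  refine ⟨min η (1 / 10), lt_min hη (by norm_num), m2, 2 * C + 2 * cst ^ 2 * C', by positivity,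
    fun θ A B τ V hA hAB hBA hAθ hθ1 hτ hV => ?_⟩
  have hA0 : 0 < A := by linarith
  have hB : 1 ≤ B := (Real.one_le_rpow hA (by linarith)).trans hAB
  have hB0 : 0 < B := by linarith
  have hθ : 0 < θ := lt_of_lt_of_le (Real.rpow_pos_of_pos hA0 _) hAθ
  have hβ := env_LpV l V hB
  refine u7_fin hC hC' (DD_FF_le hβ hθ hA0 hB0 τ)
    (h θ A B τ V hA ((Real.rpow_le_rpow_of_exponent_le hA (by linarith)).trans hAB)
      (hBA.trans (Real.rpow_le_rpow_of_exponent_le hA (by linarith)))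
      ((Real.rpow_le_rpow_of_exponent_le hA (by linarith)).trans hAθ) hθ1
      (hτ.trans (Real.rpow_le_rpow_of_exponent_le hA m1)) hV)
    (h' _ θ A B τ _ hβ hθ1 hA hB ((Real.rpow_le_rpow_of_exponent_le hA (by linarith)).trans hAθ))
    ?_ ?_
  · have : A ^ (2 / 3 - η) ≤ A ^ (2 / 3 - min η (1 / 10)) :=
      Real.rpow_le_rpow_of_exponent_le hA (by linarith)
    gcongr
  · have a2 : 0 ≤ A ^ (2 / 3 - min η (1 / 10)) * B ^ (5 / 3 : ℝ) := by positivity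
    linarith

theorem H1_F {ε : ℝ} (hε : 0 < ε) : ∃ C : ℝ, 0 ≤ C ∧
    ∀ (θ A B τ M : ℝ) (β : O → ℂ), 1 ≤ A → 1 ≤ B → (A * B)⁻¹ ≤ θ → θ ≤ 1 → Env M B β →
    DD FF θ A B τ β ≤ C * (A * B) ^ ε * ((A * Real.sqrt θ + B / Real.sqrt θ +
      (A * B) ^ (2 / 3 : ℝ) * θ ^ (1 / 6 : ℝ) + A ^ (1 / 3 : ℝ) * B * θ ^ (-(1 / 6) : ℝ)) *
        cn (2 * θ) B β + M ^ 2) := by
  obtain ⟨C, hC, h⟩ := disp_H1 hε
  obtain ⟨C', hC', h'⟩ := u7_mdB hε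
  refine ⟨2 * C + 2 * cst ^ 2 * C', by positivity, fun θ A B τ M β hA hB hAθ hθ1 hβ => ?_⟩
  have hA0 : 0 < A := by linarith
  have hB0 : 0 < B := by linarith
  have hθ : 0 < θ := lt_of_lt_of_le (by positivity) hAθ
  have h6 := cn_nonneg (2 * θ) B β
  rw [mul_assoc]
  refine u7_fin hC hC' (DD_FF_le hβ hθ hA0 hB0 τ)
    ((h θ A B τ M β hA hB hAθ hθ1 hβ).trans (le_of_eq (mul_assoc _ _ _)))
    (h' M θ A B τ β hβ hθ hθ1 hA hB) le_rfl ?_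
  refine mul_le_mul_of_nonneg_left (le_trans (mul_le_mul_of_nonneg_right ?_ h6)
    (le_add_of_nonneg_right (sq_nonneg M))) (by positivity)
  have a1 : (A * B) ^ (2 / 3 : ℝ) * θ ^ (1 / 3 : ℝ) ≤ (A * B) ^ (2 / 3 : ℝ) * θ ^ (1 / 6 : ℝ) :=
    mul_le_mul_of_nonneg_left (Real.rpow_le_rpow_of_exponent_ge hθ hθ1 (by norm_num))
      (by positivity)
  have a2 : 0 ≤ A * Real.sqrt θ := by positivity
  have a3 : 0 ≤ A ^ (1 / 3 : ℝ) * B * θ ^ (-(1 / 6) : ℝ) := by positivity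
  linarith

theorem H2_F {ε : ℝ} (hε : 0 < ε) : ∃ C : ℝ, 0 ≤ C ∧
    ∀ (θ A B τ M : ℝ) (β : O → ℂ), 1 ≤ A → 1 ≤ B → (A * B)⁻¹ ≤ θ → θ ≤ 1 → Env M B β →
    DD FF θ A B τ β ≤ C * (A * B) ^ ε * ((A + B / Real.sqrt θ +
      ((A * B) ^ (2 / 3 : ℝ) + A * B ^ (1 / 3 : ℝ) + A ^ (1 / 3 : ℝ) * B) * θ ^ (1 / 3 : ℝ)) *
        cn (2 * θ) B β + M ^ 2) := by
  obtain ⟨C, hC, h⟩ := disp_H2 hε
  obtain ⟨C', hC', h'⟩ := u7_mdB hε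
  refine ⟨2 * C + 2 * cst ^ 2 * C', by positivity, fun θ A B τ M β hA hB hAθ hθ1 hβ => ?_⟩
  have hA0 : 0 < A := by linarith
  have hB0 : 0 < B := by linarith
  have hθ : 0 < θ := lt_of_lt_of_le (by positivity) hAθ
  have h6 := cn_nonneg (2 * θ) B β
  rw [mul_assoc]
  refine u7_fin hC hC' (DD_FF_le hβ hθ hA0 hB0 τ)
    ((h θ A B τ M β hA hB hAθ hθ1 hβ).trans (le_of_eq (mul_assoc _ _ _)))
    (h' M θ A B τ β hβ hθ hθ1 hA hB) le_rfl ?_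
  refine mul_le_mul_of_nonneg_left (le_trans (mul_le_mul_of_nonneg_right ?_ h6)
    (le_add_of_nonneg_right (sq_nonneg M))) (by positivity)
  have a2 : 0 ≤ A * B ^ (1 / 3 : ℝ) * θ ^ (1 / 3 : ℝ) := by positivity
  have a3 : 0 ≤ A ^ (1 / 3 : ℝ) * B * θ ^ (1 / 3 : ℝ) := by positivity
  rw [add_mul, add_mul]
  linarith

end Crest.Agent.R012

end
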