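import Crest.Agent.R012.U8a

/-! # Row 12: norm of the coefficient `al2` -/

set_option autoImplicit false

noncomputable section

open scoped BigOperators ComplexConjugate Topology
open Complex MeasureTheory Filter Set Crest.Agent.R017

namespace Crest.Agent.R012

theorem u8_zero (w U h : ℝ) {m : O} (hm : m ∉ box U) :
    (if Prim m then ‖cut (Iic U) (mr w) m‖ * h else 0) = 0 := by
  split_ifs with hp
  · have : cut (Iic U) (mr w) m = 0 := by
      by_contra hne
      exact hm (mem_box.2 ⟨hp.ne_zero, (cut_ne_zero hne).1⟩)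
    rw [this, norm_zero, zero_mul]
  · rfl

theorem u8_small {w U A L : ℝ} (hU : 0 < U) (hA : 0 < A) (hL : 0 < L) {p : O} (hp : Prim p)
    (h : Nr p ≤ A / (U * L)) :
    (∑' m : O, if Prim m then ‖cut (Iic U) (mr w) m‖ * W 8 (Nr (p * m) / A) else 0) ≤
      25 * U * (Real.exp 8 / L) := by
  rw [tsum_eq_sum (s := box U) fun m hm => u8_zero w U (W 8 (Nr (p * m) / A)) hm]
  have h1 : ∀ m ∈ box U, (if Prim m then ‖cut (Iic U) (mr w) m‖ * W 8 (Nr (p * m) / A) else 0) ≤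
      Real.exp 8 / L := by
    intro m hm
    obtain ⟨m0, mU⟩ := mem_box.1 hm
    split_ifs
    · have a1 : ‖cut (Iic U) (mr w) m‖ ≤ 1 := (norm_cut_le _ _ _).trans (u1v_norm_mr_le w m)
      have a2 : 0 < Nr (p * m) / A := div_pos (Nr_pos (mul_ne_zero hp.ne_zero m0)) hA
      have a3 := W_le_rpow (a := 8) (by norm_num) a2 1
      rw [Real.rpow_one, one_pow, mul_one] at a3
      have a4 : Nr (p * m) / A ≤ 1 / L := by
        rw [Nr_mul, div_le_iff₀ hA]
        refine (mul_le_mul h mU (Nr_nonneg m) (by positivity)).trans (le_of_eq ?_)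
        field_simp
      refine (mul_le_of_le_one_left (W_pos _ _).le a1).trans (a3.trans ?_)
      rw [div_eq_mul_one_div (Real.exp 8)]
      exact mul_le_mul_of_nonneg_left a4 (Real.exp_pos _).le
    · positivity
  refine (Finset.sum_le_card_nsmul _ _ _ h1).trans ?_
  rw [nsmul_eq_mul]
  exact mul_le_mul_of_nonneg_right (card_box_le hU.le) (by positivity)

theorem u8_large {w U A B : ℝ} (hA : 0 < A) {p : O} (hp : Prim p)
    (h : Summable (fun n : O => if Prim n then ‖rg w n‖ * W 8 (Nr n / (A / Nr p)) *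
        (1 + Nr n / (A / Nr p)) ^ 2 else 0) ∧
      (∑' n : O, if Prim n then ‖rg w n‖ * W 8 (Nr n / (A / Nr p)) *
        (1 + Nr n / (A / Nr p)) ^ 2 else 0) ≤ B) :
    (∑' m : O, if Prim m then ‖cut (Iic U) (mr w) m‖ * W 8 (Nr (p * m) / A) else 0) ≤ B := by
  refine (Summable.tsum_le_tsum (fun m => ?_)
    (summable_of_ne_finset_zero (s := box U) fun m hm =>
      u8_zero w U (W 8 (Nr (p * m) / A)) hm) h.1).trans h.2
  split_ifs
  · have hp0 := Nr_pos hp.ne_zero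
    have e : Nr (p * m) / A = Nr m / (A / Nr p) := by
      rw [Nr_mul]
      field_simp
    have a1 : ‖cut (Iic U) (mr w) m‖ ≤ ‖rg w m‖ := (norm_cut_le _ _ _).trans (norm_mr w m).le
    have a2 : (1 : ℝ) ≤ (1 + Nr m / (A / Nr p)) ^ 2 :=
      one_le_pow₀ (le_add_of_nonneg_right (div_nonneg (Nr_nonneg m) (by positivity)))
    rw [e]
    exact (mul_le_mul_of_nonneg_right a1 (W_pos _ _).le).trans
      (le_mul_of_one_le_right (mul_nonneg (norm_nonneg _) (W_pos _ _).le) a2)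
  · exact le_rfl

theorem u8_point {w U L : ℝ} (hL : 0 ≤ L) (hUL : Real.log (U * U) ≤ L) (I : Set ℝ) {n : O}
    (hn : Prim n) (hs : Squarefree n) : ‖cut I (al2 w U U) n‖ ^ 2 ≤
      L * ∑ d ∈ pdiv n, ‖cut (Ioc w U) Lp d‖ * ‖cut (Iic U) (mr w) (n / d)‖ := by
  have h1 : ‖al2 w U U n‖ ≤ L := by
    by_cases h : al2 w U U n = 0
    · rw [h, norm_zero]
      exact hL
    · exact (norm_al2_le w U U hn hs).trans
        ((Real.log_le_log (Nr_pos hn.ne_zero) (al2_supp hn h).2).trans hUL)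
  have h2 : ‖al2 w U U n‖ ≤ ∑ d ∈ pdiv n, ‖cut (Ioc w U) Lp d‖ * ‖cut (Iic U) (mr w) (n / d)‖ := by
    rw [al2, cv_comm _ _ hn, cv]
    exact (norm_sum_le _ _).trans (Finset.sum_le_sum fun d _ => (norm_mul _ _).le)
  refine (pow_le_pow_left₀ (norm_nonneg _) (norm_cut_le _ _ _) 2).trans ?_
  rw [sq]
  exact mul_le_mul h1 h2 (norm_nonneg _) hL

/-- `‖α‖² ≤ log N n · ∑_{d p = n} rg d · Lp p` (`tsum_pdiv_le` with the prime outside); for
`N p ≥ A / (U log x)` use `rough_W` and `mertens1`, for smaller `p` use `W 8 y ≤ C y²`, `N d ≤ U`. -/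
theorem cn_al2 : ∃ C x₀ : ℝ, 0 ≤ C ∧ ∀ (x A : ℝ) (I : Set ℝ), x₀ ≤ x → x ^ (1 / 2 : ℝ) ≤ A → A ≤ x →
    cn 8 A (cut I (al2 (ww x) (UU x) (UU x))) ≤ C * A * Real.log (Real.log x) ^ C *
      (1 + max 0 (Real.log (UU x ^ 2 / A))) := by
  classical
  obtain ⟨C₁, x₁, hC₁, hW⟩ := rough_W
  obtain ⟨C₂, hC₂, hM⟩ := mertens1
  obtain ⟨x₂, hx₂, hww⟩ := ww_facts (1 / 4) (show (0 : ℝ) < 1 / 15 by norm_num)
  refine ⟨625 * Real.exp 8 + 2 * C₁ * C₂ + (C₁ + 1), max (max x₁ x₂) (Real.exp (Real.exp 1)),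
    by positivity, fun x A I hx hA1 hA2 => ?_⟩
  have hx1 : x₁ ≤ x := ((le_max_left _ _).trans (le_max_left _ _)).trans hx
  have hx2 : x₂ ≤ x := ((le_max_right _ _).trans (le_max_left _ _)).trans hx
  have hx3 : Real.exp (Real.exp 1) ≤ x := (le_max_right _ _).trans hx
  have hx0 : 0 < x := by linarith
  have hx1' : 1 ≤ x := by linarith
  have hLe : Real.exp 1 ≤ Real.log x := (Real.le_log_iff_exp_le hx0).2 hx3
  have hL : 0 < Real.log x := (Real.exp_pos 1).trans_le hLe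
  have hLL : 1 ≤ Real.log (Real.log x) := (Real.le_log_iff_exp_le hL).2 hLe
  have hA : 0 < A := (Real.rpow_pos_of_pos hx0 _).trans_le hA1
  have hU : 0 < UU x := by unfold UU; positivity
  have hU1 : UU x ≤ x ^ (2 / 5 : ℝ) := by
    rw [UU, show (2 / 5 : ℝ) = 1 / 3 + 1 / 15 by norm_num, Real.rpow_add hx0]
    exact mul_le_mul_of_nonneg_left (hww x hx2).2.2.2.2.2 (by positivity)
  have hU2 : UU x * UU x ≤ x := by
    refine (mul_le_mul hU1 hU1 hU.le (by positivity)).trans ?_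
    rw [← Real.rpow_add hx0]
    simpa using Real.rpow_le_rpow_of_exponent_le hx1' (show (2 / 5 + 2 / 5 : ℝ) ≤ 1 by norm_num)
  have hU3 : UU x ≤ x := hU1.trans (by
    simpa using Real.rpow_le_rpow_of_exponent_le hx1' (show (2 / 5 : ℝ) ≤ 1 by norm_num))
  obtain ⟨U, hUe⟩ : ∃ U, U = UU x := ⟨_, rfl⟩
  obtain ⟨L, hLe'⟩ : ∃ L, L = Real.log x := ⟨_, rfl⟩
  have hW' := hW x
  rw [← hUe] at hU hU1 hU2 hU3 ⊢
  have hlog : ∀ y, 0 < y → y ≤ x → Real.log y ≤ L := fun y h1 h2 => hLe' ▸ Real.log_le_log h1 h2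
  rw [← hLe'] at hL hLL hW' ⊢
  obtain ⟨y₁, hy₁⟩ : ∃ y₁, y₁ = A / (U * L) := ⟨_, rfl⟩
  have hy0 : 0 < y₁ := by rw [hy₁]; positivity
  obtain ⟨K, hK⟩ : ∃ K, K = C₁ * A * Real.log L ^ C₁ / L := ⟨_, rfl⟩
  have hK0 : 0 ≤ K := by rw [hK]; positivity
  obtain ⟨S, hS⟩ : ∃ S, S = (sbox (max U y₁)).filter (fun n => y₁ < Nr n) := ⟨_, rfl⟩
  have hF : HasSum (fun p : O => (if p ∈ box y₁ then 25 * U * Real.exp 8 else 0) +
      (if p ∈ S then K * (‖Lp p‖ / Nr p) else 0))
      (∑ _p ∈ box y₁, 25 * U * Real.exp 8 + ∑ p ∈ S, K * (‖Lp p‖ / Nr p)) := by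
    refine HasSum.add ?_ ?_
    · rw [← Finset.sum_congr rfl fun p hp => if_pos hp]
      exact hasSum_sum_of_ne_finset_zero fun p hp => if_neg hp
    · rw [← Finset.sum_congr rfl fun p hp => if_pos hp]
      exact hasSum_sum_of_ne_finset_zero fun p hp => if_neg hp
  have hF1 : ∀ p : O, 0 ≤ (if p ∈ box y₁ then 25 * U * Real.exp 8 else 0) := fun p => by
    split_ifs <;> positivity
  have hF2 : ∀ p : O, 0 ≤ (if p ∈ S then K * (‖Lp p‖ / Nr p) else 0) := fun p => by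
    have := Nr_nonneg p
    split_ifs <;> positivity
  obtain ⟨s1, s2⟩ := tsum_pdiv_le (f := fun d => ‖cut (Ioc (ww x) U) Lp d‖)
    (g := fun d => ‖cut (Iic U) (mr (ww x)) d‖) (fun _ => norm_nonneg _) (fun _ => norm_nonneg _)
    (h := fun n => W 8 (Nr n / A)) (fun _ => (W_pos _ _).le) hF.summable
    (fun p => add_nonneg (hF1 p) (hF2 p)) (fun p hp => by
      refine ⟨summable_of_ne_finset_zero (s := box U) fun m hm => u8_zero _ U _ hm, ?_⟩
      by_cases h0 : cut (Ioc (ww x) U) Lp p = 0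
      · rw [h0, norm_zero, zero_mul]
        exact add_nonneg (hF1 p) (hF2 p)
      obtain ⟨⟨-, a1⟩, a2⟩ := cut_ne_zero h0
      have hp0 := Nr_pos hp.ne_zero
      have a3 := norm_cut_le (Ioc (ww x) U) Lp p
      have a4 : 0 ≤ ∑' m : O, if Prim m then ‖cut (Iic U) (mr (ww x)) m‖ * W 8 (Nr (p * m) / A)
          else 0 := tsum_nonneg fun m => by
        have := W_pos 8 (Nr (p * m) / A)
        split_ifs <;> positivity
      by_cases h : Nr p ≤ y₁
      · refine le_trans ?_ (le_add_of_nonneg_right (hF2 p))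
        rw [if_pos (mem_box.2 ⟨hp.ne_zero, h⟩)]
        have b1 := a3.trans ((norm_Lp_le hp.ne_zero).trans (hlog _ hp0 (a1.trans hU3)))
        refine (mul_le_mul b1 (u8_small hU hA hL hp (hy₁ ▸ h)) a4 hL.le).trans (le_of_eq ?_)
        field_simp
      · refine le_trans ?_ (le_add_of_nonneg_left (hF1 p))
        have b0 : p ∈ S := by
          rw [hS]
          exact Finset.mem_filter.2 ⟨q_mem_sbox.2 ⟨hp, (Lp_ne_zero a2).squarefree,
            a1.trans (le_max_left _ _)⟩, not_le.1 h⟩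
        rw [if_pos b0]
        have b1 : x ^ (1 / 10 : ℝ) ≤ A / Nr p := by
          rw [le_div_iff₀ hp0]
          refine (mul_le_mul_of_nonneg_left (a1.trans hU1) (by positivity)).trans (le_trans ?_ hA1)
          rw [← Real.rpow_add hx0]
          exact le_of_eq (by norm_num)
        have b2 : A / Nr p ≤ x ^ 2 :=
          (div_le_self hA.le (one_le_Nr hp.ne_zero)).trans (hA2.trans (by nlinarith))
        refine (mul_le_mul a3 (u8_large hA hp (hW' _ hx1 b1 b2)) a4 (norm_nonneg _)).trans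
          (le_of_eq ?_)
        rw [hK]
        field_simp)
  have hle : ∀ n : O, (if Prim n ∧ Squarefree n then
      ‖cut I (al2 (ww x) U U) n‖ ^ 2 * W 8 (Nr n / A) else 0) ≤ L * (if Prim n then
      (∑ d ∈ pdiv n, ‖cut (Ioc (ww x) U) Lp d‖ * ‖cut (Iic U) (mr (ww x)) (n / d)‖) *
        W 8 (Nr n / A) else 0) := by
    intro n
    have hw := W_pos 8 (Nr n / A)
    by_cases h : Prim n ∧ Squarefree n
    · rw [if_pos h, if_pos h.1, ← mul_assoc]
      exact mul_le_mul_of_nonneg_right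
        (u8_point hL.le (hlog _ (by positivity) hU2) I h.1 h.2) hw.le
    · rw [if_neg h]
      split_ifs <;> positivity
  have t1 : cn 8 A (cut I (al2 (ww x) U U)) ≤
      L * (∑ _p ∈ box y₁, 25 * U * Real.exp 8 + ∑ p ∈ S, K * (‖Lp p‖ / Nr p)) := by
    rw [← hF.tsum_eq]
    refine le_trans ?_ (mul_le_mul_of_nonneg_left s2 hL.le)
    rw [← tsum_mul_left]
    refine Summable.tsum_le_tsum hle (Summable.of_nonneg_of_le (fun n => ?_) hle (s1.mul_left L))
      (s1.mul_left L)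
    have hw := W_pos 8 (Nr n / A)
    split_ifs <;> positivity
  obtain ⟨M, hMe⟩ : ∃ M, M = max 0 (Real.log (U ^ 2 / A)) := ⟨_, rfl⟩
  have hM0 : 0 ≤ M := hMe ▸ le_max_left _ _
  rw [← hMe]
  have t2 : L * ∑ _p ∈ box y₁, 25 * U * Real.exp 8 ≤ 625 * Real.exp 8 * A := by
    rw [Finset.sum_const, nsmul_eq_mul]
    refine (mul_le_mul_of_nonneg_left (mul_le_mul_of_nonneg_right (card_box_le hy0.le)
      (by positivity)) hL.le).trans (le_of_eq ?_)
    rw [hy₁]
    field_simp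
    norm_num
  have t3 : Real.log (max U y₁ / y₁) ≤ M + Real.log L := by
    rcases le_total U y₁ with h | h
    · rw [max_eq_right h, div_self hy0.ne', Real.log_one]
      linarith
    · rw [max_eq_left h, show U / y₁ = U ^ 2 / A * L by rw [hy₁]; field_simp,
        Real.log_mul (by positivity) hL.ne']
      have : Real.log (U ^ 2 / A) ≤ M := hMe ▸ le_max_right _ _
      linarith
  have t4 : ∑ p ∈ S, ‖Lp p‖ / Nr p ≤ C₂ * (2 * Real.log L * (1 + M)) := by
    rw [hS]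
    refine (hM y₁ _ hy0 (le_max_right _ _)).trans (mul_le_mul_of_nonneg_left ?_ hC₂)
    nlinarith [mul_nonneg (sub_nonneg.2 hLL) hM0]
  have t5 : L * ∑ p ∈ S, K * (‖Lp p‖ / Nr p) ≤
      2 * C₁ * C₂ * A * Real.log L ^ (C₁ + 1) * (1 + M) := by
    rw [← Finset.mul_sum]
    refine (mul_le_mul_of_nonneg_left (mul_le_mul_of_nonneg_left t4 hK0) hL.le).trans (le_of_eq ?_)
    rw [hK, Real.rpow_add (by linarith), Real.rpow_one]
    field_simp
  obtain ⟨E, hE⟩ : ∃ E, E = Real.log L ^ (625 * Real.exp 8 + 2 * C₁ * C₂ + (C₁ + 1)) := ⟨_, rfl⟩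
  have t6 : Real.log L ^ (C₁ + 1) ≤ E := hE ▸ Real.rpow_le_rpow_of_exponent_le hLL
    (le_add_of_nonneg_left (by positivity))
  have t7 : 1 ≤ E := hE ▸ Real.one_le_rpow hLL (by positivity)
  rw [← hE]
  have t8 : 1 ≤ E * (1 + M) := one_le_mul_of_one_le_of_one_le t7 (by linarith)
  have t9 := mul_le_mul_of_nonneg_left t8 (show 0 ≤ 625 * Real.exp 8 * A by positivity)
  have t10 := mul_le_mul_of_nonneg_left t6 (show 0 ≤ 2 * C₁ * C₂ * A * (1 + M) by positivity)
  have t11 : 0 ≤ (C₁ + 1) * A * E * (1 + M) := by positivity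
  rw [mul_add] at t1
  linarith

end Crest.Agent.R012

end
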