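import Crest.Agent.R012.U3
import Crest.Agent.R012.U7
import Crest.Agent.R012.U8

/-! # Row 12: type II sums, weight of logarithmic width, general form -/

set_option autoImplicit false

noncomputable section

open scoped BigOperators ComplexConjugate Topology
open Complex MeasureTheory Filter Set Crest.Agent.R017

namespace Crest.Agent.R012

theorem u10a_ev {c : ℝ} (hc : 0 < c) : ∃ x₀ : ℝ, ∀ x : ℝ, x₀ ≤ x →
    3 ≤ x ∧ 2 ≤ Real.log x ∧ Real.log x ^ 180 ≤ x ^ c := by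
  have h1 := (isLittleO_log_rpow_rpow_atTop (180 : ℝ) hc).bound one_pos
  have h2 := Real.tendsto_log_atTop.eventually_ge_atTop 2
  obtain ⟨x₀, h⟩ := eventually_atTop.1 (h1.and (h2.and (eventually_ge_atTop (3 : ℝ))))
  refine ⟨x₀, fun x hx => ?_⟩
  obtain ⟨h1, h2, h3⟩ := h x hx
  refine ⟨h3, h2, ?_⟩
  rw [one_mul, Real.norm_of_nonneg (Real.rpow_nonneg (by linarith) _),
    Real.norm_of_nonneg (Real.rpow_nonneg (by linarith) _), Real.rpow_ofNat] at h1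
  exact h1

theorem u10a_div {L P : ℝ} (hL : 1 ≤ L) (hP : 0 ≤ P) {a b : ℕ} (h : a + 128 ≤ b) :
    P * L ^ a / L ^ b ≤ P / L ^ 128 := by
  have hL0 : 0 < L := by linarith
  rw [div_le_div_iff₀ (by positivity) (by positivity), mul_assoc, ← pow_add]
  exact mul_le_mul_of_nonneg_left (pow_le_pow_right₀ hL h) hP

theorem u10a_alg {L P Q A B x R C₀ C₁ c d : ℝ} (hL : 1 ≤ L) (hQ : 0 ≤ Q) (hA : 0 ≤ A) (hB : 0 ≤ B)
    (hR : 0 ≤ R) (hC₀ : 0 ≤ C₀) (hC₁ : 0 ≤ C₁) (hc0 : 0 ≤ c) (hx : x = A * B) (hP : P ^ 2 = x * Q)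
    (hAQ : A ≤ Q * L) (hAR : A * R ≤ P ^ 2 / L ^ 180)
    (hc : c ≤ (C₀ * L) ^ 2 * (C₁ * (3 * A / L ^ 60)))
    (hd : d ≤ C₀ * ((A * (L ^ 60)⁻¹ + Q * (L ^ 20)⁻¹) * (L ^ 2 * (B * (L ^ 60)⁻¹)) + L ^ 2 * R)) :
    c * d ≤ (L ^ 120)⁻¹ * (9 * C₀ ^ 3 * C₁ * (P / L ^ 4) ^ 2) := by
  have hL0 : 0 < L := by linarith
  have hx0 : 0 ≤ x := hx ▸ mul_nonneg hA hB
  have t1 : A * x * L ^ 4 / L ^ 180 ≤ P ^ 2 / L ^ 128 := by
    refine le_trans ?_ (u10a_div hL (sq_nonneg P) (a := 5) (b := 180) (by norm_num))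
    refine div_le_div_of_nonneg_right ?_ (by positivity)
    calc A * x * L ^ 4 ≤ Q * L * x * L ^ 4 := by gcongr
      _ = P ^ 2 * L ^ 5 := by rw [hP]; ring
  have t2 : x * Q * L ^ 4 / L ^ 140 ≤ P ^ 2 / L ^ 128 := by
    rw [← hP]
    exact u10a_div hL (sq_nonneg P) (by norm_num)
  have t3 : A * R * L ^ 4 / L ^ 60 ≤ P ^ 2 / L ^ 128 := by
    refine le_trans ?_ (u10a_div hL (sq_nonneg P) (a := 4) (b := 240) (by norm_num))
    calc A * R * L ^ 4 / L ^ 60 ≤ P ^ 2 / L ^ 180 * L ^ 4 / L ^ 60 := by gcongr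
      _ = _ := by field_simp
  calc c * d ≤ c * (C₀ * ((A * (L ^ 60)⁻¹ + Q * (L ^ 20)⁻¹) * (L ^ 2 * (B * (L ^ 60)⁻¹)) + L ^ 2 * R)) :=
        mul_le_mul_of_nonneg_left hd hc0
    _ ≤ (C₀ * L) ^ 2 * (C₁ * (3 * A / L ^ 60)) *
        (C₀ * ((A * (L ^ 60)⁻¹ + Q * (L ^ 20)⁻¹) * (L ^ 2 * (B * (L ^ 60)⁻¹)) + L ^ 2 * R)) :=
        mul_le_mul_of_nonneg_right hc (by positivity)
    _ = 3 * C₀ ^ 3 * C₁ * (A * x * L ^ 4 / L ^ 180 + x * Q * L ^ 4 / L ^ 140 +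
          A * R * L ^ 4 / L ^ 60) := by
        rw [hx]; field_simp
    _ ≤ 3 * C₀ ^ 3 * C₁ * (P ^ 2 / L ^ 128 + P ^ 2 / L ^ 128 + P ^ 2 / L ^ 128) := by gcongr
    _ = _ := by field_simp; ring

/-- `bilr_const` with `θ = (log x)^{-120}`, `m = 1`, `T = (log x)^{61}`; `cn_le_thin`, `thinA`. -/
theorem E_gen {s C₀ : ℝ} (hs : 0 < s) (hC₀ : 0 ≤ C₀) : ∃ C x₀ : ℝ, 0 ≤ C ∧
    ∀ (l : ℤ) (x τ B₁ B₂ : ℝ) (α β : O → ℂ), x₀ ≤ x → x ^ (1 / 3 : ℝ) / Real.log x ≤ B₁ → B₁ ≤ B₂ →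
    B₂ ≤ x ^ (3 / 5 : ℝ) → EnvS (C₀ * Real.log x) x α → EnvS (C₀ * Real.log x) x β →
    (∀ a b, Prim a → Prim b → α a ≠ 0 → β b ≠ 0 → x * Real.exp (-1) ≤ Nr (a * b) →
      Nr (a * b) ≤ x * Real.exp 1 → B₁ * Real.exp 1 ≤ Nr b ∧ Nr b ≤ B₂ * Real.exp (-1)) →
    (∀ B, B₁ ≤ B → B ≤ B₂ → ∀ t, |t| ≤ Real.log x ^ (61 : ℝ) →
      DD FF (Real.log x ^ (-120 : ℝ)) (x / B) B (τ + t) (tw l β) ≤
        C₀ * ((x / B * Real.log x ^ (-60 : ℝ) + x ^ (2 / 3 : ℝ) * Real.log x ^ (-20 : ℝ)) *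
          (Real.log x ^ 2 * (B * Real.log x ^ (-60 : ℝ))) +
          Real.log x ^ 2 * (x / B) ^ (2 / 3 - s) * B ^ (5 / 3 : ℝ))) →
    ‖SF l (2 * Real.log x ^ (-120 : ℝ)) (cv α β) x τ‖ ≤ C * x ^ (5 / 6 : ℝ) / Real.log x ^ 3 := by
  obtain ⟨C, hC0, hC⟩ := bilr_const
  obtain ⟨C₁, hC₁, hthin⟩ := thinA
  obtain ⟨x₀, hx₀⟩ := u10a_ev (c := min (1 / 3) (2 / 5 * s)) (lt_min (by norm_num) (by positivity))
  refine ⟨C * (Real.sqrt (9 * C₀ ^ 3 * C₁) + 4 * C₀ ^ 2), x₀, by positivity,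
    fun l x τ B₁ B₂ α β hx hB₁ hB hB₂ hα hβ hsupp hDD => ?_⟩
  obtain ⟨hx3, hL2, hLx⟩ := hx₀ x hx
  set L := Real.log x with hL
  have hx0 : 0 < x := by linarith
  have hx1 : 1 ≤ x := by linarith
  have hL0 : 0 < L := by linarith
  have hL1 : 1 ≤ L := by linarith
  have e120 : L ^ (-120 : ℝ) = (L ^ 120)⁻¹ := by rw [Real.rpow_neg hL0.le, Real.rpow_ofNat]
  have e60 : L ^ (-60 : ℝ) = (L ^ 60)⁻¹ := by rw [Real.rpow_neg hL0.le, Real.rpow_ofNat]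
  have e20 : L ^ (-20 : ℝ) = (L ^ 20)⁻¹ := by rw [Real.rpow_neg hL0.le, Real.rpow_ofNat]
  have esq : Real.sqrt (L ^ 120)⁻¹ = (L ^ 60)⁻¹ := by
    rw [Real.sqrt_eq_iff_mul_self_eq (by positivity) (by positivity)]
    field_simp
  have h13 : L ^ 180 ≤ x ^ (1 / 3 : ℝ) :=
    hLx.trans (Real.rpow_le_rpow_of_exponent_le hx1 (min_le_left _ _))
  have h25 : L ^ 180 ≤ x ^ (2 / 5 : ℝ) :=
    h13.trans (Real.rpow_le_rpow_of_exponent_le hx1 (by norm_num))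
  have hxx : L ^ 180 ≤ x := by
    have := h13.trans (Real.rpow_le_rpow_of_exponent_le hx1 (by norm_num : (1 / 3 : ℝ) ≤ 1))
    rwa [Real.rpow_one] at this
  have hs' : L ^ 180 ≤ x ^ (2 / 5 * s) :=
    hLx.trans (Real.rpow_le_rpow_of_exponent_le hx1 (min_le_right _ _))
  have hB1 : 1 ≤ B₁ := by
    refine le_trans ?_ hB₁
    rw [le_div_iff₀ hL0, one_mul]
    exact (le_self_pow₀ hL1 (by norm_num)).trans h13
  have hB2 : B₂ ≤ x := by
    have := hB₂.trans (Real.rpow_le_rpow_of_exponent_le hx1 (by norm_num : (3 / 5 : ℝ) ≤ 1))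
    rwa [Real.rpow_one] at this
  have hθ1 : (L ^ 120)⁻¹ ≤ 1 := inv_le_one_of_one_le₀ (one_le_pow₀ hL1)
  set P := x ^ (5 / 6 : ℝ) with hP
  have hP1 : 1 ≤ P := Real.one_le_rpow hx1 (by norm_num)
  have hP2 : P ^ 2 = x ^ (5 / 3 : ℝ) := by
    rw [hP, ← Real.rpow_natCast, ← Real.rpow_mul hx0.le]; norm_num
  rw [e120, e60, e20] at hDD
  rw [e120]
  have key := hC l (L ^ 120)⁻¹ x τ 1 B₁ B₂ (L ^ (61 : ℝ)) (2 * (C₀ * L)) (2 * (C₀ * L))
    (Real.sqrt (9 * C₀ ^ 3 * C₁) * (P / L ^ 4)) α β hx3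
    (inv_anti₀ (by positivity) ((pow_le_pow_right₀ hL1 (by norm_num)).trans hxx)) hθ1 zero_le_one
    (by
      have h1 : (2 : ℝ) ^ 119 ≤ L ^ 119 := pow_le_pow_left₀ zero_le_two hL2 _
      have h2 : 1000 * (L ^ 120)⁻¹ * L = 1000 / L ^ 119 := by field_simp
      rw [← hL, h2, one_pow, div_le_one (by positivity)]
      exact le_trans (by norm_num) h1)
    hB1 hB hB2
    (by
      rw [esq, Real.rpow_ofNat, ← hL]
      refine le_of_eq ?_
      field_simp)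
    (hα.gr hx1) (hβ.gr hx1) hsupp (by positivity)
    (fun B h1 h2 t ht => by
      have hB0 : 0 < B := by linarith
      have hA0 : 0 < x / B := div_pos hx0 hB0
      have hA25 : x ^ (2 / 5 : ℝ) ≤ x / B := by
        rw [le_div_iff₀ hB0]
        calc x ^ (2 / 5 : ℝ) * B ≤ x ^ (2 / 5 : ℝ) * x ^ (3 / 5 : ℝ) :=
              mul_le_mul_of_nonneg_left (h2.trans hB₂) (by positivity)
          _ = x := by rw [← Real.rpow_add hx0]; norm_num
      have hA1 : 1 ≤ x / B := (Real.one_le_rpow hx1 (by norm_num)).trans hA25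
      have hcn := cn_le_thin hα (a := 4 * (L ^ 120)⁻¹) (by positivity) hA0
        (div_le_self hx0.le (hB1.trans h1))
      have hth := (hthin (4 * (L ^ 120)⁻¹) (x / B) (by positivity) (by linarith) hA1).2
      rw [mul_pow, Real.sq_sqrt (by positivity)]
      refine u10a_alg (Q := x ^ (2 / 3 : ℝ)) (A := x / B) (B := B) (x := x)
        (R := (x / B) ^ (2 / 3 - s) * B ^ (5 / 3 : ℝ)) hL1 (by positivity) hA0.le hB0.le
        (by positivity) hC₀ hC₁ ?_ (by field_simp) ?_ ?_ ?_ ?_ ?_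
      · exact tsum_nonneg fun b => by
          split_ifs
          · exact mul_nonneg (sq_nonneg _) (W_pos _ _).le
          · exact le_rfl
      · rw [hP2, mul_comm, ← Real.rpow_add_one hx0.ne']; norm_num
      · rw [div_le_iff₀ hB0]
        have h3 := hB₁.trans h1
        rw [div_le_iff₀ hL0] at h3
        calc x = x ^ (2 / 3 : ℝ) * x ^ (1 / 3 : ℝ) := by rw [← Real.rpow_add hx0]; norm_num
          _ ≤ x ^ (2 / 3 : ℝ) * (B * L) := mul_le_mul_of_nonneg_left h3 (by positivity)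
          _ = _ := by ring
      · have h3 : x ^ (5 / 3 : ℝ) = (x / B) ^ (5 / 3 : ℝ) * B ^ (5 / 3 : ℝ) := by
          rw [← Real.mul_rpow hA0.le hB0.le, div_mul_cancel₀ _ hB0.ne']
        have h4 : x / B * (x / B) ^ (2 / 3 - s) = (x / B) ^ (5 / 3 : ℝ) / (x / B) ^ s := by
          rw [mul_comm, ← Real.rpow_add_one hA0.ne', ← Real.rpow_sub hA0]
          congr 1; ring
        have h5 : L ^ 180 ≤ (x / B) ^ s := by
          refine hs'.trans ?_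
          rw [Real.rpow_mul hx0.le]
          exact Real.rpow_le_rpow (by positivity) hA25 hs.le
        rw [← mul_assoc, h4, hP2, h3, div_mul_eq_mul_div]
        exact div_le_div_of_nonneg_left (by positivity) (by positivity) h5
      · refine hcn.trans (mul_le_mul_of_nonneg_left (hth.trans
          (mul_le_mul_of_nonneg_left ?_ hC₁)) (sq_nonneg _))
        have h3 : Real.sqrt (4 * (L ^ 120)⁻¹) = 2 * (L ^ 60)⁻¹ := by
          rw [Real.sqrt_eq_iff_mul_self_eq (by positivity) (by positivity)]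
          field_simp; norm_num
        have h4 : L ^ 180 ≤ x / B := h25.trans hA25
        have h5 : (4 * (L ^ 120)⁻¹)⁻¹ ≤ x / B / L ^ 60 := by
          rw [le_div_iff₀ (by positivity)]
          refine le_trans ?_ h4
          have : (4 * (L ^ 120)⁻¹)⁻¹ * L ^ 60 = L ^ 180 / 4 := by field_simp
          rw [this]
          exact div_le_self (by positivity) (by norm_num)
        have h6 : 3 * (x / B) / L ^ 60 = x / B * (2 * (L ^ 60)⁻¹) + x / B / L ^ 60 := by ring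
        rw [h3, h6]
        linarith
      · have := hDD B h1 h2 t ht
        rwa [mul_assoc (L ^ 2) ((x / B) ^ (2 / 3 - s))] at this)
  refine key.trans ?_
  rw [← hL, mul_assoc C, mul_div_assoc C]
  refine mul_le_mul_of_nonneg_left ?_ hC0
  have h1 : L * (Real.sqrt (9 * C₀ ^ 3 * C₁) * (P / L ^ 4)) =
      Real.sqrt (9 * C₀ ^ 3 * C₁) * P / L ^ 3 := by field_simp
  have h2 : 2 * (C₀ * L) * (2 * (C₀ * L)) / x ≤ 4 * C₀ ^ 2 * P / L ^ 3 := by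
    rw [div_le_div_iff₀ hx0 (by positivity)]
    have h3 : L ^ 5 ≤ P * x :=
      ((pow_le_pow_right₀ hL1 (by norm_num)).trans hxx).trans (le_mul_of_one_le_left hx0.le hP1)
    calc 2 * (C₀ * L) * (2 * (C₀ * L)) * L ^ 3 = 4 * C₀ ^ 2 * L ^ 5 := by ring
      _ ≤ 4 * C₀ ^ 2 * (P * x) := mul_le_mul_of_nonneg_left h3 (by positivity)
      _ = _ := by ring
  rw [h1, add_mul, add_div]
  linarith

end Crest.Agent.R012

end
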