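import Crest.Agent.R012.U10a

/-! # Row 12: type II sums, weight of logarithmic width, I -/

set_option autoImplicit false

noncomputable section

open scoped BigOperators ComplexConjugate Topology
open Complex MeasureTheory Filter Set Crest.Agent.R017

namespace Crest.Agent.R012

theorem u10b_ev (k : ℝ) {ε : ℝ} (hε : 0 < ε) : ∀ᶠ x : ℝ in atTop, Real.log x ^ k ≤ x ^ ε := by
  filter_upwards [(isLittleO_log_rpow_rpow_atTop k hε).bound one_pos, eventually_ge_atTop 1]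
    with x hx hx1
  rwa [one_mul, Real.norm_of_nonneg (Real.rpow_nonneg (Real.log_nonneg hx1) _),
    Real.norm_of_nonneg (Real.rpow_nonneg (by linarith) _)] at hx

/-- `E_gen` for rough column coefficients. -/
theorem u10b_gen {κ : ℝ} (hκ : 0 < κ) (hκ' : κ ≤ 1 / 10) : ∃ C x₀ : ℝ, 0 ≤ C ∧
    ∀ (l : ℤ) (x τ : ℝ) (α β : O → ℂ), x₀ ≤ x → EnvS (Real.log x) x α →
    (∀ n, Prim n → ‖β n‖ ≤ ‖rg (ww x) n‖) →
    (∀ a b, Prim a → Prim b → α a ≠ 0 → β b ≠ 0 → x * Real.exp (-1) ≤ Nr (a * b) →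
      Nr (a * b) ≤ x * Real.exp 1 → x ^ (1 / 3 : ℝ) / Real.log x * Real.exp 1 ≤ Nr b ∧
        Nr b ≤ x ^ (1 / 2 - κ) * Real.exp (-1)) →
    ‖SF l (2 * Real.log x ^ (-120 : ℝ)) (cv α β) x τ‖ ≤ C * x ^ (5 / 6 : ℝ) / Real.log x ^ 3 := by
  obtain ⟨s, hs, C₁, hC₁, h₁⟩ := UB_F (η := 2 * κ) (by positivity)
  obtain ⟨C₂, hC₂, h₂⟩ := cn2_rough_thin
  obtain ⟨C, x₀, hC, h⟩ := E_gen hs (C₀ := C₁ * (3 * C₂ + 1) + 1) (by positivity)
  obtain ⟨x₁, hx₁⟩ := eventually_atTop.1 ((((eventually_ge_atTop 16).and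
    (u10b_ev 1 (show (0 : ℝ) < 1 / 30 by norm_num))).and (u10b_ev 120 (half_pos hs))).and
    (u10b_ev 180 (show (0 : ℝ) < 3 / 10 by norm_num)))
  refine ⟨C, max x₀ x₁, hC, fun l x τ α β hx hα hβ hsupp => ?_⟩
  obtain ⟨⟨⟨h16, a1⟩, a2⟩, a3⟩ := hx₁ x ((le_max_right _ _).trans hx)
  rw [Real.rpow_one] at a1
  have hx0 : 0 < x := by linarith
  have hx1 : 1 ≤ x := by linarith
  have hL1 : 1 ≤ Real.log x := by
    rw [Real.le_log_iff_exp_le hx0]
    linarith [Real.exp_one_lt_d9]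
  have hL : 0 < Real.log x := by linarith
  have hC₀ : 1 ≤ C₁ * (3 * C₂ + 1) + 1 := le_add_of_nonneg_left (by positivity)
  have hβ1 : ∀ n, Prim n → ‖β n‖ ≤ 1 := fun n hn => (hβ n hn).trans (norm_rg_le _ _)
  refine h l x τ _ _ α β ((le_max_left _ _).trans hx) le_rfl
    ((div_le_self (by positivity) hL1).trans (Real.rpow_le_rpow_of_exponent_le hx1 (by linarith)))
    (Real.rpow_le_rpow_of_exponent_le hx1 (by linarith))
    (hα.mono (le_mul_of_one_le_left hL.le hC₀) hx0 le_rfl)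
    (fun n hn _ => (hβ1 n hn).trans (one_le_mul_of_one_le_of_one_le
      (one_le_mul_of_one_le_of_one_le hC₀ hL1)
      (le_add_of_nonneg_right (div_nonneg (Nr_nonneg _) hx0.le)))) hsupp fun B hB1 hB2 t _ => ?_
  have b1 : x ^ (3 / 10 : ℝ) ≤ B := by
    refine le_trans ?_ hB1
    rw [le_div_iff₀ hL, show (1 / 3 : ℝ) = 3 / 10 + 1 / 30 by norm_num, Real.rpow_add hx0]
    exact mul_le_mul_of_nonneg_left a1 (by positivity)
  have hB : 1 ≤ B := (Real.one_le_rpow hx1 (by norm_num)).trans b1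
  have hB0 : 0 < B := by linarith
  have b2 : x ^ (1 / 2 : ℝ) ≤ x / B := by
    rw [le_div_iff₀ hB0]
    calc x ^ (1 / 2 : ℝ) * B ≤ x ^ (1 / 2 : ℝ) * x ^ (1 / 2 : ℝ) :=
          mul_le_mul_of_nonneg_left (hB2.trans
            (Real.rpow_le_rpow_of_exponent_le hx1 (by linarith))) (by positivity)
      _ = x := by rw [← Real.rpow_add hx0]; norm_num
  have b3 : x / B ≤ x ^ (7 / 10 : ℝ) := by
    rw [div_le_iff₀ hB0]
    calc x = x ^ (7 / 10 : ℝ) * x ^ (3 / 10 : ℝ) := by rw [← Real.rpow_add hx0]; norm_num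
      _ ≤ _ := mul_le_mul_of_nonneg_left b1 (by positivity)
  have hA : 1 ≤ x / B := (Real.one_le_rpow hx1 (by norm_num)).trans b2
  have hBx : B ≤ x := (one_le_div hB0).1 hA
  have hθ0 : 0 < Real.log x ^ (-120 : ℝ) := Real.rpow_pos_of_pos hL _
  have hθ1 : Real.log x ^ (-120 : ℝ) ≤ 1 := Real.rpow_le_one_of_one_le_of_nonpos hL1 (by norm_num)
  have c1 := h₁ (Real.log x ^ (-120 : ℝ)) (x / B) B (τ + t) 1 (tw l β) hA (by
      refine (Real.rpow_le_rpow (by positivity) b3 (by norm_num)).trans (le_trans ?_ b1)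
      rw [← Real.rpow_mul hx0.le]
      exact Real.rpow_le_rpow_of_exponent_le hx1 (by norm_num)) (by
      refine hB2.trans (le_trans (le_of_eq ?_) (Real.rpow_le_rpow (by positivity) b2 (by linarith)))
      rw [← Real.rpow_mul hx0.le]
      congr 1
      ring) (by
      rw [Real.rpow_neg (by positivity), Real.rpow_neg hL.le]
      refine inv_anti₀ (by positivity) (a2.trans (le_trans (le_of_eq ?_)
        (Real.rpow_le_rpow (by positivity) b2 hs.le)))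
      rw [← Real.rpow_mul hx0.le]
      congr 1
      ring) hθ1 (fun b hb => by
      rw [norm_tw l β hb.ne_zero, one_mul]
      exact (hβ1 b hb).trans (le_add_of_nonneg_right (div_nonneg (Nr_nonneg _) hB0.le)))
  have c2 := h₂ x B (2 * Real.log x ^ (-120 : ℝ)) (tw l β) h16 hB hBx (by positivity) (by linarith)
    fun n hn => by rw [norm_tw l β hn.ne_zero]; exact hβ n hn
  have e1 : Real.sqrt (Real.log x ^ (-120 : ℝ)) = Real.log x ^ (-60 : ℝ) := by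
    rw [Real.sqrt_eq_rpow, ← Real.rpow_mul hL.le]; norm_num
  have e2 : (Real.log x ^ (-120 : ℝ)) ^ (1 / 6 : ℝ) = Real.log x ^ (-20 : ℝ) := by
    rw [← Real.rpow_mul hL.le]; norm_num
  have hσ : 0 < Real.log x ^ (-60 : ℝ) := Real.rpow_pos_of_pos hL _
  have c3 : Real.sqrt (2 * Real.log x ^ (-120 : ℝ)) ≤ 2 * Real.log x ^ (-60 : ℝ) := by
    rw [Real.sqrt_mul (by norm_num), e1]
    refine mul_le_mul_of_nonneg_right ?_ hσ.le
    rw [Real.sqrt_le_left (by norm_num)]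
    norm_num
  have c4 : (2 * Real.log x ^ (-120 : ℝ))⁻¹ ≤ B * Real.log x ^ (-60 : ℝ) := by
    refine (inv_anti₀ hθ0 (by linarith)).trans (le_trans (le_of_eq ?_)
      (mul_le_mul_of_nonneg_right (a3.trans b1) hσ.le))
    rw [← Real.rpow_neg hL.le, ← Real.rpow_add hL]
    norm_num
  have c5 : cn2 (2 * Real.log x ^ (-120 : ℝ)) B (tw l β) ≤
      3 * C₂ * (Real.log x ^ 2 * (B * Real.log x ^ (-60 : ℝ))) := by
    refine c2.trans ?_
    have d1 := mul_le_mul_of_nonneg_left c3 hB0.le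
    calc C₂ * Real.log x * (B * Real.sqrt (2 * Real.log x ^ (-120 : ℝ)) +
          (2 * Real.log x ^ (-120 : ℝ))⁻¹)
        ≤ C₂ * Real.log x ^ 2 * (3 * (B * Real.log x ^ (-60 : ℝ))) :=
          mul_le_mul (mul_le_mul_of_nonneg_left (by nlinarith) hC₂) (by linarith) (by positivity)
            (by positivity)
      _ = _ := by ring
  rw [e1, e2, div_mul_cancel₀ _ hB0.ne', one_pow, one_mul] at c1
  refine c1.trans ?_
  have hL2 : 1 ≤ Real.log x ^ 2 := one_le_pow₀ hL1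
  set P := x / B * Real.log x ^ (-60 : ℝ) + x ^ (2 / 3 : ℝ) * Real.log x ^ (-20 : ℝ) with hP
  have hP0 : 0 ≤ P := by positivity
  set Q := Real.log x ^ 2 * (B * Real.log x ^ (-60 : ℝ)) with hQ
  have hQ0 : 0 ≤ Q := by positivity
  have hR0 : 0 ≤ (x / B) ^ (2 / 3 - s) * B ^ (5 / 3 : ℝ) := by positivity
  rw [mul_assoc (Real.log x ^ 2)]
  set R := (x / B) ^ (2 / 3 - s) * B ^ (5 / 3 : ℝ) with hR
  have d1 := mul_le_mul_of_nonneg_left c5 hP0
  have d2 : R ≤ Real.log x ^ 2 * R := le_mul_of_one_le_left hR0 hL2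
  have d3 : 0 ≤ P * Q := mul_nonneg hP0 hQ0
  have d4 : 0 ≤ Real.log x ^ 2 * R := hR0.trans d2
  calc C₁ * (P * cn2 (2 * Real.log x ^ (-120 : ℝ)) B (tw l β) + R)
      ≤ C₁ * ((3 * C₂ + 1) * (P * Q + Real.log x ^ 2 * R)) := by
        refine mul_le_mul_of_nonneg_left ?_ hC₁
        nlinarith [mul_nonneg hC₂ d4]
    _ ≤ _ := by nlinarith

/-- `E_gen` with `B₁ = x e^{-2} / U²`, `B₂ = x^{0.47} e²`, `UB_F` (`η = 1/10`), `cn2_rough_thin`. -/
theorem E_two (l : ℤ) : ∃ C x₀ : ℝ, 0 ≤ C ∧ ∀ x τ : ℝ, x₀ ≤ x →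
    ‖SF l (2 * Real.log x ^ (-120 : ℝ))
      (cv (cut (Ioi (x ^ (53 / 100 : ℝ))) (al2 (ww x) (UU x) (UU x))) (rg (ww x))) x τ‖ ≤
      C * x ^ (5 / 6 : ℝ) / Real.log x ^ 3 := by
  obtain ⟨C, x₀, hC, h⟩ := u10b_gen (κ := 1 / 50) (by norm_num) (by norm_num)
  obtain ⟨x₁, hx₁⟩ := eventually_atTop.1 (((eventually_ge_atTop 3).and
    (((tendsto_rpow_atTop (show (0 : ℝ) < 1 / 2 by norm_num)).comp
      Real.tendsto_log_atTop).eventually_ge_atTop (Real.exp 1 * Real.exp 1))).and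
    ((tendsto_rpow_atTop (show (0 : ℝ) < 1 / 100 by norm_num)).eventually_ge_atTop
      (Real.exp 1 * Real.exp 1)))
  refine ⟨C, max x₀ x₁, hC, fun x τ hx => ?_⟩
  obtain ⟨⟨h3, h1⟩, h2⟩ := hx₁ x ((le_max_right _ _).trans hx)
  simp only [Function.comp] at h1
  have hx0 : 0 < x := by linarith
  have hL : 0 < Real.log x := Real.log_pos (by linarith)
  have he := Real.exp_pos 1
  refine h l x τ _ _ ((le_max_left _ _).trans hx) (envS_al2 _ _ _ _ h3) (fun _ _ => le_rfl)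
    fun a b ha hb hα _ h4 h5 => ?_
  obtain ⟨a1, a2⟩ := cut_ne_zero hα
  obtain ⟨d, p, hd, hp, rfl, a3, a4⟩ := cv_ne_zero ha a2
  have b1 : Nr d ≤ UU x := (cut_ne_zero a3).1
  have b2 : Nr p ≤ UU x := (cut_ne_zero a4).1.2
  have hb0 := Nr_pos hb.ne_zero
  have b3 : Nr (d * p) ≤ x ^ (2 / 3 : ℝ) * Real.log x ^ (1 / 2 : ℝ) := by
    rw [Nr_mul]
    refine (mul_le_mul b1 b2 (Nr_nonneg _) ((Nr_nonneg _).trans b1)).trans (le_of_eq ?_)
    rw [UU, mul_mul_mul_comm, ← Real.rpow_add hx0, ← Real.rpow_add hL]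
    norm_num
  have b4 : x ^ (53 / 100 : ℝ) < Nr (d * p) := a1
  rw [Nr_mul (d * p)] at h4 h5
  rw [Real.exp_neg, ← div_eq_mul_inv] at h4 ⊢
  have hP : 0 < x ^ (2 / 3 : ℝ) := Real.rpow_pos_of_pos hx0 _
  have hQ : 0 < Real.log x ^ (1 / 2 : ℝ) := Real.rpow_pos_of_pos hL _
  constructor
  · have e1 : x = x ^ (2 / 3 : ℝ) * x ^ (1 / 3 : ℝ) := by
      rw [← Real.rpow_add hx0]; norm_num
    have e2 : Real.log x = Real.log x ^ (1 / 2 : ℝ) * Real.log x ^ (1 / 2 : ℝ) := by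
      rw [← Real.rpow_add hL]; norm_num
    have c1 := h4.trans (mul_le_mul_of_nonneg_right b3 hb0.le)
    rw [div_le_iff₀ he] at c1
    have c2 : x ^ (1 / 3 : ℝ) ≤ Real.log x ^ (1 / 2 : ℝ) * Nr b * Real.exp 1 := by
      refine le_of_mul_le_mul_left ?_ hP
      rw [← e1]
      linarith
    rw [div_mul_eq_mul_div, div_le_iff₀ hL]
    calc x ^ (1 / 3 : ℝ) * Real.exp 1 ≤ Real.log x ^ (1 / 2 : ℝ) * Nr b * Real.exp 1 * Real.exp 1 :=
          mul_le_mul_of_nonneg_right c2 he.le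
      _ = Nr b * Real.log x ^ (1 / 2 : ℝ) * (Real.exp 1 * Real.exp 1) := by ring
      _ ≤ Nr b * Real.log x ^ (1 / 2 : ℝ) * Real.log x ^ (1 / 2 : ℝ) :=
          mul_le_mul_of_nonneg_left h1 (by positivity)
      _ = Nr b * Real.log x := by rw [mul_assoc, ← e2]
  · have hR : 0 < x ^ (53 / 100 : ℝ) := Real.rpow_pos_of_pos hx0 _
    have e1 : x = x ^ (53 / 100 : ℝ) * x ^ (47 / 100 : ℝ) := by
      rw [← Real.rpow_add hx0]; norm_num
    have e2 : x ^ (1 / 2 - 1 / 50 : ℝ) = x ^ (47 / 100 : ℝ) * x ^ (1 / 100 : ℝ) := by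
      rw [← Real.rpow_add hx0]; norm_num
    have c1 : Nr b ≤ x ^ (47 / 100 : ℝ) * Real.exp 1 := by
      refine le_of_mul_le_mul_left ?_ hR
      rw [← mul_assoc, ← e1]
      exact (mul_le_mul_of_nonneg_right b4.le hb0.le).trans h5
    rw [le_div_iff₀ he, e2]
    calc Nr b * Real.exp 1 ≤ x ^ (47 / 100 : ℝ) * Real.exp 1 * Real.exp 1 :=
          mul_le_mul_of_nonneg_right c1 he.le
      _ = x ^ (47 / 100 : ℝ) * (Real.exp 1 * Real.exp 1) := by ring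
      _ ≤ _ := mul_le_mul_of_nonneg_left h2 (by positivity)

/-- `E_gen` with `B₁ = U / e`, `B₂ = x^{1/2-η} e`. -/
theorem E_three_a (l : ℤ) {η : ℝ} (hη : 0 < η) (hη' : η ≤ 1 / 10) : ∃ C x₀ : ℝ, 0 ≤ C ∧
    ∀ x τ : ℝ, x₀ ≤ x →
    ‖SF l (2 * Real.log x ^ (-120 : ℝ)) (cv (cv (rg (ww x)) (cut (Ioi (UU x)) Lp))
        (cut (Ioc (UU x) (x ^ (1 / 2 - η))) (mr (ww x)))) x τ‖ ≤
      C * x ^ (5 / 6 : ℝ) / Real.log x ^ 3 := by
  obtain ⟨C, x₀, hC, h⟩ := u10b_gen (κ := η / 2) (by positivity) (by linarith)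
  obtain ⟨x₁, hx₁⟩ := eventually_atTop.1 (((eventually_ge_atTop 3).and
    (Real.tendsto_log_atTop.eventually_ge_atTop (Real.exp 1))).and
    ((tendsto_rpow_atTop (half_pos hη)).eventually_ge_atTop (Real.exp 1)))
  refine ⟨C, max x₀ x₁, hC, fun x τ hx => ?_⟩
  obtain ⟨⟨h3, h1⟩, h2⟩ := hx₁ x ((le_max_right _ _).trans hx)
  have hx0 : 0 < x := by linarith
  have he := Real.exp_pos 1
  have hL : 0 < Real.log x := by linarith
  have hL1 : 1 ≤ Real.log x := le_trans (by linarith [Real.add_one_le_exp 1]) h1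
  refine h l x τ _ _ ((le_max_left _ _).trans hx) (envS_rg_Lp _ _ h3)
    (fun n _ => (norm_cut_le _ _ _).trans (norm_mr _ _).le) fun a b _ _ _ hβ _ _ => ?_
  obtain ⟨a1, a2⟩ := (cut_ne_zero hβ).1
  constructor
  · refine le_trans ?_ a1.le
    rw [UU, div_mul_eq_mul_div, mul_div_assoc]
    exact mul_le_mul_of_nonneg_left (((div_le_one hL).2 h1).trans
      (Real.one_le_rpow hL1 (by norm_num))) (by positivity)
  · refine a2.trans ?_
    rw [Real.exp_neg, ← div_eq_mul_inv, le_div_iff₀ he,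
      show 1 / 2 - η / 2 = (1 / 2 - η) + η / 2 by ring, Real.rpow_add hx0]
    exact mul_le_mul_of_nonneg_left h2 (by positivity)

end Crest.Agent.R012

end
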