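import Crest.Agent.R012.U12a

/-! # Row 12: bilinear forms at large height -/

set_option autoImplicit false

noncomputable section

open scoped BigOperators ComplexConjugate Topology
open Complex MeasureTheory Filter Set Crest.Agent.R017

namespace Crest.Agent.R012

theorem u12_cut {M s s' : ℝ} (hM : 0 ≤ M) (hs : s ≤ s') {f : O → ℂ}
    (hf : ∀ n, Prim n → Squarefree n → ‖f n‖ ≤ M * Nr n ^ s) (I : Set ℝ) :
    ∀ n, Prim n → Squarefree n → ‖cut I f n‖ ≤ M * Nr n ^ s' := fun n hn hsq =>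
  (norm_cut_le I f n).trans ((hf n hn hsq).trans (mul_le_mul_of_nonneg_left
    (Real.rpow_le_rpow_of_exponent_le (one_le_Nr hn.ne_zero) hs) hM))

theorem u12_mono {M s s' : ℝ} (hM : 0 ≤ M) (hs : s ≤ s') {f : O → ℂ}
    (hf : ∀ n, Prim n → Squarefree n → ‖f n‖ ≤ M * Nr n ^ s) :
    ∀ n, Prim n → Squarefree n → ‖f n‖ ≤ M * Nr n ^ s' := fun n hn hsq =>
  (hf n hn hsq).trans (mul_le_mul_of_nonneg_left
    (Real.rpow_le_rpow_of_exponent_le (one_le_Nr hn.ne_zero) hs) hM)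

theorem u12_split {f g : O → ℂ} (hf : Pg f) (hg : Pg g) (y : ℝ) (l : ℤ) {a Y : ℝ} (ha : 0 < a)
    (hY : 0 < Y) (τ : ℝ) : ‖SF l a (cv f g) Y τ‖ ≤
      ‖SF l a (cv f (cut (Iic y) g)) Y τ‖ + ‖SF l a (cv f (cut (Ioi y) g)) Y τ‖ := by
  have h : SF l a (cv f g) Y τ =
      SF l a (fun n => cv f (cut (Iic y) g) n + cv f (cut (Ioi y) g) n) Y τ := by
    refine SF_congr (fun n _ _ => ?_) l a Y τ
    rw [← cv_add_right]
    congr 1
    funext d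
    exact cut_split y g d
  rw [h, SF_add (hf.cv (hg.cut _)) (hf.cv (hg.cut _)) l ha hY]
  exact norm_add_le _ _

/-- Split `β` at `x^{2/5}` and `x^{1/2}`; for `N b > x^{1/2}` exchange the variables (`cv_comm`) and
split `α` at `x^{2/5}`; `coarse_unif` for the long columns. -/
theorem H_bil {δ : ℝ} (hδ : 0 < δ) (hδ' : δ ≤ 1 / 100) : ∃ s : ℝ, 0 < s ∧ ∃ C x₀ : ℝ, 0 ≤ C ∧
    ∀ (l : ℤ) (x T τ M : ℝ) (α β : O → ℂ), x₀ ≤ x → x ^ δ ≤ T → T ≤ x ^ (1 / 6 + δ / 2) →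
    (∀ n, Prim n → Squarefree n → ‖α n‖ ≤ M * Nr n ^ s) →
    (∀ n, Prim n → Squarefree n → ‖β n‖ ≤ M * Nr n ^ s) →
    (∀ a b, Prim a → Prim b → α a ≠ 0 → β b ≠ 0 → x * Real.exp (-1) ≤ Nr (a * b) →
      x ^ (1 / 3 + δ) / T * Real.exp (-1) ≤ Nr a ∧ x ^ (1 / 3 + δ) / T * Real.exp (-1) ≤ Nr b) →
    ‖SF l (2 * (T ^ 2)⁻¹) (cv α β) x τ‖ ≤ C * M ^ 2 * x ^ (5 / 6 - s) := by
  obtain ⟨s₁, hs₁, C₁, x₁, hC₁, h₁⟩ := H_short hδ hδ'
  obtain ⟨s₂, hs₂, C₂, x₂, hC₂, h₂⟩ := H_long hδ hδ'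
  refine ⟨min s₁ s₂, lt_min hs₁ hs₂, 2 * (C₁ + C₂), max (max x₁ x₂) 2, by positivity, ?_⟩
  intro l x T τ M α β hx hT hT' hα hβ hab
  have hx1 : x₁ ≤ x := le_of_max_le_left (le_of_max_le_left hx)
  have hx2 : x₂ ≤ x := le_of_max_le_right (le_of_max_le_left hx)
  have hx3 : 1 < x := lt_of_lt_of_le one_lt_two (le_of_max_le_right hx)
  have hx0 : 0 < x := by linarith
  have hM : 0 ≤ M := by
    have := (norm_nonneg _).trans (hα 1 prim_one squarefree_one)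
    rwa [Nr_one, Real.one_rpow, mul_one] at this
  have hxδ : 1 < x ^ δ := Real.one_lt_rpow hx3 hδ
  have hT0 : 0 < T := by linarith
  have ha : 0 < 2 * (T ^ 2)⁻¹ := by positivity
  have hlt : 2 * (T ^ 2)⁻¹ < 2 * x ^ (-δ) := by
    rw [Real.rpow_neg hx0.le]
    have : x ^ δ < T ^ 2 := by nlinarith
    have := inv_strictAnti₀ (by linarith) this
    linarith
  have pα : Pg α := ⟨M, _, hα⟩
  have pβ : Pg β := ⟨M, _, hβ⟩
  have m1 : min s₁ s₂ ≤ s₁ := min_le_left _ _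
  have m2 : min s₁ s₂ ≤ s₂ := min_le_right _ _
  set y₁ := x ^ (2 / 5 : ℝ) with hy₁
  set y₂ := x ^ (1 / 2 : ℝ) with hy₂
  have hy₂0 : 0 < y₂ := by positivity
  have e1 := h₁ l x T τ M α (cut (Iic y₁) β) hx1 hT hT' (u12_mono hM m1 hα) (u12_cut hM m1 hβ _)
    fun a b ha hb h1 h2 h3 => ⟨(hab a b ha hb h1 (cut_ne_zero h2).2 h3).2, (cut_ne_zero h2).1⟩
  have e2 := coarse_unif l (pα.cv ((pβ.cut (Ioi y₁)).cut (Iic y₂))) ha hlt hx0
    (fun t => h₂ l x t M α (cut (Iic y₂) (cut (Ioi y₁) β)) hx2 (u12_mono hM m2 hα)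
      (u12_cut hM le_rfl (u12_cut hM m2 hβ _) _) fun a b _ _ _ h2 _ => by
        have h4 : Nr b ≤ y₂ := (cut_ne_zero h2).1
        have h5 : y₁ < Nr b := (cut_ne_zero (cut_ne_zero h2).2).1
        exact ⟨h5.le, by linarith⟩) τ
  have e3 := h₁ l x T τ M (cut (Ioi y₂) (cut (Ioi y₁) β)) (cut (Iic y₁) α) hx1 hT hT'
    (u12_cut hM le_rfl (u12_cut hM m1 hβ _) _) (u12_cut hM m1 hα _)
    fun a b ha hb h1 h2 h3 => ⟨(hab b a hb ha (cut_ne_zero h2).2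
      (cut_ne_zero (cut_ne_zero h1).2).2 (by rwa [mul_comm b a])).1, (cut_ne_zero h2).1⟩
  have e4 := coarse_unif l (((pβ.cut (Ioi y₁)).cut (Ioi y₂)).cv (pα.cut (Ioi y₁))) ha hlt hx0
    (fun t => h₂ l x t M (cut (Ioi y₂) (cut (Ioi y₁) β)) (cut (Ioi y₁) α) hx2
      (u12_cut hM le_rfl (u12_cut hM m2 hβ _) _) (u12_cut hM m2 hα _)
      fun a b _ _ h1 h2 h3 => by
        have h4 : y₂ < Nr a := (cut_ne_zero h1).1
        have h5 : y₁ < Nr b := (cut_ne_zero h2).1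
        refine ⟨h5.le, ?_⟩
        have h6 : y₂ * y₂ = x := by
          rw [hy₂, ← Real.rpow_add hx0]; norm_num
        have h7 : Real.exp 1 ≤ 3 := (Real.exp_one_lt_d9.trans (by norm_num)).le
        rw [Nr_mul] at h3
        have h8 : y₂ * Nr b ≤ y₂ * (3 * y₂) := by
          calc y₂ * Nr b ≤ Nr a * Nr b := mul_le_mul_of_nonneg_right h4.le (Nr_nonneg b)
            _ ≤ x * Real.exp 1 := h3
            _ ≤ x * 3 := by gcongr
            _ = _ := by rw [← h6]; ring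
        exact le_of_mul_le_mul_left h8 hy₂0) τ
  have s1 := u12_split pα pβ y₁ l ha hx0 τ
  have s2 := u12_split pα (pβ.cut (Ioi y₁)) y₂ l ha hx0 τ
  have s3 := u12_split ((pβ.cut (Ioi y₁)).cut (Ioi y₂)) pα y₁ l ha hx0 τ
  rw [← SF_congr (f := cv α (cut (Ioi y₂) (cut (Ioi y₁) β))) fun n hn _ => cv_comm _ _ hn] at s3
  have k1 : C₁ * M ^ 2 * x ^ (5 / 6 - s₁) ≤ C₁ * M ^ 2 * x ^ (5 / 6 - min s₁ s₂) :=
    mul_le_mul_of_nonneg_left (Real.rpow_le_rpow_of_exponent_le hx3.le (by linarith))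
      (by positivity)
  have k2 : C₂ * M ^ 2 * x ^ (5 / 6 - s₂) ≤ C₂ * M ^ 2 * x ^ (5 / 6 - min s₁ s₂) :=
    mul_le_mul_of_nonneg_left (Real.rpow_le_rpow_of_exponent_le hx3.le (by linarith))
      (by positivity)
  linarith

end Crest.Agent.R012

end
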