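import Crest.Agent.R012.U3
import Crest.Agent.R012.U7

/-! # Row 12: bilinear forms at large height, short and long columns -/

set_option autoImplicit false

noncomputable section

open scoped BigOperators ComplexConjugate Topology
open Complex MeasureTheory Filter Set Crest.Agent.R017

namespace Crest.Agent.R012

theorem u12a_le {u v : ℝ} (h : u ≤ v + 3) : Real.exp u ≤ 27 * Real.exp v := by
  have h1 : Real.exp 3 ≤ 27 := by
    rw [show (3 : ℝ) = ((3 : ℕ) : ℝ) * 1 by norm_num, Real.exp_nat_mul,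
      show (27 : ℝ) = 3 ^ 3 by norm_num]
    exact pow_le_pow_left₀ (Real.exp_pos _).le (by linarith [Real.exp_one_lt_d9]) 3
  refine (Real.exp_le_exp.2 h).trans ?_
  rw [Real.exp_add, mul_comm]
  exact mul_le_mul_of_nonneg_right h1 (Real.exp_pos _).le

theorem u12a_big {c L u : ℝ} (hc : 0 < c) (hL : 2000 / c ^ 2 ≤ L) (hu : u ≤ -(L * c)) :
    1000 * Real.exp u * L ≤ 1 := by
  have hL0 : 0 ≤ L := le_trans (by positivity) hL
  rw [div_le_iff₀ (by positivity)] at hL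
  have h1 := Real.quadratic_le_exp_of_nonneg (mul_nonneg hL0 hc.le)
  have h2 : 1000 * L ≤ Real.exp (L * c) := by nlinarith [mul_nonneg hL0 hc.le]
  have h3 := mul_le_mul (Real.exp_le_exp.2 hu) h2 (by positivity) (Real.exp_pos _).le
  rw [← Real.exp_add, neg_add_cancel, Real.exp_zero] at h3
  linarith

theorem u12a_env {f : O → ℂ} {M s L : ℝ} (hs : 0 < s) (hs1 : s ≤ 1)
    (h : ∀ n, Prim n → Squarefree n → ‖f n‖ ≤ M * Nr n ^ s) :
    0 ≤ M ∧ Gr M (sqr f) ∧ EnvS (M * Real.exp (s * L)) (Real.exp L) (sqr f) := by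
  have hM : 0 ≤ M := by
    simpa [R017.Nr_one] using (norm_nonneg _).trans (h 1 prim_one squarefree_one)
  refine ⟨hM, fun n hn hq => ?_, fun n hn hq => ?_⟩
  · rw [sqr, if_pos hq]
    refine (h n hn hq).trans (mul_le_mul_of_nonneg_left ?_ hM)
    simpa using Real.rpow_le_rpow_of_exponent_le (one_le_Nr hn.ne_zero) hs1
  · rw [sqr, if_pos hq, mul_assoc]
    refine (h n hn hq).trans (mul_le_mul_of_nonneg_left ?_ hM)
    have p := div_pos (Nr_pos hn.ne_zero) (Real.exp_pos L)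
    have e : Nr n ^ s = Real.exp (s * L) * (Nr n / Real.exp L) ^ s := by
      rw [mul_comm s, Real.exp_mul, ← Real.mul_rpow (Real.exp_pos _).le p.le,
        mul_div_cancel₀ _ (Real.exp_pos L).ne']
    rw [e]
    refine mul_le_mul_of_nonneg_left ?_ (Real.exp_pos _).le
    rcases le_total (Nr n / Real.exp L) 1 with h1 | h1
    · linarith [Real.rpow_le_one p.le h1 hs.le]
    · have := Real.rpow_le_rpow_of_exponent_le h1 hs1
      rw [Real.rpow_one] at this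
      linarith

theorem u12a_cn {s : ℝ} (hs : 0 < s) : ∃ C : ℝ, 0 ≤ C ∧ ∀ (f : O → ℂ) (M L b ρ k : ℝ),
    EnvS M (Real.exp L) f → 0 ≤ b → b ≤ L → ρ ≤ 0 → 0 ≤ b + ρ + 3 → 0 < k → k ≤ 4 →
    cn (k * Real.exp (2 * ρ)) (Real.exp b) f ≤ C * M ^ 2 * Real.exp (s * L) * Real.exp (b + ρ) := by
  obtain ⟨C, hC, h⟩ := thinB hs
  refine ⟨29 * C, by positivity, fun f M L b ρ k hf hb hbL hρ hbρ hk hk4 => ?_⟩
  have h1 : Real.exp (2 * ρ) ≤ 1 := Real.exp_le_one_iff.2 (by linarith)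
  have h2 := h (k * Real.exp (2 * ρ)) (Real.exp b) (by positivity) (by nlinarith)
    (Real.one_le_exp hb)
  have h3 : Real.sqrt (k * Real.exp (2 * ρ)) ≤ 2 * Real.exp ρ := by
    refine Real.sqrt_le_iff.2 ⟨by positivity, ?_⟩
    rw [mul_pow, ← Real.exp_nat_mul, Nat.cast_ofNat]
    exact mul_le_mul_of_nonneg_right (by linarith) (Real.exp_pos _).le
  have h4 := u12a_le (u := 0) (v := b + ρ) (by linarith)
  have h5 : Real.exp b * Real.sqrt (k * Real.exp (2 * ρ)) + 1 ≤ 29 * Real.exp (b + ρ) := by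
    have := mul_le_mul_of_nonneg_left h3 (Real.exp_pos b).le
    rw [Real.exp_zero] at h4
    rw [Real.exp_add] at h4 ⊢
    linarith
  have h6 : Real.exp b ^ s ≤ Real.exp (s * L) := by
    rw [← Real.exp_mul, Real.exp_le_exp, mul_comm]
    exact mul_le_mul_of_nonneg_left hbL hs.le
  refine (cn_le_thin hf (by positivity) (Real.exp_pos b) (Real.exp_le_exp.2 hbL)).trans
    ((mul_le_mul_of_nonneg_left (h2.trans (mul_le_mul (mul_le_mul_of_nonneg_left h6 hC) h5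
      (by positivity) (by positivity))) (sq_nonneg M)).trans (le_of_eq (by ring)))

theorem u12a_core {s C₁ D : ℝ} (hs : 0 < s) (hs1 : s ≤ 1 / 100) (hC₁ : 0 ≤ C₁) (hD : 0 ≤ D) :
    ∃ C : ℝ, 0 ≤ C ∧ ∀ (l : ℤ) (L ρ b₁ b₂ τ M : ℝ) (α β : O → ℂ), 2 ≤ L → -L / 2 ≤ ρ → ρ ≤ 0 →
    1000 * Real.exp (2 * ρ) * L ≤ 1 → 0 ≤ b₁ → b₁ ≤ b₂ → b₂ ≤ L → 0 ≤ b₁ + ρ + 3 →
    0 ≤ L - b₂ + ρ + 3 →
    (∀ n, Prim n → Squarefree n → ‖α n‖ ≤ M * Nr n ^ s) →
    (∀ n, Prim n → Squarefree n → ‖β n‖ ≤ M * Nr n ^ s) →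
    (∀ a b, Prim a → Prim b → α a ≠ 0 → β b ≠ 0 → Real.exp L * Real.exp (-1) ≤ Nr (a * b) →
      Nr (a * b) ≤ Real.exp L * Real.exp 1 →
      Real.exp b₁ * Real.exp 1 ≤ Nr b ∧ Nr b ≤ Real.exp b₂ * Real.exp (-1)) →
    (∀ b, b₁ ≤ b → b ≤ b₂ → ∃ Δ : ℝ, 0 ≤ Δ ∧ Δ ≤ D * Real.exp ((2 / 3 - 11 * s) * L) ∧
      ∀ (τ' M' : ℝ) (β' : O → ℂ), Env M' (Real.exp b) β' →
        DD FF (Real.exp (2 * ρ)) (Real.exp (L - b)) (Real.exp b) τ' β' ≤ C₁ * Real.exp (s * L) *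
          (Δ * cn (2 * Real.exp (2 * ρ)) (Real.exp b) β' + M' ^ 2)) →
    ‖SF l (2 * Real.exp (2 * ρ)) (cv α β) (Real.exp L) τ‖ ≤
      C * M ^ 2 * Real.exp ((5 / 6 - s) * L) := by
  obtain ⟨C₀, hC₀, h₀⟩ := bilr_const
  obtain ⟨C₂, hC₂, h₂⟩ := u12a_cn hs
  obtain ⟨c, hc0, hc⟩ : ∃ c : ℝ, 0 ≤ c ∧ c ^ 2 = C₁ * C₂ * (D * C₂ + 1) :=
    ⟨Real.sqrt _, Real.sqrt_nonneg _, Real.sq_sqrt (by positivity)⟩
  refine ⟨C₀ * (c / s + 1), by positivity,
    fun l L ρ b₁ b₂ τ M α β hL hρ1 hρ hθ hb1 hb12 hb2 hb3 hb4 hα hβ hsupp hDD => ?_⟩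
  obtain ⟨hM, gα, eα⟩ := u12a_env (L := L) hs (by linarith) hα
  obtain ⟨-, gβ, eβ⟩ := u12a_env (L := L) hs (by linarith) hβ
  have hq : ∀ {f : O → ℂ} {n : O}, sqr f n ≠ 0 → f n ≠ 0 := fun {f n} h h' => h (by
    rw [sqr, h', ite_self])
  have d0 : 0 ≤ s * L := by positivity
  have d1 : s * L ≤ 1 / 100 * L := mul_le_mul_of_nonneg_right hs1 (by linarith)
  rw [SF_congr (g := cv (sqr α) (sqr β)) fun n hn hn' => cv_congr
    (fun d _ hd => by rw [sqr, if_pos hd]) (fun d _ hd => by rw [sqr, if_pos hd]) hn hn']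
  refine (h₀ l _ _ τ 1 (Real.exp b₁) (Real.exp b₂) (L / Real.sqrt (Real.exp (2 * ρ))) M M
    (c * M ^ 2 * Real.exp ((5 / 6 - 2 * s) * L)) _ _ (by linarith [Real.add_one_le_exp L])
    (by rw [← Real.exp_neg, Real.exp_le_exp]; linarith) (Real.exp_le_one_iff.2 (by linarith))
    zero_le_one (by rwa [Real.log_exp, one_pow]) (Real.one_le_exp hb1) (Real.exp_le_exp.2 hb12)
    (Real.exp_le_exp.2 hb2) (by rw [Real.log_exp, mul_div_cancel₀ _ (by positivity)]) gα gβ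
    (fun a b ha hb h1 h2 => hsupp a b ha hb (hq h1) (hq h2)) (by positivity)
    fun B h1 h2 t _ => ?_).trans ?_
  · obtain ⟨b, rfl⟩ : ∃ b, B = Real.exp b :=
      ⟨Real.log B, (Real.exp_log ((Real.exp_pos _).trans_le h1)).symm⟩
    rw [Real.exp_le_exp] at h1 h2
    obtain ⟨Δ, hΔ0, hΔ, h⟩ := hDD b h1 h2
    rw [← Real.exp_sub]
    have a1 := h₂ _ _ L (L - b) ρ 4 eα (by linarith) (by linarith) hρ (by linarith) (by norm_num)
      le_rfl
    have a2 := h₂ (tw l (sqr β)) (M * Real.exp (s * L)) L b ρ 2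
      (fun n hn hn' => by rw [norm_tw l _ hn.ne_zero]; exact eβ n hn hn') (by linarith)
      (by linarith) hρ (by linarith) two_pos (by norm_num)
    have a3 := h (τ + t) _ _ ((eβ.mono le_rfl (Real.exp_pos b) (Real.exp_le_exp.2 (by linarith))).env
      (Real.exp_pos b) (fun n _ hn => by rw [sqr, if_neg hn]) l)
    have a4 := mul_le_mul hΔ a2 (cn_nonneg _ _ _) (by positivity)
    have a5 := mul_le_mul a1 (a3.trans (mul_le_mul_of_nonneg_left (add_le_add a4 le_rfl)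
      (by positivity))) (DD_nonneg _ _ _ _ _ _) (by positivity)
    refine a5.trans ?_
    have e1 : Real.exp (s * L) ^ 7 * (Real.exp ((2 / 3 - 11 * s) * L) * Real.exp (L - b + ρ) *
        Real.exp (b + ρ)) = Real.exp (2 * ρ) * Real.exp ((5 / 6 - 2 * s) * L) ^ 2 := by
      simp only [← Real.exp_nat_mul, ← Real.exp_add]
      congr 1
      push_cast
      ring
    have e2 : Real.exp (s * L) ^ 6 * Real.exp (L - b + ρ) ≤
        Real.exp (2 * ρ) * Real.exp ((5 / 6 - 2 * s) * L) ^ 2 := by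
      simp only [← Real.exp_nat_mul, ← Real.exp_add, Real.exp_le_exp]
      push_cast
      linarith
    have e3 := mul_le_mul_of_nonneg_left e2 (show 0 ≤ C₁ * C₂ * M ^ 4 by positivity)
    have e4 := congrArg (fun z => C₁ * C₂ * (D * C₂) * M ^ 4 * z) e1
    rw [mul_pow (c * M ^ 2), mul_pow c, hc]
    linarith
  · rw [Real.log_exp, mul_assoc C₀, mul_assoc C₀]
    refine mul_le_mul_of_nonneg_left ?_ hC₀
    have a1 : L ≤ Real.exp (s * L) / s := by
      rw [le_div_iff₀ hs]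
      linarith [Real.add_one_le_exp (s * L)]
    have a2 : Real.exp (s * L) * Real.exp ((5 / 6 - 2 * s) * L) = Real.exp ((5 / 6 - s) * L) := by
      rw [← Real.exp_add]
      congr 1
      ring
    have a3 : (Real.exp L)⁻¹ ≤ Real.exp ((5 / 6 - s) * L) := by
      rw [← Real.exp_neg, Real.exp_le_exp]
      linarith
    have a4 := mul_le_mul_of_nonneg_right a1
      (show 0 ≤ c * M ^ 2 * Real.exp ((5 / 6 - 2 * s) * L) by positivity)
    have a5 := mul_le_mul_of_nonneg_left a3 (sq_nonneg M)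
    have a6 : Real.exp (s * L) / s * (c * M ^ 2 * Real.exp ((5 / 6 - 2 * s) * L)) =
        c / s * M ^ 2 * Real.exp ((5 / 6 - s) * L) := by
      rw [← a2]
      ring
    rw [div_eq_mul_inv (M * M)]
    linarith

theorem u12a_H1 {ε : ℝ} (hε : 0 < ε) : ∃ C : ℝ, 0 ≤ C ∧ ∀ (L b ρ τ M : ℝ) (β : O → ℂ), 0 ≤ b →
    b ≤ L → -L / 2 ≤ ρ → ρ ≤ 0 → Env M (Real.exp b) β →
    DD FF (Real.exp (2 * ρ)) (Real.exp (L - b)) (Real.exp b) τ β ≤ C * Real.exp (ε * L) *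
      ((Real.exp (L - b + ρ) + Real.exp (b - ρ) + Real.exp (2 / 3 * L + ρ / 3) +
        Real.exp ((L - b) / 3 + b - ρ / 3)) * cn (2 * Real.exp (2 * ρ)) (Real.exp b) β + M ^ 2) := by
  obtain ⟨C, hC, h⟩ := H1_F hε
  refine ⟨C, hC, fun L b ρ τ M β h1 h2 h3 h4 hE => (h _ _ _ τ M β (Real.one_le_exp (by linarith))
    (Real.one_le_exp h1) (by rw [← Real.exp_add, ← Real.exp_neg, Real.exp_le_exp]; linarith)
    (Real.exp_le_one_iff.2 (by linarith)) hE).trans (le_of_eq ?_)⟩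
  simp only [← Real.exp_add, ← Real.exp_mul, ← Real.exp_half, ← Real.exp_sub]
  ring_nf

theorem u12a_H2 {ε : ℝ} (hε : 0 < ε) : ∃ C : ℝ, 0 ≤ C ∧ ∀ (L b ρ τ M : ℝ) (β : O → ℂ), 0 ≤ b →
    b ≤ L → -L / 2 ≤ ρ → ρ ≤ 0 → Env M (Real.exp b) β →
    DD FF (Real.exp (2 * ρ)) (Real.exp (L - b)) (Real.exp b) τ β ≤ C * Real.exp (ε * L) *
      ((Real.exp (L - b) + Real.exp (b - ρ) + (Real.exp (2 / 3 * L + 2 / 3 * ρ) +
        Real.exp (L - b + b / 3 + 2 / 3 * ρ) + Real.exp ((L - b) / 3 + b + 2 / 3 * ρ))) *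
          cn (2 * Real.exp (2 * ρ)) (Real.exp b) β + M ^ 2) := by
  obtain ⟨C, hC, h⟩ := H2_F hε
  refine ⟨C, hC, fun L b ρ τ M β h1 h2 h3 h4 hE => (h _ _ _ τ M β (Real.one_le_exp (by linarith))
    (Real.one_le_exp h1) (by rw [← Real.exp_add, ← Real.exp_neg, Real.exp_le_exp]; linarith)
    (Real.exp_le_one_iff.2 (by linarith)) hE).trans (le_of_eq ?_)⟩
  rw [add_mul _ _ (Real.exp (2 * ρ) ^ (1 / 3 : ℝ)), add_mul _ _ (Real.exp (2 * ρ) ^ (1 / 3 : ℝ))]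
  simp only [← Real.exp_add, ← Real.exp_mul, ← Real.exp_half, ← Real.exp_sub]
  ring_nf

/-- Short columns: `bilr_const` with `θ = T⁻²`, `m = 1`, `H1_F`, `cn_le_thin`, `thinB`
(apply to `sqr α`, `sqr β`). -/
theorem H_short {δ : ℝ} (hδ : 0 < δ) (hδ' : δ ≤ 1 / 100) : ∃ s : ℝ, 0 < s ∧ ∃ C x₀ : ℝ, 0 ≤ C ∧
    ∀ (l : ℤ) (x T τ M : ℝ) (α β : O → ℂ), x₀ ≤ x → x ^ δ ≤ T → T ≤ x ^ (1 / 6 + δ / 2) →
    (∀ n, Prim n → Squarefree n → ‖α n‖ ≤ M * Nr n ^ s) →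
    (∀ n, Prim n → Squarefree n → ‖β n‖ ≤ M * Nr n ^ s) →
    (∀ a b, Prim a → Prim b → α a ≠ 0 → β b ≠ 0 → x * Real.exp (-1) ≤ Nr (a * b) →
      x ^ (1 / 3 + δ) / T * Real.exp (-1) ≤ Nr b ∧ Nr b ≤ x ^ (2 / 5 : ℝ)) →
    ‖SF l (2 * (T ^ 2)⁻¹) (cv α β) x τ‖ ≤ C * M ^ 2 * x ^ (5 / 6 - s) := by
  obtain ⟨C₁, hC₁, h₁⟩ := u12a_H1 (ε := δ / 33) (by positivity)
  obtain ⟨C, hC, h⟩ := u12a_core (s := δ / 33) (D := 108) (by positivity) (by linarith) hC₁
    (by norm_num)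
  refine ⟨δ / 33, by positivity, C, Real.exp (max 30 (2000 / δ ^ 2)), hC,
    fun l x T τ M α β hx hT1 hT2 hα hβ hs => ?_⟩
  obtain ⟨L, rfl⟩ : ∃ L, x = Real.exp L :=
    ⟨Real.log x, (Real.exp_log ((Real.exp_pos _).trans_le hx)).symm⟩
  obtain ⟨t, rfl⟩ : ∃ t, T = Real.exp t :=
    ⟨Real.log T, (Real.exp_log (lt_of_lt_of_le (by positivity) hT1)).symm⟩
  rw [Real.exp_le_exp, max_le_iff] at hx
  rw [← Real.exp_mul, Real.exp_le_exp] at hT1 hT2
  have hL := hx.1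
  have d0 : 0 ≤ L * δ := by positivity
  have d1 : L * δ ≤ L * (1 / 100) := mul_le_mul_of_nonneg_left hδ' (by linarith)
  have e : (Real.exp t ^ 2)⁻¹ = Real.exp (2 * -t) := by
    rw [← Real.exp_nat_mul, ← Real.exp_neg]
    congr 1
    push_cast
    ring
  rw [e, ← Real.exp_mul, mul_comm L]
  refine h l L (-t) (L * (1 / 3 + δ) - t - 2) (L * (2 / 5) + 1) τ M α β (by linarith) (by linarith)
    (by linarith) (u12a_big hδ hx.2 (by linarith)) (by linarith) (by linarith) (by linarith)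
    (by linarith) (by linarith) hα hβ (fun a b ha hb h1 h2 h3 _ => ?_) fun b h1 h2 =>
      ⟨_, by positivity, ?_, fun τ' M' β' hE =>
        h₁ L b (-t) τ' M' β' (by linarith) (by linarith) (by linarith) (by linarith) hE⟩
  · have := hs a b ha hb h1 h2 h3
    simp only [← Real.exp_mul, ← Real.exp_sub, ← Real.exp_add] at this ⊢
    rw [show L * (1 / 3 + δ) - t - 2 + 1 = L * (1 / 3 + δ) - t + -1 by ring,
      show L * (2 / 5) + 1 + -1 = L * (2 / 5) by ring]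
    exact this
  · have a1 := u12a_le (u := L - b + -t) (v := (2 / 3 - 11 * (δ / 33)) * L) (by linarith)
    have a2 := u12a_le (u := b - -t) (v := (2 / 3 - 11 * (δ / 33)) * L) (by linarith)
    have a3 := u12a_le (u := 2 / 3 * L + -t / 3) (v := (2 / 3 - 11 * (δ / 33)) * L) (by linarith)
    have a4 := u12a_le (u := (L - b) / 3 + b - -t / 3) (v := (2 / 3 - 11 * (δ / 33)) * L)
      (by linarith)
    linarith

/-- Long columns: `θ = x^{-δ}`; `H1_F` if `A / B ≥ x^{3δ/4}`, `H2_F` otherwise. -/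
theorem H_long {δ : ℝ} (hδ : 0 < δ) (hδ' : δ ≤ 1 / 100) : ∃ s : ℝ, 0 < s ∧ ∃ C x₀ : ℝ, 0 ≤ C ∧
    ∀ (l : ℤ) (x τ M : ℝ) (α β : O → ℂ), x₀ ≤ x →
    (∀ n, Prim n → Squarefree n → ‖α n‖ ≤ M * Nr n ^ s) →
    (∀ n, Prim n → Squarefree n → ‖β n‖ ≤ M * Nr n ^ s) →
    (∀ a b, Prim a → Prim b → α a ≠ 0 → β b ≠ 0 → Nr (a * b) ≤ x * Real.exp 1 →
      x ^ (2 / 5 : ℝ) ≤ Nr b ∧ Nr b ≤ 3 * x ^ (1 / 2 : ℝ)) →
    ‖SF l (2 * x ^ (-δ)) (cv α β) x τ‖ ≤ C * M ^ 2 * x ^ (5 / 6 - s) := by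
  obtain ⟨C₁, hC₁, h₁⟩ := u12a_H1 (ε := δ / 132) (by positivity)
  obtain ⟨C₂, hC₂, h₂⟩ := u12a_H2 (ε := δ / 132) (by positivity)
  obtain ⟨C, hC, h⟩ := u12a_core (s := δ / 132) (C₁ := C₁ + C₂) (D := 135) (by positivity)
    (by linarith) (by positivity) (by norm_num)
  refine ⟨δ / 132, by positivity, C, Real.exp (max 30 (2000 / δ ^ 2)), hC,
    fun l x τ M α β hx hα hβ hs => ?_⟩
  obtain ⟨L, rfl⟩ : ∃ L, x = Real.exp L :=
    ⟨Real.log x, (Real.exp_log ((Real.exp_pos _).trans_le hx)).symm⟩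
  rw [Real.exp_le_exp, max_le_iff] at hx
  have hL := hx.1
  have d0 : 0 ≤ L * δ := by positivity
  have d1 : L * δ ≤ L * (1 / 100) := mul_le_mul_of_nonneg_left hδ' (by linarith)
  rw [← Real.exp_mul, ← Real.exp_mul, mul_comm L (5 / 6 - _),
    show L * -δ = 2 * (-(L * δ) / 2) by ring]
  refine h l L (-(L * δ) / 2) (L * (2 / 5) - 1) (L * (1 / 2) + 3) τ M α β (by linarith)
    (by linarith) (by linarith) (u12a_big hδ hx.2 (by linarith)) (by linarith) (by linarith)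
    (by linarith) (by linarith) (by linarith) hα hβ (fun a b ha hb h1 h2 _ h3 => ?_)
    fun b h1 h2 => ?_
  · have := hs a b ha hb h1 h2 h3
    simp only [← Real.exp_mul, ← Real.exp_add] at this ⊢
    rw [show L * (2 / 5) - 1 + 1 = L * (2 / 5) by ring,
      show L * (1 / 2) + 3 + -1 = 2 + L * (1 / 2) by ring, Real.exp_add]
    exact ⟨this.1, this.2.trans (mul_le_mul_of_nonneg_right
      (by linarith [Real.add_one_le_exp 2]) (Real.exp_pos _).le)⟩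
  generalize hv : (2 / 3 - 11 * (δ / 132)) * L = v
  rcases le_total (2 * b) (L - 3 / 4 * (L * δ)) with h3 | h3
  · refine ⟨Real.exp (L - b + -(L * δ) / 2) + Real.exp (b - -(L * δ) / 2) +
      Real.exp (2 / 3 * L + -(L * δ) / 2 / 3) + Real.exp ((L - b) / 3 + b - -(L * δ) / 2 / 3),
      by positivity, ?_, fun τ' M' β' hE => (h₁ L b _ τ' M' β' (by linarith) (by linarith)
      (by linarith) (by linarith) hE).trans ?_⟩
    · have a1 := u12a_le (u := L - b + -(L * δ) / 2) (v := v) (by linarith)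
      have a2 := u12a_le (u := b - -(L * δ) / 2) (v := v) (by linarith)
      have a3 := u12a_le (u := 2 / 3 * L + -(L * δ) / 2 / 3) (v := v) (by linarith)
      have a4 := u12a_le (u := (L - b) / 3 + b - -(L * δ) / 2 / 3) (v := v) (by linarith)
      linarith [Real.exp_pos v]
    · have := cn_nonneg (2 * Real.exp (2 * (-(L * δ) / 2))) (Real.exp b) β'
      exact mul_le_mul_of_nonneg_right (mul_le_mul_of_nonneg_right (by linarith)
        (Real.exp_pos _).le) (by positivity)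
  · refine ⟨Real.exp (L - b) + Real.exp (b - -(L * δ) / 2) +
      (Real.exp (2 / 3 * L + 2 / 3 * (-(L * δ) / 2)) +
        Real.exp (L - b + b / 3 + 2 / 3 * (-(L * δ) / 2)) +
        Real.exp ((L - b) / 3 + b + 2 / 3 * (-(L * δ) / 2))),
      by positivity, ?_, fun τ' M' β' hE => (h₂ L b _ τ' M' β' (by linarith) (by linarith)
      (by linarith) (by linarith) hE).trans ?_⟩
    · have a1 := u12a_le (u := L - b) (v := v) (by linarith)
      have a2 := u12a_le (u := b - -(L * δ) / 2) (v := v) (by linarith)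
      have a3 := u12a_le (u := 2 / 3 * L + 2 / 3 * (-(L * δ) / 2)) (v := v) (by linarith)
      have a4 := u12a_le (u := L - b + b / 3 + 2 / 3 * (-(L * δ) / 2)) (v := v) (by linarith)
      have a5 := u12a_le (u := (L - b) / 3 + b + 2 / 3 * (-(L * δ) / 2)) (v := v) (by linarith)
      linarith
    · have := cn_nonneg (2 * Real.exp (2 * (-(L * δ) / 2))) (Real.exp b) β'
      exact mul_le_mul_of_nonneg_right (mul_le_mul_of_nonneg_right (by linarith)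
        (Real.exp_pos _).le) (by positivity)

end Crest.Agent.R012

end
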