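import Crest.Agent.R012.UDefs

/-! # Row 12: the smoothed cut-off -/

set_option autoImplicit false

noncomputable section

open scoped BigOperators ComplexConjugate Topology
open Complex MeasureTheory Filter Set Crest.Agent.R017

namespace Crest.Agent.R012

theorem u14a_int : Integrable (fun v : ℝ => Real.exp (-v ^ 2)) := by
  simpa using integrable_exp_neg_mul_sq (b := 1) one_pos

theorem u14a_total : ∫ v : ℝ, Real.exp (-v ^ 2) = Real.sqrt Real.pi := by
  simpa using integral_gaussian 1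

theorem u14a_W (s x : ℝ) : W (s ^ 2)⁻¹ x = Real.exp (-(s * Real.log x / 2) ^ 2) := by
  unfold W
  congr 1
  rw [← div_eq_mul_inv, div_div_eq_mul_div]
  ring

theorem u14a_tail {S : Set ℝ} (hS : MeasurableSet S) {c : ℝ} (h : ∀ v ∈ S, 0 ≤ c * (v - c)) :
    (Real.sqrt Real.pi)⁻¹ * ∫ v in S, Real.exp (-v ^ 2) ≤ Real.exp (-c ^ 2) := by
  have hi : Integrable (fun v : ℝ => Real.exp (-c ^ 2) * Real.exp (-(v - c) ^ 2)) :=
    (u14a_int.comp_sub_right c).const_mul _
  have h1 : ∫ v in S, Real.exp (-v ^ 2) ≤ ∫ v in S, Real.exp (-c ^ 2) * Real.exp (-(v - c) ^ 2) := by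
    refine setIntegral_mono_on u14a_int.integrableOn hi.integrableOn hS fun v hv => ?_
    rw [← Real.exp_add, Real.exp_le_exp]
    nlinarith [h v hv]
  have h2 := setIntegral_le_integral (s := S) hi (Eventually.of_forall fun v => by positivity)
  have h3 : ∫ v : ℝ, Real.exp (-c ^ 2) * Real.exp (-(v - c) ^ 2) =
      Real.exp (-c ^ 2) * Real.sqrt Real.pi := by
    rw [integral_const_mul, integral_sub_right_eq_self (fun v : ℝ => Real.exp (-v ^ 2)) c,
      u14a_total]
  rw [h3] at h2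
  rw [inv_mul_le_iff₀ (Real.sqrt_pos.2 Real.pi_pos), mul_comm]
  exact h1.trans h2

theorem Ph_approx {T x : ℝ} (hT : 0 < T) (hx : 0 < x) :
    |(if x ≤ 1 then (1 : ℝ) else 0) - Ph T x| ≤ W (T ^ 2)⁻¹ x := by
  have hp : 0 < Real.sqrt Real.pi := Real.sqrt_pos.2 Real.pi_pos
  have h0 : ∀ S : Set ℝ, 0 ≤ (Real.sqrt Real.pi)⁻¹ * ∫ v in S, Real.exp (-v ^ 2) := fun S =>
    mul_nonneg (inv_nonneg.2 hp.le) (integral_nonneg fun v => (Real.exp_pos _).le)
  rw [u14a_W, Ph]
  split_ifs with h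
  · have hc : T * Real.log x / 2 ≤ 0 := by
      have := mul_nonpos_of_nonneg_of_nonpos hT.le (Real.log_nonpos hx.le h)
      linarith
    generalize T * Real.log x / 2 = c at hc ⊢
    have h1 := intervalIntegral.integral_Iic_add_Ioi (b := c) u14a_int.integrableOn
      u14a_int.integrableOn
    rw [u14a_total] at h1
    have h2 : 1 - (Real.sqrt Real.pi)⁻¹ * ∫ v in Ioi c, Real.exp (-v ^ 2) =
        (Real.sqrt Real.pi)⁻¹ * ∫ v in Iic c, Real.exp (-v ^ 2) := by
      rw [eq_sub_of_add_eq h1, mul_sub, inv_mul_cancel₀ hp.ne']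
    rw [h2, abs_of_nonneg (h0 _)]
    exact u14a_tail measurableSet_Iic fun v hv =>
      mul_nonneg_of_nonpos_of_nonpos hc (sub_nonpos.2 hv)
  · have hc : 0 ≤ T * Real.log x / 2 := by
      have := mul_nonneg hT.le (Real.log_nonneg (not_le.1 h).le)
      linarith
    rw [zero_sub, abs_neg, abs_of_nonneg (h0 _)]
    exact u14a_tail measurableSet_Ioi fun v hv => mul_nonneg hc (sub_nonneg.2 (le_of_lt hv))

/-- Substitute `v = s log x / 2`. -/
theorem Ph_sub {T x : ℝ} (hT : 1 ≤ T) (hx : 0 < x) :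
    Ph T x = Ph 1 x - (2 * Real.sqrt Real.pi)⁻¹ * ∫ s in (1 : ℝ)..T, Real.log x * W (s ^ 2)⁻¹ x := by
  have _ := hT
  have _ := hx
  have hp : 0 < Real.sqrt Real.pi := Real.sqrt_pos.2 Real.pi_pos
  have h1 := intervalIntegral.smul_integral_comp_mul_right (a := 1) (b := T)
    (fun v : ℝ => Real.exp (-v ^ 2)) (Real.log x / 2)
  have h2 : ∀ c : ℝ, ∫ v in Ioi c, Real.exp (-v ^ 2) =
      Real.sqrt Real.pi - ∫ v in Iic c, Real.exp (-v ^ 2) := fun c => by
    rw [← u14a_total, ← intervalIntegral.integral_Iic_add_Ioi (b := c) u14a_int.integrableOn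
      u14a_int.integrableOn]
    ring
  rw [← intervalIntegral.integral_Iic_sub_Iic u14a_int.integrableOn u14a_int.integrableOn,
    smul_eq_mul] at h1
  simp only [u14a_W, Ph, h2, intervalIntegral.integral_const_mul, mul_div_assoc]
  linear_combination (Real.sqrt Real.pi)⁻¹ * h1

theorem Ph_one {y X : ℝ} (hy : 0 < y) (hX : 0 < X) :
    Ph 1 (y / X) = (2 * Real.sqrt Real.pi)⁻¹ * ∫ v in Iic (Real.log X), W 1 (y / Real.exp v) := by
  have h1 := (Measure.measurePreserving_sub_left volume (Real.log y)).setIntegral_preimage_emb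
    (MeasurableEquiv.subLeft (Real.log y)).measurableEmbedding
    (fun w : ℝ => Real.exp (-(2⁻¹ * w) ^ 2)) (Ici (Real.log y - Real.log X))
  have h2 : (fun v : ℝ => Real.log y - v) ⁻¹' Ici (Real.log y - Real.log X) = Iic (Real.log X) := by
    ext v
    simp
  rw [h2, integral_Ici_eq_integral_Ioi, integral_comp_mul_left_Ioi
    (fun v : ℝ => Real.exp (-v ^ 2)) _ (by norm_num : (0 : ℝ) < 2⁻¹)] at h1
  have h3 : ∀ v : ℝ, W 1 (y / Real.exp v) = Real.exp (-(2⁻¹ * (Real.log y - v)) ^ 2) := fun v => by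
    unfold W
    rw [Real.log_div hy.ne' (Real.exp_pos v).ne', Real.log_exp]
    congr 1
    ring
  simp only [h3]
  rw [h1, Ph, Real.log_div hy.ne' hX.ne', smul_eq_mul,
    show 1 * (Real.log y - Real.log X) / 2 = 2⁻¹ * (Real.log y - Real.log X) by ring]
  ring

end Crest.Agent.R012

end
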