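import Crest.Agent.R012.U1v

/-! # Row 12: smooth sums of convolutions -/

set_option autoImplicit false

noncomputable section

open scoped BigOperators ComplexConjugate Topology
open Complex MeasureTheory Filter Set Crest.Agent.R017

namespace Crest.Agent.R012

open Classical in
/-- The general term of the double series. -/
def bt (l : ℤ) (a : ℝ) (α β : O → ℂ) (Y τ : ℝ) (p : O × O) : ℂ :=
  if Prim p.1 ∧ Prim p.2 then α p.1 * β p.2 * az l (p.1 * p.2) * FF (p.1 * p.2) *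
    (Nr (p.1 * p.2) : ℂ) ^ (-(τ * I)) * (W a (Nr (p.1 * p.2) / Y) : ℂ) else 0

theorem u1b_div {n d : O} (hn : Prim n) (hd : d ∈ pdiv n) :
    Prim d ∧ Prim (n / d) ∧ d * (n / d) = n := by
  obtain ⟨h1, m, rfl⟩ := (mem_pdiv hn.ne_zero).1 hd
  rw [mul_div_cancel_left₀ m h1.ne_zero]
  exact ⟨h1, h1.of_mul hn, rfl⟩

theorem u1b_fib {E : Type} [NormedAddCommGroup E] [CompleteSpace E] {H : O × O → E} (hH : Summable H)
    (h0 : ∀ p, ¬ (Prim p.1 ∧ Prim p.2) → H p = 0) :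
    HasSum (fun n : O => if Prim n then ∑ d ∈ pdiv n, H (d, n / d) else 0) (∑' p, H p) := by
  classical
  convert hH.hasSum.tsum_fiberwise (fun p => p.1 * p.2) using 2 with n
  rw [tsum_subtype ((fun p : O × O => p.1 * p.2) ⁻¹' {n}) H]
  split_ifs with hn
  · rw [tsum_eq_sum (s := (pdiv n).image fun d => (d, n / d)), Finset.sum_image]
    · refine Finset.sum_congr rfl fun d hd => ?_
      rw [Set.indicator_of_mem]
      exact (u1b_div hn hd).2.2
    · exact fun d _ e _ h => congrArg Prod.fst h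
    · rintro ⟨d, m⟩ hp
      by_cases hm : d * m = n
      · rw [Set.indicator_of_mem (by exact hm)]
        refine h0 _ fun h => hp (Finset.mem_image.2 ⟨d, (mem_pdiv hn.ne_zero).2 ⟨h.1, m, hm.symm⟩, ?_⟩)
        rw [← hm, mul_div_cancel_left₀ m h.1.ne_zero]
      · exact Set.indicator_of_notMem (by exact hm) _
  · symm
    refine (tsum_congr fun p => ?_).trans tsum_zero
    by_cases hm : p.1 * p.2 = n
    · rw [Set.indicator_of_mem (by exact hm)]
      exact h0 _ fun h => hn (hm ▸ h.1.mul h.2)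
    · exact Set.indicator_of_notMem (by exact hm) _

theorem u1b_W {a : ℝ} (ha : 0 < a) (A : ℝ) {Y x y : ℝ} (hY : 0 < Y) (hx : 0 < x) (hy : 0 < y) :
    (x * y) ^ A * W a (x * y / Y) ≤
      Real.exp (a * (-(A + 2)) ^ 2) * Y ^ (A + 2) * (x ^ (-2 : ℝ) * y ^ (-2 : ℝ)) := by
  have hxy : 0 < x * y := mul_pos hx hy
  refine (mul_le_mul_of_nonneg_left (W_le_rpow ha (div_pos hxy hY) (-(A + 2)))
    (Real.rpow_nonneg hxy.le _)).trans (le_of_eq ?_)
  rw [← Real.mul_rpow hx.le hy.le, Real.div_rpow hxy.le hY.le, Real.rpow_neg hY.le,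
    show (-2 : ℝ) = A + -(A + 2) by ring, Real.rpow_add hxy]
  field_simp

theorem u1b_summ : Summable (fun p : O × O => Nr p.1 ^ (-2 : ℝ) * Nr p.2 ^ (-2 : ℝ)) :=
  (summable_Nr_rpow one_lt_two).mul_of_nonneg (summable_Nr_rpow one_lt_two)
    (fun x => Real.rpow_nonneg (Nr_nonneg x) _) (fun x => Real.rpow_nonneg (Nr_nonneg x) _)

theorem u1b_bt_zero (l : ℤ) (a : ℝ) (α β : O → ℂ) (Y τ : ℝ) (p : O × O)
    (h : ¬ (Prim p.1 ∧ Prim p.2)) : bt l a α β Y τ p = 0 := by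
  rw [bt, if_neg h]

theorem summable_bt {α β : O → ℂ} (hα : Pg α) (hβ : Pg β) (l : ℤ) {a Y : ℝ} (ha : 0 < a) (hY : 0 < Y)
    (τ : ℝ) : Summable (fun p => ‖bt l a α β Y τ p‖) := by
  obtain ⟨K₁, A₁, h₁⟩ := hα
  obtain ⟨K₂, A₂, h₂⟩ := hβ
  have hc := cst_pos
  refine Summable.of_nonneg_of_le (fun _ => norm_nonneg _) (fun p => ?_) (u1b_summ.mul_left
    (|K₁| * |K₂| * (1 + cst) * (Real.exp (a * (-(max A₁ A₂ + 2)) ^ 2) * Y ^ (max A₁ A₂ + 2))))
  have n1 := Nr_nonneg p.1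
  have n2 := Nr_nonneg p.2
  by_cases hp : Prim p.1 ∧ Prim p.2
  swap
  · rw [u1b_bt_zero _ _ _ _ _ _ _ hp, norm_zero]
    positivity
  have hn := hp.1.mul hp.2
  rw [bt, if_pos hp]
  by_cases hs : Squarefree (p.1 * p.2)
  swap
  · simp only [FF_of_not hs, mul_zero, zero_mul, norm_zero]
    positivity
  have a1 : ‖α p.1‖ ≤ |K₁| * Nr p.1 ^ max A₁ A₂ := (h₁ _ hp.1 hs.of_mul_left).trans
    (mul_le_mul (le_abs_self _) (Real.rpow_le_rpow_of_exponent_le (one_le_Nr hp.1.ne_zero)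
      (le_max_left _ _)) (by positivity) (abs_nonneg _))
  have a2 : ‖β p.2‖ ≤ |K₂| * Nr p.2 ^ max A₁ A₂ := (h₂ _ hp.2 hs.of_mul_right).trans
    (mul_le_mul (le_abs_self _) (Real.rpow_le_rpow_of_exponent_le (one_le_Nr hp.2.ne_zero)
      (le_max_right _ _)) (by positivity) (abs_nonneg _))
  have a3 := norm_FF_le hn
  have a4 := u1b_W ha (max A₁ A₂) hY (Nr_pos hp.1.ne_zero) (Nr_pos hp.2.ne_zero)
  have a5 := W_pos a (Nr p.1 * Nr p.2 / Y)
  rw [norm_mul, norm_mul, norm_mul, norm_mul, norm_mul, norm_az l hn.ne_zero,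
    Complex.norm_cpow_eq_rpow_re_of_pos (Nr_pos hn.ne_zero), Complex.norm_real,
    Real.norm_of_nonneg (W_pos _ _).le, show (-((τ : ℂ) * I)).re = 0 by simp, Real.rpow_zero,
    mul_one, mul_one, Nr_mul]
  rw [Real.mul_rpow n1 n2] at a4
  calc ‖α p.1‖ * ‖β p.2‖ * ‖FF (p.1 * p.2)‖ * W a (Nr p.1 * Nr p.2 / Y)
      ≤ (|K₁| * Nr p.1 ^ max A₁ A₂) * (|K₂| * Nr p.2 ^ max A₁ A₂) * (1 + cst) *
        W a (Nr p.1 * Nr p.2 / Y) := by gcongr
    _ = |K₁| * |K₂| * (1 + cst) *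
        (Nr p.1 ^ max A₁ A₂ * Nr p.2 ^ max A₁ A₂ * W a (Nr p.1 * Nr p.2 / Y)) := by ring
    _ ≤ _ := (mul_le_mul_of_nonneg_left a4 (by positivity)).trans (le_of_eq (by ring))

theorem SF_cv_eq {α β : O → ℂ} (hα : Pg α) (hβ : Pg β) (l : ℤ) {a Y : ℝ} (ha : 0 < a) (hY : 0 < Y)
    (τ : ℝ) : SF l a (cv α β) Y τ = ∑' p, bt l a α β Y τ p := by
  rw [← (u1b_fib (summable_bt hα hβ l ha hY τ).of_norm (u1b_bt_zero l a α β Y τ)).tsum_eq, SF, sm]
  refine tsum_congr fun n => ?_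
  split_ifs with hn
  · simp only [cv, Finset.sum_mul]
    refine Finset.sum_congr rfl fun d hd => ?_
    obtain ⟨h1, h2, h3⟩ := u1b_div hn hd
    rw [bt, if_pos ⟨h1, h2⟩]
    simp only [h3]
  · rfl

theorem SF_cv {α β : O → ℂ} (hα : Pg α) (hβ : Pg β) (l : ℤ) {a Y : ℝ} (ha : 0 < a) (hY : 0 < Y)
    (τ : ℝ) : SF l a (cv α β) Y τ = ∑' r : O, if Prim r then α r * az l r * (Nr r : ℂ) ^ (-(τ * I)) *
      sm a (fun b => β b * az l b * FF (r * b)) (Y / Nr r) τ else 0 := by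
  rw [SF_cv_eq hα hβ l ha hY, (summable_bt hα hβ l ha hY τ).of_norm.tsum_prod]
  refine tsum_congr fun r => ?_
  split_ifs with hr
  · rw [sm, ← tsum_mul_left]
    refine tsum_congr fun b => ?_
    split_ifs with hb
    · rw [bt, if_pos ⟨hr, hb⟩]
      have e : Nr b / (Y / Nr r) = Nr r * Nr b / Y := by rw [div_div_eq_mul_div, mul_comm]
      simp only
      rw [e, az_mul, Nr_mul, Complex.ofReal_mul,
        Complex.mul_cpow_ofReal_nonneg (Nr_nonneg r) (Nr_nonneg b)]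
      ring
    · rw [u1b_bt_zero _ _ _ _ _ _ _ fun h => hb h.2, mul_zero]
  · exact (tsum_congr fun b => u1b_bt_zero _ _ _ _ _ _ _ fun h => hr h.1).trans tsum_zero

open Classical in
/-- Real-valued version of the rearrangement, for upper bounds. -/
theorem tsum_pdiv_le {f g : O → ℝ} (hf : ∀ n, 0 ≤ f n) (hg : ∀ n, 0 ≤ g n) {h : O → ℝ}
    (hh : ∀ n, 0 ≤ h n) {F : O → ℝ} (hF : Summable F) (hF0 : ∀ d, 0 ≤ F d)
    (h1 : ∀ d, Prim d → Summable (fun m : O => if Prim m then g m * h (d * m) else 0) ∧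
      f d * (∑' m : O, if Prim m then g m * h (d * m) else 0) ≤ F d) :
    Summable (fun n : O => if Prim n then (∑ d ∈ pdiv n, f d * g (n / d)) * h n else 0) ∧
    (∑' n : O, if Prim n then (∑ d ∈ pdiv n, f d * g (n / d)) * h n else 0) ≤ ∑' d, F d := by
  set H : O × O → ℝ := fun p => if Prim p.1 ∧ Prim p.2 then f p.1 * (g p.2 * h (p.1 * p.2)) else 0
    with hH
  have hH0 : 0 ≤ H := fun p => by
    simp only [hH, Pi.zero_apply]
    split_ifs
    · exact mul_nonneg (hf _) (mul_nonneg (hg _) (hh _))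
    · exact le_rfl
  have e1 : ∀ d, Prim d → (fun m => H (d, m)) =
      fun m => f d * (if Prim m then g m * h (d * m) else 0) := fun d hd => by
    funext m
    simp only [hH, hd, true_and, mul_ite, mul_zero]
  have e2 : ∀ d, ¬ Prim d → (fun m => H (d, m)) = fun _ => 0 := fun d hd => by
    funext m
    simp only [hH, hd, false_and, if_false]
  have s1 : ∀ d, Summable (fun m => H (d, m)) := fun d => by
    by_cases hd : Prim d
    · rw [e1 d hd]
      exact (h1 d hd).1.mul_left _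
    · rw [e2 d hd]
      exact summable_zero
  have s2 : ∀ d, ∑' m, H (d, m) ≤ F d := fun d => by
    by_cases hd : Prim d
    · rw [e1 d hd, tsum_mul_left]
      exact (h1 d hd).2
    · rw [e2 d hd, tsum_zero]
      exact hF0 d
  have s3 : Summable (fun d => ∑' m, H (d, m)) :=
    Summable.of_nonneg_of_le (fun d => tsum_nonneg fun m => hH0 _) s2 hF
  have s4 : Summable H := (summable_prod_of_nonneg hH0).2 ⟨s1, s3⟩
  have s5 := u1b_fib s4 fun p hp => by simp only [hH, if_neg hp]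
  have e3 : (fun n : O => if Prim n then (∑ d ∈ pdiv n, f d * g (n / d)) * h n else 0) =
      fun n : O => if Prim n then ∑ d ∈ pdiv n, H (d, n / d) else 0 := by
    funext n
    split_ifs with hn
    · rw [Finset.sum_mul]
      refine Finset.sum_congr rfl fun d hd => ?_
      obtain ⟨a1, a2, a3⟩ := u1b_div hn hd
      simp only [hH, a1, a2, a3, and_self, if_true, mul_assoc]
    · rfl
  rw [e3]
  exact ⟨s5.summable, by rw [s5.tsum_eq, s4.tsum_prod]; exact s3.tsum_le_tsum s2 hF⟩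

/-- A crude bound for the double series. -/
theorem tsum_pair_le : ∃ C : ℝ, 0 ≤ C ∧ ∀ Y : ℝ, 1 ≤ Y →
    Summable (fun p : O × O => if Prim p.1 ∧ Prim p.2 then
      Nr (p.1 * p.2) * W 4 (Nr (p.1 * p.2) / Y) else 0) ∧
    (∑' p : O × O, if Prim p.1 ∧ Prim p.2 then Nr (p.1 * p.2) * W 4 (Nr (p.1 * p.2) / Y) else 0) ≤
      C * Y ^ 3 := by
  have hS : 0 ≤ ∑' p : O × O, Nr p.1 ^ (-2 : ℝ) * Nr p.2 ^ (-2 : ℝ) := tsum_nonneg fun p =>
    mul_nonneg (Real.rpow_nonneg (Nr_nonneg _) _) (Real.rpow_nonneg (Nr_nonneg _) _)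
  refine ⟨Real.exp (4 * (-(1 + 2)) ^ 2) * ∑' p : O × O, Nr p.1 ^ (-2 : ℝ) * Nr p.2 ^ (-2 : ℝ),
    by positivity, fun Y hY => ?_⟩
  have hY0 : 0 < Y := by linarith
  have key : ∀ p : O × O, (if Prim p.1 ∧ Prim p.2 then
      Nr (p.1 * p.2) * W 4 (Nr (p.1 * p.2) / Y) else 0) ≤
      Real.exp (4 * (-(1 + 2)) ^ 2) * Y ^ 3 * (Nr p.1 ^ (-2 : ℝ) * Nr p.2 ^ (-2 : ℝ)) := fun p => by
    have n1 := Nr_nonneg p.1
    have n2 := Nr_nonneg p.2
    split_ifs with hp
    · have := u1b_W (a := 4) (by norm_num) 1 hY0 (Nr_pos hp.1.ne_zero) (Nr_pos hp.2.ne_zero)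
      rw [Real.rpow_one, show Y ^ ((1 : ℝ) + 2) = Y ^ 3 by
        rw [← Real.rpow_natCast]; norm_num] at this
      rwa [Nr_mul]
    · positivity
  have hs := u1b_summ.mul_left (Real.exp (4 * (-(1 + 2)) ^ 2) * Y ^ 3)
  have hs' := Summable.of_nonneg_of_le (fun p => by
    have n1 := Nr_nonneg (p.1 * p.2)
    have n2 := W_pos 4 (Nr (p.1 * p.2) / Y)
    split_ifs <;> positivity) key hs
  refine ⟨hs', (hs'.tsum_le_tsum key hs).trans (le_of_eq ?_)⟩
  rw [tsum_mul_left]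
  ring

end Crest.Agent.R012

end
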