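import Crest.Agent.R012.U1b

/-! # Row 12: weighted norms -/

set_option autoImplicit false

noncomputable section

open scoped BigOperators ComplexConjugate Topology
open Complex MeasureTheory Filter Set Crest.Agent.R017

namespace Crest.Agent.R012

theorem W_mono {a a' : ℝ} (ha : 0 < a) (h : a ≤ a') (y : ℝ) : W a y ≤ W a' y := by
  rw [W, W, Real.exp_le_exp, neg_div, neg_div, neg_le_neg_iff]
  exact div_le_div_of_nonneg_left (sq_nonneg _) (by positivity) (by linarith)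

theorem W_sq {a : ℝ} (ha : 0 < a) (y : ℝ) : W a y = W (2 * a) y ^ 2 := by
  rw [W, W, sq (Real.exp _), ← Real.exp_add]
  congr 1
  field_simp
  ring

theorem W_poly_le {a : ℝ} (ha : 0 < a) (k : ℕ) : ∃ C : ℝ, 0 ≤ C ∧ ∀ y : ℝ, 0 < y →
    W a y * (1 + y + y⁻¹) ^ k ≤ C := by
  refine ⟨Real.exp (a * (k : ℝ) ^ 2) * 3 ^ k, by positivity, fun y hy => ?_⟩
  have hi : 0 < y⁻¹ := inv_pos.2 hy
  rcases le_total y 1 with h | h
  · have h1 := W_le_rpow ha hy k
    have h2 : 1 ≤ y⁻¹ := (one_le_inv₀ hy).2 h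
    rw [Real.rpow_natCast] at h1
    calc W a y * (1 + y + y⁻¹) ^ k ≤ (Real.exp (a * (k : ℝ) ^ 2) * y ^ k) * (3 * y⁻¹) ^ k :=
          mul_le_mul h1 (pow_le_pow_left₀ (by positivity) (by linarith) k) (by positivity)
            (by positivity)
      _ = Real.exp (a * (k : ℝ) ^ 2) * 3 ^ k * (y * y⁻¹) ^ k := by ring
      _ = _ := by rw [mul_inv_cancel₀ hy.ne', one_pow, mul_one]
  · have h1 := W_le_rpow ha hy (-k)
    have h2 : y⁻¹ ≤ 1 := inv_le_one_of_one_le₀ h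
    rw [Real.rpow_neg hy.le, Real.rpow_natCast, neg_sq, ← inv_pow] at h1
    calc W a y * (1 + y + y⁻¹) ^ k ≤ (Real.exp (a * (k : ℝ) ^ 2) * y⁻¹ ^ k) * (3 * y) ^ k :=
          mul_le_mul h1 (pow_le_pow_left₀ (by positivity) (by linarith) k) (by positivity)
            (by positivity)
      _ = Real.exp (a * (k : ℝ) ^ 2) * 3 ^ k * (y * y⁻¹) ^ k := by ring
      _ = _ := by rw [mul_inv_cancel₀ hy.ne', one_pow, mul_one]

open Classical in
theorem u1c_cn2 {f : O → ℂ} (hf : Pg f) {a B : ℝ} (ha : 0 < a) (hB : 0 < B) :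
    Summable (fun b : O =>
      if Prim b ∧ Squarefree b then ‖f b‖ ^ 2 * dv b * W a (Nr b / B) else 0) := by
  obtain ⟨K, A, h⟩ := hf
  obtain ⟨C, hC, hd⟩ := dv_le one_pos
  refine Summable.of_nonneg_of_le (fun b => ?_) (fun b => ?_)
    ((summable_W ha hB (A + A + 1)).mul_left (K ^ 2 * C))
  · have := W_pos a (Nr b / B)
    have := dv_nonneg b
    split_ifs <;> positivity
  · have hW := W_pos a (Nr b / B)
    have hN := Nr_nonneg b
    by_cases hb : Prim b ∧ Squarefree b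
    · rw [if_pos hb, if_neg hb.1.ne_zero]
      have h1 := pow_le_pow_left₀ (norm_nonneg _) (h b hb.1 hb.2) 2
      have h2 := hd b hb.1.ne_zero
      rw [Real.rpow_add (Nr_pos hb.1.ne_zero), Real.rpow_add (Nr_pos hb.1.ne_zero)]
      calc ‖f b‖ ^ 2 * dv b * W a (Nr b / B)
          ≤ (K * Nr b ^ A) ^ 2 * (C * Nr b ^ (1 : ℝ)) * W a (Nr b / B) :=
            mul_le_mul_of_nonneg_right (mul_le_mul h1 h2 (dv_nonneg b) (by positivity)) hW.le
        _ = _ := by ring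
    · rw [if_neg hb]
      split_ifs <;> positivity

open Classical in
theorem u1c_le (f : O → ℂ) (a B : ℝ) (b : O) :
    (if Prim b ∧ Squarefree b then ‖f b‖ ^ 2 * W a (Nr b / B) else 0) ≤
      if Prim b ∧ Squarefree b then ‖f b‖ ^ 2 * dv b * W a (Nr b / B) else 0 := by
  split_ifs with hb
  · exact mul_le_mul_of_nonneg_right (le_mul_of_one_le_right (by positivity)
      (one_le_dv hb.1.ne_zero)) (W_pos _ _).le
  · exact le_rfl

open Classical in
theorem u1c_cn {f : O → ℂ} (hf : Pg f) {a B : ℝ} (ha : 0 < a) (hB : 0 < B) :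
    Summable (fun b : O => if Prim b ∧ Squarefree b then ‖f b‖ ^ 2 * W a (Nr b / B) else 0) := by
  refine Summable.of_nonneg_of_le (fun b => ?_) (u1c_le f a B) (u1c_cn2 hf ha hB)
  have := W_pos a (Nr b / B)
  split_ifs <;> positivity

theorem u1c_pg {f g : O → ℂ} (hg : Pg g) (h : ∀ n, Prim n → Squarefree n → ‖f n‖ ≤ ‖g n‖) : Pg f := by
  obtain ⟨K, A, hK⟩ := hg
  exact ⟨K, A, fun n h1 h2 => (h n h1 h2).trans (hK n h1 h2)⟩

theorem u1c_min {a c z y : ℝ} (ha : 0 < a) (h : W a z ≤ Real.exp c * y ^ 3) (hc : 0 ≤ c) :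
    W a z ≤ Real.exp c * min 1 y ^ 3 := by
  rcases le_total 1 y with hy | hy
  · rw [min_eq_left hy, one_pow, mul_one]
    exact (W_le_one ha z).trans (Real.one_le_exp hc)
  · rwa [min_eq_right hy]

theorem summable_cn {f : O → ℂ} (hf : Pg f) {a B : ℝ} (ha : 0 < a) (hB : 0 < B) :
    Summable (fun b : O => by
      classical exact if Prim b ∧ Squarefree b then ‖f b‖ ^ 2 * W a (Nr b / B) else 0) := u1c_cn hf ha hB

theorem summable_cn2 {f : O → ℂ} (hf : Pg f) {a B : ℝ} (ha : 0 < a) (hB : 0 < B) :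
    Summable (fun b : O => by
      classical exact if Prim b ∧ Squarefree b then ‖f b‖ ^ 2 * dv b * W a (Nr b / B) else 0) := u1c_cn2 hf ha hB

theorem cn_mono {f g : O → ℂ} (hg : Pg g) (h : ∀ n, Prim n → Squarefree n → ‖f n‖ ≤ ‖g n‖) {a a' B : ℝ}
    (ha : 0 < a) (haa : a ≤ a') (hB : 0 < B) : cn a B f ≤ cn a' B g := by
  refine (u1c_cn (u1c_pg hg h) ha hB).tsum_le_tsum (fun b => ?_) (u1c_cn hg (by linarith) hB)
  split_ifs with hb
  · exact mul_le_mul (pow_le_pow_left₀ (norm_nonneg _) (h b hb.1 hb.2) 2) (W_mono ha haa _)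
      (W_pos _ _).le (sq_nonneg _)
  · exact le_rfl

theorem cn2_mono {f g : O → ℂ} (hg : Pg g) (h : ∀ n, Prim n → Squarefree n → ‖f n‖ ≤ ‖g n‖) {a a' B : ℝ}
    (ha : 0 < a) (haa : a ≤ a') (hB : 0 < B) : cn2 a B f ≤ cn2 a' B g := by
  refine (u1c_cn2 (u1c_pg hg h) ha hB).tsum_le_tsum (fun b => ?_) (u1c_cn2 hg (by linarith) hB)
  split_ifs with hb
  · exact mul_le_mul (mul_le_mul_of_nonneg_right (pow_le_pow_left₀ (norm_nonneg _) (h b hb.1 hb.2) 2)
      (dv_nonneg b)) (W_mono ha haa _) (W_pos _ _).le (mul_nonneg (sq_nonneg _) (dv_nonneg b))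
  · exact le_rfl

theorem cn_le_cn2 {f : O → ℂ} (hf : Pg f) {a B : ℝ} (ha : 0 < a) (hB : 0 < B) :
    cn a B f ≤ cn2 a B f := (u1c_cn hf ha hB).tsum_le_tsum (u1c_le f a B) (u1c_cn2 hf ha hB)

/-- `W 4 z = (W 8 z)²` and `W 8 z ≤ C z³`. -/
theorem cn_supp : ∃ C : ℝ, 0 ≤ C ∧ ∀ (f : O → ℂ) (A Z : ℝ), Pg f → 0 < A → 0 < Z →
    (∀ n, Prim n → f n ≠ 0 → Nr n ≤ Z) → cn 4 A f ≤ C * min 1 (Z / A) ^ 3 * cn 8 A f := by
  refine ⟨Real.exp (8 * 3 ^ 2), by positivity, fun f A Z hf hA hZ h => ?_⟩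
  rw [cn, cn, ← tsum_mul_left]
  refine (u1c_cn hf (by norm_num) hA).tsum_le_tsum (fun b => ?_)
    ((u1c_cn hf (by norm_num) hA).mul_left _)
  split_ifs with hb
  · by_cases h0 : f b = 0
    · simp [h0]
    have hy : 0 < Nr b / A := div_pos (Nr_pos hb.1.ne_zero) hA
    have h1 := W_le_rpow (a := 8) (by norm_num) hy 3
    rw [show (Nr b / A) ^ (3 : ℝ) = (Nr b / A) ^ 3 by rw [← Real.rpow_natCast]; norm_num] at h1
    have h2 : W 8 (Nr b / A) ≤ Real.exp (8 * 3 ^ 2) * min 1 (Z / A) ^ 3 :=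
      u1c_min (by norm_num) (h1.trans (mul_le_mul_of_nonneg_left (pow_le_pow_left₀ hy.le
        (div_le_div_of_nonneg_right (h b hb.1 h0) hA.le) 3) (Real.exp_pos _).le)) (by norm_num)
    rw [W_sq (a := 4) (by norm_num), show (2 : ℝ) * 4 = 8 by norm_num]
    have h3 := mul_le_mul_of_nonneg_right h2
      (mul_nonneg (sq_nonneg ‖f b‖) (W_pos 8 (Nr b / A)).le)
    exact le_trans (le_of_eq (by ring)) h3
  · simp

theorem cn2_supp : ∃ C : ℝ, 0 ≤ C ∧ ∀ (f : O → ℂ) (B Z : ℝ), Pg f → 0 < B → 0 < Z →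
    (∀ n, Prim n → f n ≠ 0 → Z ≤ Nr n) → cn2 2 B f ≤ C * min 1 (B / Z) ^ 3 * cn2 4 B f := by
  refine ⟨Real.exp (4 * (-3) ^ 2), by positivity, fun f B Z hf hB hZ h => ?_⟩
  rw [cn2, cn2, ← tsum_mul_left]
  refine (u1c_cn2 hf (by norm_num) hB).tsum_le_tsum (fun b => ?_)
    ((u1c_cn2 hf (by norm_num) hB).mul_left _)
  split_ifs with hb
  · by_cases h0 : f b = 0
    · simp [h0]
    have hy : 0 < Nr b / B := div_pos (Nr_pos hb.1.ne_zero) hB
    have h1 := W_le_rpow (a := 4) (by norm_num) hy (-3)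
    rw [show (Nr b / B) ^ (-3 : ℝ) = (B / Nr b) ^ 3 by
      rw [Real.rpow_neg hy.le, ← Real.inv_rpow hy.le, inv_div, ← Real.rpow_natCast]; norm_num] at h1
    have h2 : W 4 (Nr b / B) ≤ Real.exp (4 * (-3) ^ 2) * min 1 (B / Z) ^ 3 :=
      u1c_min (by norm_num) (h1.trans (mul_le_mul_of_nonneg_left (pow_le_pow_left₀
        (div_pos hB (Nr_pos hb.1.ne_zero)).le
        (div_le_div_of_nonneg_left hB.le hZ (h b hb.1 h0)) 3) (Real.exp_pos _).le)) (by norm_num)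
    rw [W_sq (a := 2) (by norm_num), show (2 : ℝ) * 2 = 4 by norm_num]
    have h3 := mul_le_mul_of_nonneg_right h2
      (mul_nonneg (mul_nonneg (sq_nonneg ‖f b‖) (dv_nonneg b)) (W_pos 4 (Nr b / B)).le)
    exact le_trans (le_of_eq (by ring)) h3
  · simp

end Crest.Agent.R012

end
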