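import Crest.Agent.R012.U1

/-! # Row 12: Vaughan's identity -/

set_option autoImplicit false

noncomputable section

open scoped BigOperators ComplexConjugate Topology
open Complex MeasureTheory Filter Set Crest.Agent.R017

namespace Crest.Agent.R012

theorem u1v_div {n d : O} (hn : Prim n) (hd : d ∈ pdiv n) :
    n / d ∈ pdiv n ∧ d * (n / d) = n := by
  obtain ⟨hp, hdn⟩ := (mem_pdiv hn.ne_zero).1 hd
  have h1 : d * (n / d) = n := EuclideanDomain.mul_div_cancel' hp.ne_zero hdn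
  exact ⟨(mem_pdiv hn.ne_zero).2 ⟨hp.of_mul (by rwa [h1]), Dvd.intro_left d h1⟩, h1⟩

theorem u1v_congr {f f' g g' : O → ℂ} {n : O} (hn : Prim n) (hf : ∀ d ∈ pdiv n, f d = f' d)
    (hg : ∀ d ∈ pdiv n, g d = g' d) : cv f g n = cv f' g' n :=
  Finset.sum_congr rfl fun d hd => by rw [hf d hd, hg _ (u1v_div hn hd).1]

theorem u1v_sub {n d e : O} (hn : Prim n) (hd : d ∈ pdiv n) (he : e ∈ pdiv d) : e ∈ pdiv n := by
  obtain ⟨hp, hdn⟩ := (mem_pdiv hn.ne_zero).1 hd
  obtain ⟨hp', hed⟩ := (mem_pdiv hp.ne_zero).1 he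
  exact (mem_pdiv hn.ne_zero).2 ⟨hp', hed.trans hdn⟩

theorem u1v_sum_Lp {n : O} (hn : Prim n) (hs : Squarefree n) :
    ∑ p ∈ pdiv n, Lp p = (Real.log (Nr n) : ℂ) := by
  rw [← l2_sum_vm hn]
  refine Finset.sum_congr rfl fun d hd => ?_
  obtain ⟨-, hdn⟩ := (mem_pdiv hn.ne_zero).1 hd
  unfold Lp
  split_ifs with hp
  · have := vm_prime_pow hp (k := 1) one_pos
    rw [pow_one] at this
    exact this.symm
  · symm
    refine l2_vm_zero ?_
    rintro ⟨p, hp', k, hk, hdk⟩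
    have hsq : Squarefree (p ^ k) := hdk.squarefree_iff.1 (hs.squarefree_of_dvd hdn)
    have hk1 : k = 1 := by
      by_contra hk1
      have h2 : p * p ∣ p ^ k := by
        rw [← pow_two]
        exact pow_dvd_pow p (by omega)
      exact hp'.not_unit (hsq p h2)
    rw [hk1, pow_one] at hdk
    exact hp (hdk.symm.prime hp')

/-- supported on rough elements. -/
def u1vRS (w : ℝ) (f : O → ℂ) : Prop := ∀ d, Prim d → f d ≠ 0 → Rough w d

theorem u1vRS.cv {w : ℝ} {f g : O → ℂ} (hf : u1vRS w f) (hg : u1vRS w g) : u1vRS w (cv f g) := by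
  intro n hn h
  obtain ⟨a, b, ha, hb, rfl, h1, h2⟩ := cv_ne_zero hn h
  intro p hp hd
  exact (hp.dvd_or_dvd hd).elim (hf a ha h1 p hp) (hg b hb h2 p hp)

theorem u1vRS.cut {w : ℝ} {f : O → ℂ} (hf : u1vRS w f) (I : Set ℝ) : u1vRS w (cut I f) :=
  fun d hd h => hf d hd (cut_ne_zero h).2

theorem u1vRS_rg (w : ℝ) : u1vRS w (rg w) := fun _ _ h => (rg_ne_zero.1 h).2

theorem u1vRS_mr (w : ℝ) : u1vRS w (mr w) := fun _ _ h => (rg_ne_zero.1 (right_ne_zero_of_mul h)).2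

theorem u1vRS_Lp {w : ℝ} {I : Set ℝ} (hI : I ⊆ Ioi w) : u1vRS w (cut I Lp) := by
  intro d _ h p hp hpd
  obtain ⟨h1, h2⟩ := cut_ne_zero h
  rw [Nr_eq_of_associated (hp.associated_of_dvd (Lp_ne_zero h2) hpd)]
  exact hI h1

theorem u1vRS_al2 (w U V : ℝ) : u1vRS w (al2 w U V) :=
  ((u1vRS_mr w).cut _).cv (u1vRS_Lp Ioc_subset_Ioi_self)

theorem u1vRS.zero {w : ℝ} {f : O → ℂ} (hf : u1vRS w f) {n : O} (hn : Prim n)
    (h : ¬ Rough w n) : f n = 0 := by
  by_contra h0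
  exact h (hf n hn h0)

theorem u1v_norm_mr_le (w : ℝ) (n : O) : ‖mr w n‖ ≤ 1 := by
  rw [norm_mr, rg]
  split_ifs <;> simp

theorem u1v_cv_split (y : ℝ) (f g : O → ℂ) (n : O) :
    cv f g n = cv (cut (Iic y) f) g n + cv (cut (Ioi y) f) g n := by
  rw [← cv_add_left]
  congr 1
  funext d
  exact cut_split y f d

/-- `∑_{p ∣ n} log N p = log N n` for squarefree `n`. -/
theorem cv_Lp_one {n : O} (hn : Prim n) (hs : Squarefree n) : cv Lp (fun _ => 1) n = lgn n := by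
  simp only [cv, mul_one]
  exact u1v_sum_Lp hn hs

theorem sum_norm_Lp {n : O} (hn : Prim n) (hs : Squarefree n) :
    ∑ d ∈ pdiv n, ‖Lp d‖ = Real.log (Nr n) := by
  have h : ∀ d, ((‖Lp d‖ : ℝ) : ℂ) = Lp d := by
    intro d
    unfold Lp
    split_ifs with hp
    · rw [Complex.norm_real, Real.norm_of_nonneg (Real.log_nonneg (one_le_Nr hp.ne_zero))]
    · simp
  apply Complex.ofReal_injective
  rw [Complex.ofReal_sum, ← u1v_sum_Lp hn hs]
  exact Finset.sum_congr rfl fun d _ => h d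

/-- Vaughan's identity on rough squarefree elements:
`Λ_{>U} = Λ_{>U} * μ * 1 = μ_{≤U} * (log - Λ_{≤U} * 1) + μ_{>U} * 1 * Λ_{>U}`, and
`log N (n / r) = log N n - log N r`.  For `n` not `w`-rough all terms vanish. -/
theorem vaughan {w U : ℝ} (hw : w ≤ U) (R : ℝ) {n : O} (hn : Prim n) (hs : Squarefree n) :
    Lp n = cut (Iic U) Lp n + fI w U R n - cv (cut (Ioi R) (al2 w U U)) (rg w) n +
      cv (cv (cut (Ioi U) (mr w)) (rg w)) (cut (Ioi U) Lp) n := by
  by_cases hr : Rough w n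
  · have hP : ∀ d ∈ pdiv n, Prim d := fun d hd => ((mem_pdiv hn.ne_zero).1 hd).1
    have hS : ∀ d ∈ pdiv n, Squarefree d := fun d hd =>
      hs.squarefree_of_dvd ((mem_pdiv hn.ne_zero).1 hd).2
    have hR : ∀ d ∈ pdiv n, Rough w d := fun d hd p hp hpd =>
      hr p hp (hpd.trans ((mem_pdiv hn.ne_zero).1 hd).2)
    have hrg : ∀ d ∈ pdiv n, rg w d = 1 := fun d hd => by
      rw [rg, if_pos ⟨hS d hd, hR d hd⟩]
    have hL : ∀ d ∈ pdiv n, cut (Ioc w U) Lp d = cut (Iic U) Lp d := by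
      intro d hd
      by_cases hp : Prime d
      · have := hR d hd d hp dvd_rfl
        simp only [cut, mem_Ioc, mem_Iic, this, true_and]
      · simp [cut, Lp, hp]
    have h1 := u1v_cv_split R (al2 w U U) (rg w) n
    have h2 : cv (al2 w U U) (rg w) n =
        cv (cut (Iic U) (mr w)) (cv (cut (Iic U) Lp) (rg w)) n := by
      rw [al2, cv_assoc _ _ _ hn]
      exact u1v_congr hn (fun _ _ => rfl) fun d hd =>
        u1v_congr (hP d hd) (fun e he => hL e (u1v_sub hn hd he)) fun _ _ => rfl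
    have h3 : lgn n * cv (cut (Iic U) (mr w)) (rg w) n -
        cv (cut (Iic U) (fun r => mr w r * lgn r)) (rg w) n = cv (cut (Iic U) (mr w)) lgn n := by
      simp only [cv]
      rw [Finset.mul_sum, ← Finset.sum_sub_distrib]
      refine Finset.sum_congr rfl fun d hd => ?_
      obtain ⟨hd1, hd2⟩ := u1v_div hn hd
      have e : lgn n = lgn d + lgn (n / d) := by
        have e1 : Nr n = Nr d * Nr (n / d) := by rw [← Nr_mul, hd2]
        simp only [lgn]
        rw [e1, Real.log_mul (Nr_pos (hP d hd).ne_zero).ne' (Nr_pos (hP _ hd1).ne_zero).ne',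
          Complex.ofReal_add]
      rw [hrg _ hd1, e]
      simp only [cut]
      split_ifs <;> ring
    have h5 : cv (cut (Iic U) (mr w)) lgn n =
        cv (cut (Iic U) (mr w)) (cv (cut (Iic U) Lp) (rg w)) n +
          cv (cut (Iic U) (mr w)) (cv (rg w) (cut (Ioi U) Lp)) n := by
      rw [← cv_add_right]
      refine u1v_congr hn (fun _ _ => rfl) fun d hd => ?_
      rw [cv_comm (rg w) _ (hP d hd), ← u1v_cv_split, ← cv_Lp_one (hP d hd) (hS d hd)]
      exact u1v_congr (hP d hd) (fun _ _ => rfl) fun e he => (hrg e (u1v_sub hn hd he)).symm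
    have h6 := cv_assoc (cut (Iic U) (mr w)) (rg w) (cut (Ioi U) Lp) hn
    have h7 : cv (cv (cut (Iic U) (mr w)) (rg w)) (cut (Ioi U) Lp) n +
        cv (cv (cut (Ioi U) (mr w)) (rg w)) (cut (Ioi U) Lp) n = cut (Ioi U) Lp n := by
      rw [← cv_add_left, u1v_congr (f' := fun d => if d = 1 then 1 else 0) (g' := cut (Ioi U) Lp) hn
        (fun d hd => ?_) fun _ _ => rfl]
      · simp only [cv, ite_mul, one_mul, zero_mul]
        rw [Finset.sum_ite_eq', if_pos ((mem_pdiv hn.ne_zero).2 ⟨prim_one, one_dvd _⟩)]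
        simp
      · show cv (cut (Iic U) (mr w)) (rg w) d + cv (cut (Ioi U) (mr w)) (rg w) d = _
        rw [← u1v_cv_split, ← sum_pdiv_mu (hP d hd)]
        refine Finset.sum_congr rfl fun e he => ?_
        rw [mr, hrg e (u1v_sub hn hd he), hrg _ (u1v_sub hn hd (u1v_div (hP d hd) he).1)]
        ring
    have h8 := cut_split U Lp n
    rw [fI]
    linear_combination h8 - h3 - h5 + h6 - h7 - h1 + h2
  · have hm : u1vRS w (fun r => mr w r * lgn r) :=
      fun d hd h => u1vRS_mr w d hd (left_ne_zero_of_mul h)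
    have hL : u1vRS w (cut (Ioi U) Lp) := u1vRS_Lp (Ioi_subset_Ioi hw)
    rw [fI, (((u1vRS_mr w).cut _).cv (u1vRS_rg w)).zero hn hr,
      ((hm.cut _).cv (u1vRS_rg w)).zero hn hr,
      (((u1vRS_al2 w U U).cut _).cv (u1vRS_rg w)).zero hn hr,
      (((u1vRS_al2 w U U).cut _).cv (u1vRS_rg w)).zero hn hr,
      ((((u1vRS_mr w).cut _).cv (u1vRS_rg w)).cv hL).zero hn hr, cut_split U Lp n,
      hL.zero hn hr]
    ring

/-- Splitting the last term. -/
theorem vaughan_split {w U D : ℝ} (hD : U ≤ D) {n : O} (hn : Prim n) :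
    cv (cv (cut (Ioi U) (mr w)) (rg w)) (cut (Ioi U) Lp) n =
      cv (cv (rg w) (cut (Ioi U) Lp)) (cut (Ioc U D) (mr w)) n +
        cv (cv (cut (Ioi D) (mr w)) (rg w)) (cut (Ioi U) Lp) n := by
  rw [cv_comm _ (cut (Ioc U D) (mr w)) hn, ← cv_assoc _ _ _ hn, ← cv_add_left]
  congr 1
  funext d
  rw [← cv_add_left]
  congr 1
  funext e
  simp only [cut, mem_Ioi, mem_Ioc]
  by_cases h1 : U < Nr e
  · by_cases h2 : Nr e ≤ D
    · simp [h1, h2, not_lt.2 h2]
    · simp [h1, h2, not_le.1 h2]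
  · have h2 : ¬ D < Nr e := fun h => h1 (lt_of_le_of_lt hD h)
    simp [h1, h2]

theorem norm_al2_le (w U V : ℝ) {n : O} (hn : Prim n) (hs : Squarefree n) :
    ‖al2 w U V n‖ ≤ Real.log (Nr n) := by
  rw [al2, cv_comm _ _ hn, ← sum_norm_Lp hn hs, cv]
  refine (norm_sum_le _ _).trans (Finset.sum_le_sum fun d _ => ?_)
  rw [norm_mul]
  exact (mul_le_of_le_one_right (norm_nonneg _)
    ((norm_cut_le _ _ _).trans (u1v_norm_mr_le w _))).trans (norm_cut_le _ _ _)

theorem al2_supp {w U V : ℝ} {n : O} (hn : Prim n) (h : al2 w U V n ≠ 0) :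
    Rough w n ∧ Nr n ≤ U * V := by
  refine ⟨u1vRS_al2 w U V n hn h, ?_⟩
  obtain ⟨a, b, -, -, rfl, h1, h2⟩ := cv_ne_zero hn h
  have h3 : Nr a ≤ U := (cut_ne_zero h1).1
  have h4 : Nr b ≤ V := (cut_ne_zero h2).1.2
  rw [Nr_mul]
  exact mul_le_mul h3 h4 (Nr_nonneg b) ((Nr_nonneg a).trans h3)

end Crest.Agent.R012

end
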