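import Crest.Agent.R012.U1c

/-! # Row 12: Gaussian densities -/

set_option autoImplicit false

noncomputable section

open scoped BigOperators ComplexConjugate Topology
open Complex MeasureTheory Filter Set Crest.Agent.R017

namespace Crest.Agent.R012

theorem og_nonneg {b : ℝ} (t : ℝ) : 0 ≤ og b t := by
  unfold og
  positivity

theorem u2a_cont (b : ℝ) : Continuous (og b) := by
  unfold og
  fun_prop

theorem u2a_int {b : ℝ} (hb : 0 < b) : Integrable (og b) := by
  have h := (integrable_exp_neg_mul_sq hb).const_mul (Real.sqrt (b / Real.pi))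
  refine h.congr (Filter.Eventually.of_forall fun t => ?_)
  simp only [og, neg_mul]

theorem u2a_pow_le {x : ℝ} (hx : 0 ≤ x) (k : ℝ) : (1 + x) ^ k ≤ Real.exp (|k| * x) := by
  rw [Real.rpow_def_of_pos (by linarith), Real.exp_le_exp]
  have h1 : Real.log (1 + x) ≤ x := by
    have := Real.log_le_sub_one_of_pos (show 0 < 1 + x by linarith)
    linarith
  have h2 : 0 ≤ Real.log (1 + x) := Real.log_nonneg (by linarith)
  calc Real.log (1 + x) * k ≤ Real.log (1 + x) * |k| :=
        mul_le_mul_of_nonneg_left (le_abs_self k) h2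
    _ ≤ x * |k| := mul_le_mul_of_nonneg_right h1 (abs_nonneg k)
    _ = _ := mul_comm _ _

/-- Trading half of the Gaussian. -/
theorem u2a_half {b : ℝ} (hb : 0 < b) (t : ℝ) :
    og b t ≤ 2 * Real.exp (-(b * t ^ 2 / 2)) * og (b / 2) t := by
  have hπ := Real.pi_pos
  have h4 : Real.sqrt (b / Real.pi) ≤ 2 * Real.sqrt (b / 2 / Real.pi) := by
    rw [Real.sqrt_le_left (by positivity), mul_pow, Real.sq_sqrt (by positivity)]
    have : 0 < b / Real.pi := by positivity
    rw [div_right_comm]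
    linarith
  have h3 : Real.exp (-(b * t ^ 2)) =
      Real.exp (-(b * t ^ 2 / 2)) * Real.exp (-(b / 2 * t ^ 2)) := by
    rw [← Real.exp_add]
    congr 1
    ring
  unfold og
  rw [h3]
  calc _ ≤ (2 * Real.sqrt (b / 2 / Real.pi)) *
        (Real.exp (-(b * t ^ 2 / 2)) * Real.exp (-(b / 2 * t ^ 2))) := by gcongr
    _ = _ := by ring

theorem u2a_key {b s : ℝ} (hb : 0 < b) (hs : 0 ≤ s) (k t : ℝ) :
    og b t * (1 + s * |t|) ^ k ≤ 2 * Real.exp (k ^ 2 * s ^ 2 / (2 * b)) * og (b / 2) t := by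
  have h1 := u2a_half hb t
  have h2 := u2a_pow_le (x := s * |t|) (by positivity) k
  have h3 : Real.exp (-(b * t ^ 2 / 2)) * Real.exp (|k| * (s * |t|)) ≤
      Real.exp (k ^ 2 * s ^ 2 / (2 * b)) := by
    rw [← Real.exp_add, Real.exp_le_exp, le_div_iff₀ (by positivity), ← sq_abs t, ← sq_abs k]
    nlinarith [sq_nonneg (b * |t| - |k| * s)]
  have h4 := og_nonneg (b := b / 2) t
  calc _ ≤ (2 * Real.exp (-(b * t ^ 2 / 2)) * og (b / 2) t) * Real.exp (|k| * (s * |t|)) :=
        mul_le_mul h1 h2 (by positivity) (by positivity)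
    _ = 2 * (Real.exp (-(b * t ^ 2 / 2)) * Real.exp (|k| * (s * |t|))) * og (b / 2) t := by ring
    _ ≤ _ := by gcongr

theorem integrable_og_mul {b : ℝ} (hb : 0 < b) (k : ℝ) :
    Integrable (fun t : ℝ => og b t * (1 + |t|) ^ k) := by
  refine ((u2a_int (half_pos hb)).const_mul (2 * Real.exp (k ^ 2 * 1 ^ 2 / (2 * b)))).mono'
    (Continuous.aestronglyMeasurable ?_) (Filter.Eventually.of_forall fun t => ?_)
  · exact (u2a_cont b).mul ((by fun_prop : Continuous fun t : ℝ => 1 + |t|).rpow_const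
      fun t => Or.inl (by positivity))
  · have := u2a_key hb zero_le_one k t
    rw [one_mul] at this
    rwa [Real.norm_of_nonneg (mul_nonneg (og_nonneg t) (by positivity))]

theorem integral_og {b : ℝ} (hb : 0 < b) : ∫ t, og b t = 1 := by
  have hπ := Real.pi_pos
  simp only [og, ← neg_mul]
  rw [integral_const_mul, integral_gaussian, ← Real.sqrt_mul (by positivity),
    show b / Real.pi * (Real.pi / b) = 1 by field_simp, Real.sqrt_one]

/-- `W_mellin` on the line `σ = 0`. -/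
theorem W_eq_og {b y : ℝ} (hb : 0 < b) (hy : 0 < y) :
    (W b y : ℂ) = ∫ t : ℝ, (og b t : ℂ) * (y : ℂ) ^ (-(t * I)) := by
  have hπ := Real.pi_pos
  have hm := W_mellin hb hy 0
  simp only [Complex.ofReal_zero, zero_add] at hm
  rw [hm, ← integral_const_mul]
  refine integral_congr_ae (Filter.Eventually.of_forall fun t => ?_)
  have e2 : Real.sqrt (4 * Real.pi * b) = 2 * Real.pi * Real.sqrt (b / Real.pi) := by
    rw [show 4 * Real.pi * b = (2 * Real.pi) ^ 2 * (b / Real.pi) by field_simp; ring,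
      Real.sqrt_mul (by positivity), Real.sqrt_sq (by positivity)]
  have e3 : (Real.pi : ℂ) ≠ 0 := Complex.ofReal_ne_zero.2 hπ.ne'
  have e4 : Complex.exp (b * ((t : ℂ) * I) ^ 2) = ((Real.exp (-(b * t ^ 2)) : ℝ) : ℂ) := by
    rw [Complex.ofReal_exp, mul_pow, Complex.I_sq]
    congr 1
    push_cast
    ring
  simp only [Wh, og, e2, e4, Complex.ofReal_mul, Complex.ofReal_ofNat]
  field_simp

theorem u2a_int_abs {b : ℝ} (hb : 0 < b) : Integrable fun t : ℝ => 2 * b * |t| * og b t := by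
  refine ((integrable_og_mul hb 1).const_mul (2 * b)).mono'
    (Continuous.aestronglyMeasurable ?_) (Filter.Eventually.of_forall fun t => ?_)
  · exact (by fun_prop : Continuous fun t : ℝ => 2 * b * |t|).mul (u2a_cont b)
  · have := og_nonneg (b := b) t
    rw [Real.norm_of_nonneg (by positivity), Real.rpow_one]
    nlinarith [mul_nonneg hb.le this]

theorem u2a_norm_cpow {y : ℝ} (hy : 0 < y) (t : ℝ) : ‖(y : ℂ) ^ (-((t : ℂ) * I))‖ = 1 := by
  rw [Complex.norm_cpow_eq_rpow_re_of_pos hy]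
  simp

theorem u2a_norm1 {b : ℝ} (hb : 0 < b) (t : ℝ) :
    ‖(2 * b * t * I : ℂ) * (og b t : ℂ)‖ = 2 * b * |t| * og b t := by
  simp only [norm_mul, Complex.norm_real, Complex.norm_I, Complex.norm_ofNat, Real.norm_eq_abs,
    abs_of_pos hb, abs_of_nonneg (og_nonneg (b := b) t), mul_one]

theorem log_W_eq_og {b y : ℝ} (hb : 0 < b) (hy : 0 < y) :
    ((Real.log y * W b y : ℝ) : ℂ) = ∫ t : ℝ, (2 * b * t * I) * (og b t : ℂ) * (y : ℂ) ^ (-(t * I)) := by
  have c0 : Continuous fun t : ℝ => (og b t : ℂ) := Complex.continuous_ofReal.comp (u2a_cont b)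
  have c1 : Continuous fun t : ℝ => (y : ℂ) ^ (-((t : ℂ) * I)) := by
    simp only [w2_cpow hy]
    fun_prop
  have i0 : Integrable fun t : ℝ => (og b t : ℂ) * (y : ℂ) ^ (-((t : ℂ) * I)) := by
    refine (u2a_int hb).mono' (c0.mul c1).aestronglyMeasurable
      (Filter.Eventually.of_forall fun t => ?_)
    rw [norm_mul, u2a_norm_cpow hy, mul_one, Complex.norm_real, Real.norm_of_nonneg (og_nonneg t)]
  have i1 : Integrable fun t : ℝ =>
      (2 * b * t * I) * (og b t : ℂ) * (y : ℂ) ^ (-((t : ℂ) * I)) := by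
    refine (u2a_int_abs hb).mono'
      (((by fun_prop : Continuous fun t : ℝ => (2 * b * t * I : ℂ)).mul c0).mul
        c1).aestronglyMeasurable (Filter.Eventually.of_forall fun t => ?_)
    rw [norm_mul, u2a_norm_cpow hy, mul_one, u2a_norm1 hb]
  have hd : ∀ t : ℝ, HasDerivAt (fun t : ℝ => I * ((og b t : ℂ) * (y : ℂ) ^ (-((t : ℂ) * I))))
      (Real.log y * ((og b t : ℂ) * (y : ℂ) ^ (-((t : ℂ) * I))) -
        (2 * b * t * I) * (og b t : ℂ) * (y : ℂ) ^ (-((t : ℂ) * I))) t := by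
    intro t
    have e : ∀ t : ℝ, (og b t : ℂ) * (y : ℂ) ^ (-((t : ℂ) * I)) = (Real.sqrt (b / Real.pi) : ℂ) *
        Complex.exp (-(b * (t : ℂ) ^ 2) + Real.log y * -((t : ℂ) * I)) := by
      intro t
      rw [w2_cpow hy, og, Complex.exp_add]
      push_cast
      ring
    have h1 : HasDerivAt (fun z : ℂ => -(b * z ^ 2) + Real.log y * -(z * I))
        (-(b * (2 * t)) + Real.log y * -I) (t : ℂ) := by
      have h2 := ((hasDerivAt_pow 2 (t : ℂ)).const_mul (b : ℂ)).neg
      have h3 := (((hasDerivAt_id (t : ℂ)).mul_const I).neg).const_mul (Real.log y : ℂ)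
      refine (h2.add h3).congr_deriv ?_
      simp
    have h4 := ((h1.cexp.const_mul (Real.sqrt (b / Real.pi) : ℂ)).const_mul I).comp_ofReal
    simp only [mul_assoc _ (og b _ : ℂ), e]
    convert h4 using 1
    linear_combination (Real.log y : ℂ) * (Real.sqrt (b / Real.pi) : ℂ) *
      Complex.exp (-(b * (t : ℂ) ^ 2) + Real.log y * -((t : ℂ) * I)) * Complex.I_sq
  have h0 := integral_eq_zero_of_hasDerivAt_of_integrable hd ((i0.const_mul _).sub i1)
    (i0.const_mul _)
  rw [integral_sub (i0.const_mul _) i1, integral_const_mul, ← W_eq_og hb hy] at h0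
  rw [Complex.ofReal_mul]
  exact sub_eq_zero.1 h0

theorem og_moment {k : ℝ} (hk : 0 ≤ k) : ∃ C : ℝ, 0 ≤ C ∧ ∀ b τ : ℝ, 0 < b →
    ∫ t, og b t * (1 + |τ + t|) ^ k ≤ C * (1 + |τ| + (Real.sqrt b)⁻¹) ^ k ∧
    ∫ t, 2 * b * |t| * og b t * (1 + |τ + t|) ^ k ≤
      C * Real.sqrt b * (1 + |τ| + (Real.sqrt b)⁻¹) ^ k := by
  refine ⟨4 * Real.exp ((k + 1) ^ 2 / 2), by positivity, fun b τ hb => ?_⟩
  set s := Real.sqrt b with hs
  have hs0 : 0 < s := Real.sqrt_pos.2 hb
  have hss : s ^ 2 = b := Real.sq_sqrt hb.le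
  set M := 1 + |τ| + s⁻¹ with hM
  have hM0 : 0 < M := by positivity
  set E := Real.exp ((k + 1) ^ 2 / 2) with hE
  have hE0 : 0 < E := Real.exp_pos _
  have h1 : ∀ t : ℝ, og b t * ((1 + s * |t|) * (1 + |τ + t|) ^ k) ≤
      2 * E * M ^ k * og (b / 2) t := by
    intro t
    have h2 := u2a_key hb hs0.le (k + 1) t
    rw [hss, show (k + 1) ^ 2 * b / (2 * b) = (k + 1) ^ 2 / 2 by field_simp, ← hE,
      Real.rpow_add_one (by positivity)] at h2
    have h3 : 1 + |τ + t| ≤ M * (1 + s * |t|) := by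
      have h4 := abs_add_le τ t
      have h5 : s⁻¹ * (s * |t|) = |t| := by field_simp
      have h6 : 0 ≤ s * |t| := by positivity
      have h7 : 0 ≤ s⁻¹ := by positivity
      have h8 : 0 ≤ (1 + |τ|) * (s * |t|) := by positivity
      rw [hM]
      nlinarith
    have h9 : (1 + |τ + t|) ^ k ≤ M ^ k * (1 + s * |t|) ^ k := by
      rw [← Real.mul_rpow hM0.le (by positivity)]
      exact Real.rpow_le_rpow (by positivity) h3 hk
    have h10 := og_nonneg (b := b) t
    calc _ ≤ og b t * ((1 + s * |t|) * (M ^ k * (1 + s * |t|) ^ k)) := by gcongr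
      _ = M ^ k * (og b t * ((1 + s * |t|) ^ k * (1 + s * |t|))) := by ring
      _ ≤ M ^ k * (2 * E * og (b / 2) t) := by gcongr
      _ = _ := by ring
  have hb2 := half_pos hb
  have hMk : 0 < M ^ k := by positivity
  constructor
  · refine (integral_mono_of_nonneg (Filter.Eventually.of_forall fun t => ?_)
      ((u2a_int hb2).const_mul (2 * E * M ^ k)) (Filter.Eventually.of_forall fun t => ?_)).trans ?_
    · exact mul_nonneg (og_nonneg t) (by positivity)
    · refine le_trans (mul_le_mul_of_nonneg_left ?_ (og_nonneg t)) (h1 t)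
      exact le_mul_of_one_le_left (by positivity) (le_add_of_nonneg_right (by positivity))
    · rw [integral_const_mul, integral_og hb2]
      nlinarith [mul_pos hE0 hMk]
  · refine (integral_mono_of_nonneg (Filter.Eventually.of_forall fun t => ?_)
      ((u2a_int hb2).const_mul (2 * s * (2 * E * M ^ k)))
      (Filter.Eventually.of_forall fun t => ?_)).trans ?_
    · have := og_nonneg (b := b) t
      show 0 ≤ 2 * b * |t| * og b t * (1 + |τ + t|) ^ k
      positivity
    · have := og_nonneg (b := b) t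
      show 2 * b * |t| * og b t * (1 + |τ + t|) ^ k ≤ 2 * s * (2 * E * M ^ k) * og (b / 2) t
      calc _ = 2 * s * (og b t * ((s * |t|) * (1 + |τ + t|) ^ k)) := by rw [← hss]; ring
        _ ≤ 2 * s * (og b t * ((1 + s * |t|) * (1 + |τ + t|) ^ k)) := by
            gcongr
            linarith
        _ ≤ 2 * s * (2 * E * M ^ k * og (b / 2) t) := by
            have := h1 t
            gcongr
        _ = _ := by ring
    · rw [integral_const_mul, integral_og hb2]
      exact le_of_eq (by ring)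

theorem og_tail : ∃ C : ℝ, 0 ≤ C ∧ ∀ b T : ℝ, 0 < b → 0 ≤ T →
    ∫ t in {t : ℝ | T < |t|}, og b t ≤ C * Real.exp (-(b * T ^ 2 / 2)) ∧
    ∫ t in {t : ℝ | T < |t|}, 2 * b * |t| * og b t ≤ C * Real.sqrt b * Real.exp (-(b * T ^ 2 / 2)) := by
  obtain ⟨C, hC, h⟩ := og_moment (le_refl (0 : ℝ))
  refine ⟨4 * C + 2, by positivity, fun b T hb hT => ?_⟩
  have hb2 := half_pos hb
  have hm : MeasurableSet {t : ℝ | T < |t|} :=
    (isOpen_lt continuous_const continuous_abs).measurableSet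
  set E := Real.exp (-(b * T ^ 2 / 2)) with hE
  have hE0 : 0 < E := Real.exp_pos _
  have h1 : ∀ t ∈ {t : ℝ | T < |t|}, og b t ≤ 2 * E * og (b / 2) t := by
    intro t ht
    refine (u2a_half hb t).trans ?_
    have h2 : T ^ 2 ≤ t ^ 2 := by
      rw [← sq_abs t]
      exact pow_le_pow_left₀ hT (le_of_lt ht) 2
    have h3 : Real.exp (-(b * t ^ 2 / 2)) ≤ E := Real.exp_le_exp.2 (by nlinarith)
    have := og_nonneg (b := b / 2) t
    gcongr
  constructor
  · have i1 := (u2a_int hb2).const_mul (2 * E)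
    calc _ ≤ ∫ t in {t : ℝ | T < |t|}, 2 * E * og (b / 2) t :=
          setIntegral_mono_on (u2a_int hb).integrableOn i1.integrableOn hm h1
      _ ≤ ∫ t, 2 * E * og (b / 2) t := setIntegral_le_integral i1
          (Filter.Eventually.of_forall fun t => mul_nonneg (by positivity) (og_nonneg t))
      _ ≤ _ := by
          rw [integral_const_mul, integral_og hb2]
          nlinarith [mul_nonneg hC hE0.le]
  · have i1 := (u2a_int_abs hb2).const_mul (4 * E)
    have h4 := (h (b / 2) 0 hb2).2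
    simp only [Real.rpow_zero, mul_one] at h4
    have h5 : Real.sqrt (b / 2) ≤ Real.sqrt b := Real.sqrt_le_sqrt (by linarith)
    have h6 := Real.sqrt_nonneg b
    calc _ ≤ ∫ t in {t : ℝ | T < |t|}, 4 * E * (2 * (b / 2) * |t| * og (b / 2) t) := by
          refine setIntegral_mono_on (u2a_int_abs hb).integrableOn i1.integrableOn hm
            fun t ht => ?_
          calc _ ≤ 2 * b * |t| * (2 * E * og (b / 2) t) :=
                mul_le_mul_of_nonneg_left (h1 t ht) (by positivity)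
            _ = _ := by ring
      _ ≤ ∫ t, 4 * E * (2 * (b / 2) * |t| * og (b / 2) t) := setIntegral_le_integral i1
          (Filter.Eventually.of_forall fun t => by
            have := og_nonneg (b := b / 2) t
            show 0 ≤ 4 * E * (2 * (b / 2) * |t| * og (b / 2) t)
            positivity)
      _ ≤ 4 * E * (C * Real.sqrt b) := by
          rw [integral_const_mul]
          exact mul_le_mul_of_nonneg_left (h4.trans (by gcongr)) (by positivity)
      _ ≤ _ := by nlinarith [mul_nonneg h6 hE0.le]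

/-- Insertion of a weight given by a Fourier integral. -/
theorem u2a_gen {a Y Z : ℝ} (ha : 0 < a) (hY : 0 < Y) (hZ : 0 < Z) {c : O → ℂ} {K A : ℝ}
    (hc : ∀ n, Prim n → ‖c n‖ ≤ K * Nr n ^ A) (τ : ℝ) {φ w : ℝ → ℂ} {ψ : ℝ → ℝ}
    (hφ : Continuous φ) (hψ : ∀ t, ‖φ t‖ = ψ t) (hi : Integrable ψ)
    (hw : ∀ y, 0 < y → w y = ∫ t : ℝ, φ t * (y : ℂ) ^ (-(t * I))) :
    Integrable (fun t => ψ t * ‖sm a c Y (τ + t)‖) ∧
    ‖∑' n : O, if Prim n then c n * (Nr n : ℂ) ^ (-(τ * I)) * (W a (Nr n / Y) : ℂ) *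
      w (Nr n / Z) else 0‖ ≤ ∫ t, ψ t * ‖sm a c Y (τ + t)‖ := by
  have hψ0 : ∀ t, 0 ≤ ψ t := fun t => hψ t ▸ norm_nonneg _
  have hZn : ∀ t : ℝ, ‖(Z : ℂ) ^ ((t : ℂ) * I)‖ = 1 := fun t => by
    rw [Complex.norm_cpow_eq_rpow_re_of_pos hZ]
    simp
  set F : O → ℝ → ℂ := fun n t => φ t * (Z : ℂ) ^ ((t : ℂ) * I) *
    (if Prim n then c n * (Nr n : ℂ) ^ (-(((τ + t : ℝ) : ℂ) * I)) * (W a (Nr n / Y) : ℂ) else 0)
    with hF
  have hbd : ∀ n t, ‖F n t‖ ≤
      |K| * (if n = 0 then 0 else Nr n ^ A * W a (Nr n / Y)) * ψ t := by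
    intro n t
    simp only [hF]
    rw [norm_mul, norm_mul, hZn, hψ, mul_one, mul_comm]
    exact mul_le_mul_of_nonneg_right (w2_term_le hc (τ + t) n) (hψ0 t)
  have hint : ∀ n, Integrable (F n) := by
    intro n
    refine (hi.const_mul _).mono' (Continuous.aestronglyMeasurable ?_)
      (Filter.Eventually.of_forall (hbd n))
    simp only [hF, w2_cpow hZ]
    split_ifs with hn
    · simp only [w2_cpow (Nr_pos hn.ne_zero)]
      fun_prop
    · fun_prop
  have hsum : Summable fun n => ∫ t, ‖F n t‖ := by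
    refine Summable.of_nonneg_of_le (fun n => integral_nonneg fun t => norm_nonneg _) (fun n => ?_)
      (((summable_W ha hY A).mul_left |K|).mul_right (∫ t : ℝ, ψ t))
    rw [← integral_const_mul]
    exact integral_mono (hint n).norm (hi.const_mul _) (hbd n)
  have h1 : ∀ t : ℝ, ∑' n, F n t = φ t * (Z : ℂ) ^ ((t : ℂ) * I) * sm a c Y (τ + t) := fun t => by
    simp only [hF, sm, tsum_mul_left]
  have hcont : Continuous fun t : ℝ => ‖sm a c Y (τ + t)‖ := by
    have h1 := (continuous_sm ha hc).comp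
      (show Continuous fun t : ℝ => (Real.log Y, τ + t) by fun_prop)
    have h2 : (fun t : ℝ => sm a c Y (τ + t)) =
        (fun p : ℝ × ℝ => sm a c (Real.exp p.1) p.2) ∘ fun t : ℝ => (Real.log Y, τ + t) := by
      funext t
      simp only [Function.comp_apply, Real.exp_log hY]
    exact (h2 ▸ h1).norm
  have hb2 : ∀ t, ‖‖sm a c Y (τ + t)‖‖ ≤
      ∑' n : O, |K| * (if n = 0 then 0 else Nr n ^ A * W a (Nr n / Y)) := by
    intro t
    rw [norm_norm]
    exact tsum_of_norm_bounded ((summable_W ha hY A).mul_left |K|).hasSum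
      (w2_term_le hc (τ + t))
  refine ⟨hi.mul_bdd hcont.aestronglyMeasurable (Filter.Eventually.of_forall hb2), ?_⟩
  have h3 : (∑' n : O, if Prim n then c n * (Nr n : ℂ) ^ (-(τ * I)) * (W a (Nr n / Y) : ℂ) *
      w (Nr n / Z) else 0) = ∫ t, ∑' n, F n t := by
    rw [← integral_tsum_of_summable_integral_norm hint hsum]
    refine tsum_congr fun n => ?_
    simp only [hF]
    split_ifs with hn
    · have hN := Nr_pos hn.ne_zero
      rw [hw _ (div_pos hN hZ), ← integral_const_mul]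
      refine integral_congr_ae (Filter.Eventually.of_forall fun t => ?_)
      simp only [w2_cpow hN, w2_cpow hZ, w2_cpow (div_pos hN hZ), Real.log_div hN.ne' hZ.ne']
      have : Complex.exp ((Real.log (Nr n) : ℝ) * -((τ : ℂ) * I)) *
          Complex.exp ((Real.log (Nr n) - Real.log Z : ℝ) * -((t : ℂ) * I)) =
          Complex.exp ((Real.log (Nr n) : ℝ) * -(((τ + t : ℝ) : ℂ) * I)) *
          Complex.exp ((Real.log Z : ℝ) * ((t : ℂ) * I)) := by
        rw [← Complex.exp_add, ← Complex.exp_add]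
        congr 1
        rw [Complex.ofReal_sub, Complex.ofReal_add]
        ring
      linear_combination c n * (W a (Nr n / Y) : ℂ) * φ t * this
    · simp
  rw [h3]
  refine (norm_integral_le_integral_norm _).trans (le_of_eq ?_)
  refine integral_congr_ae (Filter.Eventually.of_forall fun t => ?_)
  simp only [h1, norm_mul, hZn, hψ, mul_one]

theorem u2a_W_mul {a b c : ℝ} (h : a⁻¹ = b⁻¹ + c⁻¹) (x : ℝ) : W a x = W b x * W c x := by
  rw [W, W, W, ← Real.exp_add]
  congr 1
  simp only [div_eq_mul_inv, mul_inv]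
  rw [h]
  ring

theorem u2a_gen0 {a b Y Z : ℝ} (ha : 0 < a) (hb : 0 < b) (hY : 0 < Y) (hZ : 0 < Z) {c : O → ℂ}
    {K A : ℝ} (hc : ∀ n, Prim n → ‖c n‖ ≤ K * Nr n ^ A) (τ : ℝ) :
    Integrable (fun t => og b t * ‖sm a c Y (τ + t)‖) ∧
    ‖∑' n : O, if Prim n then c n * (Nr n : ℂ) ^ (-(τ * I)) * (W a (Nr n / Y) : ℂ) *
      (W b (Nr n / Z) : ℂ) else 0‖ ≤ ∫ t, og b t * ‖sm a c Y (τ + t)‖ :=
  u2a_gen ha hY hZ hc τ (φ := fun t => (og b t : ℂ)) (w := fun y => (W b y : ℂ))
    (Complex.continuous_ofReal.comp (u2a_cont b))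
    (fun t => by rw [Complex.norm_real, Real.norm_of_nonneg (og_nonneg t)]) (u2a_int hb)
    fun _ hy => W_eq_og hb hy

/-- `W a = W a' * W b` with `1/b = 1/a - 1/a'`. -/
theorem coarse0 {a a' b Y : ℝ} (ha : 0 < a) (ha' : 0 < a') (hb : 0 < b) (h : a⁻¹ = a'⁻¹ + b⁻¹)
    (hY : 0 < Y) {c : O → ℂ} {K A : ℝ} (hc : ∀ n, Prim n → ‖c n‖ ≤ K * Nr n ^ A) (τ : ℝ) :
    Integrable (fun t => og b t * ‖sm a' c Y (τ + t)‖) ∧
    ‖sm a c Y τ‖ ≤ ∫ t, og b t * ‖sm a' c Y (τ + t)‖ := by
  have _ := ha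
  obtain ⟨h1, h2⟩ := u2a_gen0 ha' hb hY hY hc τ
  refine ⟨h1, le_trans (le_of_eq ?_) h2⟩
  simp only [sm, u2a_W_mul h, Complex.ofReal_mul, mul_assoc]

theorem coarse1 {a a' b Y : ℝ} (ha : 0 < a) (ha' : 0 < a') (hb : 0 < b) (h : a⁻¹ = a'⁻¹ + b⁻¹)
    (hY : 0 < Y) {c : O → ℂ} {K A : ℝ} (hc : ∀ n, Prim n → ‖c n‖ ≤ K * Nr n ^ A) (τ : ℝ) :
    Integrable (fun t => 2 * b * |t| * og b t * ‖sm a' c Y (τ + t)‖) ∧
    ‖sm a (fun n => c n * (lgn n - (Real.log Y : ℂ))) Y τ‖ ≤
      ∫ t, 2 * b * |t| * og b t * ‖sm a' c Y (τ + t)‖ := by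
  have _ := ha
  obtain ⟨h1, h2⟩ := u2a_gen ha' hY hY hc τ (φ := fun t => (2 * b * t * I) * (og b t : ℂ))
    (w := fun y => ((Real.log y * W b y : ℝ) : ℂ))
    ((by fun_prop : Continuous fun t : ℝ => (2 * b * t * I : ℂ)).mul
      (Complex.continuous_ofReal.comp (u2a_cont b))) (u2a_norm1 hb) (u2a_int_abs hb)
    fun _ hy => log_W_eq_og hb hy
  refine ⟨h1, le_trans (le_of_eq ?_) h2⟩
  unfold sm
  congr 1
  refine tsum_congr fun n => ?_
  split_ifs with hn
  · rw [u2a_W_mul h, Real.log_div (Nr_pos hn.ne_zero).ne' hY.ne']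
    simp only [lgn, Complex.ofReal_mul, Complex.ofReal_sub]
    ring
  · rfl

/-- `W 2 (x y) = e^{u²/8} W 4 y · W 4 (x² y)` for `x = e^u`. -/
theorem sm_shift {Y u : ℝ} (hY : 0 < Y) (hu : |u| ≤ 1) {c : O → ℂ} {K A : ℝ}
    (hc : ∀ n, Prim n → ‖c n‖ ≤ K * Nr n ^ A) (τ : ℝ) :
    ‖sm 2 c (Y * Real.exp u) τ‖ ≤ 2 * ∫ t, og 4 t * ‖sm 4 c Y (τ + t)‖ := by
  have hZ : 0 < Y * Real.exp (2 * u) := by positivity
  obtain ⟨-, h2⟩ := u2a_gen0 (a := 4) (b := 4) (by norm_num) (by norm_num) hY hZ hc τ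
  have h3 : sm 2 c (Y * Real.exp u) τ = (Real.exp (u ^ 2 / 8) : ℂ) *
      ∑' n : O, if Prim n then c n * (Nr n : ℂ) ^ (-(τ * I)) * (W 4 (Nr n / Y) : ℂ) *
        (W 4 (Nr n / (Y * Real.exp (2 * u))) : ℂ) else 0 := by
    rw [← tsum_mul_left]
    unfold sm
    refine tsum_congr fun n => ?_
    split_ifs with hn
    · have hN := Nr_pos hn.ne_zero
      have e : ∀ v : ℝ, Real.log (Nr n / (Y * Real.exp v)) = Real.log (Nr n / Y) - v := fun v => by
        rw [← div_div, Real.log_div (by positivity) (Real.exp_pos v).ne', Real.log_exp]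
      have e2 : W 2 (Nr n / (Y * Real.exp u)) = Real.exp (u ^ 2 / 8) * (W 4 (Nr n / Y) *
          W 4 (Nr n / (Y * Real.exp (2 * u)))) := by
        rw [W, W, W, e, e, ← Real.exp_add, ← Real.exp_add]
        congr 1
        ring
      rw [e2, Complex.ofReal_mul, Complex.ofReal_mul]
      ring
    · simp
  have h4 : Real.exp (u ^ 2 / 8) ≤ 2 := by
    have h5 : u ^ 2 ≤ 1 := by
      rw [← sq_abs]
      nlinarith [abs_nonneg u]
    have h6 : Real.exp (u ^ 2 / 8) ≤ Real.exp (Real.log 2) :=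
      Real.exp_le_exp.2 (by linarith [Real.log_two_gt_d9])
    rwa [Real.exp_log (by norm_num)] at h6
  rw [h3, norm_mul, Complex.norm_real, Real.norm_of_nonneg (Real.exp_pos _).le]
  exact mul_le_mul h4 h2 (norm_nonneg _) (by norm_num)

end Crest.Agent.R012

end
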