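import Crest.Agent.R012.U2a

/-! # Row 12: changing the width of the weight -/

set_option autoImplicit false

noncomputable section

open scoped BigOperators ComplexConjugate Topology
open Complex MeasureTheory Filter Set Crest.Agent.R017

namespace Crest.Agent.R012

theorem u2b_b {a a' : ℝ} (ha : 0 < a) (h : a < a') : ∃ b : ℝ, 0 < b ∧ a⁻¹ = a'⁻¹ + b⁻¹ ∧ a ≤ b ∧
    (2 * a ≤ a' → b ≤ 2 * a) := by
  have ha' : 0 < a' := ha.trans h
  have h1 : 0 < a' - a := by linarith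
  refine ⟨a * a' / (a' - a), by positivity, by field_simp; ring, ?_, fun h2 => ?_⟩
  · rw [le_div_iff₀ h1]; nlinarith
  · rw [div_le_iff₀ h1]; nlinarith

theorem u2b_cont (b : ℝ) : Continuous (og b) := by
  unfold og; fun_prop

theorem u2b_pow_le (τ t : ℝ) {k : ℝ} (hk : 0 ≤ k) :
    (1 + |τ + t|) ^ k ≤ (1 + |τ|) ^ k * (1 + |t|) ^ k := by
  rw [← Real.mul_rpow (by positivity) (by positivity)]
  refine Real.rpow_le_rpow (by positivity) ?_ hk
  have := abs_add_le τ t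
  have := mul_nonneg (abs_nonneg τ) (abs_nonneg t)
  nlinarith

theorem u2b_cont_pow (τ k : ℝ) : Continuous fun t : ℝ => (1 + |τ + t|) ^ k :=
  Continuous.rpow_const (by fun_prop) fun t => Or.inl (by positivity)

theorem u2b_int0 {b : ℝ} (hb : 0 < b) (τ : ℝ) {k : ℝ} (hk : 0 ≤ k) :
    Integrable fun t : ℝ => og b t * (1 + |τ + t|) ^ k := by
  refine ((integrable_og_mul hb k).const_mul ((1 + |τ|) ^ k)).mono'
    ((u2b_cont b).mul (u2b_cont_pow τ k)).aestronglyMeasurable (Eventually.of_forall fun t => ?_)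
  have h0 := og_nonneg (b := b) t
  rw [Real.norm_of_nonneg (by positivity)]
  calc _ ≤ og b t * ((1 + |τ|) ^ k * (1 + |t|) ^ k) := by gcongr; exact u2b_pow_le τ t hk
    _ = _ := by ring

theorem u2b_int1 {b : ℝ} (hb : 0 < b) (τ : ℝ) {k : ℝ} (hk : 0 ≤ k) :
    Integrable fun t : ℝ => 2 * b * |t| * og b t * (1 + |τ + t|) ^ k := by
  refine ((integrable_og_mul hb (k + 1)).const_mul (2 * b * (1 + |τ|) ^ k)).mono'
    (((by fun_prop : Continuous fun t : ℝ => 2 * b * |t|).mul (u2b_cont b)).mul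
      (u2b_cont_pow τ k)).aestronglyMeasurable (Eventually.of_forall fun t => ?_)
  have h0 := og_nonneg (b := b) t
  rw [Real.norm_of_nonneg (by positivity), Real.rpow_add (by positivity), Real.rpow_one]
  calc _ ≤ 2 * b * (1 + |t|) * og b t * ((1 + |τ|) ^ k * (1 + |t|) ^ k) := by
        gcongr
        · linarith
        · exact u2b_pow_le τ t hk
    _ = _ := by ring

theorem u2b_int0' {b : ℝ} (hb : 0 < b) : Integrable (og b) := by
  simpa using u2b_int0 hb 0 le_rfl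

theorem u2b_int1' {b : ℝ} (hb : 0 < b) : Integrable fun t : ℝ => 2 * b * |t| * og b t := by
  simpa using u2b_int1 hb 0 le_rfl

theorem u2b_log (l : ℤ) (a : ℝ) (f : O → ℂ) (Y τ : ℝ) :
    SF l a (fun n => f n * (lgn n - (Real.log Y : ℂ))) Y τ =
      sm a (fun n => f n * az l n * FF n * (lgn n - (Real.log Y : ℂ))) Y τ := by
  unfold SF
  congr 1
  funext n
  ring

theorem u2b_two {g F p q : ℝ → ℝ} {E₁ E₂ : ℝ} (hg : ∀ t, 0 ≤ g t) (hF : Integrable fun t => g t * F t)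
    (hp : Integrable fun t => g t * p t) (hq : Integrable fun t => g t * q t)
    (h : ∀ t, F t ≤ E₁ * p t + E₂ * q t) :
    ∫ t, g t * F t ≤ E₁ * (∫ t, g t * p t) + E₂ * ∫ t, g t * q t := by
  rw [← integral_const_mul, ← integral_const_mul, ← integral_add (hp.const_mul _) (hq.const_mul _)]
  refine integral_mono hF ((hp.const_mul _).add (hq.const_mul _)) fun t => ?_
  calc g t * F t ≤ g t * (E₁ * p t + E₂ * q t) := mul_le_mul_of_nonneg_left (h t) (hg t)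
    _ = _ := by ring

theorem u2b_split {g F : ℝ → ℝ} {T E B : ℝ} (hg : ∀ t, 0 ≤ g t) (hi : Integrable g)
    (hF : Integrable fun t => g t * F t) (hE : 0 ≤ E) (_hB : 0 ≤ B) (h1 : ∀ t, |t| ≤ T → F t ≤ E)
    (h2 : ∀ t, F t ≤ B) :
    ∫ t, g t * F t ≤ E * (∫ t, g t) + B * ∫ t in {t : ℝ | T < |t|}, g t := by
  have hm : MeasurableSet {t : ℝ | T < |t|} := measurableSet_lt measurable_const (by fun_prop)
  rw [← integral_indicator hm, ← integral_const_mul, ← integral_const_mul,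
    ← integral_add (hi.const_mul _) ((hi.indicator hm).const_mul _)]
  refine integral_mono hF ((hi.const_mul _).add ((hi.indicator hm).const_mul _)) fun t => ?_
  have h0 := hg t
  by_cases ht : T < |t|
  · have h3 := mul_le_mul_of_nonneg_left (h2 t) h0
    have h4 := mul_nonneg hE h0
    simp only [indicator_of_mem (show t ∈ {t : ℝ | T < |t|} from ht)]
    linarith
  · have h3 := mul_le_mul_of_nonneg_left (h1 t (not_lt.1 ht)) h0
    simp only [indicator_of_notMem (show t ∉ {t : ℝ | T < |t|} from ht)]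
    linarith

theorem u2b_triv : ∃ C : ℝ, 0 ≤ C ∧ ∀ (l : ℤ) (f : O → ℂ) (a Y τ M : ℝ), Gr M f → 0 ≤ M → 0 < a → a ≤ 4 →
    0 < Y → ‖SF l a f Y τ‖ ≤ C * M * Y ^ 2 := by
  obtain ⟨C, hC⟩ := tsum_W_le (a := 4) (by norm_num) 1 (by norm_num)
  have hc := cst_pos
  refine ⟨(1 + cst) * max C 0, by positivity, fun l f a Y τ M hf hM ha ha4 hY => ?_⟩
  have hb : ∀ n, Prim n → ‖f n * az l n * FF n‖ ≤ (1 + cst) * M * Nr n ^ (1 : ℝ) := fun n hn => by
    rw [Real.rpow_one]; exact hf.bound l n hn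
  have h1 : ‖SF l a f Y τ‖ ≤ (1 + cst) * M *
      ∑' n : O, (if n = 0 then 0 else Nr n ^ (1 : ℝ) * W 4 (Nr n / Y)) :=
    tsum_of_norm_bounded ((summable_W (by norm_num) hY 1).hasSum.mul_left _) fun n => by
      refine (w2_term_le (a := a) (X := Y) hb τ n).trans ?_
      rw [abs_of_nonneg (by positivity)]
      refine mul_le_mul_of_nonneg_left ?_ (by positivity)
      split_ifs
      · exact le_rfl
      · exact mul_le_mul_of_nonneg_left (W_mono ha ha4 _) (Real.rpow_nonneg (Nr_nonneg n) _)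
  have h2 := hC Y hY
  rw [show (1 + 1 : ℝ) = 2 by norm_num, Real.rpow_two] at h2
  calc _ ≤ (1 + cst) * M * (max C 0 * Y ^ 2) := by
        refine h1.trans (mul_le_mul_of_nonneg_left (h2.trans ?_) (by positivity))
        exact mul_le_mul_of_nonneg_right (le_max_left _ _) (by positivity)
    _ = _ := by ring

theorem u2b_exp {Y a b T : ℝ} (hY : 1 ≤ Y) (ha : 0 < a) (hab : a ≤ b)
    (h : Real.log Y ≤ Real.sqrt a * T) :
    Y ^ 2 * Real.exp (-(b * T ^ 2 / 2)) ≤ Real.exp 5 / Y := by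
  have Y0 : 0 < Y := by linarith
  have hL := Real.log_nonneg hY
  have h1 : Real.log Y ^ 2 ≤ b * T ^ 2 := by
    calc Real.log Y ^ 2 ≤ (Real.sqrt a * T) ^ 2 := pow_le_pow_left₀ hL h 2
      _ = a * T ^ 2 := by rw [mul_pow, Real.sq_sqrt ha.le]
      _ ≤ b * T ^ 2 := by gcongr
  rw [le_div_iff₀ Y0]
  calc Y ^ 2 * Real.exp (-(b * T ^ 2 / 2)) * Y
      = Real.exp (3 * Real.log Y + -(b * T ^ 2 / 2)) := by
        rw [Real.exp_add, show (3 : ℝ) * Real.log Y = ((3 : ℕ) : ℝ) * Real.log Y by norm_num,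
          Real.exp_nat_mul, Real.exp_log Y0]
        ring
    _ ≤ Real.exp 5 := Real.exp_le_exp.2 (by nlinarith [sq_nonneg (Real.log Y - 3)])

theorem coarse_poly {k₁ k₂ : ℝ} (h₁ : 0 ≤ k₁) (h₂ : 0 ≤ k₂) : ∃ C : ℝ, 0 ≤ C ∧
    ∀ (l : ℤ) (f : O → ℂ) (a Y τ E₁ E₂ : ℝ), Pg f → 0 < a → a ≤ 1 → 0 < Y → 0 ≤ E₁ → 0 ≤ E₂ →
    (∀ t, ‖SF l 2 f Y t‖ ≤ E₁ * (1 + |t|) ^ k₁ + E₂ * (1 + |t|) ^ k₂) →
    ‖SF l a f Y τ‖ ≤ C * (E₁ * (1 + |τ| + (Real.sqrt a)⁻¹) ^ k₁ + E₂ * (1 + |τ| + (Real.sqrt a)⁻¹) ^ k₂) ∧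
    ‖SF l a (fun n => f n * (lgn n - (Real.log Y : ℂ))) Y τ‖ ≤
      C * (E₁ * (1 + |τ| + (Real.sqrt a)⁻¹) ^ k₁ + E₂ * (1 + |τ| + (Real.sqrt a)⁻¹) ^ k₂) := by
  obtain ⟨C₁, hC₁, H₁⟩ := og_moment h₁
  obtain ⟨C₂, hC₂, H₂⟩ := og_moment h₂
  refine ⟨2 * (C₁ + C₂), by positivity, fun l f a Y τ E₁ E₂ hf ha ha1 hY hE₁ hE₂ h => ?_⟩
  obtain ⟨b, hb, hab, hle, hb2⟩ := u2b_b ha (show a < 2 by linarith)
  obtain ⟨K, A, hK⟩ := hf.bound l
  obtain ⟨i0, b0⟩ := coarse0 ha two_pos hb hab hY hK τ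
  obtain ⟨i1, b1⟩ := coarse1 ha two_pos hb hab hY hK τ
  have hs : (Real.sqrt b)⁻¹ ≤ (Real.sqrt a)⁻¹ :=
    inv_anti₀ (Real.sqrt_pos.2 ha) (Real.sqrt_le_sqrt hle)
  have hs2 : Real.sqrt b ≤ 2 := Real.sqrt_le_iff.2 ⟨by norm_num, by have := hb2 (by linarith); linarith⟩
  have p1 : (1 + |τ| + (Real.sqrt b)⁻¹) ^ k₁ ≤ (1 + |τ| + (Real.sqrt a)⁻¹) ^ k₁ := by gcongr
  have p2 : (1 + |τ| + (Real.sqrt b)⁻¹) ^ k₂ ≤ (1 + |τ| + (Real.sqrt a)⁻¹) ^ k₂ := by gcongr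
  obtain ⟨m1, m1'⟩ := H₁ b τ hb
  obtain ⟨m2, m2'⟩ := H₂ b τ hb
  have q1 : 0 ≤ (1 + |τ| + (Real.sqrt a)⁻¹) ^ k₁ := by positivity
  have q2 : 0 ≤ (1 + |τ| + (Real.sqrt a)⁻¹) ^ k₂ := by positivity
  have fin : ∀ x y : ℝ, x ≤ 2 * C₁ * (1 + |τ| + (Real.sqrt a)⁻¹) ^ k₁ →
      y ≤ 2 * C₂ * (1 + |τ| + (Real.sqrt a)⁻¹) ^ k₂ → E₁ * x + E₂ * y ≤ 2 * (C₁ + C₂) *
      (E₁ * (1 + |τ| + (Real.sqrt a)⁻¹) ^ k₁ + E₂ * (1 + |τ| + (Real.sqrt a)⁻¹) ^ k₂) := by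
    intro x y hx hy
    generalize (1 + |τ| + (Real.sqrt a)⁻¹) ^ k₁ = P at *
    generalize (1 + |τ| + (Real.sqrt a)⁻¹) ^ k₂ = Q at *
    have e1 := mul_le_mul_of_nonneg_left hx hE₁
    have e2 := mul_le_mul_of_nonneg_left hy hE₂
    have e3 : 0 ≤ C₁ * (E₂ * Q) := by positivity
    have e4 : 0 ≤ C₂ * (E₁ * P) := by positivity
    nlinarith
  constructor
  · refine b0.trans ((u2b_two og_nonneg i0 (u2b_int0 hb τ h₁) (u2b_int0 hb τ h₂)
      fun t => h (τ + t)).trans (fin _ _ (m1.trans ?_) (m2.trans ?_)))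
    · gcongr; linarith
    · gcongr; linarith
  · rw [u2b_log]
    refine b1.trans ((u2b_two (fun t => mul_nonneg (by positivity) (og_nonneg t)) i1
      (u2b_int1 hb τ h₁) (u2b_int1 hb τ h₂) fun t => h (τ + t)).trans
      (fin _ _ (m1'.trans ?_) (m2'.trans ?_)))
    · rw [mul_comm 2 C₁]; gcongr
    · rw [mul_comm 2 C₂]; gcongr

theorem coarse_sup : ∃ C : ℝ, 0 ≤ C ∧ ∀ (l : ℤ) (f : O → ℂ) (a a' Y τ T M E : ℝ), Gr M f → 0 < a →
    2 * a ≤ a' → a' ≤ 4 → 3 ≤ Y → Real.log Y ≤ Real.sqrt a * T →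
    (∀ t, |t| ≤ T → ‖SF l a' f Y (τ + t)‖ ≤ E) →
    ‖SF l a f Y τ‖ ≤ E + C * M / Y ∧
    ‖SF l a (fun n => f n * (lgn n - (Real.log Y : ℂ))) Y τ‖ ≤ C * (Real.sqrt a * E + M / Y) := by
  obtain ⟨C₀, hC₀, H₀⟩ := u2b_triv
  obtain ⟨C₁, hC₁, H₁⟩ := og_moment (k := 0) le_rfl
  obtain ⟨C₂, hC₂, H₂⟩ := og_tail
  refine ⟨2 * C₁ + 2 * (C₀ * C₂ * Real.exp 5), by positivity,
    fun l f a a' Y τ T M E hf ha haa ha4 hY hT h => ?_⟩
  have Y0 : 0 < Y := by linarith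
  have ha' : 0 < a' := by linarith
  obtain ⟨b, hb, hab, hle, hb2⟩ := u2b_b ha (show a < a' by linarith)
  replace hb2 := hb2 haa
  obtain ⟨K, A, hK⟩ := hf.pg.bound l
  obtain ⟨i0, b0⟩ := coarse0 ha ha' hb hab Y0 hK τ
  obtain ⟨i1, b1⟩ := coarse1 ha ha' hb hab Y0 hK τ
  have hM : 0 ≤ M := by
    have := (norm_nonneg _).trans (hf 1 prim_one squarefree_one)
    rwa [R017.Nr_one, mul_one] at this
  have hT0 : 0 ≤ T := by
    have := (Real.log_nonneg (show 1 ≤ Y by linarith)).trans hT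
    exact nonneg_of_mul_nonneg_right this (Real.sqrt_pos.2 ha)
  have hE : 0 ≤ E := (norm_nonneg _).trans (h 0 (by simpa using hT0))
  have hB : ∀ t, ‖SF l a' f Y (τ + t)‖ ≤ C₀ * M * Y ^ 2 := fun t => H₀ l f a' Y _ M hf hM ha' ha4 Y0
  obtain ⟨t0, t1⟩ := H₂ b T hb hT0
  have hx := u2b_exp (show 1 ≤ Y by linarith) ha hle hT
  have hMY : 0 ≤ M / Y := by positivity
  have key : C₀ * M * Y ^ 2 * (C₂ * Real.exp (-(b * T ^ 2 / 2))) ≤ C₀ * C₂ * Real.exp 5 * (M / Y) := by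
    calc _ = C₀ * C₂ * M * (Y ^ 2 * Real.exp (-(b * T ^ 2 / 2))) := by ring
      _ ≤ C₀ * C₂ * M * (Real.exp 5 / Y) := by gcongr
      _ = _ := by ring
  have D0 : 0 ≤ C₀ * C₂ * Real.exp 5 := by positivity
  constructor
  · refine b0.trans ((u2b_split og_nonneg (u2b_int0' hb) i0 hE (by positivity) h hB).trans ?_)
    rw [integral_og hb, mul_one, mul_div_assoc]
    have e1 := (mul_le_mul_of_nonneg_left t0 (show 0 ≤ C₀ * M * Y ^ 2 by positivity)).trans key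
    have e2 := mul_nonneg hC₁ hMY
    have e3 := mul_nonneg D0 hMY
    nlinarith
  · rw [u2b_log]
    refine b1.trans ((u2b_split (fun t => mul_nonneg (by positivity) (og_nonneg t)) (u2b_int1' hb) i1 hE
      (by positivity) h hB).trans ?_)
    have m1 := (H₁ b 0 hb).2
    simp only [Real.rpow_zero, mul_one] at m1
    have s1 : Real.sqrt b ≤ 2 * Real.sqrt a := by
      refine Real.sqrt_le_iff.2 ⟨by positivity, ?_⟩
      rw [mul_pow, Real.sq_sqrt ha.le]; linarith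
    have s2 : Real.sqrt b ≤ 2 := Real.sqrt_le_iff.2 ⟨by norm_num, by linarith⟩
    have e1 : E * ∫ t, 2 * b * |t| * og b t ≤ 2 * C₁ * (Real.sqrt a * E) := by
      calc _ ≤ E * (C₁ * (2 * Real.sqrt a)) :=
            mul_le_mul_of_nonneg_left (m1.trans (by gcongr)) hE
        _ = _ := by ring
    have e2 : C₀ * M * Y ^ 2 * ∫ t in {t : ℝ | T < |t|}, 2 * b * |t| * og b t ≤
        2 * (C₀ * C₂ * Real.exp 5) * (M / Y) := by
      calc _ ≤ C₀ * M * Y ^ 2 * (C₂ * 2 * Real.exp (-(b * T ^ 2 / 2))) :=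
            mul_le_mul_of_nonneg_left (t1.trans (by gcongr)) (by positivity)
        _ = 2 * (C₀ * M * Y ^ 2 * (C₂ * Real.exp (-(b * T ^ 2 / 2)))) := by ring
        _ ≤ 2 * (C₀ * C₂ * Real.exp 5 * (M / Y)) := by gcongr
        _ = _ := by ring
    have e3 := mul_nonneg hC₁ hMY
    have e4 := mul_nonneg D0 (mul_nonneg (Real.sqrt_nonneg a) hE)
    nlinarith

/-- Uniform version: a bound valid for every `t` passes to narrower weights. -/
theorem coarse_unif (l : ℤ) {f : O → ℂ} (hf : Pg f) {a a' Y E : ℝ} (ha : 0 < a) (h : a < a') (hY : 0 < Y)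
    (hE : ∀ t, ‖SF l a' f Y t‖ ≤ E) (τ : ℝ) : ‖SF l a f Y τ‖ ≤ E := by
  obtain ⟨b, hb, hab, -, -⟩ := u2b_b ha h
  obtain ⟨K, A, hK⟩ := hf.bound l
  obtain ⟨i0, b0⟩ := coarse0 ha (ha.trans h) hb hab hY hK τ
  refine b0.trans ((integral_mono i0 ((u2b_int0' hb).mul_const E) fun t =>
    mul_le_mul_of_nonneg_left (hE (τ + t)) (og_nonneg t)).trans ?_)
  rw [integral_mul_const, integral_og hb, one_mul]

end Crest.Agent.R012

end
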