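import Crest.Agent.R012.U3a

/-! # Row 12: bilinear forms: localisation -/

set_option autoImplicit false

noncomputable section

open scoped BigOperators ComplexConjugate Topology
open Complex MeasureTheory Filter Set Crest.Agent.R017

namespace Crest.Agent.R012

theorem u3c_nonneg {M : ℝ} {f : O → ℂ} (h : Gr M f) : 0 ≤ M := by
  have := h 1 prim_one squarefree_one
  rw [Nr_one, mul_one] at this
  exact (norm_nonneg _).trans this

theorem u3c_ne {l : ℤ} {a Y τ : ℝ} {α β : O → ℂ} {p : O × O} (h : bt l a α β Y τ p ≠ 0) :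
    Prim p.1 ∧ Prim p.2 ∧ α p.1 ≠ 0 ∧ β p.2 ≠ 0 ∧ Squarefree (p.1 * p.2) := by
  unfold bt at h
  by_cases hp : Prim p.1 ∧ Prim p.2
  · rw [if_pos hp] at h
    refine ⟨hp.1, hp.2, fun e => h (by simp [e]), fun e => h (by simp [e]), ?_⟩
    by_contra e
    exact h (by simp [FF_of_not e])
  · exact absurd (if_neg hp) h

theorem u3c_norm {l : ℤ} {a Y τ Mα Mβ : ℝ} {α β : O → ℂ} (hα : Gr Mα α) (hβ : Gr Mβ β) {p : O × O}
    (h : bt l a α β Y τ p ≠ 0) :
    ‖bt l a α β Y τ p‖ ≤ Mα * Mβ * (1 + cst) * (Nr (p.1 * p.2) * W a (Nr (p.1 * p.2) / Y)) := by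
  obtain ⟨h1, h2, -, -, h5⟩ := u3c_ne h
  have hn : Prim (p.1 * p.2) := h1.mul h2
  unfold bt
  rw [if_pos ⟨h1, h2⟩, w2_norm_term (c := fun n => α p.1 * β p.2 * az l n * FF n) hn, norm_mul, norm_mul,
    norm_mul, norm_az l hn.ne_zero, mul_one]
  have a1 := hα _ h1 h5.of_mul_left
  have a2 := hβ _ h2 h5.of_mul_right
  have a3 := norm_FF_le hn
  have a4 := (W_pos a (Nr (p.1 * p.2) / Y)).le
  have a5 := u3c_nonneg hα
  have a6 := u3c_nonneg hβ
  have a7 := Nr_nonneg p.1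
  have a8 := Nr_nonneg p.2
  calc _ ≤ (Mα * Nr p.1) * (Mβ * Nr p.2) * (1 + cst) * W a (Nr (p.1 * p.2) / Y) := by gcongr
    _ = _ := by rw [Nr_mul]; ring

theorem u3c_W {θ m y : ℝ} (hθ : 0 < θ) (hθ1 : θ ≤ 1) (hm : 0 ≤ m) (h : m ≤ |Real.log y|) :
    W (2 * θ) y ≤ Real.exp (-(m ^ 2 / (16 * θ))) * W 4 y := by
  rw [W_sq (by positivity), sq]
  refine mul_le_mul ?_ (W_mono (by positivity) (by linarith) y) (W_pos _ _).le (Real.exp_pos _).le
  unfold W
  refine Real.exp_le_exp.2 ?_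
  have h1 : m ^ 2 ≤ Real.log y ^ 2 := by
    rw [← sq_abs (Real.log y)]; gcongr
  rw [neg_div, neg_le_neg_iff, show 4 * (2 * (2 * θ)) = 16 * θ by ring]
  gcongr

/-- Insert `1 = (4 π θ)^{-1/2} ∫ W θ (N b / e^u) du`; the part `u ∉ [log B₁, log B₂]` is estimated
termwise (`integral_W_tail`, `W_sq`, `tsum_pair_le`). -/
theorem SF_pc : ∃ C : ℝ, 0 ≤ C ∧ ∀ (l : ℤ) (θ Y τ m B₁ B₂ Mα Mβ : ℝ) (α β : O → ℂ), 3 ≤ Y → 0 < θ → θ ≤ 1 →
    0 ≤ m → 1000 * θ * Real.log Y ≤ m ^ 2 → 0 < B₁ → B₁ ≤ B₂ → Gr Mα α → Gr Mβ β →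
    (∀ a b, Prim a → Prim b → α a ≠ 0 → β b ≠ 0 → Y * Real.exp (-m) ≤ Nr (a * b) →
      Nr (a * b) ≤ Y * Real.exp m → B₁ * Real.exp m ≤ Nr b ∧ Nr b ≤ B₂ * Real.exp (-m)) →
    ‖SF l (2 * θ) (cv α β) Y τ‖ ≤ C * ((Real.sqrt θ)⁻¹ *
      (∫ u in Real.log B₁..Real.log B₂, ‖pc l θ α β Y τ (Real.exp u)‖) + Mα * Mβ / Y) := by
  obtain ⟨C₁, hC₁, H₁⟩ := integral_W_tail
  obtain ⟨C₂, hC₂, H₂⟩ := tsum_pair_le
  have hc := cst_pos
  refine ⟨1 + (C₁ + 4) * (1 + cst) * C₂, by positivity,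
    fun l θ Y τ m B₁ B₂ Mα Mβ α β hY hθ hθ1 hm hmY hB₁ hB hα hβ hloc => ?_⟩
  have hY0 : 0 < Y := by linarith
  have hB₂ : 0 < B₂ := hB₁.trans_le hB
  have hMα := u3c_nonneg hα
  have hMβ := u3c_nonneg hβ
  have hu : Real.log B₁ ≤ Real.log B₂ := Real.log_le_log hB₁ hB
  set S := Icc (Real.log B₁) (Real.log B₂) with hS
  have mS : MeasurableSet S := measurableSet_Icc
  set κ := Real.sqrt (4 * Real.pi * θ) with hκ
  set b := bt l (2 * θ) α β Y τ with hb
  have hsb : Summable fun p => ‖b p‖ := summable_bt hα.pg hβ.pg l (by positivity) hY0 τ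
  have hsq : 0 < Real.sqrt θ := Real.sqrt_pos.2 hθ
  have hκ1 : Real.sqrt θ ≤ κ := Real.sqrt_le_sqrt (by nlinarith [Real.pi_gt_three])
  have hκ2 : κ ≤ 4 * Real.sqrt θ := by
    rw [hκ, Real.sqrt_le_left (by positivity), mul_pow, Real.sq_sqrt hθ.le]
    nlinarith [Real.pi_lt_four]
  set w : O × O → ℝ → ℝ := fun p u => W θ (Nr p.2 / Real.exp u) with hw
  have hw0 : ∀ p u, 0 ≤ w p u := fun p u => (W_pos _ _).le
  have hwi : ∀ p, b p ≠ 0 → Integrable (w p) ∧ ∫ u, w p u = κ := fun p hp =>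
    integral_W_exp hθ (Nr_pos (u3c_ne hp).2.1.ne_zero)
  have hsplit : ∀ p, b p ≠ 0 → (∫ u in S, w p u) + ∫ u in Sᶜ, w p u = κ := fun p hp => by
    rw [integral_add_compl mS (hwi p hp).1, (hwi p hp).2]
  have hI0 : ∀ p (T : Set ℝ), 0 ≤ ∫ u in T, w p u := fun p T => integral_nonneg (hw0 p)
  have hsum := hasSum_integral_of_summable_integral_norm (μ := volume.restrict S)
    (F := fun (p : O × O) (u : ℝ) => b p * (w p u : ℂ))
    (fun p => by
      by_cases hp : b p = 0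
      · simp [hp]
      · exact ((hwi p hp).1.ofReal.const_mul _).integrableOn)
    (by
      refine Summable.of_nonneg_of_le (fun p => integral_nonneg fun u => norm_nonneg _) (fun p => ?_)
        (hsb.mul_right κ)
      by_cases hp : b p = 0
      · simp [hp]
      · simp only [norm_mul, Complex.norm_real, Real.norm_of_nonneg (hw0 p _)]
        rw [integral_const_mul]
        have := hsplit p hp
        have := hI0 p Sᶜ
        gcongr
        linarith)
  have e1 : ∀ p, ∫ u in S, b p * (w p u : ℂ) = b p * ((∫ u in S, w p u : ℝ) : ℂ) := fun p => by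
    rw [integral_const_mul, integral_complex_ofReal]
  simp only [e1] at hsum
  have hS1 : HasSum (fun p => b p * (κ : ℂ)) (SF l (2 * θ) (cv α β) Y τ * κ) := by
    rw [SF_cv_eq hα.pg hβ.pg l (by positivity) hY0]
    exact hsb.of_norm.hasSum.mul_right _
  have hdiff := hS1.sub hsum
  obtain ⟨hs2, hb2⟩ := H₂ Y (by linarith)
  set E := Real.exp (-(m ^ 2 / (16 * θ))) with hE
  have hE0 : 0 < E := Real.exp_pos _
  have hlog : 0 ≤ Real.log Y := Real.log_nonneg (by linarith)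
  have hE1 : E * Y ^ 4 ≤ 1 := by
    have : Y ^ 4 = Real.exp (4 * Real.log Y) := by
      rw [show (4 : ℝ) = (4 : ℕ) by norm_num, Real.exp_nat_mul, Real.exp_log hY0]
    rw [this, hE, ← Real.exp_add, Real.exp_le_one_iff, neg_add_le_iff_le_add, add_zero,
      le_div_iff₀ (by positivity)]
    nlinarith [mul_nonneg hθ.le hlog]
  set K := Mα * Mβ * (1 + cst) * ((C₁ + 4) * Real.sqrt θ * E) with hK
  have hK0 : 0 ≤ K := by positivity
  have hterm : ∀ p, ‖b p * (κ : ℂ) - b p * ((∫ u in S, w p u : ℝ) : ℂ)‖ ≤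
      K * (if Prim p.1 ∧ Prim p.2 then Nr (p.1 * p.2) * W 4 (Nr (p.1 * p.2) / Y) else 0) := by
    intro p
    have hN := Nr_nonneg (p.1 * p.2)
    have hW4 := (W_pos 4 (Nr (p.1 * p.2) / Y)).le
    by_cases hp : b p = 0
    · rw [hp, zero_mul, zero_mul, sub_zero, norm_zero]
      split_ifs <;> positivity
    obtain ⟨h1, h2, h3, h4, -⟩ := u3c_ne hp
    have hJ := hI0 p Sᶜ
    have e2 : (κ : ℂ) - ((∫ u in S, w p u : ℝ) : ℂ) = ((∫ u in Sᶜ, w p u : ℝ) : ℂ) := by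
      rw [← hsplit p hp]; push_cast; ring
    rw [← mul_sub, e2, norm_mul, Complex.norm_real, Real.norm_of_nonneg hJ, if_pos ⟨h1, h2⟩]
    have hn := u3c_norm hα hβ hp
    have hNp : 0 < Nr (p.1 * p.2) := Nr_pos (h1.mul h2).ne_zero
    have key : W (2 * θ) (Nr (p.1 * p.2) / Y) * ∫ u in Sᶜ, w p u ≤
        W 4 (Nr (p.1 * p.2) / Y) * ((C₁ + 4) * Real.sqrt θ * E) := by
      by_cases hin : Y * Real.exp (-m) ≤ Nr (p.1 * p.2) ∧ Nr (p.1 * p.2) ≤ Y * Real.exp m
      · obtain ⟨g1, g2⟩ := hloc _ _ h1 h2 h3 h4 hin.1 hin.2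
        have hN2 := Nr_pos h2.ne_zero
        have g3 := Real.log_le_log (by positivity) g1
        have g4 := Real.log_le_log hN2 g2
        rw [Real.log_mul hB₁.ne' (Real.exp_pos _).ne', Real.log_exp] at g3
        rw [Real.log_mul hB₂.ne' (Real.exp_pos _).ne', Real.log_exp] at g4
        have g5 := H₁ θ (Nr p.2) m _ _ hθ hN2 hm g3 (by linarith : Real.log (Nr p.2) ≤ Real.log B₂ - m)
        have g6 : Real.exp (-(m ^ 2 / (8 * θ))) ≤ E := by
          refine Real.exp_le_exp.2 (neg_le_neg ?_)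
          gcongr
          norm_num
        refine mul_le_mul (W_mono (by positivity) (by linarith) _) (g5.trans ?_) hJ hW4
        gcongr
        linarith
      · have g1 : m ≤ |Real.log (Nr (p.1 * p.2) / Y)| := by
          rw [Real.log_div hNp.ne' hY0.ne']
          rcases not_and_or.1 hin with g | g
          · have := Real.log_le_log hNp (not_le.1 g).le
            rw [Real.log_mul hY0.ne' (Real.exp_pos _).ne', Real.log_exp] at this
            exact le_abs.2 (Or.inr (by linarith))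
          · have := Real.log_le_log (by positivity) (not_le.1 g).le
            rw [Real.log_mul hY0.ne' (Real.exp_pos _).ne', Real.log_exp] at this
            exact le_abs.2 (Or.inl (by linarith))
        have g2 := u3c_W hθ hθ1 hm g1
        have g3 : ∫ u in Sᶜ, w p u ≤ (C₁ + 4) * Real.sqrt θ := by
          have := hsplit p hp
          have := hI0 p S
          nlinarith [mul_nonneg hC₁ hsq.le]
        calc _ ≤ (E * W 4 (Nr (p.1 * p.2) / Y)) * ((C₁ + 4) * Real.sqrt θ) := by gcongr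
          _ = _ := by ring
    calc _ ≤ Mα * Mβ * (1 + cst) * (Nr (p.1 * p.2) * W (2 * θ) (Nr (p.1 * p.2) / Y)) *
          ∫ u in Sᶜ, w p u := by gcongr
      _ = Mα * Mβ * (1 + cst) * Nr (p.1 * p.2) *
          (W (2 * θ) (Nr (p.1 * p.2) / Y) * ∫ u in Sᶜ, w p u) := by ring
      _ ≤ Mα * Mβ * (1 + cst) * Nr (p.1 * p.2) *
          (W 4 (Nr (p.1 * p.2) / Y) * ((C₁ + 4) * Real.sqrt θ * E)) := by gcongr
      _ = _ := by rw [hK]; ring
  have hfin := hdiff.norm_le_of_bounded (hs2.hasSum.mul_left K) hterm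
  have hI : ‖∫ u in S, ∑' p, b p * (w p u : ℂ)‖ ≤
      ∫ u in Real.log B₁..Real.log B₂, ‖pc l θ α β Y τ (Real.exp u)‖ := by
    rw [intervalIntegral.integral_of_le hu, ← integral_Icc_eq_integral_Ioc]
    exact norm_integral_le_integral_norm _
  set Q := ∫ u in Real.log B₁..Real.log B₂, ‖pc l θ α β Y τ (Real.exp u)‖ with hQ
  have hQ0 : 0 ≤ Q := (norm_nonneg _).trans hI
  have h3 : ‖SF l (2 * θ) (cv α β) Y τ‖ * κ ≤ Q + K * (C₂ * Y ^ 3) := by
    have := norm_le_norm_add_norm_sub' (SF l (2 * θ) (cv α β) Y τ * κ) (∫ u in S, ∑' p, b p * (w p u : ℂ))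
    rw [norm_mul, Complex.norm_real, Real.norm_of_nonneg (hsq.le.trans hκ1)] at this
    have h4 := mul_le_mul_of_nonneg_left hb2 hK0
    linarith
  have h4 : K * (C₂ * Y ^ 3) ≤ (C₁ + 4) * (1 + cst) * C₂ * (Mα * Mβ / Y) * Real.sqrt θ := by
    have : K * (C₂ * Y ^ 3) = (C₁ + 4) * (1 + cst) * C₂ * (Mα * Mβ / Y) * Real.sqrt θ * (E * Y ^ 4) := by
      rw [hK]; field_simp
    rw [this]
    exact mul_le_of_le_one_right (by positivity) hE1
  have h5 : ‖SF l (2 * θ) (cv α β) Y τ‖ ≤ (Real.sqrt θ)⁻¹ * Q +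
      (C₁ + 4) * (1 + cst) * C₂ * (Mα * Mβ / Y) := by
    have h6 := mul_le_mul_of_nonneg_left hκ1 (norm_nonneg (SF l (2 * θ) (cv α β) Y τ))
    rw [← mul_le_mul_iff_left₀ hsq, add_mul, mul_comm _ Q, mul_assoc Q, inv_mul_cancel₀ hsq.ne', mul_one]
    linarith
  have p1 : 0 ≤ (Real.sqrt θ)⁻¹ * Q := by positivity
  have p2 : 0 ≤ Mα * Mβ / Y := by positivity
  have p3 : 0 ≤ (C₁ + 4) * (1 + cst) * C₂ := by positivity
  nlinarith [mul_nonneg p3 p1]

end Crest.Agent.R012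

end
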