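import Crest.Agent.R012.U3b
import Crest.Agent.R012.U3c

/-! # Row 12: bilinear forms: reduction to the dispersion -/

set_option autoImplicit false

noncomputable section

open scoped BigOperators ComplexConjugate Topology
open Complex MeasureTheory Filter Set Crest.Agent.R017

namespace Crest.Agent.R012

theorem u3_gr {M : ℝ} {f : O → ℂ} (h : Gr M f) : 0 ≤ M := by
  have := (norm_nonneg _).trans (h 1 prim_one squarefree_one)
  rwa [R017.Nr_one, mul_one] at this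

theorem u3_pc : ∃ C : ℝ, 0 ≤ C ∧ ∀ (l : ℤ) (θ Y τ B T Mα Mβ E : ℝ) (α β : O → ℂ), 1 ≤ Y → 0 < θ →
    θ ≤ 1 → 1 ≤ B → B ≤ Y → Real.log Y ≤ Real.sqrt θ * T → Gr Mα α → Gr Mβ β →
    (∀ t, |t| ≤ T → Real.sqrt (cn (4 * θ) (Y / B) α) *
      Real.sqrt (DD FF θ (Y / B) B (τ + t) (tw l β)) ≤ E) →
    ‖pc l θ α β Y τ B‖ ≤ E + C * (Mα * Mβ / Y ^ 3) := by
  obtain ⟨C₁, hC₁, H₁⟩ := cn_DD_le
  obtain ⟨C₂, hC₂, H₂⟩ := og_tail
  refine ⟨C₁ * C₂ * Real.exp 13, by positivity,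
    fun l θ Y τ B T Mα Mβ E α β hY h0 h1 hB hBY hT hα hβ hE => ?_⟩
  have hY0 : 0 < Y := by linarith
  have hB0 : 0 < B := by linarith
  have hL := Real.log_nonneg hY
  have hT0 : 0 ≤ T := (mul_nonneg_iff_of_pos_left (Real.sqrt_pos.2 h0)).1 (hL.trans hT)
  have ha := u3_gr hα
  have hb := u3_gr hβ
  have hE0 : 0 ≤ E := le_trans (by positivity) (hE 0 (by simpa using hT0))
  obtain ⟨K, hK⟩ : ∃ K, K = C₁ * Mα * Mβ * Y ^ 2 := ⟨_, rfl⟩
  have hK0 : 0 ≤ K := by rw [hK]; positivity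
  have hS : MeasurableSet {t : ℝ | T / 2 < |t|} :=
    measurableSet_lt measurable_const continuous_abs.measurable
  have hi : Integrable (og (4 * θ)) := by simpa using integrable_og_mul (b := 4 * θ) (by positivity) 0
  have e : (fun t => og (4 * θ) t * (E + {t : ℝ | T / 2 < |t|}.indicator (fun _ => K) t)) =
      fun t => og (4 * θ) t * E + {t : ℝ | T / 2 < |t|}.indicator (fun t => og (4 * θ) t * K) t := by
    funext t
    rw [mul_add, indicator_mul_right]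
  have h2 := norm_pc_le hα.pg hβ.pg l h0 hY0 hB0 τ
    (g := fun t => E + {t : ℝ | T / 2 < |t|}.indicator (fun _ => K) t)
    (by rw [e]; exact (hi.mul_const _).add ((hi.mul_const _).indicator hS)) fun t => by
      by_cases ht : T / 2 < |t|
      · have h3 := H₁ l α β θ (Y / B) B (τ + 2 * t) Mα Mβ hα hβ h0 h1 ((one_le_div hB0).2 hBY) hB
        rw [div_mul_cancel₀ _ hB0.ne', ← hK] at h3
        rw [indicator_of_mem (show t ∈ {t : ℝ | T / 2 < |t|} from ht)]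
        linarith
      · rw [indicator_of_notMem (show t ∉ {t : ℝ | T / 2 < |t|} from ht), add_zero]
        exact hE _ (by rw [abs_mul, abs_two]; linarith)
  rw [e, integral_add (hi.mul_const _) ((hi.mul_const _).indicator hS), integral_indicator hS,
    integral_mul_const, integral_mul_const, integral_og (by positivity), one_mul] at h2
  refine h2.trans (add_le_add le_rfl ?_)
  have h4 := (H₂ (4 * θ) (T / 2) (by positivity) (by positivity)).1
  have h5 : Real.log Y ^ 2 ≤ θ * T ^ 2 := by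
    have := pow_le_pow_left₀ hL hT 2
    rwa [mul_pow, Real.sq_sqrt h0.le] at this
  have h6 : Real.exp (-(4 * θ * (T / 2) ^ 2 / 2)) ≤ Real.exp 13 / Y ^ 5 := by
    conv_rhs => rw [← Real.exp_log hY0, ← Real.exp_nat_mul, ← Real.exp_sub]
    exact Real.exp_le_exp.2 (by push_cast; nlinarith [sq_nonneg (Real.log Y - 5)])
  calc _ ≤ C₂ * (Real.exp 13 / Y ^ 5) * K := by gcongr; exact h4.trans (by gcongr)
    _ = _ := by rw [hK]; field_simp

/-- `norm_pc_le` with `g = E u` on `|2 t| ≤ T` and the trivial bound elsewhere (`og_tail`). -/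
theorem bilr : ∃ C : ℝ, 0 ≤ C ∧ ∀ (l : ℤ) (θ Y τ m B₁ B₂ T Mα Mβ : ℝ) (α β : O → ℂ) (E : ℝ → ℝ),
    3 ≤ Y → Y⁻¹ ≤ θ → θ ≤ 1 → 0 ≤ m → 1000 * θ * Real.log Y ≤ m ^ 2 → 1 ≤ B₁ → B₁ ≤ B₂ → B₂ ≤ Y →
    Real.log Y ≤ Real.sqrt θ * T → Gr Mα α → Gr Mβ β →
    (∀ a b, Prim a → Prim b → α a ≠ 0 → β b ≠ 0 → Y * Real.exp (-m) ≤ Nr (a * b) →
      Nr (a * b) ≤ Y * Real.exp m → B₁ * Real.exp m ≤ Nr b ∧ Nr b ≤ B₂ * Real.exp (-m)) →
    IntervalIntegrable E volume (Real.log B₁) (Real.log B₂) →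
    (∀ u ∈ Icc (Real.log B₁) (Real.log B₂), ∀ t, |t| ≤ T →
      Real.sqrt (cn (4 * θ) (Y / Real.exp u) α) *
        Real.sqrt (DD FF θ (Y / Real.exp u) (Real.exp u) (τ + t) (tw l β)) ≤ E u) →
    ‖SF l (2 * θ) (cv α β) Y τ‖ ≤
      C * ((Real.sqrt θ)⁻¹ * (∫ u in Real.log B₁..Real.log B₂, E u) + Mα * Mβ / Y) := by
  obtain ⟨C₁, hC₁, H₁⟩ := SF_pc
  obtain ⟨C₂, hC₂, H₂⟩ := u3_pc
  refine ⟨C₁ * (1 + C₂), by positivity,
    fun l θ Y τ m B₁ B₂ T Mα Mβ α β E hY h0 h1 hm hm' hB₁ hB hB₂ hT hα hβ hs hE hb => ?_⟩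
  have hY0 : 0 < Y := by linarith
  have hθ : 0 < θ := (inv_pos.2 hY0).trans_le h0
  have hB0 : 0 < B₁ := by linarith
  have hl : Real.log B₁ ≤ Real.log B₂ := Real.log_le_log hB0 hB
  have l1 := Real.log_nonneg hB₁
  have l2 : Real.log B₂ ≤ Y := (Real.log_le_sub_one_of_pos (by linarith)).trans (by linarith)
  have hM : 0 ≤ Mα * Mβ := mul_nonneg (u3_gr hα) (u3_gr hβ)
  have hT0 : 0 ≤ T := (mul_nonneg_iff_of_pos_left (Real.sqrt_pos.2 hθ)).1
    ((Real.log_nonneg (by linarith)).trans hT)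
  have hE0 : 0 ≤ ∫ u in Real.log B₁..Real.log B₂, E u := intervalIntegral.integral_nonneg hl
    fun u hu => le_trans (by positivity) (hb u hu 0 (by simpa using hT0))
  have h2 := intervalIntegral.integral_mono_on hl
    ((continuous_pc hα.pg hβ.pg l hθ hY0 τ).norm.intervalIntegrable _ _)
    (hE.add (intervalIntegrable_const (c := C₂ * (Mα * Mβ / Y ^ 3)))) fun u hu =>
      H₂ l θ Y τ _ T Mα Mβ (E u) α β (by linarith) hθ h1 (Real.one_le_exp (l1.trans hu.1))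
        (((Real.le_log_iff_exp_le (by linarith)).1 hu.2).trans hB₂) hT hα hβ (hb u hu)
  rw [intervalIntegral.integral_add hE intervalIntegrable_const, intervalIntegral.integral_const,
    smul_eq_mul] at h2
  have h3 : (Real.sqrt θ)⁻¹ ≤ Y := by
    rw [inv_le_comm₀ (Real.sqrt_pos.2 hθ) hY0]
    exact h0.trans (Real.le_sqrt_of_sq_le (by nlinarith))
  have h4 : (Real.sqrt θ)⁻¹ * ((Real.log B₂ - Real.log B₁) * (C₂ * (Mα * Mβ / Y ^ 3))) ≤
      C₂ * (Mα * Mβ / Y) := by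
    calc _ ≤ Y * (Y * (C₂ * (Mα * Mβ / Y ^ 3))) := by gcongr; linarith
      _ = _ := by field_simp
  have h5 := mul_le_mul_of_nonneg_left h2 (inv_nonneg.2 (Real.sqrt_nonneg θ))
  have h6 : 0 ≤ C₂ * ((Real.sqrt θ)⁻¹ * ∫ u in Real.log B₁..Real.log B₂, E u) := by positivity
  refine (H₁ l θ Y τ m B₁ B₂ Mα Mβ α β hY hθ h1 hm hm' hB0 hB hα hβ hs).trans ?_
  rw [mul_assoc C₁]
  exact mul_le_mul_of_nonneg_left (by linarith) hC₁

/-- The version with a constant majorant. -/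
theorem bilr_const : ∃ C : ℝ, 0 ≤ C ∧ ∀ (l : ℤ) (θ Y τ m B₁ B₂ T Mα Mβ E : ℝ) (α β : O → ℂ),
    3 ≤ Y → Y⁻¹ ≤ θ → θ ≤ 1 → 0 ≤ m → 1000 * θ * Real.log Y ≤ m ^ 2 → 1 ≤ B₁ → B₁ ≤ B₂ → B₂ ≤ Y →
    Real.log Y ≤ Real.sqrt θ * T → Gr Mα α → Gr Mβ β →
    (∀ a b, Prim a → Prim b → α a ≠ 0 → β b ≠ 0 → Y * Real.exp (-m) ≤ Nr (a * b) →
      Nr (a * b) ≤ Y * Real.exp m → B₁ * Real.exp m ≤ Nr b ∧ Nr b ≤ B₂ * Real.exp (-m)) → 0 ≤ E →
    (∀ B, B₁ ≤ B → B ≤ B₂ → ∀ t, |t| ≤ T →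
      cn (4 * θ) (Y / B) α * DD FF θ (Y / B) B (τ + t) (tw l β) ≤ θ * E ^ 2) →
    ‖SF l (2 * θ) (cv α β) Y τ‖ ≤ C * (Real.log Y * E + Mα * Mβ / Y) := by
  obtain ⟨C, hC, H⟩ := bilr
  refine ⟨C, hC, fun l θ Y τ m B₁ B₂ T Mα Mβ E α β hY h0 h1 hm hm' hB₁ hB hB₂ hT hα hβ hs hE hb => ?_⟩
  have hθ : 0 < θ := (inv_pos.2 (by linarith)).trans_le h0
  refine (H l θ Y τ m B₁ B₂ T Mα Mβ α β (fun _ => Real.sqrt θ * E) hY h0 h1 hm hm' hB₁ hB hB₂ hT hα hβ
    hs intervalIntegrable_const fun u hu t ht => ?_).trans ?_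
  · have h2 := Real.sqrt_le_sqrt (hb _ ((Real.log_le_iff_le_exp (by linarith)).1 hu.1)
      ((Real.le_log_iff_exp_le (by linarith)).1 hu.2) t ht)
    rwa [Real.sqrt_mul (cn_nonneg _ _ _), Real.sqrt_mul hθ.le, Real.sqrt_sq hE] at h2
  · have l1 := Real.log_nonneg hB₁
    have l2 := Real.log_le_log (by linarith) hB₂
    have h3 := (Real.sqrt_pos.2 hθ).ne'
    rw [intervalIntegral.integral_const, smul_eq_mul, mul_left_comm _ (_ - _),
      inv_mul_cancel_left₀ h3]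
    gcongr
    linarith

/-- The version for `θ = 1` with an exponentially decaying majorant. -/
theorem bilr_exp : ∃ C : ℝ, 0 ≤ C ∧ ∀ (l : ℤ) (Y τ m B₁ B₂ B₀ Mα Mβ E₀ E₁ : ℝ) (α β : O → ℂ),
    3 ≤ Y → 0 ≤ m → 1000 * Real.log Y ≤ m ^ 2 → 1 ≤ B₁ → B₁ ≤ B₂ → B₂ ≤ Y → 0 < B₀ →
    Gr Mα α → Gr Mβ β →
    (∀ a b, Prim a → Prim b → α a ≠ 0 → β b ≠ 0 → Y * Real.exp (-m) ≤ Nr (a * b) →
      Nr (a * b) ≤ Y * Real.exp m → B₁ * Real.exp m ≤ Nr b ∧ Nr b ≤ B₂ * Real.exp (-m)) →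
    0 ≤ E₀ → 0 ≤ E₁ →
    (∀ B, B₁ ≤ B → B ≤ B₂ → ∀ t, |t| ≤ Real.log Y →
      cn 4 (Y / B) α * DD FF 1 (Y / B) B (τ + t) (tw l β) ≤
        E₀ ^ 2 * min (B / B₀) (B₀ / B) ^ (1 / 8 : ℝ) + E₁ ^ 2) →
    ‖SF l 2 (cv α β) Y τ‖ ≤ C * (E₀ + Real.log Y * E₁ + Mα * Mβ / Y) := by
  obtain ⟨C, hC, H⟩ := bilr
  refine ⟨C * 2048, by positivity,
    fun l Y τ m B₁ B₂ B₀ Mα Mβ E₀ E₁ α β hY hm hm' hB₁ hB hB₂ hB₀ hα hβ hs h0 h1 hb => ?_⟩
  have hc : Continuous fun u : ℝ => (1 + (u - Real.log B₀) ^ 2)⁻¹ :=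
    Continuous.inv₀ (by fun_prop) fun u => by positivity
  have h2 := H l 1 Y τ m B₁ B₂ (Real.log Y) Mα Mβ α β
    (fun u => E₀ * 512 * (1 + (u - Real.log B₀) ^ 2)⁻¹ + E₁) hY
    (inv_le_one_of_one_le₀ (by linarith)) le_rfl hm (by rwa [mul_one]) hB₁ hB hB₂ (by simp) hα hβ hs
    (((hc.const_mul _).add continuous_const).intervalIntegrable _ _) fun u hu t ht => by
      have h3 := hb _ ((Real.log_le_iff_le_exp (by linarith)).1 hu.1)
        ((Real.le_log_iff_exp_le (by linarith)).1 hu.2) t ht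
      obtain ⟨x, hx⟩ : ∃ x, x = u - Real.log B₀ := ⟨_, rfl⟩
      have e1 : Real.exp u / B₀ = Real.exp x := by rw [hx, Real.exp_sub, Real.exp_log hB₀]
      have e2 : B₀ / Real.exp u = Real.exp (-x) := by rw [Real.exp_neg, ← e1, inv_div]
      have h4 : min (Real.exp x) (Real.exp (-x)) ≤ Real.exp (-|x|) := by
        rcases abs_choice x with h | h
        · rw [h]; exact min_le_right _ _
        · rw [h, neg_neg]; exact min_le_left _ _
      have h5 : Real.exp (-(|x| / 16)) ≤ 512 * (1 + x ^ 2)⁻¹ := by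
        have := Real.quadratic_le_exp_of_nonneg (show 0 ≤ |x| / 16 by positivity)
        rw [div_pow, sq_abs] at this
        rw [Real.exp_neg, ← div_eq_mul_inv, ← one_div, div_le_div_iff₀ (by positivity) (by positivity)]
        linarith [abs_nonneg x]
      have h6 : min (Real.exp x) (Real.exp (-x)) ^ (1 / 8 : ℝ) ≤ (512 * (1 + x ^ 2)⁻¹) ^ 2 := by
        refine (Real.rpow_le_rpow (by positivity) h4 (by norm_num)).trans
          (le_trans (le_of_eq ?_) (pow_le_pow_left₀ (Real.exp_pos _).le h5 2))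
        rw [← Real.exp_mul, ← Real.exp_nat_mul]
        congr 1
        push_cast
        ring
      rw [e1, e2] at h3
      rw [mul_one, ← Real.sqrt_mul (cn_nonneg _ _ _), ← hx]
      refine Real.sqrt_le_iff.2 ⟨by positivity, h3.trans ?_⟩
      have h7 := mul_le_mul_of_nonneg_left h6 (sq_nonneg E₀)
      have h8 : 0 ≤ E₀ * 512 * (1 + x ^ 2)⁻¹ * E₁ := by positivity
      nlinarith
  rw [mul_one, Real.sqrt_one, inv_one, one_mul, intervalIntegral.integral_add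
    ((hc.const_mul _).intervalIntegrable _ _) intervalIntegrable_const,
    intervalIntegral.integral_const_mul, intervalIntegral.integral_const, smul_eq_mul,
    intervalIntegral.integral_comp_sub_right (fun x : ℝ => (1 + x ^ 2)⁻¹),
    integral_inv_one_add_sq] at h2
  have l1 := Real.log_nonneg hB₁
  have l2 := Real.log_le_log (by linarith) hB₂
  have l3 := Real.log_nonneg (show 1 ≤ Y by linarith)
  have a1 := Real.arctan_lt_pi_div_two (Real.log B₂ - Real.log B₀)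
  have a2 := Real.neg_pi_div_two_lt_arctan (Real.log B₁ - Real.log B₀)
  have hM : 0 ≤ Mα * Mβ / Y := div_nonneg (mul_nonneg (u3_gr hα) (u3_gr hβ)) (by linarith)
  refine h2.trans ?_
  rw [mul_assoc C]
  refine mul_le_mul_of_nonneg_left ?_ hC
  have a3 := mul_le_mul_of_nonneg_left (show Real.arctan (Real.log B₂ - Real.log B₀) -
    Real.arctan (Real.log B₁ - Real.log B₀) ≤ 4 by linarith [Real.pi_le_four]) h0
  have a4 := mul_le_mul_of_nonneg_right (show Real.log B₂ - Real.log B₁ ≤ Real.log Y by linarith) h1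
  have a5 := mul_nonneg l3 h1
  linarith

end Crest.Agent.R012

end
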