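import Crest.Agent.R012.U2

/-! # Row 12: bilinear forms: partition -/

set_option autoImplicit false

noncomputable section

open scoped BigOperators ComplexConjugate Topology
open Complex MeasureTheory Filter Set Crest.Agent.R017

namespace Crest.Agent.R012

theorem W_three {θ x y : ℝ} (hθ : 0 < θ) (hx : 0 < x) (hy : 0 < y) :
    W θ y * W (2 * θ) (x * y) = W (4 * θ) x * W (2 * θ) y * W (4 * θ) (x * y ^ 2) := by
  unfold W
  rw [← Real.exp_add, ← Real.exp_add, ← Real.exp_add, Real.log_mul hx.ne' hy.ne',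
    Real.log_mul hx.ne' (pow_pos hy 2).ne', Real.log_pow]
  congr 1
  push_cast
  field_simp
  ring

theorem u3a_W_exp {y : ℝ} (hy : 0 < y) (θ u : ℝ) :
    W θ (y / Real.exp u) = Real.exp (-(4 * θ)⁻¹ * (u - Real.log y) ^ 2) := by
  unfold W
  rw [Real.log_div hy.ne' (Real.exp_pos u).ne', Real.log_exp]
  congr 1
  rw [div_eq_mul_inv]
  ring

theorem integral_W_exp {θ y : ℝ} (hθ : 0 < θ) (hy : 0 < y) :
    Integrable (fun u : ℝ => W θ (y / Real.exp u)) ∧
    ∫ u : ℝ, W θ (y / Real.exp u) = Real.sqrt (4 * Real.pi * θ) := by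
  have hb : 0 < (4 * θ)⁻¹ := by positivity
  simp only [u3a_W_exp hy]
  constructor
  · exact (integrable_exp_neg_mul_sq hb).comp_sub_right (Real.log y)
  · rw [integral_sub_right_eq_self (fun x : ℝ => Real.exp (-(4 * θ)⁻¹ * x ^ 2)) (Real.log y),
      integral_gaussian]
    congr 1
    field_simp

theorem integral_W_tail : ∃ C : ℝ, 0 ≤ C ∧ ∀ θ y m u₁ u₂ : ℝ, 0 < θ → 0 < y → 0 ≤ m →
    u₁ + m ≤ Real.log y → Real.log y ≤ u₂ - m →
    ∫ u in (Icc u₁ u₂)ᶜ, W θ (y / Real.exp u) ≤ C * Real.sqrt θ * Real.exp (-(m ^ 2 / (8 * θ))) := by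
  refine ⟨Real.sqrt (8 * Real.pi), Real.sqrt_nonneg _, fun θ y m u₁ u₂ hθ hy hm h1 h2 => ?_⟩
  have h2θ : 0 < 2 * θ := by positivity
  obtain ⟨hi, he⟩ := integral_W_exp h2θ hy
  have hi1 := (integral_W_exp hθ hy).1
  have hE : 0 < Real.exp (-(m ^ 2 / (8 * θ))) := Real.exp_pos _
  have hpt : ∀ u ∈ (Icc u₁ u₂)ᶜ, W θ (y / Real.exp u) ≤
      Real.exp (-(m ^ 2 / (8 * θ))) * W (2 * θ) (y / Real.exp u) := by
    intro u hu
    rw [u3a_W_exp hy, u3a_W_exp hy, ← Real.exp_add]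
    refine Real.exp_le_exp.2 ?_
    have hsq : m ^ 2 ≤ (u - Real.log y) ^ 2 := by
      rw [mem_compl_iff, mem_Icc, not_and_or, not_le, not_le] at hu
      rcases hu with hu | hu
      · nlinarith
      · nlinarith
    have e1 : -(4 * θ)⁻¹ * (u - Real.log y) ^ 2 =
        -((u - Real.log y) ^ 2 / (8 * θ)) + -(4 * (2 * θ))⁻¹ * (u - Real.log y) ^ 2 := by
      field_simp
      ring
    rw [e1]
    have : m ^ 2 / (8 * θ) ≤ (u - Real.log y) ^ 2 / (8 * θ) :=
      div_le_div_of_nonneg_right hsq (by positivity)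
    linarith
  calc ∫ u in (Icc u₁ u₂)ᶜ, W θ (y / Real.exp u)
      ≤ ∫ u in (Icc u₁ u₂)ᶜ, Real.exp (-(m ^ 2 / (8 * θ))) * W (2 * θ) (y / Real.exp u) :=
        setIntegral_mono_on hi1.integrableOn (hi.const_mul _).integrableOn
          measurableSet_Icc.compl hpt
    _ ≤ ∫ u, Real.exp (-(m ^ 2 / (8 * θ))) * W (2 * θ) (y / Real.exp u) :=
        setIntegral_le_integral (hi.const_mul _)
          (Eventually.of_forall fun u => mul_nonneg hE.le (W_pos _ _).le)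
    _ = _ := by
        rw [integral_const_mul, he, ← Real.sqrt_mul (by positivity),
          show 4 * Real.pi * (2 * θ) = 8 * Real.pi * θ by ring]
        ring

/-- The piece of the double series at scale `B`. -/
def pc (l : ℤ) (θ : ℝ) (α β : O → ℂ) (Y τ B : ℝ) : ℂ :=
  ∑' p : O × O, bt l (2 * θ) α β Y τ p * (W θ (Nr p.2 / B) : ℂ)

theorem continuous_pc {α β : O → ℂ} (hα : Pg α) (hβ : Pg β) (l : ℤ) {θ Y : ℝ} (hθ : 0 < θ) (hY : 0 < Y)
    (τ : ℝ) : Continuous (fun u : ℝ => pc l θ α β Y τ (Real.exp u)) := by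
  unfold pc
  refine continuous_tsum (fun p => ?_) (summable_bt hα hβ l (a := 2 * θ) (by positivity) hY τ)
    fun p u => ?_
  · refine continuous_const.mul (Complex.continuous_ofReal.comp ?_)
    rcases (Nr_nonneg p.2).eq_or_lt with h | h
    · simp only [← h, zero_div]
      exact continuous_const
    · simp only [u3a_W_exp h]
      fun_prop
  · rw [norm_mul, Complex.norm_real, Real.norm_eq_abs, abs_of_pos (W_pos _ _)]
    exact mul_le_of_le_one_right (norm_nonneg _) (W_le_one hθ _)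

theorem u3a_sm_le {a X : ℝ} (ha : 0 < a) (hX : 0 < X) {c : O → ℂ} {K A : ℝ}
    (hc : ∀ n, Prim n → ‖c n‖ ≤ K * Nr n ^ A) (τ : ℝ) :
    ‖sm a c X τ‖ ≤ |K| * ∑' n : O, (if n = 0 then 0 else Nr n ^ A * W a (Nr n / X)) :=
  tsum_of_norm_bounded ((summable_W ha hX A).hasSum.mul_left |K|) (w2_term_le hc τ)

theorem u3a_coef {β : O → ℂ} {K s : ℝ} (h : ∀ n, Prim n → Squarefree n → ‖β n‖ ≤ K * Nr n ^ s)
    (l : ℤ) {a : O} (ha : Prim a) (b : O) (hb : Prim b) :
    ‖tw l β b * FF (a * b)‖ ≤ (K * (1 + cst)) * Nr b ^ s := by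
  have hK : 0 ≤ K := by
    have := h 1 prim_one squarefree_one
    rw [Nr_one, Real.one_rpow, mul_one] at this
    exact (norm_nonneg _).trans this
  have hc := cst_pos
  have hN : 0 ≤ Nr b ^ s := Real.rpow_nonneg (Nr_nonneg b) _
  by_cases hs : Squarefree (a * b)
  · rw [norm_mul, norm_tw l β hb.ne_zero]
    calc ‖β b‖ * ‖FF (a * b)‖ ≤ (K * Nr b ^ s) * (1 + cst) :=
          mul_le_mul (h b hb hs.of_mul_right) (norm_FF_le (ha.mul hb)) (norm_nonneg _)
            (by positivity)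
      _ = _ := by ring
  · rw [FF_of_not hs, mul_zero, norm_zero]
    positivity

theorem u3a_row {G : O → ℝ} {a a' A S : ℝ} (ha : 0 < a) (haa : a ≤ a') (hG0 : ∀ x, 0 ≤ G x)
    (hG : ∀ x, Prim x → G x ≤ S) (x : O) :
    (if Prim x then W a (Nr x / A) * G x ^ 2 else 0) ≤
      S ^ 2 * (if x = 0 then 0 else Nr x ^ (0 : ℝ) * W a' (Nr x / A)) := by
  by_cases hx : Prim x
  · rw [if_pos hx, if_neg hx.ne_zero, Real.rpow_zero, one_mul, mul_comm]
    exact mul_le_mul (pow_le_pow_left₀ (hG0 x) (hG x hx) 2) (W_mono ha haa _) (W_pos _ _).le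
      (sq_nonneg _)
  · rw [if_neg hx]
    exact mul_nonneg (sq_nonneg _) (w1_nonneg _ _ _ _)

theorem u3a_row_nonneg (G : O → ℝ) (a A : ℝ) (x : O) :
    0 ≤ (if Prim x then W a (Nr x / A) * G x ^ 2 else 0) := by
  split_ifs
  · exact mul_nonneg (W_pos _ _).le (sq_nonneg _)
  · exact le_rfl

theorem summable_DD {β : O → ℂ} (hβ : Pg β) (l : ℤ) {θ A B : ℝ} (hθ : 0 < θ) (hA : 0 < A) (hB : 0 < B)
    (τ : ℝ) : Summable (fun a : O => if Prim a then
      W (4 * θ) (Nr a / A) * ‖sm (2 * θ) (fun b => tw l β b * FF (a * b)) B τ‖ ^ 2 else 0) := by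
  obtain ⟨K, s, h⟩ := hβ
  have h4 : 0 < 4 * θ := by positivity
  refine Summable.of_nonneg_of_le
    (u3a_row_nonneg (fun a => ‖sm (2 * θ) (fun b => tw l β b * FF (a * b)) B τ‖) (4 * θ) A)
    (u3a_row (G := fun a => ‖sm (2 * θ) (fun b => tw l β b * FF (a * b)) B τ‖) h4 le_rfl
      (fun _ => norm_nonneg _)
      (fun a ha => u3a_sm_le (by positivity) hB (u3a_coef h l ha) τ))
    ((summable_W h4 hA 0).mul_left _)

/-- The trivial bound. -/
theorem cn_DD_le : ∃ C : ℝ, 0 ≤ C ∧ ∀ (l : ℤ) (α β : O → ℂ) (θ A B τ Mα Mβ : ℝ), Gr Mα α → Gr Mβ β →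
    0 < θ → θ ≤ 1 → 1 ≤ A → 1 ≤ B →
    Real.sqrt (cn (4 * θ) A α) * Real.sqrt (DD FF θ A B τ (tw l β)) ≤ C * Mα * Mβ * (A * B) ^ 2 := by
  classical
  obtain ⟨C₁, h₁⟩ := tsum_W_le (a := 4) (by norm_num) 2 (by norm_num)
  obtain ⟨C₂, h₂⟩ := tsum_W_le (a := 2) (by norm_num) 1 (by norm_num)
  obtain ⟨C₃, h₃⟩ := tsum_W_le (a := 4) (by norm_num) 0 (by norm_num)
  have hc := cst_pos
  refine ⟨Real.sqrt |C₁| * ((1 + cst) * |C₂| * Real.sqrt |C₃|), by positivity,
    fun l α β θ A B τ Mα Mβ hα hβ hθ hθ1 hA hB => ?_⟩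
  have hA0 : 0 < A := by linarith
  have hB0 : 0 < B := by linarith
  have hMα : 0 ≤ Mα := by
    have := hα 1 prim_one squarefree_one
    rw [Nr_one, mul_one] at this
    exact (norm_nonneg _).trans this
  have hMβ : 0 ≤ Mβ := by
    have := hβ 1 prim_one squarefree_one
    rw [Nr_one, mul_one] at this
    exact (norm_nonneg _).trans this
  have h4 : 0 < 4 * θ := by positivity
  have h2 : 0 < 2 * θ := by positivity
  have e1 : cn (4 * θ) A α ≤ |C₁| * (Mα ^ 2 * A ^ 3) := by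
    have hpt : ∀ b : O, (if Prim b ∧ Squarefree b then ‖α b‖ ^ 2 * W (4 * θ) (Nr b / A) else 0) ≤
        Mα ^ 2 * (if b = 0 then 0 else Nr b ^ (2 : ℝ) * W 4 (Nr b / A)) := by
      intro b
      by_cases hb : Prim b ∧ Squarefree b
      · rw [if_pos hb, if_neg hb.1.ne_zero, ← mul_assoc, Real.rpow_two, ← mul_pow]
        exact mul_le_mul (pow_le_pow_left₀ (norm_nonneg _) (hα b hb.1 hb.2) 2)
          (W_mono h4 (by linarith) _) (W_pos _ _).le (sq_nonneg _)
      · rw [if_neg hb]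
        exact mul_nonneg (sq_nonneg _) (w1_nonneg _ _ _ _)
    have hs2 := (summable_W (a := 4) (by norm_num) hA0 2).mul_left (Mα ^ 2)
    have hs1 : Summable (fun b : O =>
        if Prim b ∧ Squarefree b then ‖α b‖ ^ 2 * W (4 * θ) (Nr b / A) else 0) := by
      refine Summable.of_nonneg_of_le (fun b => ?_) hpt hs2
      split_ifs
      · exact mul_nonneg (sq_nonneg _) (W_pos _ _).le
      · exact le_rfl
    have := hs1.tsum_le_tsum hpt hs2
    rw [tsum_mul_left] at this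
    refine le_trans (le_of_eq ?_) (this.trans ?_)
    · unfold cn
      congr
    have a1 := h₁ A hA0
    rw [show (1 : ℝ) + 2 = ((3 : ℕ) : ℝ) by norm_num, Real.rpow_natCast] at a1
    have a2 : C₁ * A ^ 3 ≤ |C₁| * A ^ 3 := mul_le_mul_of_nonneg_right (le_abs_self _) (by positivity)
    calc _ ≤ Mα ^ 2 * (|C₁| * A ^ 3) := mul_le_mul_of_nonneg_left (a1.trans a2) (sq_nonneg _)
      _ = _ := by ring
  set S : ℝ := Mβ * (1 + cst) * (|C₂| * B ^ 2) with hS
  have hS0 : 0 ≤ S := by positivity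
  have e2 : ∀ a, Prim a → ‖sm (2 * θ) (fun b => tw l β b * FF (a * b)) B τ‖ ≤ S := by
    intro a ha
    have hβ' : ∀ n, Prim n → Squarefree n → ‖β n‖ ≤ Mβ * Nr n ^ (1 : ℝ) := fun n hn hs => by
      rw [Real.rpow_one]; exact hβ n hn hs
    refine (u3a_sm_le h2 hB0 (u3a_coef hβ' l ha) τ).trans ?_
    rw [abs_of_nonneg (by positivity), hS]
    refine mul_le_mul_of_nonneg_left ?_ (by positivity)
    have a1 := h₂ B hB0
    rw [show (1 : ℝ) + 1 = ((2 : ℕ) : ℝ) by norm_num, Real.rpow_natCast] at a1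
    have a2 : C₂ * B ^ 2 ≤ |C₂| * B ^ 2 := mul_le_mul_of_nonneg_right (le_abs_self _) (by positivity)
    refine le_trans ?_ (a1.trans a2)
    refine (summable_W h2 hB0 1).tsum_le_tsum (fun n => ?_) (summable_W (by norm_num) hB0 1)
    split_ifs
    · exact le_rfl
    · exact mul_le_mul_of_nonneg_left (W_mono h2 (by linarith) _)
        (Real.rpow_nonneg (Nr_nonneg n) _)
  have e3 : DD FF θ A B τ (tw l β) ≤ S ^ 2 * (|C₃| * A) := by
    have hpt := u3a_row (G := fun a => ‖sm (2 * θ) (fun b => tw l β b * FF (a * b)) B τ‖)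
      (A := A) (a' := 4) h4 (by linarith) (fun _ => norm_nonneg _) e2
    have hs2 := (summable_W (a := 4) (by norm_num) hA0 0).mul_left (S ^ 2)
    have hs1 := Summable.of_nonneg_of_le
      (u3a_row_nonneg (fun a => ‖sm (2 * θ) (fun b => tw l β b * FF (a * b)) B τ‖) (4 * θ) A) hpt hs2
    have := hs1.tsum_le_tsum hpt hs2
    rw [tsum_mul_left] at this
    refine le_trans this (mul_le_mul_of_nonneg_left ?_ (sq_nonneg _))
    have a1 := h₃ A hA0
    rw [add_zero, Real.rpow_one] at a1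
    exact a1.trans (mul_le_mul_of_nonneg_right (le_abs_self _) hA0.le)
  have e4 : Real.sqrt (cn (4 * θ) A α) * Real.sqrt (DD FF θ A B τ (tw l β)) ≤
      Real.sqrt (|C₁| * (Mα ^ 2 * A ^ 3)) * Real.sqrt (S ^ 2 * (|C₃| * A)) :=
    mul_le_mul (Real.sqrt_le_sqrt e1) (Real.sqrt_le_sqrt e3) (Real.sqrt_nonneg _)
      (Real.sqrt_nonneg _)
  refine e4.trans (le_of_eq ?_)
  rw [← Real.sqrt_mul (by positivity)]
  have e5 : |C₁| * (Mα ^ 2 * A ^ 3) * (S ^ 2 * (|C₃| * A)) =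
      (Real.sqrt |C₁| * Real.sqrt |C₃| * (Mα * A ^ 2 * S)) ^ 2 := by
    rw [mul_pow (Real.sqrt |C₁| * Real.sqrt |C₃|), mul_pow (Real.sqrt |C₁|),
      Real.sq_sqrt (abs_nonneg _), Real.sq_sqrt (abs_nonneg _)]
    ring
  rw [e5, Real.sqrt_sq (by positivity), hS]
  ring

end Crest.Agent.R012

end
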