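import Crest.Agent.R012.U3a

/-! # Row 12: bilinear forms: separation of variables -/

set_option autoImplicit false

noncomputable section

open scoped BigOperators ComplexConjugate Topology
open Complex MeasureTheory Filter Set Crest.Agent.R017

namespace Crest.Agent.R012

theorem u3b_cauchy {ι : Type} {f g : ι → ℝ} (hf0 : ∀ i, 0 ≤ f i) (hg0 : ∀ i, 0 ≤ g i)
    (hf : Summable f) (hg : Summable g) :
    Summable (fun i => √(f i) * √(g i)) ∧ ∑' i, √(f i) * √(g i) ≤ √(∑' i, f i) * √(∑' i, g i) := by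
  have e : ∀ x : ℝ, 0 ≤ x → √x ^ (2 : ℝ) = x := fun x hx => by
    rw [Real.rpow_two, Real.sq_sqrt hx]
  have := Real.summable_and_inner_le_Lp_mul_Lq_tsum_of_nonneg (f := fun i => √(f i))
    (g := fun i => √(g i)) Real.HolderConjugate.two_two (fun i => Real.sqrt_nonneg _)
    (fun i => Real.sqrt_nonneg _) (by simpa only [e _ (hf0 _)] using hf)
    (by simpa only [e _ (hg0 _)] using hg)
  simp only [e _ (hf0 _), e _ (hg0 _), ← Real.sqrt_eq_rpow] at this
  exact this

open Classical in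
/-- the coefficient after the separation of the weights -/
def u3b_c (l : ℤ) (θ : ℝ) (α β : O → ℂ) (A B τ : ℝ) (p : O × O) : ℂ :=
  if Prim p.1 ∧ Prim p.2 then α p.1 * β p.2 * az l (p.1 * p.2) * FF (p.1 * p.2) *
    (Nr (p.1 * p.2) : ℂ) ^ (-(τ * I)) * (W (4 * θ) (Nr p.1 / A) : ℂ) * (W (2 * θ) (Nr p.2 / B) : ℂ)
  else 0

/-- the oscillating factor -/
def u3b_e (A B t : ℝ) (p : O × O) : ℂ :=
  Complex.exp (-(t * I) * (Real.log (Nr p.1 / A * (Nr p.2 / B) ^ 2) : ℝ))

theorem u3b_norm_exp (t L : ℝ) : ‖Complex.exp (-(t * I) * (L : ℝ))‖ = 1 := by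
  rw [Complex.norm_exp]; simp

theorem u3b_norm_e (A B t : ℝ) (p : O × O) : ‖u3b_e A B t p‖ = 1 := u3b_norm_exp _ _

theorem u3b_norm_cpow {x : ℝ} (hx : 0 < x) (τ : ℝ) : ‖(x : ℂ) ^ (-(τ * I))‖ = 1 := by
  rw [w3_cpow hx, u3b_norm_exp]

theorem u3b_term (l : ℤ) (α β : O → ℂ) {θ Y B : ℝ} (hθ : 0 < θ) (hY : 0 < Y) (hB : 0 < B) (τ : ℝ)
    (p : O × O) : bt l (2 * θ) α β Y τ p * (W θ (Nr p.2 / B) : ℂ) =
      ∫ t : ℝ, (og (4 * θ) t : ℂ) * (u3b_c l θ α β (Y / B) B τ p * u3b_e (Y / B) B t p) := by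
  unfold bt u3b_c
  split_ifs with hp
  · have hx : 0 < Nr p.1 / (Y / B) := div_pos (Nr_pos hp.1.ne_zero) (div_pos hY hB)
    have hy : 0 < Nr p.2 / B := div_pos (Nr_pos hp.2.ne_zero) hB
    have h3 := W_three hθ hx hy
    have e1 : Nr p.1 / (Y / B) * (Nr p.2 / B) = Nr (p.1 * p.2) / Y := by
      rw [Nr_mul]; field_simp
    rw [e1] at h3
    have h3' : (W θ (Nr p.2 / B) : ℂ) * (W (2 * θ) (Nr (p.1 * p.2) / Y) : ℂ) =
        (W (4 * θ) (Nr p.1 / (Y / B)) : ℂ) * (W (2 * θ) (Nr p.2 / B) : ℂ) *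
          (W (4 * θ) (Nr p.1 / (Y / B) * (Nr p.2 / B) ^ 2) : ℂ) := by exact_mod_cast h3
    have hz : 0 < Nr p.1 / (Y / B) * (Nr p.2 / B) ^ 2 := by positivity
    have h4 := W_eq_og (b := 4 * θ) (by positivity) hz
    simp only [w3_cpow hz] at h4
    simp only [mul_left_comm (og (4 * θ) _ : ℂ)]
    rw [integral_const_mul]
    unfold u3b_e
    rw [← h4]
    linear_combination (α p.1 * β p.2 * az l (p.1 * p.2) * FF (p.1 * p.2) *
      (Nr (p.1 * p.2) : ℂ) ^ (-(τ * I))) * h3'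
  · simp

open Classical in
theorem u3b_sum1 {f : O → ℂ} (hf : Pg f) {a B : ℝ} (ha : 0 < a) (hB : 0 < B) :
    Summable fun n : O => if Prim n ∧ Squarefree n then ‖f n‖ * W a (Nr n / B) else 0 := by
  obtain ⟨K, A, hK⟩ := hf
  refine Summable.of_nonneg_of_le (fun n => ?_) (fun n => ?_) ((summable_W ha hB A).mul_left |K|)
  · split_ifs
    · exact mul_nonneg (norm_nonneg _) (W_pos _ _).le
    · exact le_rfl
  · have hW := W_pos a (Nr n / B)
    have hN : 0 ≤ Nr n ^ A := Real.rpow_nonneg (Nr_nonneg n) A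
    by_cases hn : Prim n ∧ Squarefree n
    · rw [if_pos hn, if_neg hn.1.ne_zero, ← mul_assoc]
      exact mul_le_mul_of_nonneg_right ((hK n hn.1 hn.2).trans
        (mul_le_mul_of_nonneg_right (le_abs_self K) hN)) hW.le
    · rw [if_neg hn]
      split_ifs
      · simp
      · positivity

theorem u3b_summable {α β : O → ℂ} (hα : Pg α) (hβ : Pg β) (l : ℤ) {θ A B : ℝ} (hθ : 0 < θ)
    (hA : 0 < A) (hB : 0 < B) (τ : ℝ) : Summable fun p => ‖u3b_c l θ α β A B τ p‖ := by
  classical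
  have h1 := u3b_sum1 hα (a := 4 * θ) (by positivity) hA
  have h2 := u3b_sum1 hβ (a := 2 * θ) (by positivity) hB
  have n1 : ∀ (f : O → ℂ) (a X : ℝ) (n : O),
      0 ≤ if Prim n ∧ Squarefree n then ‖f n‖ * W a (Nr n / X) else 0 := fun f a X n => by
    split_ifs
    · exact mul_nonneg (norm_nonneg _) (W_pos _ _).le
    · exact le_rfl
  have hc := cst_pos
  refine Summable.of_nonneg_of_le (fun _ => norm_nonneg _) (fun p => ?_)
    ((h1.mul_of_nonneg h2 (n1 α _ _) (n1 β _ _)).mul_left (1 + cst))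
  have h0 := mul_nonneg (by positivity : (0 : ℝ) ≤ 1 + cst)
    (mul_nonneg (n1 α (4 * θ) A p.1) (n1 β (2 * θ) B p.2))
  unfold u3b_c
  by_cases hp : Prim p.1 ∧ Prim p.2
  · rw [if_pos hp]
    by_cases hs : Squarefree (p.1 * p.2)
    · have hm : Prim (p.1 * p.2) := hp.1.mul hp.2
      rw [if_pos ⟨hp.1, hs.of_mul_left⟩, if_pos ⟨hp.2, hs.of_mul_right⟩]
      simp only [norm_mul, norm_az l hm.ne_zero, u3b_norm_cpow (Nr_pos hm.ne_zero), mul_one,
        Complex.norm_real, Real.norm_of_nonneg (W_pos _ _).le]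
      have := mul_le_mul_of_nonneg_right (norm_FF_le hm) (mul_nonneg
        (mul_nonneg (norm_nonneg (α p.1)) (W_pos (4 * θ) (Nr p.1 / A)).le)
        (mul_nonneg (norm_nonneg (β p.2)) (W_pos (2 * θ) (Nr p.2 / B)).le))
      linarith
    · rw [FF_of_not hs]
      simpa using h0
  · rw [if_neg hp, norm_zero]
    exact h0

/-- the sum over the second variable -/
theorem u3b_inner (l : ℤ) (θ : ℝ) (α β : O → ℂ) {A B : ℝ} (hA : 0 < A) (hB : 0 < B) (τ t : ℝ)
    {a : O} (ha : Prim a) :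
    ∑' b, u3b_c l θ α β A B τ (a, b) * u3b_e A B t (a, b) =
      (α a * az l a * (Nr a : ℂ) ^ (-(τ * I)) * (W (4 * θ) (Nr a / A) : ℂ) *
        Complex.exp (-(t * I) * (Real.log (Nr a / A / B ^ 2) : ℝ))) *
      sm (2 * θ) (fun b => tw l β b * FF (a * b)) B (τ + 2 * t) := by
  unfold sm
  rw [← tsum_mul_left]
  refine tsum_congr fun b => ?_
  unfold u3b_c u3b_e
  by_cases hb : Prim b
  · have ha0 := Nr_pos ha.ne_zero
    have hb0 := Nr_pos hb.ne_zero
    rw [if_pos ⟨ha, hb⟩, if_pos hb, w3_cpow ha0, w3_cpow hb0,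
      w3_cpow (Nr_pos (ha.mul hb).ne_zero), az_mul, Nr_mul, Real.log_mul ha0.ne' hb0.ne']
    have e : Real.log (Nr a / A * (Nr b / B) ^ 2) =
        Real.log (Nr a / A / B ^ 2) + 2 * Real.log (Nr b) := by
      rw [show Nr a / A * (Nr b / B) ^ 2 = Nr a / A / B ^ 2 * Nr b ^ 2 by field_simp,
        Real.log_mul (by positivity) (by positivity), Real.log_pow]
      norm_num
    have e2 : Complex.exp (-(τ * I) * ((Real.log (Nr a) + Real.log (Nr b) : ℝ) : ℂ)) *
        Complex.exp (-(t * I) * ((Real.log (Nr a / A / B ^ 2) + 2 * Real.log (Nr b) : ℝ) : ℂ)) =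
        Complex.exp (-(τ * I) * (Real.log (Nr a) : ℝ)) *
          Complex.exp (-(t * I) * (Real.log (Nr a / A / B ^ 2) : ℝ)) *
          Complex.exp (-(((τ + 2 * t : ℝ) : ℂ) * I) * (Real.log (Nr b) : ℝ)) := by
      rw [← Complex.exp_add, ← Complex.exp_add, ← Complex.exp_add]
      congr 1
      simp only [Complex.ofReal_add, Complex.ofReal_mul, Complex.ofReal_ofNat]
      ring
    simp only [tw]
    rw [e]
    linear_combination (α a * β b * az l a * az l b * FF (a * b) * (W (4 * θ) (Nr a / A) : ℂ) *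
      (W (2 * θ) (Nr b / B) : ℂ)) * e2
  · rw [if_neg fun h => hb h.2, if_neg hb]
    simp

theorem u3b_cs {α β : O → ℂ} (hα : Pg α) (hβ : Pg β) (l : ℤ) {θ A B : ℝ} (hθ : 0 < θ)
    (hA : 0 < A) (hB : 0 < B) (τ t : ℝ) :
    ‖∑' p, u3b_c l θ α β A B τ p * u3b_e A B t p‖ ≤
      Real.sqrt (cn (4 * θ) A α) * Real.sqrt (DD FF θ A B (τ + 2 * t) (tw l β)) := by
  classical
  have hs : Summable fun p => u3b_c l θ α β A B τ p * u3b_e A B t p :=
    Summable.of_norm (by
      simpa only [norm_mul, u3b_norm_e, mul_one] using u3b_summable hα hβ l hθ hA hB τ)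
  obtain ⟨h1, h2⟩ := u3b_cauchy (fun a => by
      split_ifs
      · exact mul_nonneg (sq_nonneg _) (W_pos _ _).le
      · exact le_rfl) (fun a => by
      split_ifs
      · exact mul_nonneg (W_pos _ _).le (sq_nonneg _)
      · exact le_rfl) (summable_cn hα (a := 4 * θ) (by positivity) hA)
    (summable_DD hβ l hθ hA hB (τ + 2 * t))
  rw [hs.tsum_prod]
  refine (tsum_of_norm_bounded h1.hasSum fun a => ?_).trans h2
  by_cases ha : Prim a
  · rw [u3b_inner l θ α β hA hB τ t ha]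
    by_cases hq : Squarefree a
    · have hW := (W_pos (4 * θ) (Nr a / A)).le
      rw [if_pos ⟨ha, hq⟩, if_pos ha, Real.sqrt_mul (sq_nonneg _), Real.sqrt_mul hW,
        Real.sqrt_sq (norm_nonneg _), Real.sqrt_sq (norm_nonneg _)]
      simp only [norm_mul, norm_az l ha.ne_zero, u3b_norm_cpow (Nr_pos ha.ne_zero), u3b_norm_exp,
        mul_one, Complex.norm_real, Real.norm_of_nonneg hW]
      refine le_of_eq ?_
      linear_combination (-‖α a‖ * ‖sm (2 * θ) (fun b => tw l β b * FF (a * b)) B (τ + 2 * t)‖) *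
        Real.mul_self_sqrt hW
    · have : sm (2 * θ) (fun b => tw l β b * FF (a * b)) B (τ + 2 * t) = 0 := by
        have : ∀ b, FF (a * b) = 0 := fun b => FF_of_not fun h => hq h.of_mul_left
        simp [sm, this]
      rw [this, mul_zero, norm_zero]
      positivity
  · have : ∀ b, u3b_c l θ α β A B τ (a, b) = 0 := fun b => if_neg fun h => ha h.1
    simp only [this, zero_mul, tsum_zero, norm_zero]
    positivity

/-- `W_three`, `W_eq_og` for the last factor, Cauchy–Schwarz in the first variable. -/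
theorem norm_pc_le {α β : O → ℂ} (hα : Pg α) (hβ : Pg β) (l : ℤ) {θ Y B : ℝ} (hθ : 0 < θ) (hY : 0 < Y)
    (hB : 0 < B) (τ : ℝ) {g : ℝ → ℝ} (hg : Integrable (fun t => og (4 * θ) t * g t))
    (h : ∀ t, Real.sqrt (cn (4 * θ) (Y / B) α) *
      Real.sqrt (DD FF θ (Y / B) B (τ + 2 * t) (tw l β)) ≤ g t) :
    ‖pc l θ α β Y τ B‖ ≤ ∫ t, og (4 * θ) t * g t := by
  have hA : 0 < Y / B := div_pos hY hB
  have h4 : 0 < 4 * θ := by positivity
  have hog : Integrable (og (4 * θ)) := by simpa using integrable_og_mul h4 0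
  set F : O × O → ℝ → ℂ := fun p t => (og (4 * θ) t : ℂ) *
    (u3b_c l θ α β (Y / B) B τ p * u3b_e (Y / B) B t p) with hF
  have hn : ∀ p t, ‖F p t‖ = og (4 * θ) t * ‖u3b_c l θ α β (Y / B) B τ p‖ := fun p t => by
    simp only [hF, norm_mul, u3b_norm_e, mul_one, Complex.norm_real,
      Real.norm_of_nonneg (og_nonneg t)]
  have hi : ∀ p, Integrable (F p) := fun p => by
    refine (hog.mul_const ‖u3b_c l θ α β (Y / B) B τ p‖).mono' ?_
      (Eventually.of_forall fun t => (hn p t).le)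
    refine (Complex.continuous_ofReal.comp_aestronglyMeasurable hog.1).mul
      (Continuous.aestronglyMeasurable ?_)
    unfold u3b_e
    fun_prop
  have hs : Summable fun p => ∫ t, ‖F p t‖ := by
    simp only [hn, integral_mul_const, integral_og h4, one_mul]
    exact u3b_summable hα hβ l hθ hA hB τ
  have e : pc l θ α β Y τ B = ∫ t, ∑' p, F p t := by
    rw [← integral_tsum_of_summable_integral_norm hi hs]
    exact tsum_congr fun p => u3b_term l α β hθ hY hB τ p
  rw [e]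
  refine norm_integral_le_of_norm_le hg (Eventually.of_forall fun t => ?_)
  simp only [hF]
  rw [tsum_mul_left, norm_mul, Complex.norm_real, Real.norm_of_nonneg (og_nonneg t)]
  exact mul_le_mul_of_nonneg_left ((u3b_cs hα hβ l hθ hA hB τ t).trans (h t)) (og_nonneg t)

end Crest.Agent.R012

end
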