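import Crest.Agent.R012.UDefs

/-! # Row 12: separation of an inequality -/

set_option autoImplicit false

noncomputable section

open scoped BigOperators ComplexConjugate Topology
open Complex MeasureTheory Filter Set Crest.Agent.R017

namespace Crest.Agent.R012

theorem u5b_orth {N : ℕ} {ω : ℂ} (hω : IsPrimitiveRoot ω N) (m : ℤ) :
    ∑ k ∈ Finset.range N, (ω ^ m) ^ k = if (N : ℤ) ∣ m then (N : ℂ) else 0 := by
  split_ifs with h
  · rw [(hω.zpow_eq_one_iff_dvd m).2 h]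
    simp
  · have h1 : ω ^ m ≠ 1 := fun e => h ((hω.zpow_eq_one_iff_dvd m).1 e)
    rw [geom_sum_eq h1, ← zpow_natCast, ← zpow_mul, mul_comm, zpow_mul, zpow_natCast,
      hω.pow_eq_one, one_zpow, sub_self, zero_div]

theorem u5b_sin {N k : ℝ} (hk : 0 < k) (hkN : k < N) :
    (Real.sin (Real.pi * k / N))⁻¹ ≤ N / 2 * (k⁻¹ + (N - k)⁻¹) := by
  have hN : 0 < N := hk.trans hkN
  have hπ := Real.pi_pos
  have key : ∀ t : ℝ, 0 < t → 2 * t ≤ N → (Real.sin (Real.pi * t / N))⁻¹ ≤ N / 2 * t⁻¹ := by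
    intro t ht htN
    have h1 : Real.pi * t / N ≤ Real.pi / 2 := by
      rw [div_le_div_iff₀ hN two_pos]
      nlinarith
    have h2 := Real.mul_le_sin (x := Real.pi * t / N) (by positivity) h1
    have h3 : 2 / Real.pi * (Real.pi * t / N) = (N / 2 * t⁻¹)⁻¹ := by field_simp
    rw [h3] at h2
    exact inv_le_of_inv_le₀ (by positivity) h2
  have h1 : 0 < N - k := by linarith
  rcases le_total (2 * k) N with h | h
  · refine (key k hk h).trans ?_
    gcongr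
    exact le_add_of_nonneg_right (by positivity)
  · have h2 : Real.pi * k / N = Real.pi - Real.pi * (N - k) / N := by field_simp; ring
    rw [h2, Real.sin_pi_sub]
    refine (key (N - k) h1 (by linarith)).trans ?_
    gcongr
    exact le_add_of_nonneg_left (by positivity)

theorem u5b_norm {N : ℕ} (hN : N ≠ 0) (m : ℤ) : ‖Complex.exp (2 * Real.pi * I / N) ^ m‖ = 1 := by
  rw [norm_zpow, (Complex.isPrimitiveRoot_exp N hN).norm'_eq_one hN, one_zpow]

theorem u5b_coef {N K k : ℕ} (hk : 0 < k) (hkN : k < N) :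
    ‖(N : ℂ)⁻¹ * ∑ s ∈ Finset.range K, (Complex.exp (2 * Real.pi * I / N) ^ (-(k : ℤ))) ^ s‖ ≤
      ((k : ℝ)⁻¹ + ((N : ℝ) - k)⁻¹) / 2 := by
  have hN : N ≠ 0 := by omega
  have hNr : (0 : ℝ) < N := by exact_mod_cast Nat.pos_of_ne_zero hN
  have hkr : (0 : ℝ) < k := by exact_mod_cast hk
  have hkNr : (k : ℝ) < N := by exact_mod_cast hkN
  have hπ := Real.pi_pos
  set z := Complex.exp (2 * Real.pi * I / N) ^ (-(k : ℤ)) with hz
  have hz1 : ‖z‖ = 1 := u5b_norm hN _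
  have hs : 0 < Real.sin (Real.pi * k / N) := by
    refine Real.sin_pos_of_pos_of_lt_pi (by positivity) ?_
    rw [div_lt_iff₀ hNr]
    nlinarith
  have hz2 : ‖z - 1‖ = 2 * Real.sin (Real.pi * k / N) := by
    have e : z = Complex.exp (I * ((-(2 * (Real.pi * k / N)) : ℝ) : ℂ)) := by
      rw [hz, ← Complex.exp_int_mul]
      congr 1
      push_cast
      ring
    rw [e, Complex.norm_exp_I_mul_ofReal_sub_one,
      show -(2 * (Real.pi * k / N)) / 2 = -(Real.pi * k / N) by ring, Real.sin_neg, mul_neg,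
      norm_neg, Real.norm_of_nonneg (by positivity)]
  have hz3 : z ≠ 1 := by
    intro e
    rw [e, sub_self, norm_zero] at hz2
    linarith
  have h1 : ‖z ^ K - 1‖ ≤ 2 := by
    refine (norm_sub_le _ _).trans ?_
    rw [norm_pow, hz1, one_pow, norm_one]
    norm_num
  rw [geom_sum_eq hz3, norm_mul, norm_div, hz2, norm_inv, Complex.norm_natCast]
  have h2 := u5b_sin hkr hkNr
  calc (N : ℝ)⁻¹ * (‖z ^ K - 1‖ / (2 * Real.sin (Real.pi * k / N)))
      ≤ (N : ℝ)⁻¹ * (2 / (2 * Real.sin (Real.pi * k / N))) := by gcongr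
    _ = (N : ℝ)⁻¹ * (Real.sin (Real.pi * k / N))⁻¹ := by field_simp
    _ ≤ (N : ℝ)⁻¹ * (N / 2 * ((k : ℝ)⁻¹ + ((N : ℝ) - k)⁻¹)) := by gcongr
    _ = _ := by field_simp

theorem u5b_harm (n : ℕ) : ∑ k ∈ Finset.range n, ((k : ℝ) + 1)⁻¹ ≤ 1 + Real.log n := by
  have h := harmonic_le_one_add_log n
  rw [harmonic] at h
  push_cast at h
  exact h

theorem u5b_sum {K : ℕ} (hK : 1 ≤ K) :
    ∑ k ∈ Finset.range (2 * K), ‖((2 * K : ℕ) : ℂ)⁻¹ * ∑ s ∈ Finset.range K,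
      (Complex.exp (2 * Real.pi * I / (2 * K : ℕ)) ^ (-(k : ℤ))) ^ s‖ ≤ 3 * (1 + Real.log K) := by
  obtain ⟨n, hn⟩ : ∃ n, 2 * K = n + 1 := ⟨2 * K - 1, by omega⟩
  have hKr : (1 : ℝ) ≤ K := by exact_mod_cast hK
  have hlog := Real.log_nonneg hKr
  have h0 : ‖((2 * K : ℕ) : ℂ)⁻¹ * ∑ s ∈ Finset.range K,
      (Complex.exp (2 * Real.pi * I / (2 * K : ℕ)) ^ (-((0 : ℕ) : ℤ))) ^ s‖ ≤ 1 := by
    simp only [Nat.cast_zero, neg_zero, zpow_zero, one_pow, Finset.sum_const, Finset.card_range,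
      nsmul_eq_mul, mul_one, norm_mul, norm_inv, Complex.norm_natCast]
    push_cast
    rw [inv_mul_le_iff₀ (by linarith)]
    linarith
  have h1 : ∑ k ∈ Finset.range n, ‖((2 * K : ℕ) : ℂ)⁻¹ * ∑ s ∈ Finset.range K,
      (Complex.exp (2 * Real.pi * I / (2 * K : ℕ)) ^ (-((k + 1 : ℕ) : ℤ))) ^ s‖ ≤
      ∑ k ∈ Finset.range n, (((k : ℝ) + 1)⁻¹ + (((n - 1 - k : ℕ) : ℝ) + 1)⁻¹) / 2 := by
    refine Finset.sum_le_sum fun k hk => ?_
    have hk' := Finset.mem_range.1 hk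
    refine (u5b_coef (Nat.succ_pos k) (by omega)).trans (le_of_eq ?_)
    have e : ((n - 1 - k : ℕ) : ℝ) + 1 = ((2 * K : ℕ) : ℝ) - ((k + 1 : ℕ) : ℝ) := by
      rw [eq_sub_iff_add_eq]
      exact_mod_cast (by omega : n - 1 - k + 1 + (k + 1) = 2 * K)
    rw [e]
    push_cast
    rfl
  rw [← Finset.sum_div, Finset.sum_add_distrib,
    Finset.sum_range_reflect (fun k => ((k : ℝ) + 1)⁻¹) n] at h1
  have h2 := u5b_harm n
  have h3 : Real.log n ≤ 1 + Real.log K := by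
    have hn1 : (0 : ℝ) < n := by exact_mod_cast (by omega : 0 < n)
    have hn2 : (n : ℝ) ≤ 2 * K := by exact_mod_cast (by omega : n ≤ 2 * K)
    have h4 := Real.log_le_log hn1 hn2
    rw [Real.log_mul two_ne_zero (by linarith)] at h4
    have h5 := Real.log_le_sub_one_of_pos (show (0 : ℝ) < 2 by norm_num)
    linarith
  conv_lhs => rw [show Finset.range (2 * K) = Finset.range (n + 1) by rw [hn]]
  rw [Finset.sum_range_succ']
  linarith

/-- Finite Fourier analysis modulo `2 K`: `c k = (2K)⁻¹ ∑_{s < K} e(-k s / 2K)`,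
`|c k| ≤ min (1/2, 1 / (4 min(k, 2K - k)))`·const. -/
theorem sep_le : ∃ C : ℝ, 0 ≤ C ∧ ∀ K : ℕ, 1 ≤ K → ∃ (c : ℕ → ℂ) (φ ψ : ℕ → ℕ → ℂ),
    ∑ k ∈ Finset.range (2 * K), ‖c k‖ ≤ C * (1 + Real.log K) ∧ (∀ k i, ‖φ k i‖ ≤ 1) ∧
    (∀ k j, ‖ψ k j‖ ≤ 1) ∧ ∀ i j : ℕ, 1 ≤ i → i ≤ K → 1 ≤ j → j ≤ K →
      (if i ≤ j then (1 : ℂ) else 0) = ∑ k ∈ Finset.range (2 * K), c k * φ k i * ψ k j := by
  refine ⟨3, by norm_num, fun K hK => ?_⟩
  have hN : 2 * K ≠ 0 := by omega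
  have hω := Complex.isPrimitiveRoot_exp (2 * K) hN
  set ω := Complex.exp (2 * Real.pi * I / (2 * K : ℕ)) with hωd
  have hω0 : ω ≠ 0 := Complex.exp_ne_zero _
  refine ⟨fun k => ((2 * K : ℕ) : ℂ)⁻¹ * ∑ s ∈ Finset.range K, (ω ^ (-(k : ℤ))) ^ s,
    fun k i => ω ^ (-((k : ℤ) * i)), fun k j => ω ^ ((k : ℤ) * j), u5b_sum hK,
    fun k i => (u5b_norm hN _).le, fun k j => (u5b_norm hN _).le, fun i j hi hiK hj hjK => ?_⟩
  have h1 : ∑ k ∈ Finset.range (2 * K), (((2 * K : ℕ) : ℂ)⁻¹ *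
      ∑ s ∈ Finset.range K, (ω ^ (-(k : ℤ))) ^ s) * ω ^ (-((k : ℤ) * i)) * ω ^ ((k : ℤ) * j) =
      ∑ s ∈ Finset.range K, ((2 * K : ℕ) : ℂ)⁻¹ *
        ∑ k ∈ Finset.range (2 * K), (ω ^ ((j : ℤ) - i - s)) ^ k := by
    simp only [Finset.mul_sum, Finset.sum_mul]
    rw [Finset.sum_comm]
    refine Finset.sum_congr rfl fun s _ => Finset.sum_congr rfl fun k _ => ?_
    rw [mul_assoc, mul_assoc, ← zpow_natCast, ← zpow_natCast, ← zpow_mul, ← zpow_mul,
      ← zpow_add₀ hω0, ← zpow_add₀ hω0]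
    congr 2
    ring
  have hNc : ((2 * K : ℕ) : ℂ) ≠ 0 := by exact_mod_cast hN
  have h2 : ∀ s ∈ Finset.range K, ((2 * K : ℕ) : ℂ)⁻¹ *
      ∑ k ∈ Finset.range (2 * K), (ω ^ ((j : ℤ) - i - s)) ^ k = if i + s = j then 1 else 0 := by
    intro s hs
    have hs' := Finset.mem_range.1 hs
    rw [u5b_orth hω]
    by_cases h : i + s = j
    · rw [if_pos h, if_pos (by rw [show (j : ℤ) - i - s = 0 by omega]; exact dvd_zero _),
        inv_mul_cancel₀ hNc]
    · rw [if_neg h, if_neg, mul_zero]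
      intro hd
      have := Int.eq_zero_of_abs_lt_dvd hd (by rw [abs_lt]; push_cast; omega)
      omega
  rw [h1, Finset.sum_congr rfl h2]
  split_ifs with h
  · rw [Finset.sum_eq_single (j - i)]
    · rw [if_pos (by omega)]
    · intro s _ hs
      rw [if_neg (by omega)]
    · intro hs
      exact absurd (Finset.mem_range.2 (by omega)) hs
  · exact (Finset.sum_eq_zero fun s _ => if_neg (by omega)).symm

end Crest.Agent.R012

end
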