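import Crest.Agent.R012.U5a
import Crest.Agent.R012.U5b

/-! # Row 12: the Buchstab decomposition -/

set_option autoImplicit false

noncomputable section

open scoped BigOperators ComplexConjugate Topology
open Complex MeasureTheory Filter Set Crest.Agent.R017

namespace Crest.Agent.R012

theorem u5_div {r : O} (hr : r ≠ 0) (c : O) : r * c / r = c := mul_div_cancel_left₀ c hr

theorem u5_split {n r : O} (hn : Prim n) (hr : r ∈ pdiv n) :
    Prim r ∧ Prim (n / r) ∧ r * (n / r) = n := by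
  obtain ⟨h1, c, rfl⟩ := (mem_pdiv hn.ne_zero).1 hr
  rw [u5_div h1.ne_zero]
  exact ⟨h1, h1.of_mul hn, rfl⟩

theorem u5_sqf {n r : O} (hn : Prim n) (hs : Squarefree n) (hr : r ∈ pdiv n) :
    Squarefree r ∧ Squarefree (n / r) := by
  obtain ⟨-, -, h⟩ := u5_split hn hr
  exact ⟨hs.squarefree_of_dvd ⟨_, h.symm⟩, hs.squarefree_of_dvd ⟨r, by rw [mul_comm, h]⟩⟩

theorem u5_assoc (F : O → O → O → ℂ) {n : O} (hn : Prim n) :
    ∑ r ∈ pdiv n, ∑ e ∈ pdiv (n / r), F r e (n / r / e) =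
      ∑ a ∈ pdiv n, ∑ r ∈ pdiv a, F r (a / r) (n / a) := by
  rw [Finset.sum_sigma', Finset.sum_sigma']
  refine Finset.sum_bij' (fun p _ => ⟨p.1 * p.2, p.1⟩) (fun p _ => ⟨p.2, p.1 / p.2⟩) ?_ ?_ ?_ ?_ ?_
  · rintro ⟨r, e⟩ hp
    obtain ⟨h1, h2⟩ := Finset.mem_sigma.1 hp
    obtain ⟨a1, a2, a3⟩ := u5_split hn h1
    obtain ⟨b1, -, b3⟩ := u5_split a2 h2
    refine Finset.mem_sigma.2 ⟨(mem_pdiv hn.ne_zero).2 ⟨a1.mul b1, n / r / e, ?_⟩,
      (mem_pdiv (a1.mul b1).ne_zero).2 ⟨a1, dvd_mul_right _ _⟩⟩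
    dsimp only at a3 b3 ⊢
    rw [mul_assoc, b3, a3]
  · rintro ⟨a, r⟩ hp
    obtain ⟨h1, h2⟩ := Finset.mem_sigma.1 hp
    obtain ⟨a1, a2, a3⟩ := u5_split hn h1
    obtain ⟨b1, b2, b3⟩ := u5_split a1 h2
    dsimp only at a1 a2 a3 b1 b2 b3 ⊢
    have e1 : n = r * (a / r * (n / a)) := by rw [← mul_assoc, b3, a3]
    have e2 : n / r = a / r * (n / a) := by
      conv_lhs => rw [e1]
      exact u5_div b1.ne_zero _
    refine Finset.mem_sigma.2 ⟨(mem_pdiv hn.ne_zero).2 ⟨b1, _, e1⟩, ?_⟩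
    dsimp only
    rw [e2]
    exact (mem_pdiv (b2.mul a2).ne_zero).2 ⟨b2, dvd_mul_right _ _⟩
  · rintro ⟨r, e⟩ hp
    obtain ⟨h1, -⟩ := Finset.mem_sigma.1 hp
    obtain ⟨a1, -, -⟩ := u5_split hn h1
    dsimp only at a1 ⊢
    rw [u5_div a1.ne_zero]
  · rintro ⟨a, r⟩ hp
    obtain ⟨h1, h2⟩ := Finset.mem_sigma.1 hp
    obtain ⟨a1, -, -⟩ := u5_split hn h1
    obtain ⟨-, -, b3⟩ := u5_split a1 h2
    dsimp only at b3 ⊢
    rw [b3]
  · rintro ⟨r, e⟩ hp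
    obtain ⟨h1, h2⟩ := Finset.mem_sigma.1 hp
    obtain ⟨a1, a2, a3⟩ := u5_split hn h1
    obtain ⟨b1, -, b3⟩ := u5_split a2 h2
    dsimp only at a1 a3 b1 b3 ⊢
    have e1 : n = r * e * (n / r / e) := by rw [mul_assoc, b3, a3]
    have e2 : n / (r * e) = n / r / e := by
      conv_lhs => rw [e1]
      exact u5_div (a1.mul b1).ne_zero _
    rw [u5_div a1.ne_zero, e2]

theorem u5_cop {w : ℝ} {r e : O} (hr : r ≠ 0) (h₁ : Rough w r) (h₂ : Smth w e) : IsCoprime r e :=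
  isCoprime_of_prime_dvd (fun h => hr h.1) fun p hp a b => absurd (h₂ p hp b) (not_le.2 (h₁ p hp a))

theorem u5_norm_sum {a : O} {M : ℝ} (hM : 0 ≤ M) (f : O → ℂ) (hf : ∀ r ∈ pdiv a, ‖f r‖ ≤ M)
    (hu : ∀ r ∈ pdiv a, ∀ r' ∈ pdiv a, f r ≠ 0 → f r' ≠ 0 → r = r') : ‖∑ r ∈ pdiv a, f r‖ ≤ M := by
  by_cases h : ∃ r ∈ pdiv a, f r ≠ 0
  · obtain ⟨r, hr, h0⟩ := h
    rw [Finset.sum_eq_single_of_mem r hr]
    · exact hf r hr
    · intro r' hr' hne
      by_contra h1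
      exact hne (hu r' hr' r hr h1 h0)
  · rw [Finset.sum_eq_zero, norm_zero]
    · exact hM
    · intro r hr
      by_contra h1
      exact h ⟨r, hr, h1⟩

/-- `buchstab` with `z = R / N r`. -/
theorem rt_decomp {w R : ℝ} (hw : 0 ≤ w) {α : O → ℂ}
    (hα : ∀ r, Prim r → Squarefree r → α r ≠ 0 → Nr r ≤ R) {c : ℕ → ℂ} {φ ψ : ℕ → ℕ → ℂ}
    (h : ∀ i j : ℕ, 1 ≤ i → i ≤ ⌊w⌋₊ + 1 → 1 ≤ j → j ≤ ⌊w⌋₊ + 1 → (if i ≤ j then (1 : ℂ) else 0) =
      ∑ k ∈ Finset.range (2 * (⌊w⌋₊ + 1)), c k * φ k i * ψ k j) {n : O} (hn : Prim n)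
    (hs : Squarefree n) :
    cv α (rg w) n = cv (cut (Iic R) (cv α (ms w))) (fun _ => 1) n +
      ∑ k ∈ Finset.range (2 * (⌊w⌋₊ + 1)), c k * cv (aB α w R (φ k)) (fun m => ψ k (lq w m)) n := by
  classical
  have e1 : cv (cut (Iic R) (cv α (ms w))) (fun _ => 1) n =
      ∑ r ∈ pdiv n, ∑ e ∈ pdiv (n / r), (if Nr (r * e) ≤ R then α r * ms w e else 0) := by
    rw [u5_assoc (fun r e _ => if Nr (r * e) ≤ R then α r * ms w e else 0) hn, cv]
    refine Finset.sum_congr rfl fun a ha => ?_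
    obtain ⟨a1, -, -⟩ := u5_split hn ha
    rw [mul_one, cut]
    by_cases hR : Nr a ≤ R
    · rw [if_pos (show Nr a ∈ Iic R from hR), cv]
      refine Finset.sum_congr rfl fun r hr => ?_
      rw [(u5_split a1 hr).2.2, if_pos hR]
    · rw [if_neg (show ¬ Nr a ∈ Iic R from hR)]
      refine (Finset.sum_eq_zero fun r hr => ?_).symm
      rw [(u5_split a1 hr).2.2, if_neg hR]
  have e2 : ∀ k, cv (aB α w R (φ k)) (fun m => ψ k (lq w m)) n =
      ∑ r ∈ pdiv n, ∑ e ∈ pdiv (n / r),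
        α r * (if BdC w (R / Nr r) e then mu e * φ k (lp e) else 0) * ψ k (lq w (n / r / e)) := by
    intro k
    rw [u5_assoc (fun r e m =>
      α r * (if BdC w (R / Nr r) e then mu e * φ k (lp e) else 0) * ψ k (lq w m)) hn, cv]
    refine Finset.sum_congr rfl fun a _ => ?_
    rw [aB, Finset.sum_mul]
  simp only [e1, e2, Finset.mul_sum]
  rw [Finset.sum_comm, ← Finset.sum_add_distrib, cv]
  refine Finset.sum_congr rfl fun r hr => ?_
  obtain ⟨a1, a2, -⟩ := u5_split hn hr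
  obtain ⟨s1, s2⟩ := u5_sqf hn hs hr
  by_cases h0 : α r = 0
  · simp [h0]
  have hN : 0 < Nr r := Nr_pos a1.ne_zero
  have hz : 1 ≤ R / Nr r := (one_le_div hN).2 (hα r a1 s1 h0)
  rw [buchstab hw hz a2 s2, mul_add, Finset.mul_sum, Finset.mul_sum, Finset.sum_comm]
  congr 1
  · refine Finset.sum_congr rfl fun e _ => ?_
    have : Nr e ≤ R / Nr r ↔ Nr (r * e) ≤ R := by rw [le_div_iff₀ hN, Nr_mul, mul_comm]
    by_cases h1 : Nr (r * e) ≤ R
    · rw [if_pos h1, if_pos (this.2 h1)]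
    · rw [if_neg h1, if_neg (fun h2 => h1 (this.1 h2)), mul_zero]
  · refine Finset.sum_congr rfl fun e he => ?_
    obtain ⟨b1, b2, -⟩ := u5_split a2 he
    by_cases h1 : BdC w (R / Nr r) e
    · obtain ⟨c1, c2⟩ := h1.lp_mem hz b1.ne_zero
      obtain ⟨d1, d2⟩ := lq_mem w b2.ne_zero
      have h2 := h _ _ c1 c2 d1 d2
      simp only [h1, true_and, if_true]
      have : (if lp e ≤ lq w (n / r / e) then mu e else 0) =
          mu e * (if lp e ≤ lq w (n / r / e) then (1 : ℂ) else 0) := by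
        split_ifs <;> simp
      rw [this, h2, Finset.mul_sum, Finset.mul_sum]
      exact Finset.sum_congr rfl fun k _ => by ring
    · simp [h1]

/-- The factorisation into a rough and a smooth part is unique. -/
theorem rough_smooth_unique {w : ℝ} {a r r' : O} (ha : Prim a) (hr : r ∈ pdiv a) (hr' : r' ∈ pdiv a)
    (h₁ : Rough w r) (h₂ : Smth w (a / r)) (h₁' : Rough w r') (h₂' : Smth w (a / r')) : r = r' := by
  obtain ⟨a1, -, a3⟩ := u5_split ha hr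
  obtain ⟨b1, -, b3⟩ := u5_split ha hr'
  refine a1.eq_of_associated b1 (associated_of_dvd_dvd ?_ ?_)
  · exact (u5_cop a1.ne_zero h₁ h₂').dvd_of_dvd_mul_right (by rw [b3]; exact ⟨_, a3.symm⟩)
  · exact (u5_cop b1.ne_zero h₁' h₂).dvd_of_dvd_mul_right (by rw [a3]; exact ⟨_, b3.symm⟩)

theorem norm_cv_ms_le {w M : ℝ} {α : O → ℂ} (hM : ∀ r, Prim r → Squarefree r → ‖α r‖ ≤ M)
    (hα : ∀ r, Prim r → Squarefree r → α r ≠ 0 → Rough w r) {a : O} (ha : Prim a) (hs : Squarefree a) :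
    ‖cv α (ms w) a‖ ≤ M := by
  classical
  have hM0 : 0 ≤ M := (norm_nonneg _).trans (hM 1 prim_one squarefree_one)
  have key : ∀ r ∈ pdiv a, α r * ms w (a / r) ≠ 0 → Rough w r ∧ Smth w (a / r) := by
    intro r hr h
    refine ⟨hα r (u5_split ha hr).1 (u5_sqf ha hs hr).1 (left_ne_zero_of_mul h), ?_⟩
    by_contra h1
    exact right_ne_zero_of_mul h (by rw [ms, if_neg h1])
  refine u5_norm_sum hM0 _ (fun r hr => ?_) fun r hr r' hr' h h' =>
    rough_smooth_unique ha hr hr' (key r hr h).1 (key r hr h).2 (key r' hr' h').1 (key r' hr' h').2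
  rw [norm_mul]
  refine (mul_le_of_le_one_right (norm_nonneg _) ?_).trans
    (hM r (u5_split ha hr).1 (u5_sqf ha hs hr).1)
  unfold ms
  split_ifs
  · exact norm_mu_le _
  · simp

theorem norm_aB_le {w R M : ℝ} {α : O → ℂ} (hM : ∀ r, Prim r → Squarefree r → ‖α r‖ ≤ M)
    (hα : ∀ r, Prim r → Squarefree r → α r ≠ 0 → Rough w r) {φ : ℕ → ℂ} (hφ : ∀ i, ‖φ i‖ ≤ 1) {a : O}
    (ha : Prim a) (hs : Squarefree a) : ‖aB α w R φ a‖ ≤ M := by
  classical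
  have hM0 : 0 ≤ M := (norm_nonneg _).trans (hM 1 prim_one squarefree_one)
  have key : ∀ r ∈ pdiv a,
      α r * (if BdC w (R / Nr r) (a / r) then mu (a / r) * φ (lp (a / r)) else 0) ≠ 0 →
        Rough w r ∧ Smth w (a / r) := by
    intro r hr h
    refine ⟨hα r (u5_split ha hr).1 (u5_sqf ha hs hr).1 (left_ne_zero_of_mul h), ?_⟩
    by_contra h1
    exact right_ne_zero_of_mul h (if_neg fun h2 => h1 h2.1)
  refine u5_norm_sum hM0 _ (fun r hr => ?_) fun r hr r' hr' h h' =>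
    rough_smooth_unique ha hr hr' (key r hr h).1 (key r hr h).2 (key r' hr' h').1 (key r' hr' h').2
  rw [norm_mul]
  refine (mul_le_of_le_one_right (norm_nonneg _) ?_).trans
    (hM r (u5_split ha hr).1 (u5_sqf ha hs hr).1)
  split_ifs
  · rw [norm_mul]
    exact mul_le_one₀ (norm_mu_le _) (norm_nonneg _) (hφ _)
  · simp

theorem aB_supp {w R R₀ : ℝ} (hw : 1 ≤ w) (hR : 0 < R) {α : O → ℂ}
    (hα : ∀ r, Prim r → Squarefree r → α r ≠ 0 → Nr r ≤ R₀) {φ : ℕ → ℂ} {a : O}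
    (ha : Prim a) (hs : Squarefree a) (h : aB α w R φ a ≠ 0) :
    R < Nr a ∧ Nr a ≤ R * w ^ 2 ∧
      ∃ e : O, Prim e ∧ e ∣ a ∧ Smth w e ∧ R / R₀ < Nr e ∧ Nr e ≤ R * w ^ 2 := by
  classical
  obtain ⟨r, hr, h0⟩ := Finset.exists_ne_zero_of_sum_ne_zero h
  obtain ⟨a1, a2, a3⟩ := u5_split ha hr
  obtain ⟨s1, s2⟩ := u5_sqf ha hs hr
  have h1 : BdC w (R / Nr r) (a / r) := by
    by_contra h1
    exact right_ne_zero_of_mul h0 (if_neg h1)
  have h2 := hα r a1 s1 (left_ne_zero_of_mul h0)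
  have hN : 0 < Nr r := Nr_pos a1.ne_zero
  have hN1 : 1 ≤ Nr r := one_le_Nr a1.ne_zero
  have h3 := h1.le hw a2 s2
  have h4 := h1.2.1
  have e : Nr a = Nr r * Nr (a / r) := by rw [← Nr_mul, a3]
  refine ⟨?_, ?_, a / r, a2, ⟨r, by rw [mul_comm, a3]⟩, h1.1, ?_, ?_⟩
  · rw [e, mul_comm]; exact (div_lt_iff₀ hN).1 h4
  · rw [e]
    calc Nr r * Nr (a / r) ≤ Nr r * (R / Nr r * w ^ 2) := mul_le_mul_of_nonneg_left h3 hN.le
      _ = R * w ^ 2 := by field_simp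
  · exact lt_of_le_of_lt (div_le_div_of_nonneg_left hR.le hN h2) h4
  · exact h3.trans (mul_le_mul_of_nonneg_right (div_le_self hR.le hN1) (by positivity))

end Crest.Agent.R012

end
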