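import Crest.Agent.R012.Sv2

/-! # Row 12: the Buchstab identity -/

set_option autoImplicit false

noncomputable section

open scoped BigOperators ComplexConjugate Topology
open Complex MeasureTheory Filter Set Crest.Agent.R017

namespace Crest.Agent.R012

theorem u5a_lp_le {n p : O} (hp : Prime p) (h : p ∣ n) : lp n ≤ nm p :=
  Nat.sInf_le ⟨p, hp, h, rfl⟩

theorem u5a_sum_pdiv {p n : O} (hp : Prime p) (hpp : Prim p) (hn : Prim n) (hpn : ¬ p ∣ n)
    (f : O → ℂ) : ∑ d ∈ pdiv (p * n), f d = ∑ d ∈ pdiv n, f d + ∑ d ∈ pdiv n, f (p * d) := by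
  classical
  have h0 : p * n ≠ 0 := mul_ne_zero hp.ne_zero hn.ne_zero
  rw [← Finset.sum_filter_not_add_sum_filter (pdiv (p * n)) (fun d => p ∣ d)]
  congr 1
  · refine Finset.sum_congr ?_ fun _ _ => rfl
    ext d
    rw [Finset.mem_filter, mem_pdiv h0, mem_pdiv hn.ne_zero]
    constructor
    · rintro ⟨⟨h1, h2⟩, h3⟩
      exact ⟨h1, ((hp.coprime_iff_not_dvd.2 h3).symm).dvd_of_dvd_mul_left h2⟩
    · rintro ⟨h1, h2⟩
      exact ⟨⟨h1, h2.mul_left _⟩, fun h => hpn (h.trans h2)⟩
  · symm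
    refine Finset.sum_bij (fun d _ => p * d) ?_ ?_ ?_ fun _ _ => rfl
    · intro d hd
      obtain ⟨h1, h2⟩ := (mem_pdiv hn.ne_zero).1 hd
      exact Finset.mem_filter.2 ⟨(mem_pdiv h0).2 ⟨hpp.mul h1, mul_dvd_mul_left _ h2⟩, dvd_mul_right _ _⟩
    · intro a _ b _ h
      exact mul_left_cancel₀ hp.ne_zero h
    · intro d hd
      obtain ⟨hd, ⟨c, rfl⟩⟩ := Finset.mem_filter.1 hd
      obtain ⟨h1, h2⟩ := (mem_pdiv h0).1 hd
      exact ⟨c, (mem_pdiv hn.ne_zero).2 ⟨hpp.of_mul h1, (mul_dvd_mul_iff_left hp.ne_zero).1 h2⟩, rfl⟩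

theorem u5a_up_dvd (y : ℕ) {e : O} (he : e ≠ 0) : up y e ∣ e :=
  (Finset.prod_dvd_prod_of_subset _ _ _ (Finset.filter_subset _ _)).trans (rad_dvd he)

theorem u5a_nm_assoc {x y : O} (h : Associated x y) : nm x = nm y := by
  have := Nr_eq_of_associated h
  unfold Nr at this
  exact_mod_cast this

theorem u5a_up_mul {p d : O} (hp : Prime p) (hpp : Prim p) (hd : d ≠ 0) :
    up (nm p) (p * d) = up (nm p) d := by
  unfold up
  refine Finset.prod_congr ?_ fun _ _ => rfl
  ext q
  rw [Finset.mem_filter, Finset.mem_filter, mem_pf hd, mem_pf (mul_ne_zero hp.ne_zero hd)]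
  constructor
  · rintro ⟨⟨h1, h2⟩, h3⟩
    refine ⟨⟨h1, (h1.1.dvd_or_dvd h2).resolve_left fun h => ?_⟩, h3⟩
    have := u5a_nm_assoc (h1.1.associated_of_dvd hp h)
    omega
  · rintro ⟨⟨h1, h2⟩, h3⟩
    have _ := hpp
    exact ⟨⟨h1, h2.mul_left _⟩, h3⟩

theorem u5a_smth_mul {w : ℝ} {p d : O} (hp : Prime p) (hw : Nr p ≤ w) :
    Smth w (p * d) ↔ Smth w d := by
  refine ⟨fun h q hq hd => h q hq (hd.mul_left _), fun h q hq hd => ?_⟩
  rcases hq.dvd_or_dvd hd with h1 | h1
  · rwa [Nr_eq_of_associated (hq.associated_of_dvd hp h1)]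
  · exact h q hq h1

theorem u5a_not_unit {z : ℝ} (hz : 1 ≤ z) {e : O} (h : z < Nr e) : ¬ IsUnit e := fun hu => by
  rw [isUnit_iff_Nr.1 hu] at h
  linarith

theorem u5a_one_le_nm {p : O} (hp : Prime p) : 1 ≤ nm p :=
  Nat.pos_of_ne_zero fun h => hp.ne_zero (nm_eq_zero.1 h)

theorem lp_spec {n : O} (hn : n ≠ 0) (hu : ¬ IsUnit n) :
    (∃ p : O, Prime p ∧ p ∣ n ∧ nm p = lp n) ∧ ∀ p : O, Prime p → p ∣ n → lp n ≤ nm p := by
  obtain ⟨p, hp, hd⟩ := WfDvdMonoid.exists_irreducible_factor hu hn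
  have hne : {k : ℕ | ∃ p : O, Prime p ∧ p ∣ n ∧ nm p = k}.Nonempty :=
    ⟨nm p, p, hp.prime, hd, rfl⟩
  exact ⟨Nat.sInf_mem hne, fun q hq h => u5a_lp_le hq h⟩

open Classical in
/-- Telescoping: let `F y = 1[c is y-rough] ∑ μ(e)` over `e ∣ c` with `N e ≤ z` composed of primes
with norms in `(y, w]`.  Then `F ⌊w⌋ = rg w c`, and `F y - F (y - 1)` is the sum of the boundary
terms with `lp e = y`. -/
theorem buchstab {w z : ℝ} (hw : 0 ≤ w) (hz : 1 ≤ z) {c : O} (hc : Prim c) (hs : Squarefree c) :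
    rg w c = (∑ e ∈ pdiv c, if Nr e ≤ z then ms w e else 0) +
      ∑ e ∈ pdiv c, if BdC w z e ∧ lp e ≤ lq w (c / e) then mu e else 0 := by
  have _ := hw
  have hc0 := hc.ne_zero
  by_cases hr : Rough w c
  · have h1 : ∀ e ∈ pdiv c, Smth w e → e = 1 := by
      intro e he hsm
      obtain ⟨h1, h2⟩ := (mem_pdiv hc0).1 he
      refine h1.eq_one_of_isUnit (by_contra fun hu => ?_)
      obtain ⟨⟨p, hp, hd, -⟩, -⟩ := lp_spec h1.ne_zero hu
      exact absurd (hr p hp (hd.trans h2)) (not_lt.2 (hsm p hp hd))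
    have hone : (1 : O) ∈ pdiv c := (mem_pdiv hc0).2 ⟨prim_one, one_dvd _⟩
    have hs1 : Smth w 1 := fun p hp hd => absurd (isUnit_of_dvd_one hd) hp.not_isUnit
    rw [Finset.sum_eq_single_of_mem 1 hone, Finset.sum_eq_zero]
    · simp [rg, ms, hs, hr, hs1, Nr_one, hz, mu_one]
    · intro e he
      refine if_neg fun h => ?_
      have h2 := h.1.2.1
      rw [h1 e he h.1.1, Nr_one] at h2
      linarith
    · intro e he hne
      have : ¬ Smth w e := fun h => hne (h1 e he h)
      simp [ms, this]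
  · have hrg : rg w c = 0 := by simp [rg, hr]
    obtain ⟨q, hq, hqc, hqw⟩ : ∃ q : O, Prime q ∧ q ∣ c ∧ Nr q ≤ w := by
      by_contra hcon
      push Not at hcon
      exact hr hcon
    have hu : ¬ IsUnit c := fun hu => hq.not_isUnit (isUnit_of_dvd_unit hqc hu)
    obtain ⟨⟨p', hp', hd', hn'⟩, hmin⟩ := lp_spec hc0 hu
    obtain ⟨p, hPP, hass⟩ := exists_PP hp'
    have hp : Prime p := hPP.1
    have hpc : p ∣ c := hass.symm.dvd.trans hd'
    have hpp : Prim p := a1_prim_of_mem_pf hc ((mem_pf hc0).2 ⟨hPP, hpc⟩)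
    have hnp : nm p = lp c := by rw [← u5a_nm_assoc hass, hn']
    have hpw : Nr p ≤ w := by
      refine le_trans ?_ hqw
      unfold Nr
      exact_mod_cast hnp ▸ hmin q hq hqc
    set g : O → ℂ := fun e => if Smth w e ∧ Nr (up (nm p) e) ≤ z then mu e else 0 with hg
    have hterm : ∀ e ∈ pdiv c, ((if Nr e ≤ z then ms w e else 0) +
        if BdC w z e ∧ lp e ≤ lq w (c / e) then mu e else 0) = g e := by
      intro e he
      obtain ⟨h1, h2⟩ := (mem_pdiv hc0).1 he
      have he0 := h1.ne_zero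
      have hce : e * (c / e) = c := EuclideanDomain.mul_div_cancel' he0 h2
      by_cases hsm : Smth w e
      · by_cases hez : Nr e ≤ z
        · have h3 : Nr (up (nm p) e) ≤ z := (Nr_le_of_dvd he0 (u5a_up_dvd _ he0)).trans hez
          have h4 : ¬ (BdC w z e ∧ lp e ≤ lq w (c / e)) := fun h => absurd h.1.2.1 (not_lt.2 hez)
          simp [hg, ms, hsm, hez, h3, h4]
        · have hze : z < Nr e := not_le.1 hez
          obtain ⟨⟨r, hr', hre, hrn⟩, -⟩ := lp_spec he0 (u5a_not_unit hz hze)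
          have hge : nm p ≤ lp e := by
            rw [hnp, ← hrn]
            exact hmin r hr' (hre.trans h2)
          have hiff : (BdC w z e ∧ lp e ≤ lq w (c / e)) ↔ (Smth w e ∧ Nr (up (nm p) e) ≤ z) := by
            constructor
            · rintro ⟨hb, hl⟩
              have hle : lp e ≤ nm p := by
                rcases hp.dvd_or_dvd (by rw [hce]; exact hpc : p ∣ e * (c / e)) with h | h
                · exact u5a_lp_le hp h
                · have hnr : ¬ Rough w (c / e) := fun hh => absurd (hh p hp h) (not_lt.2 hpw)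
                  rw [lq, if_neg hnr] at hl
                  exact hl.trans (u5a_lp_le hp h)
              have heq : lp e = nm p := le_antisymm hle hge
              exact ⟨hsm, heq ▸ hb.2.2⟩
            · rintro ⟨-, hup⟩
              have hle : lp e ≤ nm p := by
                by_contra hcon
                have hall : (pf e).filter (fun r => nm p < nm r) = pf e :=
                  Finset.filter_true_of_mem fun r hr =>
                    (not_le.1 hcon).trans_le (u5a_lp_le (a1_of_mem_pf hr).1.1 (a1_of_mem_pf hr).2)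
                have : up (nm p) e = e := by
                  unfold up
                  rw [hall]
                  exact rad_eq_self h1 (hs.squarefree_of_dvd h2)
                rw [this] at hup
                exact hez hup
              have heq : lp e = nm p := le_antisymm hle hge
              refine ⟨⟨hsm, hze, heq ▸ hup⟩, ?_⟩
              rw [heq, lq]
              split_ifs with hro
              · exact (Nat.le_floor hpw).trans (Nat.le_succ _)
              · obtain ⟨s, hs', hsc, -⟩ : ∃ s : O, Prime s ∧ s ∣ c / e ∧ Nr s ≤ w := by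
                  by_contra hcon
                  push Not at hcon
                  exact hro hcon
                have hce0 : c / e ≠ 0 := fun h => hc0 (by rw [← hce, h, mul_zero])
                obtain ⟨⟨u, hu1, hu2, hu3⟩, -⟩ :=
                  lp_spec hce0 fun hu => hs'.not_isUnit (isUnit_of_dvd_unit hsc hu)
                rw [← hu3, hnp]
                exact hmin u hu1 (hce ▸ hu2.mul_left e)
          rw [if_neg hez, zero_add]
          simp only [hg]
          exact if_congr hiff rfl rfl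
      · have h4 : ¬ (BdC w z e ∧ lp e ≤ lq w (c / e)) := fun h => hsm h.1.1
        simp [hg, ms, hsm, h4]
    rw [hrg, ← Finset.sum_add_distrib, Finset.sum_congr rfl hterm]
    obtain ⟨n, rfl⟩ := hpc
    have hn : Prim n := hpp.of_mul hc
    have hpn : ¬ p ∣ n := fun h => hp.not_isUnit (hs p (mul_dvd_mul_left p h))
    rw [u5a_sum_pdiv hp hpp hn hpn, ← Finset.sum_add_distrib]
    refine (Finset.sum_eq_zero fun d hd => ?_).symm
    obtain ⟨h1, h2⟩ := (mem_pdiv hn.ne_zero).1 hd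
    have hcop : IsCoprime p d := hp.coprime_iff_not_dvd.2 fun h => hpn (h.trans h2)
    simp only [hg, u5a_up_mul hp hpp h1.ne_zero, u5a_smth_mul hp hpw, mu_mul hcop, mu_prime hp]
    split_ifs <;> ring

/-- `card_prime_norm_le`. -/
theorem BdC.le {w z : ℝ} (hw : 1 ≤ w) {e : O} (he : Prim e) (hs : Squarefree e) (h : BdC w z e) :
    Nr e ≤ z * w ^ 2 := by
  classical
  obtain ⟨hsm, -, hup⟩ := h
  set S := (pf e).filter (fun p => ¬ lp e < nm p) with hS
  have hcard : S.card ≤ 2 := card_prime_norm_le (lp e) S fun p hp => by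
    obtain ⟨h1, h2⟩ := Finset.mem_filter.1 hp
    exact ⟨(a1_of_mem_pf h1).1.1, a1_prim_of_mem_pf he h1,
      le_antisymm (not_lt.1 h2) (u5a_lp_le (a1_of_mem_pf h1).1.1 (a1_of_mem_pf h1).2)⟩
  have h1 : e = up (lp e) e * ∏ p ∈ S, p := by
    conv_lhs => rw [← rad_eq_self he hs]
    exact (Finset.prod_filter_mul_prod_filter_not _ _ _).symm
  have h2 : Nr (∏ p ∈ S, p) ≤ w ^ 2 := by
    rw [Nr_prod]
    refine (Finset.prod_le_prod (g := fun _ => w) (fun p _ => Nr_nonneg p) fun p hp => ?_).trans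
      (by rw [Finset.prod_const]; exact pow_le_pow_right₀ hw hcard)
    have h3 := (Finset.mem_filter.1 hp).1
    exact hsm p (a1_of_mem_pf h3).1.1 (a1_of_mem_pf h3).2
  calc Nr e = Nr (up (lp e) e) * Nr (∏ p ∈ S, p) := by rw [← Nr_mul, ← h1]
    _ ≤ z * w ^ 2 := mul_le_mul hup h2 (Nr_nonneg _) ((Nr_nonneg _).trans hup)

theorem BdC.lp_mem {w z : ℝ} (hz : 1 ≤ z) {e : O} (he : e ≠ 0) (h : BdC w z e) :
    1 ≤ lp e ∧ lp e ≤ ⌊w⌋₊ + 1 := by
  obtain ⟨⟨p, hp, hd, hn⟩, -⟩ := lp_spec he (u5a_not_unit hz h.2.1)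
  rw [← hn]
  exact ⟨u5a_one_le_nm hp, (Nat.le_floor (h.1 p hp hd)).trans (Nat.le_succ _)⟩

theorem lq_mem (w : ℝ) {m : O} (hm : m ≠ 0) : 1 ≤ lq w m ∧ lq w m ≤ ⌊w⌋₊ + 1 := by
  unfold lq
  split_ifs with hr
  · omega
  · obtain ⟨s, hs, hsm, hsw⟩ : ∃ s : O, Prime s ∧ s ∣ m ∧ Nr s ≤ w := by
      by_contra hcon
      push Not at hcon
      exact hr hcon
    obtain ⟨⟨p, hp, -, hn⟩, hmin⟩ := lp_spec hm fun hu => hs.not_isUnit (isUnit_of_dvd_unit hsm hu)
    exact ⟨hn ▸ u5a_one_le_nm hp,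
      ((hmin s hs hsm).trans (Nat.le_floor hsw)).trans (Nat.le_succ _)⟩

end Crest.Agent.R012

end
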