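import Crest.Agent.R012.U6a
import Crest.Agent.R012.U4

/-! # Row 12: type I sums over rough elements -/

set_option autoImplicit false

noncomputable section

open scoped BigOperators ComplexConjugate Topology
open Complex MeasureTheory Filter Set Crest.Agent.R017

namespace Crest.Agent.R012

private theorem u6_rpow_le {x Y s : ℝ} (hx : 0 ≤ x) (hY : 0 ≤ Y) (h2 : Y ≤ 10 * x) (hs0 : 0 ≤ s)
    (hs1 : s ≤ 1) : Y ^ s ≤ 10 * x ^ s := by
  calc Y ^ s ≤ (10 * x) ^ s := Real.rpow_le_rpow hY h2 hs0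
    _ = (10 : ℝ) ^ s * x ^ s := Real.mul_rpow (by norm_num) hx
    _ ≤ 10 * x ^ s := by
      apply mul_le_mul_of_nonneg_right _ (Real.rpow_nonneg hx s)
      calc (10 : ℝ) ^ s ≤ (10 : ℝ) ^ (1 : ℝ) := Real.rpow_le_rpow_of_exponent_le (by norm_num) hs1
        _ = 10 := Real.rpow_one _

private theorem u6_typeI_bd {x Y τ : ℝ} (hx : 1 ≤ x) (hY : 0 ≤ Y) (h2 : Y ≤ 10 * x) :
    (Y * (1 + |τ|)) ^ (1 / 1000 : ℝ) * (Y ^ (3 / 200 : ℝ) * ((x ^ (54 / 100 : ℝ)) ^ (3 / 2 : ℝ) +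
      x ^ (54 / 100 : ℝ) * Y ^ (1 / 6 : ℝ)) * (1 + |τ|) ^ 2 + (x ^ (54 / 100 : ℝ) * Y) ^ (1 / 2 : ℝ) +
      Y ^ (5 / 6 - 1 / 100 : ℝ)) ≤ 1300 * (x ^ (5 / 6 - 1 / 200 : ℝ) * (1 + |τ|) ^ 3) := by
  have hx0 : 0 < x := by linarith
  have ht : 1 ≤ 1 + |τ| := by linarith [abs_nonneg τ]
  have ht2 : 1 ≤ (1 + |τ|) ^ 2 := one_le_pow₀ ht
  have mono : ∀ s s' : ℝ, s ≤ s' → x ^ s ≤ x ^ s' := fun s s' h =>
    Real.rpow_le_rpow_of_exponent_le hx h
  have pos : ∀ s : ℝ, 0 < x ^ s := fun s => Real.rpow_pos_of_pos hx0 s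
  have e1 : (Y * (1 + |τ|)) ^ (1 / 1000 : ℝ) ≤ 10 * x ^ (1 / 1000 : ℝ) * (1 + |τ|) := by
    rw [Real.mul_rpow hY (by linarith)]
    apply mul_le_mul (u6_rpow_le hx0.le hY h2 (by norm_num) (by norm_num)) _
      (Real.rpow_nonneg (by linarith) _) (by have := pos (1 / 1000); positivity)
    calc (1 + |τ|) ^ (1 / 1000 : ℝ) ≤ (1 + |τ|) ^ (1 : ℝ) :=
          Real.rpow_le_rpow_of_exponent_le ht (by norm_num)
      _ = 1 + |τ| := Real.rpow_one _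
  have e2 : (x ^ (54 / 100 : ℝ)) ^ (3 / 2 : ℝ) = x ^ (81 / 100 : ℝ) := by
    rw [← Real.rpow_mul hx0.le]; norm_num
  have e3 : x ^ (54 / 100 : ℝ) * Y ^ (1 / 6 : ℝ) ≤ 10 * x ^ (81 / 100 : ℝ) := by
    calc x ^ (54 / 100 : ℝ) * Y ^ (1 / 6 : ℝ) ≤ x ^ (54 / 100 : ℝ) * (10 * x ^ (1 / 6 : ℝ)) :=
          mul_le_mul_of_nonneg_left (u6_rpow_le hx0.le hY h2 (by norm_num) (by norm_num)) (pos _).le
      _ = 10 * x ^ (54 / 100 + 1 / 6 : ℝ) := by rw [Real.rpow_add hx0]; ring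
      _ ≤ 10 * x ^ (81 / 100 : ℝ) := by
          have := mono (54 / 100 + 1 / 6) (81 / 100) (by norm_num); linarith
  have e4 : Y ^ (3 / 200 : ℝ) * ((x ^ (54 / 100 : ℝ)) ^ (3 / 2 : ℝ) +
      x ^ (54 / 100 : ℝ) * Y ^ (1 / 6 : ℝ)) ≤ 110 * x ^ (33 / 40 : ℝ) := by
    rw [e2]
    calc Y ^ (3 / 200 : ℝ) * (x ^ (81 / 100 : ℝ) + x ^ (54 / 100 : ℝ) * Y ^ (1 / 6 : ℝ))
        ≤ (10 * x ^ (3 / 200 : ℝ)) * (11 * x ^ (81 / 100 : ℝ)) := by
          apply mul_le_mul (u6_rpow_le hx0.le hY h2 (by norm_num) (by norm_num)) (by linarith)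
          · have := pos (81 / 100); have := pos (54 / 100)
            have := Real.rpow_nonneg hY (1 / 6); positivity
          · have := pos (3 / 200); positivity
      _ = 110 * x ^ (3 / 200 + 81 / 100 : ℝ) := by rw [Real.rpow_add hx0]; ring
      _ = 110 * x ^ (33 / 40 : ℝ) := by norm_num
  have e5 : (x ^ (54 / 100 : ℝ) * Y) ^ (1 / 2 : ℝ) ≤ 10 * x ^ (33 / 40 : ℝ) := by
    rw [Real.mul_rpow (pos _).le hY, ← Real.rpow_mul hx0.le]
    calc x ^ (54 / 100 * (1 / 2) : ℝ) * Y ^ (1 / 2 : ℝ)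
        ≤ x ^ (54 / 100 * (1 / 2) : ℝ) * (10 * x ^ (1 / 2 : ℝ)) :=
          mul_le_mul_of_nonneg_left (u6_rpow_le hx0.le hY h2 (by norm_num) (by norm_num)) (pos _).le
      _ = 10 * x ^ (54 / 100 * (1 / 2) + 1 / 2 : ℝ) := by rw [Real.rpow_add hx0]; ring
      _ ≤ 10 * x ^ (33 / 40 : ℝ) := by
          have := mono (54 / 100 * (1 / 2) + 1 / 2) (33 / 40) (by norm_num); linarith
  have e6 : Y ^ (5 / 6 - 1 / 100 : ℝ) ≤ 10 * x ^ (33 / 40 : ℝ) := by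
    have h1 := u6_rpow_le (s := 5 / 6 - 1 / 100) hx0.le hY h2 (by norm_num) (by norm_num)
    have := mono (5 / 6 - 1 / 100) (33 / 40) (by norm_num); linarith
  have e7 : Y ^ (3 / 200 : ℝ) * ((x ^ (54 / 100 : ℝ)) ^ (3 / 2 : ℝ) +
      x ^ (54 / 100 : ℝ) * Y ^ (1 / 6 : ℝ)) * (1 + |τ|) ^ 2 + (x ^ (54 / 100 : ℝ) * Y) ^ (1 / 2 : ℝ) +
      Y ^ (5 / 6 - 1 / 100 : ℝ) ≤ 130 * x ^ (33 / 40 : ℝ) * (1 + |τ|) ^ 2 := by
    have h1 := mul_le_mul_of_nonneg_right e4 (by positivity : 0 ≤ (1 + |τ|) ^ 2)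
    have h2 : x ^ (33 / 40 : ℝ) ≤ x ^ (33 / 40 : ℝ) * (1 + |τ|) ^ 2 :=
      le_mul_of_one_le_right (pos _).le ht2
    linarith
  have e8 : x ^ (1 / 1000 : ℝ) * x ^ (33 / 40 : ℝ) ≤ x ^ (5 / 6 - 1 / 200 : ℝ) := by
    rw [← Real.rpow_add hx0]; exact mono _ _ (by norm_num)
  refine (mul_le_mul e1 e7 ?_ ?_).trans ?_
  · have := Real.rpow_nonneg hY (3 / 200); have := Real.rpow_nonneg hY (1 / 6)
    have := Real.rpow_nonneg hY (5 / 6 - 1 / 100)
    have := pos (54 / 100)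
    positivity
  · have := pos (1 / 1000); positivity
  · have h3 : 0 ≤ (1 + |τ|) ^ 3 := by positivity
    calc 10 * x ^ (1 / 1000 : ℝ) * (1 + |τ|) * (130 * x ^ (33 / 40 : ℝ) * (1 + |τ|) ^ 2)
        = 1300 * ((x ^ (1 / 1000 : ℝ) * x ^ (33 / 40 : ℝ)) * (1 + |τ|) ^ 3) := by ring
      _ ≤ _ := by gcongr

private theorem u6_R_le {x Y : ℝ} (hx : 1000 ≤ x) (h1 : x / 10 ≤ Y) : x ^ (54 / 100 : ℝ) ≤ Y := by
  have hx0 : 0 < x := by linarith
  have h2 : (10 : ℝ) ≤ x ^ (1 / 3 : ℝ) := by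
    calc (10 : ℝ) = (1000 : ℝ) ^ (1 / 3 : ℝ) := by
          rw [show (1000 : ℝ) = 10 ^ (3 : ℝ) by norm_num, ← Real.rpow_mul (by norm_num)]; norm_num
      _ ≤ x ^ (1 / 3 : ℝ) := Real.rpow_le_rpow (by norm_num) hx (by norm_num)
  have h3 : x ^ (54 / 100 : ℝ) * x ^ (1 / 3 : ℝ) ≤ x := by
    rw [← Real.rpow_add hx0]
    calc x ^ (54 / 100 + 1 / 3 : ℝ) ≤ x ^ (1 : ℝ) :=
          Real.rpow_le_rpow_of_exponent_le (by linarith) (by norm_num)
      _ = x := Real.rpow_one _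
  have h4 := Real.rpow_pos_of_pos hx0 (54 / 100)
  nlinarith

private theorem u6_one_le_log {x : ℝ} (hx : 16 ≤ x) : 1 ≤ Real.log x := by
  rw [Real.le_log_iff_exp_le (by linarith)]
  have := Real.exp_one_lt_d9
  linarith

private theorem u6_pg_ms (w : ℝ) : Pg (ms w) := by
  apply pg_of_bdd (M := 1)
  intro n _ _
  unfold ms
  split_ifs
  · exact norm_mu_le n
  · simp

/-- `sep_le`, `rt_decomp`, `typeI_sum` with `R = x^{0.54}`, `boundary`. -/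
theorem rt (l : ℤ) (K : ℝ) : ∃ C x₀ : ℝ, 0 ≤ C ∧ ∀ (x Y τ M : ℝ) (α : O → ℂ), x₀ ≤ x → x / 10 ≤ Y →
    Y ≤ 10 * x → (∀ r, Prim r → Squarefree r → ‖α r‖ ≤ M) →
    (∀ r, Prim r → Squarefree r → α r ≠ 0 → Rough (ww x) r ∧ Nr r ≤ x ^ (53 / 100 : ℝ)) →
    ‖SF l 2 (cv α (rg (ww x))) Y τ‖ ≤
      C * M * (x ^ (5 / 6 : ℝ) / Real.log x ^ K + x ^ (5 / 6 - 1 / 200 : ℝ) * (1 + |τ|) ^ 3) := by
  obtain ⟨Cs, hCs, hsep⟩ := sep_le
  obtain ⟨Ct, hCt, hT⟩ := typeI_sum l (ε := 1 / 1000) (by norm_num)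
  obtain ⟨Cb, xb, hCb, hB⟩ := boundary l (K + 1)
  obtain ⟨xw, hxw, hw⟩ := ww_facts 1 (ρ := 1) one_pos
  refine ⟨1300 * Ct + 3 * Cs * Cb, max (max xb xw) 1000, by positivity, ?_⟩
  intro x Y τ M α hx h1 h2 hM hα
  have hxb : xb ≤ x := le_trans (le_trans (le_max_left _ _) (le_max_left _ _)) hx
  have hxw' : xw ≤ x := le_trans (le_trans (le_max_right _ _) (le_max_left _ _)) hx
  have hx3 : 1000 ≤ x := le_trans (le_max_right _ _) hx
  have hx0 : 0 < x := by linarith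
  have hY : 0 < Y := by linarith
  obtain ⟨hw3, -, -, hwx, -, -⟩ := hw x hxw'
  rw [Real.rpow_one] at hwx
  have hM0 : 0 ≤ M := (norm_nonneg _).trans (hM 1 prim_one squarefree_one)
  have hL : 1 ≤ Real.log x := u6_one_le_log (by linarith)
  have hL0 : 0 < Real.log x := by linarith
  set w := ww x with hwdef
  set R := x ^ (54 / 100 : ℝ) with hR
  obtain ⟨c, φ, ψ, hc, hφ, hψ, hid⟩ := hsep (⌊w⌋₊ + 1) (by omega)
  have hαR : ∀ r, Prim r → Squarefree r → α r ≠ 0 → Nr r ≤ R := fun r hr hs h =>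
    (hα r hr hs h).2.trans (Real.rpow_le_rpow_of_exponent_le (by linarith) (by norm_num))
  have hαr : ∀ r, Prim r → Squarefree r → α r ≠ 0 → Rough w r := fun r hr hs h => (hα r hr hs h).1
  have hpgα : Pg α := pg_of_bdd hM
  have hpg1 : Pg (fun _ : O => (1 : ℂ)) := pg_of_bdd (M := 1) (by simp)
  have hpgB : ∀ k, Pg (cv (aB α w R (φ k)) (fun m => ψ k (lq w m))) := fun k =>
    Pg.cv (pg_of_bdd (M := M) fun a ha hs => norm_aB_le hM hαr (hφ k) ha hs)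
      (pg_of_bdd (M := 1) fun m _ _ => hψ k _)
  have hpgB' : ∀ k, Pg (fun n => c k * cv (aB α w R (φ k)) (fun m => ψ k (lq w m)) n) := fun k =>
    Pg.mul (pg_of_bdd (M := ‖c k‖) fun _ _ _ => le_rfl) (hpgB k)
  have hpgS : Pg (fun n => ∑ k ∈ Finset.range (2 * (⌊w⌋₊ + 1)),
      c k * cv (aB α w R (φ k)) (fun m => ψ k (lq w m)) n) := by
    generalize Finset.range (2 * (⌊w⌋₊ + 1)) = S
    induction S using Finset.induction_on with
    | empty => simpa using pg_of_bdd (M := 0) (f := fun _ => (0 : ℂ)) (by simp)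
    | insert a S ha ih =>
      simp only [Finset.sum_insert ha]
      exact Pg.add (hpgB' a) ih
  have hdec : SF l 2 (cv α (rg w)) Y τ =
      SF l 2 (cv (cut (Iic R) (cv α (ms w))) (fun _ => 1)) Y τ +
        ∑ k ∈ Finset.range (2 * (⌊w⌋₊ + 1)),
          c k * SF l 2 (cv (aB α w R (φ k)) (fun m => ψ k (lq w m))) Y τ := by
    rw [SF_congr (fun n hn hs => rt_decomp (by linarith) hαR hid hn hs) l 2 Y τ,
      SF_add (Pg.cv (Pg.cut (Pg.cv hpgα (u6_pg_ms w)) _) hpg1) hpgS l two_pos hY τ,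
      SF_sum _ (fun k _ => hpgB' k) l two_pos hY τ]
    simp only [SF_const_mul]
  have hR1 : 1 ≤ R := Real.one_le_rpow (by linarith) (by norm_num)
  have hI := hT Y R τ M (cut (Iic R) (cv α (ms w))) hR1 (u6_R_le hx3 h1)
    (fun r hr hs => (norm_cut_le _ _ _).trans (norm_cv_ms_le hM hαr hr hs))
    (fun r _ _ h => (cut_ne_zero h).1)
  have hI' : ‖SF l 2 (cv (cut (Iic R) (cv α (ms w))) (fun _ => 1)) Y τ‖ ≤
      1300 * Ct * M * (x ^ (5 / 6 - 1 / 200 : ℝ) * (1 + |τ|) ^ 3) := by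
    refine hI.trans ?_
    have := mul_le_mul_of_nonneg_left (u6_typeI_bd (τ := τ) (by linarith : 1 ≤ x) hY.le h2)
      (mul_nonneg hCt hM0)
    calc _ = Ct * M * _ := by rw [mul_assoc (Ct * M)]
      _ ≤ _ := this
      _ = _ := by ring
  have hbd : ∀ k, ‖SF l 2 (cv (aB α w R (φ k)) (fun m => ψ k (lq w m))) Y τ‖ ≤
      Cb * M * x ^ (5 / 6 : ℝ) / Real.log x ^ (K + 1) := fun k =>
    hB x Y τ M α _ (φ k) hxb h1 h2 hM hα (hφ k) (fun m => hψ k _)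
  have hlogK : 1 + Real.log ((⌊w⌋₊ + 1 : ℕ) : ℝ) ≤ 3 * Real.log x := by
    have h3 : ((⌊w⌋₊ + 1 : ℕ) : ℝ) ≤ x ^ 2 := by
      push_cast
      have := Nat.floor_le (show 0 ≤ w by linarith)
      nlinarith
    have h4 : Real.log ((⌊w⌋₊ + 1 : ℕ) : ℝ) ≤ Real.log (x ^ 2) :=
      Real.log_le_log (by positivity) h3
    rw [Real.log_pow] at h4
    push_cast at h4 ⊢
    linarith
  have hP : 0 < Real.log x ^ K := Real.rpow_pos_of_pos hL0 K
  have hx56 : 0 < x ^ (5 / 6 : ℝ) := Real.rpow_pos_of_pos hx0 _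
  have hII : ‖∑ k ∈ Finset.range (2 * (⌊w⌋₊ + 1)),
      c k * SF l 2 (cv (aB α w R (φ k)) (fun m => ψ k (lq w m))) Y τ‖ ≤
      3 * Cs * Cb * M * (x ^ (5 / 6 : ℝ) / Real.log x ^ K) := by
    have hq : 0 ≤ Cb * M * x ^ (5 / 6 : ℝ) / Real.log x ^ (K + 1) := by
      have := Real.rpow_pos_of_pos hL0 (K + 1); positivity
    calc _ ≤ ∑ k ∈ Finset.range (2 * (⌊w⌋₊ + 1)),
          ‖c k‖ * (Cb * M * x ^ (5 / 6 : ℝ) / Real.log x ^ (K + 1)) := by
          refine (norm_sum_le _ _).trans (Finset.sum_le_sum fun k _ => ?_)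
          rw [norm_mul]
          exact mul_le_mul_of_nonneg_left (hbd k) (norm_nonneg _)
      _ = (∑ k ∈ Finset.range (2 * (⌊w⌋₊ + 1)), ‖c k‖) *
          (Cb * M * x ^ (5 / 6 : ℝ) / Real.log x ^ (K + 1)) := by rw [Finset.sum_mul]
      _ ≤ (Cs * (3 * Real.log x)) * (Cb * M * x ^ (5 / 6 : ℝ) / Real.log x ^ (K + 1)) :=
          mul_le_mul_of_nonneg_right (hc.trans (mul_le_mul_of_nonneg_left hlogK hCs)) hq
      _ = _ := by
          rw [Real.rpow_add hL0, Real.rpow_one]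
          field_simp
  rw [hdec]
  refine (norm_add_le _ _).trans ?_
  have ha : 0 ≤ x ^ (5 / 6 : ℝ) / Real.log x ^ K := by positivity
  have hb : 0 ≤ x ^ (5 / 6 - 1 / 200 : ℝ) * (1 + |τ|) ^ 3 := by
    have := Real.rpow_pos_of_pos hx0 (5 / 6 - 1 / 200); positivity
  have h5 : 0 ≤ 1300 * Ct * M * (x ^ (5 / 6 : ℝ) / Real.log x ^ K) := by positivity
  have h6 : 0 ≤ 3 * Cs * Cb * M * (x ^ (5 / 6 - 1 / 200 : ℝ) * (1 + |τ|) ^ 3) := by positivity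
  nlinarith

/-- `log N n = log x + (log N n - log x)` and `norm_sm_log_le_circle`. -/
theorem partI (l : ℤ) (K : ℝ) : ∃ C x₀ : ℝ, 0 ≤ C ∧ ∀ x τ : ℝ, x₀ ≤ x →
    ‖SF l 2 (fI (ww x) (UU x) (x ^ (53 / 100 : ℝ))) x τ‖ ≤
      C * (x ^ (5 / 6 : ℝ) / Real.log x ^ K + x ^ (5 / 6 - 1 / 300 : ℝ) * (1 + |τ|) ^ 3) := by
  obtain ⟨C, x₁, hC, hrt⟩ := rt l (K + 1)
  obtain ⟨Cc, hCc⟩ := norm_sm_log_le_circle (a := 2) two_pos
  obtain ⟨xw, hxw, hw⟩ := ww_facts 1 (ρ := 1 / 600) (by norm_num)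
  refine ⟨C * (3 + |Cc| * (2 * Real.pi) * 8), max x₁ xw, by have := Real.pi_pos; positivity, ?_⟩
  intro x τ hx
  have hx1 : x₁ ≤ x := le_trans (le_max_left _ _) hx
  have hxw' : xw ≤ x := le_trans (le_max_right _ _) hx
  have hx16 : 16 ≤ x := hxw.trans hxw'
  have hx0 : 0 < x := by linarith
  have hL : 1 ≤ Real.log x := u6_one_le_log hx16
  have hL0 : 0 < Real.log x := by linarith
  obtain ⟨-, -, -, -, -, hlx⟩ := hw x hxw'
  rw [Real.rpow_one] at hlx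
  set w := ww x with hwdef
  set U := UU x with hU
  set R := x ^ (53 / 100 : ℝ) with hR
  have hRx : R ≤ x := by
    calc R ≤ x ^ (1 : ℝ) := Real.rpow_le_rpow_of_exponent_le (by linarith) (by norm_num)
      _ = x := Real.rpow_one _
  have hUR : U ≤ R := by
    have h1 : Real.log x ^ (1 / 4 : ℝ) ≤ x ^ (1 / 600 : ℝ) := by
      refine le_trans ?_ hlx
      calc Real.log x ^ (1 / 4 : ℝ) ≤ Real.log x ^ (1 : ℝ) :=
            Real.rpow_le_rpow_of_exponent_le hL (by norm_num)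
        _ = _ := Real.rpow_one _
    calc U = x ^ (1 / 3 : ℝ) * Real.log x ^ (1 / 4 : ℝ) := rfl
      _ ≤ x ^ (1 / 3 : ℝ) * x ^ (1 / 600 : ℝ) :=
          mul_le_mul_of_nonneg_left h1 (Real.rpow_nonneg hx0.le _)
      _ = x ^ (1 / 3 + 1 / 600 : ℝ) := (Real.rpow_add hx0 _ _).symm
      _ ≤ R := Real.rpow_le_rpow_of_exponent_le (by linarith) (by norm_num)
  have hmr : ∀ r, ‖mr w r‖ ≤ 1 := fun r => by
    rw [norm_mr]; unfold rg; split_ifs <;> simp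
  have hmr' : ∀ r, mr w r ≠ 0 → Rough w r := fun r h =>
    (rg_ne_zero.1 (right_ne_zero_of_mul h)).2
  have hlg : ∀ r, Prim r → Nr r ≤ x → ‖lgn r‖ ≤ Real.log x := fun r hr h => by
    have h1 := one_le_Nr hr.ne_zero
    unfold lgn
    rw [Complex.norm_real, Real.norm_of_nonneg (Real.log_nonneg h1)]
    exact Real.log_le_log (by linarith) h
  -- the three coefficient sequences
  set α₁ : O → ℂ := cut (Iic U) (mr w) with hα₁
  set α₂ : O → ℂ := cut (Iic U) (fun r => mr w r * lgn r) with hα₂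
  set α₃ : O → ℂ := cut (Iic R) (al2 w U U) with hα₃
  have b1 : ∀ r, Prim r → Squarefree r → ‖α₁ r‖ ≤ 1 := fun r _ _ => (norm_cut_le _ _ _).trans (hmr r)
  have s1 : ∀ r, Prim r → Squarefree r → α₁ r ≠ 0 → Rough w r ∧ Nr r ≤ R := fun r _ _ h =>
    ⟨hmr' r (cut_ne_zero h).2, le_trans (cut_ne_zero h).1 hUR⟩
  have s2 : ∀ r, Prim r → Squarefree r → α₂ r ≠ 0 → Rough w r ∧ Nr r ≤ R := fun r _ _ h =>
    ⟨hmr' r (left_ne_zero_of_mul (cut_ne_zero h).2), le_trans (cut_ne_zero h).1 hUR⟩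
  have b2 : ∀ r, Prim r → Squarefree r → ‖α₂ r‖ ≤ Real.log x := fun r hr hs => by
    by_cases h : α₂ r = 0
    · rw [h, norm_zero]; exact hL0.le
    · refine (norm_cut_le _ _ _).trans ?_
      rw [norm_mul]
      exact (mul_le_of_le_one_left (norm_nonneg _) (hmr r)).trans
        (hlg r hr ((s2 r hr hs h).2.trans hRx))
  have s3 : ∀ r, Prim r → Squarefree r → α₃ r ≠ 0 → Rough w r ∧ Nr r ≤ R := fun r hr _ h =>
    ⟨(al2_supp hr (cut_ne_zero h).2).1, (cut_ne_zero h).1⟩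
  have b3 : ∀ r, Prim r → Squarefree r → ‖α₃ r‖ ≤ Real.log x := fun r hr hs => by
    by_cases h : α₃ r = 0
    · rw [h, norm_zero]; exact hL0.le
    · refine (norm_cut_le _ _ _).trans ((norm_al2_le w U U hr hs).trans ?_)
      have h1 := one_le_Nr hr.ne_zero
      exact Real.log_le_log (by linarith) ((s3 r hr hs h).2.trans hRx)
  have p1 : Pg (cv α₁ (rg w)) := Pg.cv (pg_of_bdd b1) (pg_rg w)
  have p2 : Pg (cv α₂ (rg w)) := Pg.cv (pg_of_bdd b2) (pg_rg w)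
  have p3 : Pg (cv α₃ (rg w)) := Pg.cv (pg_of_bdd b3) (pg_rg w)
  have pc : Pg (fun _ : O => (Real.log x : ℂ)) := pg_of_bdd (M := ‖(Real.log x : ℂ)‖) fun _ _ _ => le_rfl
  have p4 : Pg (fun n => cv α₁ (rg w) n * (lgn n - (Real.log x : ℂ))) := Pg.mul p1 (Pg.sub pg_lg pc)
  have p5 : Pg (fun n => (Real.log x : ℂ) * cv α₁ (rg w) n) := Pg.mul pc p1
  have hdec : SF l 2 (fI w U R) x τ = (Real.log x : ℂ) * SF l 2 (cv α₁ (rg w)) x τ +
      SF l 2 (fun n => cv α₁ (rg w) n * (lgn n - (Real.log x : ℂ))) x τ -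
      SF l 2 (cv α₂ (rg w)) x τ - SF l 2 (cv α₃ (rg w)) x τ := by
    rw [← SF_const_mul, ← SF_add p5 p4 l two_pos hx0, ← SF_sub (Pg.add p5 p4) p2 l two_pos hx0,
      ← SF_sub (Pg.sub (Pg.add p5 p4) p2) p3 l two_pos hx0]
    apply SF_congr
    intro n _ _
    unfold fI
    ring
  -- the common bound
  set E : ℝ := x ^ (5 / 6 : ℝ) / Real.log x ^ K + x ^ (5 / 6 - 1 / 300 : ℝ) * (1 + |τ|) ^ 3 with hE
  set E' : ℝ := x ^ (5 / 6 : ℝ) / Real.log x ^ (K + 1) +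
    x ^ (5 / 6 - 1 / 200 : ℝ) * (1 + |τ|) ^ 3 with hE'
  have hP : 0 < Real.log x ^ K := Real.rpow_pos_of_pos hL0 K
  have hP' : 0 < Real.log x ^ (K + 1) := Real.rpow_pos_of_pos hL0 (K + 1)
  have hx56 : 0 < x ^ (5 / 6 : ℝ) := Real.rpow_pos_of_pos hx0 _
  have hx57 : 0 < x ^ (5 / 6 - 1 / 200 : ℝ) := Real.rpow_pos_of_pos hx0 _
  have hE'0 : 0 ≤ E' := by positivity
  have hEE : Real.log x * E' ≤ E := by
    have h1 : Real.log x * (x ^ (5 / 6 : ℝ) / Real.log x ^ (K + 1)) =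
        x ^ (5 / 6 : ℝ) / Real.log x ^ K := by
      rw [Real.rpow_add hL0, Real.rpow_one]; field_simp
    have h2 : Real.log x * x ^ (5 / 6 - 1 / 200 : ℝ) ≤ x ^ (5 / 6 - 1 / 300 : ℝ) := by
      calc Real.log x * x ^ (5 / 6 - 1 / 200 : ℝ) ≤ x ^ (1 / 600 : ℝ) * x ^ (5 / 6 - 1 / 200 : ℝ) :=
            mul_le_mul_of_nonneg_right hlx hx57.le
        _ = x ^ (1 / 600 + (5 / 6 - 1 / 200) : ℝ) := (Real.rpow_add hx0 _ _).symm
        _ = x ^ (5 / 6 - 1 / 300 : ℝ) := by norm_num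
    have h3 := mul_le_mul_of_nonneg_right h2 (by positivity : 0 ≤ (1 + |τ|) ^ 3)
    rw [hE', mul_add, h1, hE]
    linarith
  have hE'E : E' ≤ E := le_trans (le_mul_of_one_le_left hE'0 hL) hEE
  have hE0 : 0 ≤ E := hE'0.trans hE'E
  have hxx1 : x / 10 ≤ x := by linarith
  have hxx2 : x ≤ 10 * x := by linarith
  have t1 : ‖(Real.log x : ℂ) * SF l 2 (cv α₁ (rg w)) x τ‖ ≤ C * E := by
    rw [norm_mul, Complex.norm_real, Real.norm_of_nonneg hL0.le]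
    calc _ ≤ Real.log x * (C * 1 * E') :=
          mul_le_mul_of_nonneg_left (hrt x x τ 1 α₁ hx1 hxx1 hxx2 b1 s1) hL0.le
      _ = C * (Real.log x * E') := by ring
      _ ≤ C * E := mul_le_mul_of_nonneg_left hEE hC
  have t2 : ‖SF l 2 (cv α₂ (rg w)) x τ‖ ≤ C * E := by
    calc _ ≤ C * Real.log x * E' := hrt x x τ _ α₂ hx1 hxx1 hxx2 b2 s2
      _ = C * (Real.log x * E') := by ring
      _ ≤ C * E := mul_le_mul_of_nonneg_left hEE hC
  have t3 : ‖SF l 2 (cv α₃ (rg w)) x τ‖ ≤ C * E := by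
    calc _ ≤ C * Real.log x * E' := hrt x x τ _ α₃ hx1 hxx1 hxx2 b3 s3
      _ = C * (Real.log x * E') := by ring
      _ ≤ C * E := mul_le_mul_of_nonneg_left hEE hC
  have t4 : ‖SF l 2 (fun n => cv α₁ (rg w) n * (lgn n - (Real.log x : ℂ))) x τ‖ ≤
      |Cc| * (2 * Real.pi * (8 * (C * E))) := by
    obtain ⟨K₀, A, hKA⟩ := p1.bound l
    have h1 := hCc _ K₀ A (Real.log x) τ hKA
    rw [Real.exp_log hx0] at h1
    have h2 : SF l 2 (fun n => cv α₁ (rg w) n * (lgn n - (Real.log x : ℂ))) x τ =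
        sm 2 (fun n => cv α₁ (rg w) n * az l n * FF n *
          ((Real.log (Nr n) - Real.log x : ℝ) : ℂ)) x τ := by
      unfold SF lgn
      congr 1
      funext n
      push_cast
      ring
    rw [h2]
    refine h1.trans ?_
    have h3 : ∀ θ ∈ Set.uIoc (0 : ℝ) (2 * Real.pi),
        ‖‖sm 2 (fun n => cv α₁ (rg w) n * az l n * FF n) (Real.exp (Real.log x + Real.cos θ))
          (τ - Real.sin θ / (2 * 2))‖‖ ≤ 8 * (C * E) := by
      intro θ _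
      rw [norm_norm]
      have he : Real.exp (Real.log x + Real.cos θ) = x * Real.exp (Real.cos θ) := by
        rw [Real.exp_add, Real.exp_log hx0]
      have hu : Real.exp (Real.cos θ) ≤ 10 := by
        have := Real.exp_le_exp.2 (Real.cos_le_one θ)
        have := Real.exp_one_lt_d9
        linarith
      have hl : 1 / 10 ≤ Real.exp (Real.cos θ) := by
        have h4 := Real.exp_le_exp.2 (Real.neg_one_le_cos θ)
        have h5 := Real.exp_neg_one_gt_d9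
        linarith
      have h4 := hrt x (Real.exp (Real.log x + Real.cos θ)) (τ - Real.sin θ / (2 * 2)) 1 α₁ hx1
        (by rw [he]; nlinarith) (by rw [he]; nlinarith) b1 s1
      refine h4.trans ?_
      have h5 : 1 + |τ - Real.sin θ / (2 * 2)| ≤ 2 * (1 + |τ|) := by
        have h6 := abs_sub τ (Real.sin θ / (2 * 2))
        have h7 : |Real.sin θ / (2 * 2)| ≤ 1 := by
          rw [abs_div]
          have := Real.abs_sin_le_one θ
          rw [div_le_one (by norm_num)]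
          have h8 : |(2 * 2 : ℝ)| = 4 := by norm_num
          linarith
        linarith [abs_nonneg τ]
      have h6 : (1 + |τ - Real.sin θ / (2 * 2)|) ^ 3 ≤ 8 * (1 + |τ|) ^ 3 := by
        calc _ ≤ (2 * (1 + |τ|)) ^ 3 := pow_le_pow_left₀ (by positivity) h5 3
          _ = _ := by ring
      have h7 : x ^ (5 / 6 : ℝ) / Real.log x ^ (K + 1) +
          x ^ (5 / 6 - 1 / 200 : ℝ) * (1 + |τ - Real.sin θ / (2 * 2)|) ^ 3 ≤ 8 * E' := by
        have h8 := mul_le_mul_of_nonneg_left h6 hx57.le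
        have h9 : 0 ≤ x ^ (5 / 6 : ℝ) / Real.log x ^ (K + 1) := by positivity
        rw [hE']
        linarith
      calc _ ≤ C * 1 * (8 * E') := mul_le_mul_of_nonneg_left h7 (by positivity)
        _ ≤ C * 1 * (8 * E) := by gcongr
        _ = _ := by ring
    have h4 := intervalIntegral.norm_integral_le_of_norm_le_const h3
    rw [sub_zero, abs_of_pos (by have := Real.pi_pos; positivity : 0 < 2 * Real.pi)] at h4
    refine (le_abs_self _).trans ?_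
    rw [abs_mul]
    refine mul_le_mul_of_nonneg_left ?_ (abs_nonneg _)
    rw [← Real.norm_eq_abs]
    linarith
  rw [hdec]
  have n1 := norm_sub_le ((Real.log x : ℂ) * SF l 2 (cv α₁ (rg w)) x τ +
      SF l 2 (fun n => cv α₁ (rg w) n * (lgn n - (Real.log x : ℂ))) x τ -
      SF l 2 (cv α₂ (rg w)) x τ) (SF l 2 (cv α₃ (rg w)) x τ)
  have n2 := norm_sub_le ((Real.log x : ℂ) * SF l 2 (cv α₁ (rg w)) x τ +
      SF l 2 (fun n => cv α₁ (rg w) n * (lgn n - (Real.log x : ℂ))) x τ)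
      (SF l 2 (cv α₂ (rg w)) x τ)
  have n3 := norm_add_le ((Real.log x : ℂ) * SF l 2 (cv α₁ (rg w)) x τ)
      (SF l 2 (fun n => cv α₁ (rg w) n * (lgn n - (Real.log x : ℂ))) x τ)
  calc _ ≤ C * E + |Cc| * (2 * Real.pi * (8 * (C * E))) + C * E + C * E := by linarith
    _ = _ := by ring

end Crest.Agent.R012

end
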