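import Crest.Agent.R012.U3
import Crest.Agent.R012.U5
import Crest.Agent.R012.U7

/-! # Row 12: the boundary terms -/

set_option autoImplicit false

noncomputable section

open scoped BigOperators ComplexConjugate Topology
open Complex MeasureTheory Filter Set Crest.Agent.R017

namespace Crest.Agent.R012

open Classical in
/-- Sequences supported on the multiples of the elements of a finite set. -/
theorem u6a_cn : ∃ C : ℝ, 0 ≤ C ∧ ∀ (A M : ℝ) (S : Finset O) (f : O → ℂ), 0 < A →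
    (∀ b, Prim b → Squarefree b → ‖f b‖ ≤ M) →
    (∀ b, Prim b → Squarefree b → f b ≠ 0 → ∃ e ∈ S, Prim e ∧ e ∣ b) →
    cn 4 A f ≤ C * M ^ 2 * A * ∑ e ∈ S, (Nr e)⁻¹ := by
  obtain ⟨C₀, H⟩ := tsum_W_le (a := 4) (by norm_num) 0 (by norm_num)
  refine ⟨max C₀ 0, le_max_right _ _, fun A M S f hA hM hS => ?_⟩
  set C := max C₀ 0 with hC
  have hC0 : 0 ≤ C := le_max_right _ _
  have hF0 : ∀ d : O, 0 ≤ (if d ∈ S then C * A * (Nr d)⁻¹ else 0) := fun d => by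
    have := Nr_nonneg d
    split_ifs
    · positivity
    · exact le_rfl
  have hFs : HasSum (fun d : O => if d ∈ S then C * A * (Nr d)⁻¹ else 0)
      (∑ d ∈ S, C * A * (Nr d)⁻¹) := by
    have := hasSum_sum_of_ne_finset_zero (f := fun d : O => if d ∈ S then C * A * (Nr d)⁻¹ else 0)
      (s := S) (L := SummationFilter.unconditional O) (fun b hb => if_neg hb)
    rwa [Finset.sum_congr rfl fun d hd => if_pos hd] at this
  obtain ⟨h1, h2⟩ := tsum_pdiv_le (f := fun d => if d ∈ S then 1 else 0) (g := fun _ => 1)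
    (h := fun n => W 4 (Nr n / A)) (fun d => by split_ifs <;> norm_num) (fun _ => zero_le_one)
    (fun n => (W_pos _ _).le) hFs.summable hF0 (fun d hd => by
      have hd0 := Nr_pos hd.ne_zero
      have hX : 0 < A / Nr d := by positivity
      have hle : ∀ m : O, (if Prim m then 1 * W 4 (Nr (d * m) / A) else 0) ≤
          (if m = 0 then 0 else Nr m ^ (0 : ℝ) * W 4 (Nr m / (A / Nr d))) := fun m => by
        by_cases hm : Prim m
        · rw [if_pos hm, if_neg hm.ne_zero, Real.rpow_zero, Nr_mul]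
          refine le_of_eq ?_
          congr 2
          field_simp
        · rw [if_neg hm]
          split_ifs
          · exact le_rfl
          · rw [Real.rpow_zero, one_mul]
            exact (W_pos _ _).le
      have hnn : ∀ m : O, 0 ≤ (if Prim m then 1 * W 4 (Nr (d * m) / A) else 0) := fun m => by
        split_ifs
        · rw [one_mul]
          exact (W_pos _ _).le
        · exact le_rfl
      have hs := summable_W (a := 4) (by norm_num) hX 0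
      have hs' := Summable.of_nonneg_of_le hnn hle hs
      refine ⟨hs', ?_⟩
      split_ifs with hdS
      · rw [one_mul]
        refine (hs'.tsum_le_tsum hle hs).trans ((H _ hX).trans ?_)
        rw [add_zero, Real.rpow_one, div_eq_mul_inv, ← mul_assoc]
        gcongr
        exact le_max_left _ _
      · rw [zero_mul])
  rw [hFs.tsum_eq, ← Finset.mul_sum] at h2
  have hle : ∀ b : O, (if Prim b ∧ Squarefree b then ‖f b‖ ^ 2 * W 4 (Nr b / A) else 0) ≤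
      M ^ 2 * (if Prim b then (∑ d ∈ pdiv b, (if d ∈ S then 1 else 0) * 1) * W 4 (Nr b / A) else 0) := by
    intro b
    have hW := (W_pos 4 (Nr b / A)).le
    have hsum : (0 : ℝ) ≤ ∑ d ∈ pdiv b, (if d ∈ S then 1 else 0) * 1 :=
      Finset.sum_nonneg fun d _ => by split_ifs <;> norm_num
    by_cases hb : Prim b ∧ Squarefree b
    · rw [if_pos hb, if_pos hb.1]
      by_cases h0 : f b = 0
      · rw [h0, norm_zero]
        simp only [ne_eq, OfNat.ofNat_ne_zero, not_false_eq_true, zero_pow, zero_mul]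
        positivity
      · obtain ⟨e, he, he1, he2⟩ := hS b hb.1 hb.2 h0
        have h3 : (1 : ℝ) ≤ ∑ d ∈ pdiv b, (if d ∈ S then 1 else 0) * 1 := by
          have := Finset.single_le_sum (f := fun d => (if d ∈ S then (1 : ℝ) else 0) * 1)
            (fun d _ => by split_ifs <;> norm_num) ((mem_pdiv hb.1.ne_zero).2 ⟨he1, he2⟩)
          rwa [if_pos he, mul_one] at this
        have h4 : ‖f b‖ ^ 2 ≤ M ^ 2 := pow_le_pow_left₀ (norm_nonneg _) (hM b hb.1 hb.2) 2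
        calc ‖f b‖ ^ 2 * W 4 (Nr b / A) ≤ M ^ 2 * (1 * W 4 (Nr b / A)) := by
              rw [one_mul]; gcongr
          _ ≤ _ := by gcongr
    · rw [if_neg hb]
      split_ifs
      · positivity
      · simp
  have hnn : ∀ b : O, 0 ≤ (if Prim b ∧ Squarefree b then ‖f b‖ ^ 2 * W 4 (Nr b / A) else 0) := fun b => by
    have hW := (W_pos 4 (Nr b / A)).le
    split_ifs
    · positivity
    · exact le_rfl
  have hs2 := h1.mul_left (M ^ 2)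
  have h3 := (Summable.of_nonneg_of_le hnn hle hs2).tsum_le_tsum hle hs2
  rw [tsum_mul_left] at h3
  unfold cn
  refine h3.trans ((mul_le_mul_of_nonneg_left h2 (sq_nonneg M)).trans (le_of_eq (by ring)))

/-- Sparsity of the boundary coefficient (`aB_supp`, `tsum_W_le`, `smooth_tail`). -/
theorem cn_aB (K : ℝ) : ∃ C x₀ : ℝ, 0 ≤ C ∧ ∀ (x A M : ℝ) (α : O → ℂ) (φ : ℕ → ℂ), x₀ ≤ x → 0 < A →
    (∀ r, Prim r → Squarefree r → ‖α r‖ ≤ M) →
    (∀ r, Prim r → Squarefree r → α r ≠ 0 → Rough (ww x) r ∧ Nr r ≤ x ^ (53 / 100 : ℝ)) →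
    (∀ i, ‖φ i‖ ≤ 1) →
    cn 4 A (aB α (ww x) (x ^ (54 / 100 : ℝ)) φ) ≤ C * M ^ 2 * A / Real.log x ^ K := by
  classical
  obtain ⟨C, hC, H⟩ := u6a_cn
  obtain ⟨x₁, H₁⟩ := smooth_tail K
  obtain ⟨x₂, hx₂, H₂⟩ := ww_facts 0 (ρ := 1) one_pos
  refine ⟨C, max x₁ x₂, hC, fun x A M α φ hx hA hM hα hφ => ?_⟩
  have hx1 : x₁ ≤ x := (le_max_left _ _).trans hx
  have hx2 : x₂ ≤ x := (le_max_right _ _).trans hx
  have hx0 : 0 < x := by linarith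
  have hw : 1 ≤ ww x := by linarith [(H₂ x hx2).1]
  have hR : 0 < x ^ (54 / 100 : ℝ) := by positivity
  obtain ⟨S, hS, hS'⟩ : ∃ S : Finset O, (∀ e, e ∈ S ↔ e ∈ sbox (x ^ (54 / 100 : ℝ) * ww x ^ 2) ∧
      Smth (ww x) e ∧ x ^ (1 / 100 : ℝ) < Nr e) ∧ ∑ e ∈ S, (Nr e)⁻¹ ≤ (Real.log x ^ K)⁻¹ :=
    ⟨_, fun e => Finset.mem_filter, H₁ x (x ^ (54 / 100 : ℝ) * ww x ^ 2) hx1⟩
  have h1 := H A M S (aB α (ww x) (x ^ (54 / 100 : ℝ)) φ) hA
    (fun b hb hs => norm_aB_le hM (fun r h1 h2 h3 => (hα r h1 h2 h3).1) hφ hb hs)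
    (fun b hb hs h0 => by
      obtain ⟨-, -, e, he, hd, hsm, h1, h2⟩ :=
        aB_supp hw hR (fun r h1 h2 h3 => (hα r h1 h2 h3).2) hb hs h0
      refine ⟨e, (hS e).2 ⟨q_mem_sbox.2 ⟨he, hs.squarefree_of_dvd hd, h2⟩, hsm, ?_⟩, he, hd⟩
      rwa [← Real.rpow_sub hx0, show (54 / 100 - 53 / 100 : ℝ) = 1 / 100 by norm_num] at h1)
  refine h1.trans ?_
  rw [div_eq_mul_inv]
  exact mul_le_mul_of_nonneg_left hS' (by positivity)

theorem u6a_norm_sqr (f : O → ℂ) (n : O) : ‖sqr f n‖ ≤ ‖f n‖ := by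
  unfold sqr
  split_ifs <;> simp

theorem u6a_sqr_eq (f : O → ℂ) {n : O} (hs : Squarefree n) : sqr f n = f n := by
  unfold sqr
  rw [if_pos hs]

theorem u6a_sqr_ne {f : O → ℂ} {n : O} (h : sqr f n ≠ 0) : Squarefree n ∧ f n ≠ 0 := by
  unfold sqr at h
  split_ifs at h with hs
  · exact ⟨hs, h⟩
  · exact absurd rfl h

theorem u6a_cn_sqr (a B : ℝ) (f : O → ℂ) : cn a B (sqr f) = cn a B f := by
  unfold cn
  refine tsum_congr fun b => ?_
  split_ifs with h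
  · rw [u6a_sqr_eq f h.2]
  · rfl

/-- The unconditional dispersion bound for bounded columns. -/
theorem u6a_DD : ∃ C : ℝ, 0 ≤ C ∧ ∀ (l : ℤ) (A B τ : ℝ) (β : O → ℂ), 1 ≤ A → 1 ≤ B →
    A ^ (2 / 5 : ℝ) ≤ B → B ≤ A ^ (9 / 10 : ℝ) → A ≤ B ^ 2 → (∀ m, ‖β m‖ ≤ 1) →
    DD FF 1 A B τ (tw l β) ≤ C * (A * B) ^ (2 / 3 : ℝ) * B * (1 + Real.log B) := by
  obtain ⟨s, hs, C₁, hC₁, H₁⟩ := UB_F (η := 1 / 10) (by norm_num)
  obtain ⟨C₂, hC₂, H₂⟩ := dv_W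
  refine ⟨C₁ * (2 * C₂ + 1), by positivity, fun l A B τ β hA hB h1 h2 h3 hβ => ?_⟩
  have hA0 : 0 < A := by linarith
  have hB0 : 0 < B := by linarith
  have hL : 0 ≤ Real.log B := Real.log_nonneg hB
  have hE : Env 1 B (tw l β) := fun b hb => by
    rw [norm_tw l β hb.ne_zero, one_mul]
    have := Nr_nonneg b
    have : 0 ≤ Nr b / B := by positivity
    linarith [hβ b]
  have h4 := H₁ 1 A B τ 1 (tw l β) hA h1 (by rwa [show (1 - 1 / 10 : ℝ) = 9 / 10 by norm_num])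
    (Real.rpow_le_one_of_one_le_of_nonpos hA (by linarith)) le_rfl hE
  rw [Real.sqrt_one, Real.one_rpow, mul_one, mul_one, mul_one, one_pow, one_mul] at h4
  have h5 : cn2 2 B (tw l β) ≤ C₂ * B * (1 + Real.log B) := by
    refine le_trans (cn2_mono (g := fun _ => 1) (pg_of_bdd (M := 1) fun _ _ _ => by simp)
      (fun n hn _ => ?_) (by norm_num) (by norm_num) hB0) (H₂ B hB)
    rw [norm_tw l β hn.ne_zero, norm_one]
    exact hβ n
  have hP : 0 < (A * B) ^ (2 / 3 : ℝ) := by positivity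
  have h6 : A ≤ (A * B) ^ (2 / 3 : ℝ) := by
    have e : A = (A ^ (3 / 2 : ℝ)) ^ (2 / 3 : ℝ) := by
      rw [← Real.rpow_mul hA0.le]
      norm_num
    conv_lhs => rw [e]
    refine Real.rpow_le_rpow (by positivity) ?_ (by norm_num)
    rw [show (3 / 2 : ℝ) = 1 + 1 / 2 by norm_num, Real.rpow_add hA0, Real.rpow_one]
    refine mul_le_mul_of_nonneg_left ?_ hA0.le
    rw [← Real.sqrt_eq_rpow]
    exact Real.sqrt_le_iff.2 ⟨hB0.le, h3⟩
  have h7 : A ^ (2 / 3 - s) * B ^ (5 / 3 : ℝ) ≤ (A * B) ^ (2 / 3 : ℝ) * B := by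
    rw [Real.mul_rpow hA0.le hB0.le, show (5 / 3 : ℝ) = 2 / 3 + 1 by norm_num, Real.rpow_add hB0,
      Real.rpow_one, ← mul_assoc]
    gcongr
    linarith
  have h8 : (A + (A * B) ^ (2 / 3 : ℝ)) * cn2 2 B (tw l β) ≤
      (2 * (A * B) ^ (2 / 3 : ℝ)) * (C₂ * B * (1 + Real.log B)) :=
    mul_le_mul (by linarith) h5 (cn2_nonneg _ _ _) (by positivity)
  have h9 : (A * B) ^ (2 / 3 : ℝ) * B ≤ (A * B) ^ (2 / 3 : ℝ) * B * (1 + Real.log B) :=
    le_mul_of_one_le_right (by positivity) (by linarith)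
  refine h4.trans ?_
  calc C₁ * ((A + (A * B) ^ (2 / 3 : ℝ)) * cn2 2 B (tw l β) + A ^ (2 / 3 - s) * B ^ (5 / 3 : ℝ))
      ≤ C₁ * ((2 * (A * B) ^ (2 / 3 : ℝ)) * (C₂ * B * (1 + Real.log B)) +
        (A * B) ^ (2 / 3 : ℝ) * B * (1 + Real.log B)) := by
        refine mul_le_mul_of_nonneg_left ?_ hC₁
        linarith
    _ = _ := by ring

theorem u6a_supp {y Y m a b : ℝ} (hy1 : 1 ≤ y) (hYl : y ^ 997 ≤ Y) (hYu : Y ≤ y ^ 1003)
    (hem : Real.exp m ≤ y ^ 2) (hb0 : 0 < b) (h5 : y ^ 540 < a) (h6 : a ≤ y ^ 542)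
    (h3 : Y * Real.exp (-m) ≤ a * b) (h4 : a * b ≤ Y * Real.exp m) :
    y ^ 450 * Real.exp m ≤ b ∧ b ≤ y ^ 470 * Real.exp (-m) := by
  have hy0 : 0 < y := by linarith
  have ymono : ∀ {j k : ℕ}, j ≤ k → y ^ j ≤ y ^ k := fun h => pow_le_pow_right₀ hy1 h
  have he0 := Real.exp_pos m
  rw [Real.exp_neg] at h3 ⊢
  rw [← div_eq_mul_inv, div_le_iff₀ he0] at h3
  rw [← div_eq_mul_inv, le_div_iff₀ he0]
  constructor
  · have h7 : y ^ 997 ≤ y ^ 542 * b * y ^ 2 := hYl.trans (h3.trans (by gcongr))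
    have h8 : y ^ 544 * y ^ 453 ≤ y ^ 544 * b := by
      rw [← pow_add]
      refine h7.trans (le_of_eq ?_)
      ring
    have h9 := le_of_mul_le_mul_left h8 (by positivity)
    calc y ^ 450 * Real.exp m ≤ y ^ 450 * y ^ 2 := by gcongr
      _ = y ^ 452 := by rw [← pow_add]
      _ ≤ _ := (ymono (by norm_num)).trans h9
  · have h7 : y ^ 540 * b ≤ y ^ 1003 * y ^ 2 :=
      le_trans (by gcongr) (h4.trans (by gcongr))
    have h8 : y ^ 540 * b ≤ y ^ 540 * y ^ 465 := by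
      refine h7.trans (le_of_eq ?_)
      rw [← pow_add, ← pow_add]
    have h9 := le_of_mul_le_mul_left h8 (by positivity)
    calc b * Real.exp m ≤ y ^ 465 * y ^ 2 := by gcongr
      _ = y ^ 467 := by rw [← pow_add]
      _ ≤ _ := ymono (by norm_num)

theorem u6a_range {y Y B : ℝ} (hy1 : 1 ≤ y) (hYl : y ^ 997 ≤ Y) (hYu : Y ≤ y ^ 1003)
    (hB1 : y ^ 450 ≤ B) (hB2 : B ≤ y ^ 470) :
    1 ≤ B ∧ 1 ≤ Y / B ∧ (Y / B) ^ (2 / 5 : ℝ) ≤ B ∧ B ≤ (Y / B) ^ (9 / 10 : ℝ) ∧ Y / B ≤ B ^ 2 := by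
  have hy0 : 0 < y := by linarith
  have ymono : ∀ {j k : ℕ}, j ≤ k → y ^ j ≤ y ^ k := fun h => pow_le_pow_right₀ hy1 h
  have hB : 1 ≤ B := (one_le_pow₀ hy1).trans hB1
  have hB0 : 0 < B := lt_of_lt_of_le one_pos hB
  have hAl : y ^ 527 ≤ Y / B := by
    rw [le_div_iff₀ hB0]
    calc y ^ 527 * B ≤ y ^ 527 * y ^ 470 := by gcongr
      _ = y ^ 997 := by rw [← pow_add]
      _ ≤ Y := hYl
  have hAu : Y / B ≤ y ^ 553 := by
    rw [div_le_iff₀ hB0]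
    calc Y ≤ y ^ 1003 := hYu
      _ = y ^ 553 * y ^ 450 := by rw [← pow_add]
      _ ≤ _ := by gcongr
  have hA : 1 ≤ Y / B := (one_le_pow₀ hy1).trans hAl
  have hA0 : 0 < Y / B := lt_of_lt_of_le one_pos hA
  refine ⟨hB, hA, ?_, ?_, ?_⟩
  · calc (Y / B) ^ (2 / 5 : ℝ) ≤ (y ^ 1125) ^ (2 / 5 : ℝ) :=
          Real.rpow_le_rpow hA0.le (hAu.trans (ymono (by norm_num))) (by norm_num)
      _ = y ^ 450 := by
          rw [← Real.rpow_natCast, ← Real.rpow_mul hy0.le, ← Real.rpow_natCast]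
          norm_num
      _ ≤ B := hB1
  · calc B ≤ y ^ 470 := hB2
      _ ≤ (y ^ 527) ^ (9 / 10 : ℝ) := by
          rw [← Real.rpow_natCast, ← Real.rpow_natCast, ← Real.rpow_mul hy0.le]
          exact Real.rpow_le_rpow_of_exponent_le hy1 (by norm_num)
      _ ≤ _ := Real.rpow_le_rpow (by positivity) hAl (by norm_num)
  · calc Y / B ≤ y ^ 553 := hAu
      _ ≤ (y ^ 450) ^ 2 := by rw [← pow_mul]; exact ymono (by norm_num)
      _ ≤ _ := by gcongr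

theorem u6a_prod {C₂ C₃ M x Y B L K u v : ℝ} (hC₂ : 0 ≤ C₂) (hC₃ : 0 ≤ C₃) (hx0 : 0 < x) (hY0 : 0 < Y)
    (hY2 : Y ≤ 10 * x) (hB : 1 ≤ B) (hL : 1 ≤ L) (hBL : Real.log B ≤ L) (hv : 0 ≤ v)
    (d2 : u ≤ C₂ * M ^ 2 * (Y / B) / L ^ (2 * K + 3))
    (d1 : v ≤ C₃ * Y ^ (2 / 3 : ℝ) * B * (1 + Real.log B)) :
    u * v ≤ (10 * (2 * C₂ * C₃ + 1) * M * x ^ (5 / 6 : ℝ) / L ^ (K + 1)) ^ 2 := by
  have hL0 : 0 < L := by linarith
  have hB0 : 0 < B := by linarith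
  have d3 : v ≤ C₃ * Y ^ (2 / 3 : ℝ) * B * (2 * L) := d1.trans (by gcongr; linarith)
  have d4 : Y * Y ^ (2 / 3 : ℝ) ≤ (10 * x ^ (5 / 6 : ℝ)) ^ 2 := by
    calc Y * Y ^ (2 / 3 : ℝ) ≤ (10 * x) * (10 * x) ^ (2 / 3 : ℝ) := by gcongr
      _ = 10 * 10 ^ (2 / 3 : ℝ) * (x ^ (1 : ℝ) * x ^ (2 / 3 : ℝ)) := by
          rw [Real.mul_rpow (by norm_num) hx0.le, Real.rpow_one]
          ring
      _ ≤ 10 * 10 ^ (1 : ℝ) * (x ^ (1 : ℝ) * x ^ (2 / 3 : ℝ)) := by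
          gcongr <;> norm_num
      _ = _ := by
          rw [← Real.rpow_add hx0, mul_pow, ← Real.rpow_natCast (x ^ (5 / 6 : ℝ)),
            ← Real.rpow_mul hx0.le]
          norm_num
  have e1 : L ^ (2 * K + 3) = (L ^ (K + 1)) ^ 2 * L := by
    rw [← Real.rpow_natCast, ← Real.rpow_mul hL0.le, ← Real.rpow_add_one hL0.ne']
    congr 1
    push_cast
    ring
  have hP : 0 < L ^ (K + 1) := by positivity
  have d5 : 2 * C₂ * C₃ ≤ (2 * C₂ * C₃ + 1) ^ 2 := by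
    have : 0 ≤ C₂ * C₃ := by positivity
    nlinarith
  calc u * v ≤ (C₂ * M ^ 2 * (Y / B) / L ^ (2 * K + 3)) * (C₃ * Y ^ (2 / 3 : ℝ) * B * (2 * L)) :=
        mul_le_mul d2 d3 hv (by positivity)
    _ = (2 * C₂ * C₃) * (Y * Y ^ (2 / 3 : ℝ)) * (M / L ^ (K + 1)) ^ 2 := by
        rw [e1]
        field_simp
    _ ≤ (2 * C₂ * C₃ + 1) ^ 2 * (10 * x ^ (5 / 6 : ℝ)) ^ 2 * (M / L ^ (K + 1)) ^ 2 := by
        gcongr
    _ = _ := by field_simp

theorem u6a_fin {C₁ D M x Y L K : ℝ} (hC₁ : 0 ≤ C₁) (hD : 0 ≤ D) (hM : 0 ≤ M) (hx0 : 0 < x) (hY : 1 ≤ Y)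
    (hL0 : 0 < L) (hLY : Real.log Y ≤ 2 * L) (hLK : L ^ K ≤ x ^ (5 / 6 : ℝ)) :
    C₁ * (Real.log Y * (10 * D * M * x ^ (5 / 6 : ℝ) / L ^ (K + 1)) + M * 1 / Y) ≤
      C₁ * (20 * D + 1) * M * x ^ (5 / 6 : ℝ) / L ^ K := by
  have hP : 0 < L ^ K := by positivity
  have f1 : Real.log Y * (10 * D * M * x ^ (5 / 6 : ℝ) / L ^ (K + 1)) ≤
      20 * D * (M * x ^ (5 / 6 : ℝ) / L ^ K) := by
    calc _ ≤ 2 * L * (10 * D * M * x ^ (5 / 6 : ℝ) / L ^ (K + 1)) := by gcongr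
      _ = _ := by
          rw [Real.rpow_add_one hL0.ne']
          field_simp
          ring
  have f2 : M * 1 / Y ≤ M * x ^ (5 / 6 : ℝ) / L ^ K := by
    rw [mul_div_assoc, mul_div_assoc]
    refine mul_le_mul_of_nonneg_left ?_ hM
    exact ((div_le_one (lt_of_lt_of_le one_pos hY)).2 hY).trans ((one_le_div hP).2 hLK)
  calc _ ≤ C₁ * (20 * D * (M * x ^ (5 / 6 : ℝ) / L ^ K) + M * x ^ (5 / 6 : ℝ) / L ^ K) := by gcongr
    _ = _ := by ring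

theorem u6a_par {x y Y : ℝ} (hx16 : 16 ≤ x) (hY1 : x / 10 ≤ Y) (hY2 : Y ≤ 10 * x)
    (hy : y = x ^ (1 / 1000 : ℝ)) (hy3 : 3 ≤ y) :
    x = y ^ 1000 ∧ x ^ (54 / 100 : ℝ) = y ^ 540 ∧ y ^ 997 ≤ Y ∧ Y ≤ y ^ 1003 ∧ 3 ≤ Y ∧
      1 ≤ Real.log x ∧ Real.log Y ≤ 2 * Real.log x ∧ y ≤ x ^ (5 / 6 : ℝ) := by
  have hx0 : 0 < x := by linarith
  have hy1 : 1 ≤ y := by linarith
  have hy0 : 0 < y := by linarith
  have ypow : ∀ k : ℕ, y ^ k = x ^ ((k : ℝ) / 1000) := fun k => by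
    rw [hy, ← Real.rpow_natCast, ← Real.rpow_mul hx0.le]
    congr 1
    ring
  have ex : x = y ^ 1000 := by rw [ypow]; norm_num
  have eR : x ^ (54 / 100 : ℝ) = y ^ 540 := by rw [ypow]; norm_num
  have y10 : 10 ≤ y ^ 3 := le_trans (by norm_num) (pow_le_pow_left₀ (by norm_num) hy3 3)
  have hYl : y ^ 997 ≤ Y := by
    refine le_trans ?_ hY1
    rw [le_div_iff₀ (by norm_num), ex]
    calc y ^ 997 * 10 ≤ y ^ 997 * y ^ 3 := by gcongr
      _ = _ := by rw [← pow_add]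
  have hYu : Y ≤ y ^ 1003 := by
    refine hY2.trans ?_
    rw [ex]
    calc 10 * y ^ 1000 ≤ y ^ 3 * y ^ 1000 := by gcongr
      _ = _ := by rw [← pow_add]
  have hY3 : 3 ≤ Y := (hy3.trans (le_self_pow₀ hy1 (by norm_num))).trans hYl
  refine ⟨ex, eR, hYl, hYu, hY3, ?_, ?_, ?_⟩
  · rw [Real.le_log_iff_exp_le hx0]
    linarith only [Real.exp_one_lt_d9, hx16]
  · have h : Y ≤ x ^ 2 := by nlinarith only [hx16, hY2]
    have := Real.log_le_log (lt_of_lt_of_le (by norm_num) hY3) h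
    rwa [Real.log_pow, Nat.cast_ofNat] at this
  · rw [hy]
    exact Real.rpow_le_rpow_of_exponent_le (le_trans (by norm_num) hx16) (by norm_num)

/-- `bilr_const` with `θ = 1`, `m = √(1000 log Y)`, columns in `[x^{0.45}, x^{0.47}]`, applied to
`sqr (aB …)` and `sqr β`; `UB_F` with `η = 1/10`, `dv_W`. -/
theorem boundary (l : ℤ) (K : ℝ) : ∃ C x₀ : ℝ, 0 ≤ C ∧
    ∀ (x Y τ M : ℝ) (α β : O → ℂ) (φ : ℕ → ℂ), x₀ ≤ x → x / 10 ≤ Y → Y ≤ 10 * x →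
    (∀ r, Prim r → Squarefree r → ‖α r‖ ≤ M) →
    (∀ r, Prim r → Squarefree r → α r ≠ 0 → Rough (ww x) r ∧ Nr r ≤ x ^ (53 / 100 : ℝ)) →
    (∀ i, ‖φ i‖ ≤ 1) → (∀ m, ‖β m‖ ≤ 1) →
    ‖SF l 2 (cv (aB α (ww x) (x ^ (54 / 100 : ℝ)) φ) β) Y τ‖ ≤
      C * M * x ^ (5 / 6 : ℝ) / Real.log x ^ K := by
  obtain ⟨C₁, hC₁, H₁⟩ := bilr_const
  obtain ⟨C₂, x₁, hC₂, H₂⟩ := cn_aB (2 * K + 3)
  obtain ⟨C₃, hC₃, H₃⟩ := u6a_DD
  obtain ⟨x₂, hx₂, H₄⟩ := ww_facts K (ρ := 1 / 1000) (by norm_num)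
  refine ⟨C₁ * (20 * (2 * C₂ * C₃ + 1) + 1), max x₁ x₂, by positivity,
    fun x Y τ M α β φ hx hY1 hY2 hM hα hφ hβ => ?_⟩
  have hx1 : x₁ ≤ x := (le_max_left _ _).trans hx
  have hx2 : x₂ ≤ x := (le_max_right _ _).trans hx
  have hx16 : 16 ≤ x := hx₂.trans hx2
  have hx0 : 0 < x := lt_of_lt_of_le (by norm_num) hx16
  obtain ⟨w3, -, -, wy, ey, Ly⟩ := H₄ x hx2
  have hM0 : 0 ≤ M := (norm_nonneg _).trans (hM 1 prim_one squarefree_one)
  obtain ⟨y, hy⟩ : ∃ y, y = x ^ (1 / 1000 : ℝ) := ⟨_, rfl⟩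
  rw [← hy] at wy ey Ly
  have hy3 : 3 ≤ y := w3.trans wy
  have hy1 : 1 ≤ y := le_trans (by norm_num) hy3
  have hy0 : 0 < y := lt_of_lt_of_le one_pos hy1
  have ymono : ∀ {j k : ℕ}, j ≤ k → y ^ j ≤ y ^ k := fun h => pow_le_pow_right₀ hy1 h
  obtain ⟨ex, eR, hYl, hYu, hY3, hL1, hLY, hy56⟩ := u6a_par hx16 hY1 hY2 hy hy3
  have hY1' : 1 ≤ Y := le_trans (by norm_num) hY3
  have hY0 : 0 < Y := lt_of_lt_of_le one_pos hY1'
  have hL0 : 0 < Real.log x := lt_of_lt_of_le one_pos hL1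
  obtain ⟨m, hm⟩ : ∃ m, m = 2 * Real.sqrt (1000 * Real.log x) := ⟨_, rfl⟩
  have hm0 : 0 ≤ m := by rw [hm]; positivity
  have hm2 : 1000 * 1 * Real.log Y ≤ m ^ 2 := by
    rw [hm, mul_pow, Real.sq_sqrt (by positivity)]
    linarith only [hLY, hL0]
  have hem : Real.exp m ≤ y ^ 2 := by
    rw [hm, show (2 : ℝ) = ((2 : ℕ) : ℝ) by norm_num, Real.exp_nat_mul]
    exact pow_le_pow_left₀ (Real.exp_pos _).le ey 2
  have hw1 : 1 ≤ ww x := le_trans (by norm_num) w3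
  obtain ⟨f, hf⟩ : ∃ f, f = aB α (ww x) (x ^ (54 / 100 : ℝ)) φ := ⟨_, rfl⟩
  have hfM : ∀ n, Prim n → Squarefree n → ‖f n‖ ≤ M := fun n hn hs => by
    rw [hf]
    exact norm_aB_le hM (fun r h1 h2 h3 => (hα r h1 h2 h3).1) hφ hn hs
  have hcn : ∀ A, 0 < A → cn 4 A f ≤ C₂ * M ^ 2 * A / Real.log x ^ (2 * K + 3) := fun A hA => by
    rw [hf]
    exact H₂ x A M α φ hx1 hA hM hα hφ
  have hsupp : ∀ a, Prim a → Squarefree a → f a ≠ 0 → y ^ 540 < Nr a ∧ Nr a ≤ y ^ 542 := by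
    intro a ha hs h0
    rw [hf] at h0
    obtain ⟨h1, h2, -⟩ := aB_supp hw1 (by positivity) (fun r h1 h2 h3 => (hα r h1 h2 h3).2) ha hs h0
    rw [eR] at h1 h2
    refine ⟨h1, h2.trans ?_⟩
    rw [show 542 = 540 + 2 by norm_num, pow_add]
    gcongr
  rw [← hf, SF_congr (g := cv (sqr f) (sqr β)) (fun n hn hs => cv_congr
    (fun d _ hd => (u6a_sqr_eq f hd).symm) (fun d _ hd => (u6a_sqr_eq β hd).symm) hn hs)]
  have h := H₁ l 1 Y τ m (y ^ 450) (y ^ 470) (Real.log Y) M 1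
    (10 * (2 * C₂ * C₃ + 1) * M * x ^ (5 / 6 : ℝ) / Real.log x ^ (K + 1)) (sqr f) (sqr β) hY3
    (inv_le_one_of_one_le₀ hY1') le_rfl hm0 hm2 (one_le_pow₀ hy1) (ymono (by norm_num))
    ((ymono (by norm_num)).trans hYl) (by simp)
    (fun n hn hs => ((u6a_norm_sqr f n).trans (hfM n hn hs)).trans
      (le_mul_of_one_le_right hM0 (one_le_Nr hn.ne_zero)))
    (fun n hn _ => ((u6a_norm_sqr β n).trans (hβ n)).trans
      (by rw [one_mul]; exact one_le_Nr hn.ne_zero))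
    (fun a b ha hb h1 _ h3 h4 => by
      obtain ⟨hs, h0⟩ := u6a_sqr_ne h1
      obtain ⟨h5, h6⟩ := hsupp a ha hs h0
      rw [Nr_mul] at h3 h4
      exact u6a_supp hy1 hYl hYu hem (Nr_pos hb.ne_zero) h5 h6 h3 h4)
    (by positivity)
    (fun B hB1 hB2 t _ => by
      obtain ⟨hB, hA, c1, c2, c3⟩ := u6a_range hy1 hYl hYu hB1 hB2
      have hB0 : 0 < B := lt_of_lt_of_le one_pos hB
      have d1 := H₃ l (Y / B) B (τ + t) (sqr β) hA hB c1 c2 c3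
        fun n => (u6a_norm_sqr β n).trans (hβ n)
      rw [div_mul_cancel₀ _ hB0.ne'] at d1
      have hBx : Real.log B ≤ Real.log x :=
        Real.log_le_log hB0 (hB2.trans ((ymono (by norm_num)).trans ex.ge))
      rw [mul_one, one_mul, u6a_cn_sqr]
      exact u6a_prod hC₂ hC₃ hx0 hY0 hY2 hB hL1 hBx (DD_nonneg _ _ _ _ _ _)
        (hcn _ (lt_of_lt_of_le one_pos hA)) d1)
  rw [mul_one] at h
  exact h.trans (u6a_fin hC₁ (by positivity) hM0 hx0 hY1' hL0 hLY (Ly.trans hy56))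

end Crest.Agent.R012

end
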