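import Crest.Agent.R012.U2

/-! # Row 12: dispersion of the model -/

set_option autoImplicit false

noncomputable section

open scoped BigOperators ComplexConjugate Topology
open Complex MeasureTheory Filter Set Crest.Agent.R017

namespace Crest.Agent.R012

theorem u7a_cs {ι : Type} {r f g : ι → ℝ} (hr : ∀ i, 0 ≤ r i) (hf : ∀ i, 0 ≤ f i)
    (hg : ∀ i, 0 ≤ g i) (h : ∀ i, r i ^ 2 ≤ f i * g i) (sf : Summable f) (sg : Summable g) :
    (∑' i, r i) ^ 2 ≤ (∑' i, f i) * ∑' i, g i := by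
  have h1 : ∑' i, r i ≤ Real.sqrt ((∑' i, f i) * ∑' i, g i) :=
    Real.tsum_le_of_sum_le hr fun s => Real.le_sqrt_of_sq_le
      ((Finset.sum_sq_le_sum_mul_sum_of_sq_le_mul s (fun i _ => hf i) (fun i _ => hg i)
        fun i _ => h i).trans (mul_le_mul (sf.sum_le_tsum s fun i _ => hf i)
          (sg.sum_le_tsum s fun i _ => hg i) (Finset.sum_nonneg fun i _ => hg i) (tsum_nonneg hf)))
  exact (pow_le_pow_left₀ (tsum_nonneg hr) h1 2).trans
    (Real.sq_sqrt (mul_nonneg (tsum_nonneg hf) (tsum_nonneg hg))).le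

theorem u7a_W_mono {a a' : ℝ} (ha : 0 < a) (h : a ≤ a') (x : ℝ) : W a x ≤ W a' x := by
  rw [W, W, Real.exp_le_exp, neg_div, neg_div, neg_le_neg_iff]
  exact div_le_div_of_nonneg_left (sq_nonneg _) (by positivity) (by linarith)

theorem u7a_poly {G β : O → ℂ} {M B : ℝ} (hG : ∀ n, Prim n → ‖G n‖ ≤ 1) (hβ : Env M B β)
    (hB : 0 < B) {a : O} (ha : Prim a) (b : O) (hb : Prim b) :
    ‖β b * G (a * b)‖ ≤ M * (1 + B⁻¹) * Nr b ^ (1 : ℝ) := by
  rw [norm_mul]
  exact (mul_le_of_le_one_right (norm_nonneg _) (hG _ (ha.mul hb))).trans (hβ.poly hB b hb)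

theorem u7a_summable_DD {G β : O → ℂ} {M θ A B : ℝ} (hG : ∀ n, Prim n → ‖G n‖ ≤ 1)
    (hβ : Env M B β) (hθ : 0 < θ) (hA : 0 < A) (hB : 0 < B) (τ : ℝ) :
    Summable fun a : O => if Prim a then
      W (4 * θ) (Nr a / A) * ‖sm (2 * θ) (fun b => β b * G (a * b)) B τ‖ ^ 2 else 0 := by
  have hs := (summable_W (a := 2 * θ) (by positivity) hB 1).mul_left |M * (1 + B⁻¹)|
  refine Summable.of_nonneg_of_le (fun a => ?_) (fun a => ?_)
    ((summable_W (a := 4 * θ) (by positivity) hA 0).mul_right ((∑' n : O, |M * (1 + B⁻¹)| *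
      if n = 0 then 0 else Nr n ^ (1 : ℝ) * W (2 * θ) (Nr n / B)) ^ 2))
  · have := W_pos (4 * θ) (Nr a / A)
    split_ifs <;> positivity
  · by_cases ha : Prim a
    · rw [if_pos ha, if_neg ha.ne_zero, Real.rpow_zero, one_mul]
      exact mul_le_mul_of_nonneg_left (pow_le_pow_left₀ (norm_nonneg _)
        (tsum_of_norm_bounded hs.hasSum (w2_term_le (u7a_poly hG hβ hB ha) τ)) 2) (W_pos _ _).le
    · rw [if_neg ha]
      exact mul_nonneg (w1_nonneg _ _ _ _) (sq_nonneg _)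

theorem DD_FF_le {M θ A B : ℝ} {β : O → ℂ} (hβ : Env M B β) (hθ : 0 < θ) (hA : 0 < A) (hB : 0 < B)
    (τ : ℝ) : DD FF θ A B τ β ≤ 2 * DD gt θ A B τ β + 2 * cst ^ 2 * DD md θ A B τ β := by
  have hg : ∀ n, Prim n → ‖gt n‖ ≤ 1 := fun n hn => norm_gt_le hn
  have hm : ∀ n, Prim n → ‖md n‖ ≤ 1 := fun n hn => norm_md_le_one hn.ne_zero
  have s1 := (u7a_summable_DD hg hβ hθ hA hB τ).mul_left 2
  have s2 := (u7a_summable_DD hm hβ hθ hA hB τ).mul_left (2 * cst ^ 2)
  rw [DD, DD, DD, ← tsum_mul_left, ← tsum_mul_left, ← s1.tsum_add s2]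
  have key : ∀ a : O, (if Prim a then
      W (4 * θ) (Nr a / A) * ‖sm (2 * θ) (fun b => β b * FF (a * b)) B τ‖ ^ 2 else 0) ≤
      (2 * if Prim a then
        W (4 * θ) (Nr a / A) * ‖sm (2 * θ) (fun b => β b * gt (a * b)) B τ‖ ^ 2 else 0) +
      2 * cst ^ 2 * if Prim a then
        W (4 * θ) (Nr a / A) * ‖sm (2 * θ) (fun b => β b * md (a * b)) B τ‖ ^ 2 else 0 := by
    intro a
    split_ifs with ha
    swap
    · simp
    have e : sm (2 * θ) (fun b => β b * FF (a * b)) B τ =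
        sm (2 * θ) (fun b => β b * gt (a * b)) B τ -
          cst * sm (2 * θ) (fun b => β b * md (a * b)) B τ := by
      rw [sm, sm, sm, ← tsum_mul_left,
        ← (summable_sm (by positivity) hB (u7a_poly hg hβ hB ha) τ).tsum_sub
          ((summable_sm (by positivity) hB (u7a_poly hm hβ hB ha) τ).mul_left _)]
      refine tsum_congr fun b => ?_
      split_ifs
      · rw [FF]
        ring
      · simp
    rw [e]
    generalize sm (2 * θ) (fun b => β b * gt (a * b)) B τ = u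
    generalize sm (2 * θ) (fun b => β b * md (a * b)) B τ = v
    have h1 := pow_le_pow_left₀ (norm_nonneg _) (norm_sub_le u (cst * v)) 2
    rw [norm_mul, Complex.norm_real, Real.norm_of_nonneg cst_pos.le] at h1
    have h2 : ‖u - cst * v‖ ^ 2 ≤ 2 * ‖u‖ ^ 2 + 2 * cst ^ 2 * ‖v‖ ^ 2 := by
      nlinarith [sq_nonneg (‖u‖ - cst * ‖v‖)]
    have h3 := mul_le_mul_of_nonneg_left h2 (W_pos (4 * θ) (Nr a / A)).le
    linarith
  refine Summable.tsum_le_tsum key (Summable.of_nonneg_of_le (fun a => ?_) key (s1.add s2))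
    (s1.add s2)
  have := W_pos (4 * θ) (Nr a / A)
  split_ifs <;> positivity

/-- Cauchy–Schwarz in `b`; `W (4θ) = W (8θ)²`. -/
theorem DD_md_le : ∃ C : ℝ, 0 ≤ C ∧ ∀ (M θ A B τ : ℝ) (β : O → ℂ), Env M B β → 0 < θ → θ ≤ 1 → 1 ≤ A →
    1 ≤ B → DD md θ A B τ β ≤ C * A ^ (-(1 / 3) : ℝ) *
      (∑' n : O, if Prim n then W (8 * θ) (Nr n / A) * (1 + Nr n / A) ^ 2 else 0) *
      B ^ (2 / 3 : ℝ) * cn (2 * θ) B β := by
  classical
  obtain ⟨C₁, h₁⟩ := tsum_W_le (a := 2) two_pos (-(1 / 3)) (by norm_num)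
  obtain ⟨C₂, -, h₂⟩ := thinA
  refine ⟨Real.exp (8 * (1 / 3) ^ 2) * max C₁ 0, by positivity,
    fun M θ A B τ β hβ hθ hθ1 hA hB => ?_⟩
  have hA0 : 0 < A := by linarith
  have hB0 : 0 < B := by linarith
  have hm : ∀ n, Prim n → ‖md n‖ ≤ 1 := fun n hn => norm_md_le_one hn.ne_zero
  have hcn := cn_nonneg (2 * θ) B β
  have sf : Summable fun b : O =>
      if Prim b ∧ Squarefree b then ‖β b‖ ^ 2 * W (2 * θ) (Nr b / B) else 0 := by
    refine Summable.of_nonneg_of_le (fun b => ?_) (fun b => ?_)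
      ((summable_W (a := 2 * θ) (by positivity) hB0 2).mul_left ((M * (1 + B⁻¹)) ^ 2))
    · have := W_pos (2 * θ) (Nr b / B)
      split_ifs <;> positivity
    · by_cases hb : Prim b ∧ Squarefree b
      · rw [if_pos hb, if_neg hb.1.ne_zero, ← mul_assoc, Real.rpow_two, ← mul_pow]
        refine mul_le_mul_of_nonneg_right (pow_le_pow_left₀ (norm_nonneg _) ?_ 2) (W_pos _ _).le
        simpa using hβ.poly hB0 b hb.1
      · rw [if_neg hb]
        exact mul_nonneg (sq_nonneg _) (w1_nonneg _ _ _ _)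
  have hin : ∀ a, Prim a → ‖sm (2 * θ) (fun b => β b * md (a * b)) B τ‖ ^ 2 ≤
      cn (2 * θ) B β * (Nr a ^ (-(1 / 3) : ℝ) * (max C₁ 0 * B ^ (2 / 3 : ℝ))) := by
    intro a ha
    have pa := Nr_pos ha.ne_zero
    have s1 := (summable_sm (a := 2 * θ) (by positivity) hB0 (u7a_poly hm hβ hB0 ha) τ).norm
    refine (pow_le_pow_left₀ (norm_nonneg _) (norm_tsum_le_tsum_norm s1) 2).trans
      ((u7a_cs (fun _ => norm_nonneg _) (fun b => ?_)
        (fun b => mul_nonneg (Real.rpow_nonneg pa.le (-(1 / 3))) (w1_nonneg 2 B (-(1 / 3)) b))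
        (fun b => ?_) sf ((summable_W two_pos hB0 _).mul_left _)).trans ?_)
    · have := W_pos (2 * θ) (Nr b / B)
      split_ifs <;> positivity
    · by_cases hb : Prim b
      swap
      · simp [hb]
      by_cases hs : Squarefree b
      swap
      · simp [hs, md_of_not (fun h : Squarefree (a * b) => hs h.of_mul_right)]
      have pb := Nr_pos hb.ne_zero
      rw [if_pos hb, if_pos ⟨hb, hs⟩, if_neg hb.ne_zero,
        w2_norm_term (c := fun b => β b * md (a * b)) hb, norm_mul]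
      have a1 := pow_le_pow_left₀ (norm_nonneg _) (norm_md_le (ha.mul hb).ne_zero) 2
      rw [← Real.rpow_natCast (Nr _ ^ _), ← Real.rpow_mul (Nr_nonneg _), Nr_mul,
        show (-(1 / 6) * ((2 : ℕ) : ℝ)) = -(1 / 3) by norm_num, Real.mul_rpow pa.le pb.le] at a1
      have a2 : W (2 * θ) (Nr b / B) ≤ W 2 (Nr b / B) := u7a_W_mono (by positivity) (by linarith) _
      have a3 := mul_le_mul a1 a2 (W_pos _ _).le (by positivity)
      have a4 := mul_le_mul_of_nonneg_left a3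
        (mul_nonneg (sq_nonneg ‖β b‖) (W_pos (2 * θ) (Nr b / B)).le)
      refine le_of_eq_of_le (by ring) (a4.trans (le_of_eq (by ring)))
    · refine mul_le_mul_of_nonneg_left ?_ hcn
      rw [tsum_mul_left]
      refine mul_le_mul_of_nonneg_left ((h₁ B hB0).trans ?_) (Real.rpow_nonneg pa.le _)
      rw [show (1 + -(1 / 3) : ℝ) = 2 / 3 by norm_num]
      exact mul_le_mul_of_nonneg_right (le_max_left _ _) (by positivity)
  have s2 := (h₂ (8 * θ) A (by positivity) (by linarith) hA).1.mul_left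
    (Real.exp (8 * (1 / 3) ^ 2) * max C₁ 0 * A ^ (-(1 / 3) : ℝ) * B ^ (2 / 3 : ℝ) * cn (2 * θ) B β)
  refine (Summable.tsum_le_tsum (fun a => ?_) (u7a_summable_DD hm hβ hθ hA0 hB0 τ) s2).trans
    (le_of_eq ?_)
  · split_ifs with ha
    swap
    · simp
    have pa := Nr_pos ha.ne_zero
    have px := div_pos pa hA0
    have a1 : W (4 * θ) (Nr a / A) = W (8 * θ) (Nr a / A) * W (8 * θ) (Nr a / A) := by
      rw [W, W, ← Real.exp_add]
      congr 1
      field_simp
      ring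
    have a2 : W (8 * θ) (Nr a / A) * Nr a ^ (-(1 / 3) : ℝ) ≤
        Real.exp (8 * (1 / 3) ^ 2) * A ^ (-(1 / 3) : ℝ) := by
      refine (mul_le_mul_of_nonneg_right ((u7a_W_mono (a' := 8) (by positivity) (by linarith) _).trans
        (W_le_rpow (by norm_num) px (1 / 3))) (by positivity)).trans (le_of_eq ?_)
      rw [Real.div_rpow pa.le hA0.le, Real.rpow_neg pa.le, Real.rpow_neg hA0.le]
      have : 0 < Nr a ^ (1 / 3 : ℝ) := by positivity
      field_simp
    have a3 : W (8 * θ) (Nr a / A) ≤ W (8 * θ) (Nr a / A) * (1 + Nr a / A) ^ 2 :=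
      le_mul_of_one_le_right (W_pos _ _).le (one_le_pow₀ (by linarith))
    have a4 := mul_le_mul_of_nonneg_left (mul_le_mul a3 a2 (mul_pos (W_pos _ _) (by positivity)).le
      ((W_pos _ _).le.trans a3)) (show 0 ≤ cn (2 * θ) B β * (max C₁ 0 * B ^ (2 / 3 : ℝ)) by
        positivity)
    refine (mul_le_mul_of_nonneg_left (hin a ha) (W_pos _ _).le).trans ?_
    rw [a1]
    refine le_of_eq_of_le (by ring) (a4.trans (le_of_eq (by ring)))
  · rw [tsum_mul_left]
    ring

theorem env_LpV (l : ℤ) (V : ℝ) {B : ℝ} (hB : 1 ≤ B) : Env (1 + Real.log B) B (LpV l V) := by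
  intro b hb
  have hB0 : 0 < B := by linarith
  have pb := Nr_pos hb.ne_zero
  have h0 := Real.log_nonneg hB
  have hx := div_pos pb hB0
  have h1 : ‖LpV l V b‖ ≤ Real.log (Nr b) := by
    simp only [LpV, cut]
    split_ifs
    · rw [norm_mul, norm_az l hb.ne_zero, mul_one]
      exact norm_Lp_le hb.ne_zero
    · rw [norm_zero]
      exact Real.log_nonneg (one_le_Nr hb.ne_zero)
  have h2 := Real.log_le_sub_one_of_pos hx
  rw [Real.log_div pb.ne' hB0.ne'] at h2
  nlinarith [mul_nonneg h0 hx.le]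

end Crest.Agent.R012

end
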