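import Crest.Agent.R012.U2
import Crest.Agent.R012.Sv2

/-! # Row 12: norms of the coefficients -/

set_option autoImplicit false

noncomputable section

open scoped BigOperators ComplexConjugate Topology
open Complex MeasureTheory Filter Set Crest.Agent.R017

namespace Crest.Agent.R012

theorem u8a_log0 {x y : ℝ} (hx : 0 < x) (hy : 0 < y) : Real.log y ≤ Real.log x + y / x := by
  have := Real.log_le_sub_one_of_pos (div_pos hy hx)
  rw [Real.log_div hy.ne' hx.ne'] at this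
  linarith

theorem u8a_one_le_log {x : ℝ} (hx : 3 ≤ x) : 1 ≤ Real.log x := by
  rw [Real.le_log_iff_exp_le (by linarith)]
  linarith [Real.exp_one_lt_d9]

theorem u8a_log {x : ℝ} (hx : 3 ≤ x) {n : O} (hn : Prim n) :
    Real.log (Nr n) ≤ Real.log x * (1 + Nr n / x) := by
  have h1 := u8a_log0 (x := x) (by linarith) (Nr_pos hn.ne_zero)
  have h2 := u8a_one_le_log hx
  have h3 : 0 ≤ Nr n / x := div_nonneg (Nr_nonneg n) (by linarith)
  nlinarith

theorem u8a_log' {B : ℝ} (hB : 1 ≤ B) {n : O} (hn : Prim n) :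
    Real.log (Nr n) ≤ (1 + Real.log B) * (1 + Nr n / B) := by
  have h1 := u8a_log0 (x := B) (by linarith) (Nr_pos hn.ne_zero)
  have h2 := Real.log_nonneg hB
  have h3 : 0 ≤ Nr n / B := div_nonneg (Nr_nonneg n) (by linarith)
  nlinarith

theorem u8a_loglog {x : ℝ} (hx : 16 ≤ x) : 1 ≤ Real.log (Real.log x) := by
  have h1 : Real.exp 1 ≤ Real.log x := by
    have h2 : Real.log 16 = 4 * Real.log 2 := by
      rw [show (16 : ℝ) = 2 ^ 4 by norm_num, Real.log_pow]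
      norm_num
    linarith [Real.log_le_log (by norm_num) hx, Real.exp_one_lt_d9, Real.log_two_gt_d9]
  rwa [Real.le_log_iff_exp_le ((Real.exp_pos 1).trans_le h1)]

theorem u8a_env {B x : ℝ} (hB : 0 < B) (h : B ≤ x) (n : O) : 1 + Nr n / x ≤ 1 + Nr n / B :=
  add_le_add le_rfl (div_le_div_of_nonneg_left (Nr_nonneg n) hB h)

theorem u8a_env2 {B x : ℝ} (hB : 0 < B) (h : B ≤ x) (n : O) :
    1 + Nr n / x ≤ (1 + Nr n / B) ^ 2 :=
  (u8a_env hB h n).trans (le_self_pow₀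
    (le_add_of_nonneg_right (div_nonneg (Nr_nonneg n) hB.le)) two_ne_zero)

theorem u8a_rg (w : ℝ) (n : O) : rg w n = 0 ∨ (‖rg w n‖ = 1 ∧ Rough w n) := by
  unfold rg
  split_ifs with h
  · exact Or.inr ⟨norm_one, h.2⟩
  · exact Or.inl rfl

theorem u8a_mr (w : ℝ) (I : Set ℝ) {n : O} (hn : Prim n) (hs : Squarefree n) :
    ‖cv (cut I (mr w)) (rg w) n‖ ≤ dv n * ‖rg w n‖ := by
  by_cases h : cv (cut I (mr w)) (rg w) n = 0
  · rw [h, norm_zero]
    exact mul_nonneg (dv_nonneg n) (norm_nonneg _)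
  obtain ⟨a, b, -, -, e, ha, hb⟩ := cv_ne_zero hn h
  have h1 : Rough w n := e ▸ rough_mul.2
    ⟨(rg_ne_zero.1 (right_ne_zero_of_mul (cut_ne_zero ha).2)).2, (rg_ne_zero.1 hb).2⟩
  have h2 := ((u8a_rg w n).resolve_left (rg_ne_zero.2 ⟨hs, h1⟩)).1
  rw [h2, mul_one]
  refine (norm_sum_le _ _).trans
    ((Finset.sum_le_card_nsmul _ _ 1 fun d _ => ?_).trans (by simp [dv]))
  rw [norm_mul]
  exact mul_le_one₀ ((norm_cut_le _ _ _).trans ((norm_mr w d).le.trans (norm_rg_le _ _)))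
    (norm_nonneg _) (norm_rg_le _ _)

theorem u8a_LpV (l : ℤ) (V : ℝ) {n : O} (hn : Prim n) :
    ‖LpV l V n‖ ^ 2 * dv n ≤ 2 * ‖Lp n‖ ^ 2 := by
  classical
  have h1 : ‖LpV l V n‖ ≤ ‖Lp n‖ := by
    rw [LpV_eq, norm_tw _ _ hn.ne_zero]
    exact norm_cut_le _ _ _
  by_cases h : Lp n = 0
  · rw [h, norm_zero] at h1
    rw [le_antisymm h1 (norm_nonneg _), h]
    simp
  have hp := Lp_ne_zero h
  have h2 : dv n ≤ 2 := by
    have : pdiv n ⊆ {1, n} := fun d hd => by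
      obtain ⟨d1, d2⟩ := (mem_pdiv hn.ne_zero).1 hd
      rcases hp.irreducible.dvd_iff.1 d2 with h | h
      · simp [d1.eq_one_of_isUnit h]
      · simp [hn.eq_of_associated d1 h]
    unfold dv
    exact_mod_cast (Finset.card_le_card this).trans Finset.card_le_two
  rw [mul_comm]
  exact mul_le_mul h2 (pow_le_pow_left₀ (norm_nonneg _) h1 2) (sq_nonneg _) zero_le_two

theorem u8a_cn {F G : O → ℝ} {c E : ℝ} {_ : ∀ n : O, Decidable (Prim n ∧ Squarefree n)}
    (hc : 0 ≤ c) (hG : Summable (fun n => if Prim n then G n else 0) ∧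
      (∑' n, if Prim n then G n else 0) ≤ E) (hG0 : ∀ n, 0 ≤ G n) (h0 : ∀ n, 0 ≤ F n)
    (h : ∀ n, Prim n → Squarefree n → F n ≤ c * G n) :
    (∑' n, if Prim n ∧ Squarefree n then F n else 0) ≤ c * E := by
  have h1 : ∀ n, (if Prim n ∧ Squarefree n then F n else 0) ≤ c * if Prim n then G n else 0 := by
    intro n
    split_ifs with a b b
    · exact h n a.1 a.2
    · exact absurd a.1 b
    · exact mul_nonneg hc (hG0 n)
    · simp
  refine (Summable.tsum_le_tsum h1 (Summable.of_nonneg_of_le (fun n => ?_) h1 (hG.1.mul_left c))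
    (hG.1.mul_left c)).trans ?_
  · split_ifs
    · exact h0 n
    · exact le_rfl
  · rw [tsum_mul_left]
    exact mul_le_mul_of_nonneg_left hG.2 hc

theorem u8a_const {a b t y : ℝ} (ha : 0 ≤ a) (hb : 0 ≤ b) (ht : 1 ≤ t) (hy : 0 ≤ y) :
    a * y * t ^ b ≤ (a + b) * y * t ^ (a + b) :=
  mul_le_mul (mul_le_mul_of_nonneg_right (by linarith) hy)
    (Real.rpow_le_rpow_of_exponent_le ht (by linarith)) (by positivity) (by positivity)

theorem envS_al2 (w U V : ℝ) (I : Set ℝ) {x : ℝ} (hx : 3 ≤ x) :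
    EnvS (Real.log x) x (cut I (al2 w U V)) := by
  intro n hn hs
  exact (norm_cut_le _ _ _).trans ((norm_al2_le w U V hn hs).trans (u8a_log hx hn))

theorem envS_rg_Lp (w : ℝ) (I : Set ℝ) {x : ℝ} (hx : 3 ≤ x) :
    EnvS (Real.log x) x (cv (rg w) (cut I Lp)) := by
  intro n hn hs
  rw [cv_comm _ _ hn]
  refine (norm_sum_le _ _).trans (le_trans (Finset.sum_le_sum fun d _ => ?_)
    ((sum_norm_Lp hn hs).le.trans (u8a_log hx hn)))
  rw [norm_mul]
  exact (mul_le_of_le_one_right (norm_nonneg _) (norm_rg_le _ _)).trans (norm_cut_le _ _ _)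

theorem envS_mr_rg : ∃ C : ℝ, 0 ≤ C ∧ ∀ (x : ℝ) (I : Set ℝ), 16 ≤ x →
    EnvS (C * Real.log x ^ (1 / 100 : ℝ)) x (cv (cut I (mr (ww x))) (rg (ww x))) := by
  obtain ⟨C, hC, h⟩ := dv_rough
  refine ⟨C, by linarith, fun x I hx n hn hs => (u8a_mr _ I hn hs).trans ?_⟩
  rcases u8a_rg (ww x) n with h0 | ⟨h1, h2⟩
  · have := Nr_nonneg n
    have := Real.log_nonneg (show 1 ≤ x by linarith)
    rw [h0, norm_zero, mul_zero]
    positivity
  · rw [h1, mul_one]
    exact h x hx n hn hs h2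

theorem envS_Lp (I : Set ℝ) {x : ℝ} (hx : 3 ≤ x) : EnvS (Real.log x) x (cut I Lp) := by
  intro n hn _
  exact (norm_cut_le _ _ _).trans ((norm_Lp_le hn.ne_zero).trans (u8a_log hx hn))

/-- The rough variable outside: `cheb_W`, `rough_harm`. -/
theorem cn_rg_Lp : ∃ C x₀ : ℝ, 0 ≤ C ∧ ∀ (x A : ℝ) (I : Set ℝ), x₀ ≤ x → 1 ≤ A → A ≤ x →
    cn 4 A (cv (rg (ww x)) (cut I Lp)) ≤ C * A * Real.log x * Real.log (Real.log x) ^ C := by
  classical
  obtain ⟨C₁, hC₁, h₁⟩ := cheb_W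
  obtain ⟨C₂, hC₂, h₂⟩ := rough_harm
  obtain ⟨x₀, hx₀, h₃⟩ := ww_facts 0 one_pos
  have hS := summable_Nr_rpow (σ := 3 / 2) (by norm_num)
  set S := ∑' n : O, Nr n ^ (-(3 / 2) : ℝ) with hSd
  have hS0 : 0 ≤ S := tsum_nonneg fun n => Real.rpow_nonneg (Nr_nonneg n) _
  refine ⟨C₁ * (C₂ + S) + C₂, x₀, by positivity, fun x A I hx hA hAx => ?_⟩
  have hx16 : 16 ≤ x := hx₀.trans hx
  obtain ⟨w1, -, -, w2, -⟩ := h₃ x hx
  rw [Real.rpow_one] at w2
  have hl := u8a_one_le_log (show 3 ≤ x by linarith)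
  have hll := u8a_loglog hx16
  have hA0 : 0 < A := by linarith
  have hh := h₂ (ww x) (x ^ 2) (by linarith) (w2.trans (by nlinarith))
  have hh' : ∑ m ∈ sbox (x ^ 2), ‖rg (ww x) m‖ / Nr m ≤ C₂ * Real.log (Real.log x) ^ C₂ := by
    refine hh.trans (mul_le_mul_of_nonneg_left (Real.rpow_le_rpow
      (div_nonneg (Real.log_nonneg (by nlinarith)) (Real.log_nonneg (by linarith))) ?_ hC₂) hC₂)
    rw [Real.log_pow, mul_div_assoc, log_div_ww hx16]
    push_cast
    linarith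
  have s1 : HasSum (fun d : O => if d ∈ sbox (x ^ 2) then ‖rg (ww x) d‖ / Nr d else 0)
      (∑ m ∈ sbox (x ^ 2), ‖rg (ww x) m‖ / Nr m) := by
    rw [← Finset.sum_congr rfl fun d (hd : d ∈ sbox (x ^ 2)) =>
      (if_pos hd : (if d ∈ sbox (x ^ 2) then ‖rg (ww x) d‖ / Nr d else 0) = _)]
    exact hasSum_sum_of_ne_finset_zero fun d hd => if_neg hd
  have s2 := (s1.add hS.hasSum).mul_left (C₁ * A)
  have key := tsum_pdiv_le (f := fun d => ‖rg (ww x) d‖) (g := fun m => ‖Lp m‖)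
    (h := fun n => W 8 (Nr n / A) * (1 + Nr n / A) ^ 2) (fun _ => norm_nonneg _)
    (fun _ => norm_nonneg _) (fun n => mul_nonneg (W_pos _ _).le (sq_nonneg _)) s2.summable
    (fun d => by
      have := Nr_nonneg d
      split_ifs <;> positivity)
    (fun d hd => by
      have d0 := Nr_pos hd.ne_zero
      have e : ∀ m, Nr (d * m) / A = Nr m / (A / Nr d) := fun m => by
        rw [Nr_mul]
        field_simp
      obtain ⟨a1, a2⟩ := h₁ (A / Nr d) (by positivity)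
      simp only [e, ← mul_assoc]
      refine ⟨a1, (mul_le_mul_of_nonneg_left a2 (norm_nonneg _)).trans ?_⟩
      have p0 : 0 ≤ Nr d ^ (-(3 / 2) : ℝ) := by positivity
      split_ifs with hm
      · calc _ ≤ ‖rg (ww x) d‖ * (C₁ * (A / Nr d) * 1) := by
              gcongr
              exact min_le_left _ _
          _ = C₁ * A * (‖rg (ww x) d‖ / Nr d + 0) := by ring
          _ ≤ _ := by gcongr
      · rcases eq_or_ne (rg (ww x) d) 0 with h0 | h0
        · rw [h0, norm_zero, zero_mul]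
          positivity
        have h4 : x ^ 2 < Nr d := not_le.1 fun h => hm (q_mem_sbox.2 ⟨hd, (rg_ne_zero.1 h0).1, h⟩)
        have h5 : A ≤ Nr d ^ (1 / 2 : ℝ) := by
          rw [← Real.sqrt_eq_rpow]
          exact hAx.trans (Real.le_sqrt_of_sq_le h4.le)
        calc _ ≤ 1 * (C₁ * (A / Nr d) * (Nr d ^ (1 / 2 : ℝ) / Nr d)) := by
              gcongr
              · exact norm_rg_le _ _
              · exact (min_le_right _ _).trans (by gcongr)
          _ = _ := by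
              rw [show (-(3 / 2) : ℝ) = 1 / 2 - 2 by norm_num, Real.rpow_sub d0, Real.rpow_two]
              field_simp
              ring)
  rw [s2.tsum_eq] at key
  unfold cn
  refine (u8a_cn (c := Real.log x) (by linarith) key (fun n => mul_nonneg
    (Finset.sum_nonneg fun _ _ => by positivity) (mul_nonneg (W_pos _ _).le (sq_nonneg _)))
    (fun n => mul_nonneg (sq_nonneg _) (W_pos _ _).le) fun n hn hs => ?_).trans ?_
  · have b1 := envS_rg_Lp (ww x) I (show 3 ≤ x by linarith) n hn hs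
    have b2 : ‖cv (rg (ww x)) (cut I Lp) n‖ ≤ ∑ d ∈ pdiv n, ‖rg (ww x) d‖ * ‖Lp (n / d)‖ :=
      (norm_sum_le _ _).trans (Finset.sum_le_sum fun d _ => by
        rw [norm_mul]
        exact mul_le_mul_of_nonneg_left (norm_cut_le _ _ _) (norm_nonneg _))
    have b3 := b1.trans (mul_le_mul_of_nonneg_left (u8a_env2 hA0 hAx n) (by linarith))
    rw [sq]
    refine (mul_le_mul (mul_le_mul b3 b2 (norm_nonneg _) (by positivity))
      (W_mono (by norm_num) (by norm_num : (4 : ℝ) ≤ 8) _) (W_pos _ _).le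
      (mul_nonneg (by positivity) ((norm_nonneg _).trans b2))).trans (le_of_eq (by ring))
  · have t1 : 1 ≤ Real.log (Real.log x) ^ C₂ := Real.one_le_rpow hll hC₂
    have t2 := u8a_const (a := C₁ * (C₂ + S)) (y := A * Real.log x) (by positivity) hC₂ hll
      (by positivity)
    calc _ ≤ Real.log x * (C₁ * A * (C₂ * Real.log (Real.log x) ^ C₂ +
          S * Real.log (Real.log x) ^ C₂)) := by
          gcongr
          exact le_mul_of_one_le_right hS0 t1
      _ = C₁ * (C₂ + S) * (A * Real.log x) * Real.log (Real.log x) ^ C₂ := by ring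
      _ ≤ _ := t2.trans (le_of_eq (by ring))

theorem cn_mr_rg : ∃ C x₀ : ℝ, 0 ≤ C ∧ ∀ (x A : ℝ) (I : Set ℝ), x₀ ≤ x → x ^ (1 / 10 : ℝ) ≤ A → A ≤ x →
    cn 4 A (cv (cut I (mr (ww x))) (rg (ww x))) ≤
      C * A * Real.log x ^ (1 / 50 : ℝ) * Real.log (Real.log x) ^ C / Real.log x := by
  obtain ⟨C₁, hC₁, h₁⟩ := dv_rough
  obtain ⟨C₂, x₀, hC₂, h₂⟩ := rough_W
  refine ⟨C₁ ^ 2 * C₂ + C₂, max x₀ 16, by positivity, fun x A I hx hA hAx => ?_⟩
  have hx16 : 16 ≤ x := (le_max_right _ _).trans hx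
  have hl := u8a_one_le_log (show 3 ≤ x by linarith)
  have hll := u8a_loglog hx16
  have hA0 : 0 < A := (Real.rpow_pos_of_pos (by linarith) _).trans_le hA
  unfold cn
  refine (u8a_cn (c := (C₁ * Real.log x ^ (1 / 100 : ℝ)) ^ 2) (sq_nonneg _)
    (h₂ x A ((le_max_left _ _).trans hx) hA (hAx.trans (by nlinarith)))
    (fun n => mul_nonneg (mul_nonneg (norm_nonneg _) (W_pos _ _).le) (sq_nonneg _))
    (fun n => mul_nonneg (sq_nonneg _) (W_pos _ _).le) fun n hn hs => ?_).trans ?_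
  · have b1 := u8a_mr (ww x) I hn hs
    rcases u8a_rg (ww x) n with h0 | ⟨h1, h2⟩
    · rw [h0, norm_zero, mul_zero] at b1
      simp [le_antisymm b1 (norm_nonneg _), h0]
    · rw [h1, mul_one] at b1
      have b2 := b1.trans ((h₁ x hx16 n hn hs h2).trans
        (mul_le_mul_of_nonneg_left (u8a_env hA0 hAx n) (by positivity)))
      rw [h1]
      exact (mul_le_mul (pow_le_pow_left₀ (norm_nonneg _) b2 2)
        (W_mono (by norm_num) (by norm_num : (4 : ℝ) ≤ 8) _) (W_pos _ _).le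
        (sq_nonneg _)).trans (le_of_eq (by ring))
  · have t2 := u8a_const (a := C₁ ^ 2 * C₂) (y := A * Real.log x ^ (1 / 50 : ℝ) / Real.log x)
      (by positivity) hC₂ hll (by positivity)
    refine le_trans (le_of_eq ?_) (t2.trans (le_of_eq (by ring)))
    rw [show (1 / 50 : ℝ) = 1 / 100 + 1 / 100 by norm_num, Real.rpow_add (by linarith)]
    ring

theorem u8a_rough {C x B : ℝ} {β : O → ℂ} (hC : 0 ≤ C) (hB : 0 < B) (hBx : B ≤ x) {n : O}
    (h : Rough (ww x) n → dv n ≤ C * (1 + Nr n / x)) (hβ : ‖β n‖ ≤ ‖rg (ww x) n‖) :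
    ‖β n‖ ^ 2 * dv n ≤ C * ‖rg (ww x) n‖ * (1 + Nr n / B) ^ 2 := by
  rcases u8a_rg (ww x) n with h0 | ⟨h1, h2⟩
  · rw [h0, norm_zero] at hβ
    simp [le_antisymm hβ (norm_nonneg _), h0]
  · rw [h1] at hβ ⊢
    rw [mul_one]
    exact (mul_le_of_le_one_left (dv_nonneg n) (pow_le_one₀ (norm_nonneg _) hβ)).trans
      ((h h2).trans (mul_le_mul_of_nonneg_left (u8a_env2 hB hBx n) hC))

theorem cn2_rough : ∃ C x₀ : ℝ, 0 ≤ C ∧ ∀ (x B : ℝ) (β : O → ℂ), x₀ ≤ x → x ^ (1 / 10 : ℝ) ≤ B → B ≤ x →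
    (∀ n, Prim n → ‖β n‖ ≤ ‖rg (ww x) n‖) →
    cn2 4 B β ≤ C * B * Real.log x ^ (1 / 100 : ℝ) * Real.log (Real.log x) ^ C / Real.log x := by
  obtain ⟨C₁, hC₁, h₁⟩ := dv_rough
  obtain ⟨C₂, x₀, hC₂, h₂⟩ := rough_W
  refine ⟨C₁ * C₂ + C₂, max x₀ 16, by positivity, fun x B β hx hB hBx hβ => ?_⟩
  have hx16 : 16 ≤ x := (le_max_right _ _).trans hx
  have hl := u8a_one_le_log (show 3 ≤ x by linarith)
  have hll := u8a_loglog hx16
  have hB0 : 0 < B := (Real.rpow_pos_of_pos (by linarith) _).trans_le hB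
  unfold cn2
  refine (u8a_cn (c := C₁ * Real.log x ^ (1 / 100 : ℝ)) (by positivity)
    (h₂ x B ((le_max_left _ _).trans hx) hB (hBx.trans (by nlinarith)))
    (fun n => mul_nonneg (mul_nonneg (norm_nonneg _) (W_pos _ _).le) (sq_nonneg _))
    (fun n => mul_nonneg (mul_nonneg (sq_nonneg _) (dv_nonneg n)) (W_pos _ _).le)
    fun n hn hs => ?_).trans ?_
  · exact (mul_le_mul (u8a_rough (by positivity) hB0 hBx (h₁ x hx16 n hn hs) (hβ n hn))
      (W_mono (by norm_num) (by norm_num : (4 : ℝ) ≤ 8) _) (W_pos _ _).le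
      (by positivity)).trans (le_of_eq (by ring))
  · have t2 := u8a_const (a := C₁ * C₂) (y := B * Real.log x ^ (1 / 100 : ℝ) / Real.log x)
      (by positivity) hC₂ hll (by positivity)
    exact le_trans (le_of_eq (by ring)) (t2.trans (le_of_eq (by ring)))

theorem cn2_LpV : ∃ C : ℝ, 0 ≤ C ∧ ∀ (l : ℤ) (V B : ℝ), 1 ≤ B →
    cn2 4 B (LpV l V) ≤ C * B * (1 + Real.log B) := by
  obtain ⟨C, hC, h⟩ := cheb_W
  refine ⟨2 * C, by positivity, fun l V B hB => ?_⟩
  have hl := Real.log_nonneg hB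
  have hB0 : 0 < B := by linarith
  unfold cn2
  refine (u8a_cn (c := 2 * (1 + Real.log B)) (by positivity) (h B hB0)
    (fun n => mul_nonneg (mul_nonneg (norm_nonneg _) (W_pos _ _).le) (sq_nonneg _))
    (fun n => mul_nonneg (mul_nonneg (sq_nonneg _) (dv_nonneg n)) (W_pos _ _).le)
    fun n hn _ => ?_).trans ?_
  · have b1 := (norm_Lp_le hn.ne_zero).trans ((u8a_log' hB hn).trans
      (mul_le_mul_of_nonneg_left (u8a_env2 hB0 le_rfl n) (by positivity)))
    have b2 : ‖LpV l V n‖ ^ 2 * dv n ≤ 2 * (‖Lp n‖ * ((1 + Real.log B) * (1 + Nr n / B) ^ 2)) := by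
      refine (u8a_LpV l V hn).trans ?_
      rw [sq]
      gcongr
    exact (mul_le_mul b2 (W_mono (by norm_num) (by norm_num : (4 : ℝ) ≤ 8) _) (W_pos _ _).le
      (by positivity)).trans (le_of_eq (by ring))
  · rw [min_eq_left hB]
    exact le_of_eq (by ring)

/-- Thin versions (`thinA`). -/
theorem cn2_rough_thin : ∃ C : ℝ, 0 ≤ C ∧ ∀ (x B θ : ℝ) (β : O → ℂ), 16 ≤ x → 1 ≤ B → B ≤ x → 0 < θ →
    θ ≤ 8 → (∀ n, Prim n → ‖β n‖ ≤ ‖rg (ww x) n‖) →
    cn2 θ B β ≤ C * Real.log x * (B * Real.sqrt θ + θ⁻¹) := by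
  obtain ⟨C₁, hC₁, h₁⟩ := dv_rough
  obtain ⟨C₂, hC₂, h₂⟩ := thinA
  refine ⟨C₁ * C₂, by positivity, fun x B θ β hx hB hBx h0 h8 hβ => ?_⟩
  have hl := u8a_one_le_log (show 3 ≤ x by linarith)
  have hB0 : 0 < B := by linarith
  have hl' : Real.log x ^ (1 / 100 : ℝ) ≤ Real.log x := by
    simpa using Real.rpow_le_rpow_of_exponent_le hl (show (1 / 100 : ℝ) ≤ 1 by norm_num)
  unfold cn2
  refine (u8a_cn (c := C₁ * Real.log x) (by positivity) (h₂ θ B h0 h8 hB)
    (fun n => mul_nonneg (W_pos _ _).le (sq_nonneg _))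
    (fun n => mul_nonneg (mul_nonneg (sq_nonneg _) (dv_nonneg n)) (W_pos _ _).le)
    fun n hn hs => ?_).trans (le_of_eq (by ring))
  have b1 := u8a_rough (by positivity) hB0 hBx (h₁ x hx n hn hs) (hβ n hn)
  have b2 : ‖β n‖ ^ 2 * dv n ≤ C₁ * Real.log x * 1 * (1 + Nr n / B) ^ 2 := by
    refine b1.trans ?_
    gcongr
    exact norm_rg_le _ _
  exact (mul_le_mul_of_nonneg_right b2 (W_pos _ _).le).trans (le_of_eq (by ring))

theorem cn2_LpV_thin : ∃ C : ℝ, 0 ≤ C ∧ ∀ (l : ℤ) (V B θ : ℝ), 1 ≤ B → 0 < θ → θ ≤ 8 →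
    cn2 θ B (LpV l V) ≤ C * (1 + Real.log B) ^ 2 * (B * Real.sqrt θ + θ⁻¹) := by
  obtain ⟨C, hC, h⟩ := thinA
  refine ⟨2 * C, by positivity, fun l V B θ hB h0 h8 => ?_⟩
  unfold cn2
  refine (u8a_cn (c := 2 * (1 + Real.log B) ^ 2) (by positivity) (h θ B h0 h8 hB)
    (fun n => mul_nonneg (W_pos _ _).le (sq_nonneg _))
    (fun n => mul_nonneg (mul_nonneg (sq_nonneg _) (dv_nonneg n)) (W_pos _ _).le)
    fun n hn _ => ?_).trans (le_of_eq (by ring))
  have b1 := (norm_Lp_le hn.ne_zero).trans (u8a_log' hB hn)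
  have b2 := (u8a_LpV l V hn).trans (mul_le_mul_of_nonneg_left
    (pow_le_pow_left₀ (norm_nonneg _) b1 2) zero_le_two)
  exact (mul_le_mul_of_nonneg_right b2 (W_pos _ _).le).trans (le_of_eq (by ring))

end Crest.Agent.R012

end
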