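import Crest.Agent.R012.U3
import Crest.Agent.R012.U7
import Crest.Agent.R012.U8
import Crest.Agent.R012.SW

/-! # Row 12: corrected dispersion with Siegel–Walfisz -/

set_option autoImplicit false

noncomputable section

open scoped BigOperators ComplexConjugate Topology
open Complex MeasureTheory Filter Set Crest.Agent.R017

namespace Crest.Agent.R012

theorem u9a_cn2_nonneg (a B : ℝ) (β : O → ℂ) : 0 ≤ cn2 a B β := by
  refine tsum_nonneg fun b => ?_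
  split_ifs
  · have := W_pos a (Nr b / B)
    have : 0 ≤ dv b := Nat.cast_nonneg _
    positivity
  · exact le_rfl

theorem u9a_pow {x B : ℝ} (hx : 0 < x) (hB : 0 < B) :
    (x / B) ^ (2 / 3 : ℝ) * B ^ (5 / 3 : ℝ) = x ^ (2 / 3 : ℝ) * B := by
  rw [Real.div_rpow hx.le hB.le, show (5 / 3 : ℝ) = 2 / 3 + 1 by norm_num, Real.rpow_add hB,
    Real.rpow_one]
  have := Real.rpow_pos_of_pos hB (2 / 3 : ℝ)
  field_simp

theorem u9a_le {y z s t : ℝ} (hy : 0 < y) (hz : 0 < z) :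
    y ^ s ≤ z ^ t ↔ s * Real.log y ≤ t * Real.log z := by
  rw [Real.rpow_def_of_pos hy, Real.rpow_def_of_pos hz, Real.exp_le_exp, mul_comm s, mul_comm t]

theorem u9a_le1 {y z s : ℝ} (hy : 0 < y) (hz : 0 < z) :
    y ^ s ≤ z ↔ s * Real.log y ≤ Real.log z := by
  have := u9a_le (s := s) (t := 1) hy hz
  rwa [Real.rpow_one, one_mul] at this

theorem u9a_le2 {y z t : ℝ} (hy : 0 < y) (hz : 0 < z) :
    y ≤ z ^ t ↔ Real.log y ≤ t * Real.log z := by
  have := u9a_le (s := 1) (t := t) hy hz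
  rwa [Real.rpow_one, one_mul] at this

theorem u9a_three {A : ℝ} (hA : 0 < A) (h : 2 ≤ Real.log A) : 3 ≤ A := by
  have h1 := Real.add_one_le_exp (Real.log A)
  rw [Real.exp_log hA] at h1
  linarith

theorem u9a_env (l : ℤ) (I : Set ℝ) {w B : ℝ} (hB : 1 ≤ B) {g : O → ℂ}
    (hg : g = Lp ∨ g = rg w ∨ g = mr w) : Env (1 + Real.log B) B (tw l (cut I g)) := by
  intro b hb
  have hN := Nr_pos hb.ne_zero
  rw [norm_tw l _ hb.ne_zero]
  refine (norm_cut_le I g b).trans ?_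
  have h1 : ‖rg w b‖ ≤ (1 + Real.log B) * (1 + Nr b / B) := by
    have h2 : ‖rg w b‖ ≤ 1 := by
      rw [rg]
      split_ifs <;> simp
    have h3 := Real.log_nonneg hB
    have h4 : 0 ≤ Nr b / B := by positivity
    nlinarith [mul_nonneg h3 h4]
  rcases hg with rfl | rfl | rfl
  · have h2 := env_LpV l 0 hB b hb
    rw [LpV_eq, norm_tw l _ hb.ne_zero, cut, if_pos (show Nr b ∈ Ioi 0 from hN)] at h2
    exact h2
  · exact h1
  · rwa [norm_mr]

/-- `disp_AS` with `swh` (`SWH.mono`), `ww_facts`; `M = 1 + log B` (`env_LpV`, `tw_cut`). -/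
theorem AS_sw (l : ℤ) (K : ℝ) {η : ℝ} (hη : 0 < η) (hη' : η ≤ 1 / 2) : ∃ C x₀ : ℝ, 0 ≤ C ∧
    ∀ (x B τ : ℝ) (I : Set ℝ) (g : O → ℂ), x₀ ≤ x → x ^ (3 / 10 : ℝ) ≤ B → B ≤ (x / B) ^ (1 - η) →
    |τ| ≤ Real.log x ^ K → I.OrdConnected →
    ((g = Lp ∧ I ⊆ Ioi (ww x)) ∨ g = rg (ww x) ∨ g = mr (ww x)) →
    DD FF 1 (x / B) B τ (tw l (cut I g)) ≤
      C * ((x / B + x ^ (2 / 3 : ℝ) * (x / B ^ 3) ^ (1 / 12 : ℝ)) * cn2 2 B (tw l (cut I g)) +
        x ^ (2 / 3 : ℝ) * B / Real.log x ^ 20) := by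
  obtain ⟨K', C, hK', hC, H⟩ := disp_AS hη 22
  obtain ⟨x₁, H₁⟩ := swh l (max K K')
  obtain ⟨x₂, -, H₂⟩ := ww_facts K' one_pos
  refine ⟨C * (4 * 2 ^ 20), max (max x₁ x₂) (Real.exp 10), by positivity,
    fun x B τ I g hx hB1 hB2 hτ hI hg => ?_⟩
  have hx1 : x₁ ≤ x := ((le_max_left _ _).trans (le_max_left _ _)).trans hx
  have hx2 : x₂ ≤ x := ((le_max_right _ _).trans (le_max_left _ _)).trans hx
  have hx3 : Real.exp 10 ≤ x := (le_max_right _ _).trans hx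
  have hx0 : 0 < x := (Real.exp_pos _).trans_le hx3
  have hL : 10 ≤ Real.log x := (Real.le_log_iff_exp_le hx0).2 hx3
  have hB0 : 0 < B := (Real.rpow_pos_of_pos hx0 _).trans_le hB1
  have hA0 : 0 < x / B := div_pos hx0 hB0
  have e1 : Real.log (x / B) = Real.log x - Real.log B := Real.log_div hx0.ne' hB0.ne'
  have l1 := (u9a_le1 hx0 hB0).1 hB1
  have l2 := (u9a_le2 hB0 hA0).1 hB2
  have ha0 : 0 ≤ Real.log (x / B) := by
    by_contra h
    nlinarith [mul_pos (show 0 < 1 - η by linarith) (neg_pos.2 (not_le.1 h))]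
  have l3 : Real.log B ≤ Real.log (x / B) := by nlinarith [mul_nonneg hη.le ha0]
  have hBone : 1 ≤ B := by
    rw [← Real.log_nonneg_iff hB0]
    linarith
  obtain ⟨-, w1, w2, -⟩ := H₂ x hx2
  have z1 : Real.log (x / B) ^ K' ≤ Real.log x ^ K' :=
    Real.rpow_le_rpow ha0 (by linarith) hK'
  have z2 : Real.log x ^ K' ≤ Real.log x ^ max K K' :=
    Real.rpow_le_rpow_of_exponent_le (by linarith) (le_max_right _ _)
  have z3 : Real.log x ^ K ≤ Real.log x ^ max K K' :=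
    Real.rpow_le_rpow_of_exponent_le (by linarith) (le_max_left _ _)
  have hg' : g = Lp ∨ g = rg (ww x) ∨ g = mr (ww x) := hg.imp_left And.left
  have hsw := (H₁ x B τ (ww x) I g hx1 ((u9a_le1 hx0 hB0).2 (by linarith))
    ((Real.log_le_log_iff hB0 hx0).1 (by linarith)) (hτ.trans z3) w1 hI hg').mono zero_le_one
    (M' := 1 + Real.log B) (by linarith) (Real.rpow_pos_of_pos (by linarith) K') (z1.trans z2) hB0.le
  rw [← tw_cut] at hsw
  have hsupp : ∀ b, Prim b → tw l (cut I g) b ≠ 0 →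
      Squarefree b ∧ Rough (Real.log (x / B) ^ K') b := by
    intro b _ h
    obtain ⟨h1, h2⟩ := cut_ne_zero (left_ne_zero_of_mul h)
    have key : Squarefree b ∧ Rough (ww x) b := by
      rcases hg with ⟨rfl, hI'⟩ | rfl | rfl
      · have hp := Lp_ne_zero h2
        refine ⟨hp.squarefree, fun p hp' hpb => ?_⟩
        rw [Nr_eq_of_associated (hp'.associated_of_dvd hp hpb)]
        exact hI' h1
      · exact rg_ne_zero.1 h2
      · exact rg_ne_zero.1 (right_ne_zero_of_mul h2)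
    exact ⟨key.1, fun p hp hpb => lt_of_le_of_lt (z1.trans w2) (key.2 p hp hpb)⟩
  refine (H (x / B) B τ (1 + Real.log B) _ (u9a_three hA0 (by linarith))
    ((u9a_le1 hA0 hB0).2 (by linarith)) hB2 (u9a_env l I hBone hg') hsupp hsw).trans ?_
  rw [div_mul_cancel₀ x hB0.ne', show x / B / B ^ 2 = x / B ^ 3 by field_simp, mul_assoc C]
  refine mul_le_mul_of_nonneg_left ?_ hC
  have h1 : 0 ≤ (x / B + x ^ (2 / 3 : ℝ) * (x / B ^ 3) ^ (1 / 12 : ℝ)) *
      cn2 2 B (tw l (cut I g)) := mul_nonneg (by positivity) (u9a_cn2_nonneg _ _ _)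
  have h2 : (1 + Real.log B) ^ 2 * (x / B) ^ (2 / 3 : ℝ) * B ^ (5 / 3 : ℝ) /
      Real.log (x / B) ^ (22 : ℝ) ≤ 4 * 2 ^ 20 * (x ^ (2 / 3 : ℝ) * B / Real.log x ^ 20) := by
    rw [mul_assoc, u9a_pow hx0 hB0, show (22 : ℝ) = ((22 : ℕ) : ℝ) by norm_num, Real.rpow_natCast]
    generalize Real.log (x / B) = a at e1 l3
    have ha1 : 5 ≤ a := by linarith
    have hLp : 0 < Real.log x := by linarith
    have h3 : (1 + Real.log B) ^ 2 ≤ (2 * a) ^ 2 :=
      pow_le_pow_left₀ (by linarith) (by linarith) 2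
    have h4 : Real.log x ^ 20 ≤ (2 * a) ^ 20 := pow_le_pow_left₀ hLp.le (by linarith) 20
    have h5 : 0 < x ^ (2 / 3 : ℝ) * B := by positivity
    rw [← mul_div_assoc, div_le_div_iff₀ (by positivity) (by positivity)]
    calc (1 + Real.log B) ^ 2 * (x ^ (2 / 3 : ℝ) * B) * Real.log x ^ 20
        ≤ (2 * a) ^ 2 * (x ^ (2 / 3 : ℝ) * B) * (2 * a) ^ 20 := by gcongr
      _ = _ := by ring
  nlinarith

/-- `disp_AS_P` with `swh`. -/
theorem AS_P_sw (l : ℤ) : ∃ η : ℝ, 0 < η ∧ η ≤ 1 / 10 ∧ ∀ K : ℝ, ∃ C x₀ : ℝ, 0 ≤ C ∧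
    ∀ x B τ : ℝ, x₀ ≤ x → 1 ≤ B → (x / B) ^ (1 - η) ≤ B → B ≤ (x / B) ^ (1 + η) →
    |τ| ≤ Real.log x ^ K →
    DD FF 1 (x / B) B τ (LpV l (UU x)) ≤ C * (x ^ (2 / 3 : ℝ) * B / Real.log x ^ 20) := by
  obtain ⟨η₁, hη₁, H⟩ := disp_AS_P l
  refine ⟨min η₁ (1 / 10), lt_min hη₁ (by norm_num), min_le_right _ _, fun K => ?_⟩
  obtain ⟨η, hη⟩ : ∃ η, η = min η₁ (1 / 10) := ⟨_, rfl⟩
  rw [← hη]
  have e0 : 0 < η := hη ▸ lt_min hη₁ (by norm_num)
  have e1 : η ≤ η₁ := hη ▸ min_le_left _ _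
  have e2 : η ≤ 1 / 10 := hη ▸ min_le_right _ _
  obtain ⟨K', C, hK', hC, H⟩ := H 20
  obtain ⟨x₁, H₁⟩ := swh l (max K K')
  obtain ⟨x₂, -, H₂⟩ := ww_facts K' (ρ := 1 / 3) (by norm_num)
  obtain ⟨x₃, -, H₃⟩ := ww_facts (1 / 4) (ρ := 1 / 20) (by norm_num)
  obtain ⟨x₄, -, H₄⟩ := ww_facts K (ρ := η₁ / 3) (by positivity)
  refine ⟨C * 3 ^ 20, max (max (max x₁ x₂) (max x₃ x₄)) (Real.exp 10), by positivity,
    fun x B τ hx hB hB1 hB2 hτ => ?_⟩
  simp only [max_le_iff] at hx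
  obtain ⟨⟨⟨hx1, hx2⟩, hx3, hx4⟩, hx5⟩ := hx
  have hx0 : 0 < x := (Real.exp_pos _).trans_le hx5
  have hL : 10 ≤ Real.log x := (Real.le_log_iff_exp_le hx0).2 hx5
  have hB0 : 0 < B := by linarith
  have hA0 : 0 < x / B := div_pos hx0 hB0
  have e3 : Real.log (x / B) = Real.log x - Real.log B := Real.log_div hx0.ne' hB0.ne'
  have l0 := Real.log_nonneg hB
  have l1 := (u9a_le1 hA0 hB0).1 hB1
  have l2 := (u9a_le2 hB0 hA0).1 hB2
  have ha0 : 0 ≤ Real.log (x / B) := by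
    by_contra h
    nlinarith [mul_pos (show 0 < 1 + η by linarith) (neg_pos.2 (not_le.1 h))]
  have m1 := mul_le_mul_of_nonneg_right e1 ha0
  have m2 := mul_le_mul_of_nonneg_right e2 ha0
  have l3 : Real.log x ≤ 3 * Real.log (x / B) := by linarith
  have z1 : Real.log (x / B) ^ K' ≤ Real.log x ^ K' :=
    Real.rpow_le_rpow ha0 (by linarith) hK'
  have z2 : Real.log x ^ K' ≤ Real.log x ^ max K K' :=
    Real.rpow_le_rpow_of_exponent_le (by linarith) (le_max_right _ _)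
  have z3 : Real.log x ^ K ≤ Real.log x ^ max K K' :=
    Real.rpow_le_rpow_of_exponent_le (by linarith) (le_max_left _ _)
  have hsw := (H₁ x B τ _ (Ioi (UU x)) Lp hx1 ((u9a_le1 hx0 hB0).2 (by linarith))
    ((Real.log_le_log_iff hB0 hx0).1 (by linarith)) (hτ.trans z3) le_rfl ordConnected_Ioi
    (Or.inl rfl)).mono zero_le_one le_rfl (Real.rpow_pos_of_pos (by linarith) K') (z1.trans z2)
    hB0.le
  have t1 : |τ| ≤ (x / B) ^ η₁ := by
    refine hτ.trans ((H₄ x hx4).2.2.2.2.2.trans ((u9a_le hx0 hA0).2 ?_))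
    nlinarith [mul_le_mul_of_nonneg_left l3 hη₁.le]
  have t2 : Real.log (x / B) ^ K' ≤ UU x := by
    refine z1.trans ((H₂ x hx2).2.2.2.2.2.trans ?_)
    exact le_mul_of_one_le_right (by positivity) (Real.one_le_rpow (by linarith) (by norm_num))
  have t3 : UU x ≤ B ^ (9 / 10 : ℝ) := by
    refine (mul_le_mul_of_nonneg_left (H₃ x hx3).2.2.2.2.2 (by positivity)).trans ?_
    rw [← Real.rpow_add hx0, u9a_le hx0 hB0]
    linarith
  refine (H (x / B) B τ (UU x) (u9a_three hA0 (by linarith)) ((u9a_le1 hA0 hB0).2 (by linarith))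
    ((u9a_le2 hB0 hA0).2 (by linarith)) t1 t2 t3 hsw).trans ?_
  rw [mul_assoc, u9a_pow hx0 hB0, show (20 : ℝ) = ((20 : ℕ) : ℝ) by norm_num, Real.rpow_natCast]
  generalize Real.log (x / B) = a at l3
  have ha1 : 0 < a := by linarith
  have hLp : 0 < Real.log x := by linarith
  have h4 : Real.log x ^ 20 ≤ (3 * a) ^ 20 := pow_le_pow_left₀ hLp.le l3 20
  have h5 : 0 < x ^ (2 / 3 : ℝ) * B := by positivity
  rw [← mul_div_assoc, div_le_div_iff₀ (by positivity) (by positivity)]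
  calc C * (x ^ (2 / 3 : ℝ) * B) * Real.log x ^ 20
      ≤ C * (x ^ (2 / 3 : ℝ) * B) * (3 * a) ^ 20 := by gcongr
    _ = _ := by ring

theorem shape : ∃ C : ℝ, 0 ≤ C ∧ ∀ ρ a b : ℝ, 0 < ρ → 0 ≤ a → 0 ≤ b →
    min 1 ρ⁻¹ ^ 3 * (1 + max 0 (Real.log ρ⁻¹)) * (ρ * a + ρ ^ (1 / 4 : ℝ) * b) ≤
      C * min ρ⁻¹ ρ ^ (1 / 8 : ℝ) * (a + b) := by
  refine ⟨8, by norm_num, fun ρ a b hρ ha hb => ?_⟩
  obtain ⟨u, rfl⟩ : ∃ u, ρ = Real.exp u := ⟨Real.log ρ, (Real.exp_log hρ).symm⟩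
  rw [← Real.exp_neg, Real.log_exp, ← Real.exp_mul]
  rcases le_total 0 u with hu | hu
  · have h1 : Real.exp (-u) ≤ 1 := Real.exp_le_one_iff.2 (by linarith)
    have h2 : Real.exp (-u) ≤ Real.exp u := Real.exp_le_exp.2 (by linarith)
    rw [min_eq_right h1, min_eq_left h2, max_eq_left (by linarith), ← Real.exp_mul, add_zero,
      mul_one, ← Real.exp_nat_mul, mul_add, ← mul_assoc, ← mul_assoc, ← Real.exp_add,
      ← Real.exp_add]
    have h3 : Real.exp (((3 : ℕ) : ℝ) * -u + u) ≤ Real.exp (-u * (1 / 8)) :=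
      Real.exp_le_exp.2 (by push_cast; linarith)
    have h4 : Real.exp (((3 : ℕ) : ℝ) * -u + u * (1 / 4)) ≤ Real.exp (-u * (1 / 8)) :=
      Real.exp_le_exp.2 (by push_cast; linarith)
    have h5 := Real.exp_pos (-u * (1 / 8))
    nlinarith [mul_le_mul_of_nonneg_right h3 ha, mul_le_mul_of_nonneg_right h4 hb,
      mul_nonneg h5.le ha, mul_nonneg h5.le hb]
  · have h1 : 1 ≤ Real.exp (-u) := Real.one_le_exp (by linarith)
    have h2 : Real.exp u ≤ Real.exp (-u) := Real.exp_le_exp.2 (by linarith)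
    rw [min_eq_left h1, min_eq_right h2, max_eq_right (by linarith), ← Real.exp_mul, one_pow,
      one_mul]
    have h3 : Real.exp u ≤ Real.exp (u * (1 / 4)) := Real.exp_le_exp.2 (by linarith)
    have h4 : (1 + -u) * Real.exp (u * (1 / 4)) ≤ 8 * Real.exp (u * (1 / 8)) := by
      have h5 := Real.add_one_le_exp (-(u * (1 / 8)))
      have h6 : Real.exp (u * (1 / 8)) = Real.exp (-(u * (1 / 8))) * Real.exp (u * (1 / 4)) := by
        rw [← Real.exp_add]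
        congr 1
        ring
      rw [h6, ← mul_assoc]
      exact mul_le_mul_of_nonneg_right (by linarith) (Real.exp_pos _).le
    calc (1 + -u) * (Real.exp u * a + Real.exp (u * (1 / 4)) * b)
        ≤ (1 + -u) * (Real.exp (u * (1 / 4)) * (a + b)) := by
          refine mul_le_mul_of_nonneg_left ?_ (by linarith)
          nlinarith [mul_le_mul_of_nonneg_right h3 ha]
      _ ≤ _ := by
          rw [← mul_assoc]
          exact mul_le_mul_of_nonneg_right h4 (by linarith)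

/-- `(log log x)^C ≤ (log x)^ρ` for large `x`. -/
theorem loglog_le (C : ℝ) {ρ : ℝ} (hρ : 0 < ρ) : ∃ x₀ : ℝ, 16 ≤ x₀ ∧ ∀ x, x₀ ≤ x →
    1 ≤ Real.log (Real.log x) ∧ Real.log (Real.log x) ^ C ≤ Real.log x ^ ρ := by
  obtain ⟨y₀, hy₀, H⟩ := ww_facts C hρ
  refine ⟨Real.exp y₀, by linarith [Real.add_one_le_exp y₀], fun x hx => ?_⟩
  have hx0 : 0 < x := (Real.exp_pos _).trans_le hx
  have hL : y₀ ≤ Real.log x := (Real.le_log_iff_exp_le hx0).2 hx
  refine ⟨?_, (H _ hL).2.2.2.2.2⟩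
  rw [Real.le_log_iff_exp_le (by linarith)]
  linarith [Real.exp_one_lt_d9]

end Crest.Agent.R012

end
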