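import Crest.Agent.R012.U9a

/-! # Row 12: type II sums, wide weight, I -/

set_option autoImplicit false

noncomputable section

open scoped BigOperators ComplexConjugate Topology
open Complex MeasureTheory Filter Set Crest.Agent.R017

namespace Crest.Agent.R012

theorem u9b_log {x : ℝ} (hx : 16 ≤ x) : 2 ≤ Real.log x := by
  rw [Real.le_log_iff_exp_le (by linarith)]
  have h := Real.exp_one_lt_d9
  have h0 := Real.exp_pos 1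
  rw [show (2 : ℝ) = 1 + 1 by norm_num, Real.exp_add]
  nlinarith

theorem u9b_supp {w U : ℝ} {a : O} (ha : Prim a) (h : al2 w U U a ≠ 0) : Nr a ≤ U ^ 2 := by
  obtain ⟨d, p, -, -, rfl, h1, h2⟩ := cv_ne_zero ha h
  have e1 : Nr d ≤ U := (cut_ne_zero h1).1
  have e2 : Nr p ≤ U := (cut_ne_zero h2).1.2
  rw [Nr_mul, sq]
  exact mul_le_mul e1 e2 (Nr_nonneg _) ((Nr_nonneg _).trans e1)

theorem u9b_range {x e e' q a b : ℝ} (hx : 1 ≤ x) (he0 : 0 < e) (he : e ≤ x ^ (1 / 1000 : ℝ))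
    (hq : q ≤ x ^ (1 / 1000 : ℝ)) (hb : 0 < b) (h1 : x ^ (53 / 100 : ℝ) < a)
    (h2 : a ≤ x ^ (2 / 3 : ℝ) * q) (h3 : x * e⁻¹ ≤ a * b) (h4 : a * b ≤ x * e) (h5 : e' = e⁻¹) :
    x ^ (33 / 100 : ℝ) * e ≤ b ∧ b ≤ x ^ (472 / 1000 : ℝ) * e' := by
  have hx0 : 0 < x := by linarith
  have ha : 0 < a := lt_trans (by positivity) h1
  have h2' := h2.trans (mul_le_mul_of_nonneg_left hq (by positivity))
  have hs := Real.log_nonneg hx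
  subst h5
  obtain ⟨s, rfl⟩ : ∃ s, x = Real.exp s := ⟨_, (Real.exp_log hx0).symm⟩
  obtain ⟨m, rfl⟩ : ∃ s, e = Real.exp s := ⟨_, (Real.exp_log he0).symm⟩
  obtain ⟨u, rfl⟩ : ∃ s, a = Real.exp s := ⟨_, (Real.exp_log ha).symm⟩
  obtain ⟨v, rfl⟩ : ∃ s, b = Real.exp s := ⟨_, (Real.exp_log hb).symm⟩
  rw [Real.log_exp] at hs
  simp only [← Real.exp_mul, ← Real.exp_add, ← Real.exp_neg, Real.exp_le_exp,
    Real.exp_lt_exp] at he h1 h2' h3 h4 ⊢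
  constructor <;> linarith

theorem u9b_e1 {x L B : ℝ} (hx : 0 < x) (hL : 0 < L) (hB : 0 < B) :
    x / B * (x / B) * B = x ^ (5 / 3 : ℝ) *
      (x / (x ^ (2 / 3 : ℝ) * L ^ (1 / 2 : ℝ)) / B * L ^ (1 / 2 : ℝ)) ∧
    x / B * (x ^ (2 / 3 : ℝ) * (x / B ^ 3) ^ (1 / 12 : ℝ)) * B = x ^ (5 / 3 : ℝ) *
      ((x / (x ^ (2 / 3 : ℝ) * L ^ (1 / 2 : ℝ)) / B) ^ (1 / 4 : ℝ) * L ^ (1 / 8 : ℝ)) ∧
    x / B * (x ^ (2 / 3 : ℝ) * B) = x ^ (5 / 3 : ℝ) ∧ (x ^ (5 / 6 : ℝ)) ^ 2 = x ^ (5 / 3 : ℝ) := by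
  obtain ⟨s, rfl⟩ : ∃ s, x = Real.exp s := ⟨_, (Real.exp_log hx).symm⟩
  obtain ⟨r, rfl⟩ : ∃ s, L = Real.exp s := ⟨_, (Real.exp_log hL).symm⟩
  obtain ⟨b, rfl⟩ : ∃ s, B = Real.exp s := ⟨_, (Real.exp_log hB).symm⟩
  simp only [← Real.exp_mul, ← Real.exp_add, ← Real.exp_sub, ← Real.exp_nat_mul, Real.exp_eq_exp]
  push_cast
  refine ⟨?_, ?_, ?_, ?_⟩ <;> ring

theorem u9b_e2 {L : ℝ} (hL : 1 ≤ L) :
    L ^ (1 / 8 : ℝ) ≤ L ^ (1 / 2 : ℝ) ∧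
    L ^ (1 / 2 : ℝ) * (L ^ (1 / 10 : ℝ) * (L ^ (1 / 100 : ℝ) * L ^ (1 / 10 : ℝ) / L)) ≤
      (L ^ (-(1 / 50) : ℝ)) ^ 2 ∧
    L * (L ^ (1 / 10 : ℝ) / L ^ 20) ≤ (L ^ (-9 : ℝ)) ^ 2 := by
  have hr := Real.log_nonneg hL
  obtain ⟨r, rfl⟩ : ∃ s, L = Real.exp s := ⟨_, (Real.exp_log (by linarith)).symm⟩
  rw [Real.log_exp] at hr
  simp only [← Real.exp_mul, ← Real.exp_add, ← Real.exp_sub, ← Real.exp_nat_mul, Real.exp_le_exp]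
  push_cast
  refine ⟨?_, ?_, ?_⟩ <;> linarith

theorem u9b_final {c₁ c₂ c₃ c₄ c₅ x L B ρ N D μ ν : ℝ} (hc₁ : 0 ≤ c₁) (hc₂ : 0 ≤ c₂) (hc₃ : 0 ≤ c₃)
    (hc₄ : 0 ≤ c₄) (hc₅ : 0 ≤ c₅) (hx : 0 < x) (hL : 1 ≤ L) (hB : 0 < B)
    (hρ : ρ = x / (x ^ (2 / 3 : ℝ) * L ^ (1 / 2 : ℝ)) / B) (hD0 : 0 ≤ D)
    (hN : N ≤ c₁ * c₂ * μ * (x / B) * L ^ (1 / 10 : ℝ))
    (hD : D ≤ c₃ * ((x / B + x ^ (2 / 3 : ℝ) * (x / B ^ 3) ^ (1 / 12 : ℝ)) *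
      (c₄ * B * L ^ (1 / 100 : ℝ) * L ^ (1 / 10 : ℝ) / L) + x ^ (2 / 3 : ℝ) * B / L ^ 20))
    (hs : μ * (ρ * L ^ (1 / 2 : ℝ) + ρ ^ (1 / 4 : ℝ) * L ^ (1 / 8 : ℝ)) ≤
      c₅ * ν * (L ^ (1 / 2 : ℝ) + L ^ (1 / 8 : ℝ))) (hμ0 : 0 ≤ μ) (hμ : μ ≤ 2 * L) (hν : 0 ≤ ν) :
    N * D ≤ ((2 * (c₁ * c₂ * c₃ * c₄ * c₅) + 1) * (x ^ (5 / 6 : ℝ) * L ^ (-(1 / 50) : ℝ))) ^ 2 * ν +
      ((2 * (c₁ * c₂ * c₃) + 1) * (x ^ (5 / 6 : ℝ) * L ^ (-9 : ℝ))) ^ 2 := by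
  have hL0 : 0 < L := by linarith
  obtain ⟨e1, e2, e3, e4⟩ := u9b_e1 hx hL0 hB
  obtain ⟨f1, f2, f3⟩ := u9b_e2 hL
  rw [← hρ] at e1 e2
  set X := x ^ (5 / 3 : ℝ) with hX
  have hX0 : 0 < X := by positivity
  set g := L ^ (1 / 10 : ℝ) * (L ^ (1 / 100 : ℝ) * L ^ (1 / 10 : ℝ) / L) with hg
  have hg0 : 0 ≤ g := by positivity
  have sq : ∀ {c : ℝ}, 0 ≤ c → c ≤ (c + 1) ^ 2 := fun h => by nlinarith
  refine (mul_le_mul_of_nonneg_right hN hD0).trans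
    ((mul_le_mul_of_nonneg_left hD (by positivity)).trans ?_)
  have a1 : μ * (ρ * L ^ (1 / 2 : ℝ) + ρ ^ (1 / 4 : ℝ) * L ^ (1 / 8 : ℝ)) * g ≤
      2 * c₅ * ν * (L ^ (-(1 / 50) : ℝ)) ^ 2 := by
    refine (mul_le_mul_of_nonneg_right (hs.trans (mul_le_mul_of_nonneg_left
      (add_le_add le_rfl f1) (by positivity))) hg0).trans ?_
    have := mul_le_mul_of_nonneg_left f2 (show 0 ≤ 2 * c₅ * ν by positivity)
    linarith
  have a2 : μ * (L ^ (1 / 10 : ℝ) / L ^ 20) ≤ 2 * (L ^ (-9 : ℝ)) ^ 2 := by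
    have := mul_le_mul_of_nonneg_right hμ (show 0 ≤ L ^ (1 / 10 : ℝ) / L ^ 20 by positivity)
    linarith
  calc _ = c₁ * c₂ * c₃ * c₄ * (μ * ((x / B * (x / B) * B) +
          x / B * (x ^ (2 / 3 : ℝ) * (x / B ^ 3) ^ (1 / 12 : ℝ)) * B) * g) +
        c₁ * c₂ * c₃ * (x / B * (x ^ (2 / 3 : ℝ) * B)) * (μ * (L ^ (1 / 10 : ℝ) / L ^ 20)) := by
        rw [hg]; ring
    _ = c₁ * c₂ * c₃ * c₄ * X *
          (μ * (ρ * L ^ (1 / 2 : ℝ) + ρ ^ (1 / 4 : ℝ) * L ^ (1 / 8 : ℝ)) * g) +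
        c₁ * c₂ * c₃ * X * (μ * (L ^ (1 / 10 : ℝ) / L ^ 20)) := by rw [e1, e2, e3]; ring
    _ ≤ c₁ * c₂ * c₃ * c₄ * X * (2 * c₅ * ν * (L ^ (-(1 / 50) : ℝ)) ^ 2) +
        c₁ * c₂ * c₃ * X * (2 * (L ^ (-9 : ℝ)) ^ 2) :=
        add_le_add (mul_le_mul_of_nonneg_left a1 (by positivity))
          (mul_le_mul_of_nonneg_left a2 (by positivity))
    _ = 2 * (c₁ * c₂ * c₃ * c₄ * c₅) * (X * (L ^ (-(1 / 50) : ℝ)) ^ 2 * ν) +
        2 * (c₁ * c₂ * c₃) * (X * (L ^ (-9 : ℝ)) ^ 2) := by ring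
    _ ≤ (2 * (c₁ * c₂ * c₃ * c₄ * c₅) + 1) ^ 2 * (X * (L ^ (-(1 / 50) : ℝ)) ^ 2 * ν) +
        (2 * (c₁ * c₂ * c₃) + 1) ^ 2 * (X * (L ^ (-9 : ℝ)) ^ 2) :=
        add_le_add (mul_le_mul_of_nonneg_right (sq (by positivity)) (by positivity))
          (mul_le_mul_of_nonneg_right (sq (by positivity)) (by positivity))
    _ = _ := by rw [mul_pow, mul_pow, mul_pow, mul_pow, e4]; ring

/-- `bilr_exp` with `m = √(1000 log x)`, `B₀ = x / U²`, columns in `[x^{0.33}, x^{0.472}]`;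
`AS_sw` (`η = 1/10`, `I = univ`), `shape` (`ρ = B₀ / B`), `cn_supp`, `cn_al2`, `cn2_rough`.  With `A = x / B`:
`A · A B = x^{5/3} (x / B³)^{1/3}` and `x / B³ = (A / U²)³ (log x)^{3/2}`. -/
theorem B_two (l : ℤ) (K : ℝ) : ∃ C x₀ : ℝ, 0 ≤ C ∧ ∀ x τ : ℝ, x₀ ≤ x → |τ| ≤ Real.log x ^ K →
    ‖SF l 2 (cv (cut (Ioi (x ^ (53 / 100 : ℝ))) (al2 (ww x) (UU x) (UU x))) (rg (ww x))) x τ‖ ≤
      C * x ^ (5 / 6 : ℝ) * Real.log x ^ (-(1 / 50) : ℝ) := by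
  obtain ⟨C₀, hC₀, h₀⟩ := bilr_exp
  obtain ⟨c₁, hc₁, h₁⟩ := cn_supp
  obtain ⟨c₂, x₂, hc₂, h₂⟩ := cn_al2
  obtain ⟨c₃, x₃, hc₃, h₃⟩ := AS_sw l (max K 1 + 1) (η := 1 / 10) (by norm_num) (by norm_num)
  obtain ⟨c₄, x₄, hc₄, h₄⟩ := cn2_rough
  obtain ⟨c₅, hc₅, h₅⟩ := shape
  obtain ⟨x₅, hx₅, h₆⟩ := ww_facts (1 / 2) (ρ := 1 / 1000) (by norm_num)
  obtain ⟨x₆, -, h₇⟩ := loglog_le c₂ (ρ := 1 / 10) (by norm_num)
  obtain ⟨x₇, -, h₈⟩ := loglog_le c₄ (ρ := 1 / 10) (by norm_num)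
  refine ⟨C₀ * ((2 * (c₁ * c₂ * c₃ * c₄ * c₅) + 1) + (2 * (c₁ * c₂ * c₃) + 1) + 2),
    max (max (max x₂ x₃) (max x₄ x₅)) (max x₆ x₇), by positivity, fun x τ hx hτ => ?_⟩
  simp only [max_le_iff] at hx
  obtain ⟨⟨⟨hx₂, hx₃⟩, hx₄, hx₅'⟩, hx₆, hx₇⟩ := hx
  have hx16 : 16 ≤ x := hx₅.trans hx₅'
  have hx1 : 1 ≤ x := by linarith
  have hx0 : 0 < x := by linarith
  obtain ⟨-, -, -, -, hm, hL⟩ := h₆ x hx₅'
  have hll₂ := (h₇ x hx₆).2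
  have hll₄ := (h₈ x hx₇).2
  have hL2 : 2 ≤ Real.log x := u9b_log hx16
  set L := Real.log x with hLdef
  have hL1 : 1 ≤ L := by linarith
  have hL0 : 0 < L := by linarith
  set m := Real.sqrt (1000 * L) with hmdef
  have hU : UU x ^ 2 = x ^ (2 / 3 : ℝ) * L ^ (1 / 2 : ℝ) := by
    unfold UU
    rw [mul_pow, ← Real.rpow_natCast, ← Real.rpow_natCast, ← Real.rpow_mul hx0.le,
      ← Real.rpow_mul hL0.le]
    norm_num
  have hU0 : 0 < UU x ^ 2 := by rw [hU]; positivity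
  have hpow : ∀ {a b : ℝ}, a ≤ b → x ^ a ≤ x ^ b := fun h => Real.rpow_le_rpow_of_exponent_le hx1 h
  have hx' : ∀ {a : ℝ}, a ≤ 1 → x ^ a ≤ x := fun h => (hpow h).trans (Real.rpow_one x).le
  have hUx : UU x ^ 2 ≤ x := by
    rw [hU]
    refine (mul_le_mul_of_nonneg_left hL (by positivity)).trans ?_
    rw [← Real.rpow_add hx0]
    exact hx' (by norm_num)
  have hsupp : ∀ a, Prim a → cut (Ioi (x ^ (53 / 100 : ℝ))) (al2 (ww x) (UU x) (UU x)) a ≠ 0 →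
      x ^ (53 / 100 : ℝ) < Nr a ∧ Nr a ≤ UU x ^ 2 := fun a ha h =>
    ⟨(cut_ne_zero h).1, u9b_supp ha (cut_ne_zero h).2⟩
  have hmain := h₀ l x τ m (x ^ (33 / 100 : ℝ)) (x ^ (472 / 1000 : ℝ)) (x / UU x ^ 2) (2 * L) 1
    ((2 * (c₁ * c₂ * c₃ * c₄ * c₅) + 1) * (x ^ (5 / 6 : ℝ) * L ^ (-(1 / 50) : ℝ)))
    ((2 * (c₁ * c₂ * c₃) + 1) * (x ^ (5 / 6 : ℝ) * L ^ (-9 : ℝ)))
    (cut (Ioi (x ^ (53 / 100 : ℝ))) (al2 (ww x) (UU x) (UU x))) (rg (ww x))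
    (by linarith) (Real.sqrt_nonneg _) (by rw [hmdef, Real.sq_sqrt (by positivity)])
    (Real.one_le_rpow hx1 (by norm_num)) (hpow (by norm_num)) (hx' (by norm_num)) (by positivity)
    ((envS_al2 _ _ _ _ (by linarith)).gr hx1)
    (fun n hn _ => (norm_rg_le _ _).trans (by rw [one_mul]; exact one_le_Nr hn.ne_zero))
    ?_ (by positivity) (by positivity) ?_
  · refine hmain.trans ?_
    rw [mul_assoc C₀, mul_assoc C₀]
    refine mul_le_mul_of_nonneg_left ?_ hC₀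
    have hP : 0 < x ^ (5 / 6 : ℝ) * L ^ (-(1 / 50) : ℝ) := by positivity
    have e1 : L * (x ^ (5 / 6 : ℝ) * L ^ (-9 : ℝ)) ≤ x ^ (5 / 6 : ℝ) * L ^ (-(1 / 50) : ℝ) := by
      rw [mul_left_comm, mul_comm L, ← Real.rpow_add_one hL0.ne']
      exact mul_le_mul_of_nonneg_left (Real.rpow_le_rpow_of_exponent_le hL1 (by norm_num))
        (by positivity)
    have e2 : L / x ≤ x ^ (5 / 6 : ℝ) * L ^ (-(1 / 50) : ℝ) := by
      have a1 : L / x ≤ 1 := by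
        rw [div_le_one hx0]
        exact (Real.log_le_sub_one_of_pos hx0).trans (by linarith)
      refine a1.trans ?_
      rw [Real.rpow_neg hL0.le, ← div_eq_mul_inv, one_le_div (by positivity)]
      exact (Real.rpow_le_rpow_of_exponent_le hL1 (by norm_num)).trans (hL.trans (hpow (by norm_num)))
    have e3 := mul_le_mul_of_nonneg_left e1 (show 0 ≤ 2 * (c₁ * c₂ * c₃) + 1 by positivity)
    calc _ = (2 * (c₁ * c₂ * c₃ * c₄ * c₅) + 1) * (x ^ (5 / 6 : ℝ) * L ^ (-(1 / 50) : ℝ)) +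
          (2 * (c₁ * c₂ * c₃) + 1) * (L * (x ^ (5 / 6 : ℝ) * L ^ (-9 : ℝ))) + 2 * (L / x) := by ring
      _ ≤ _ := by linarith
  · intro a b ha hb hα _ hl hu
    obtain ⟨s1, s2⟩ := hsupp a ha hα
    rw [Nr_mul] at hl hu
    rw [hU] at s2
    exact u9b_range hx1 (Real.exp_pos m) hm hL (Nr_pos hb.ne_zero) s1 s2
      (by rwa [Real.exp_neg] at hl) hu (Real.exp_neg m)
  · intro B hB₁ hB₂ t ht
    have hB0 : 0 < B := lt_of_lt_of_le (by positivity) hB₁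
    have hB1 : 1 ≤ B := (Real.one_le_rpow hx1 (by norm_num)).trans hB₁
    have hBx : B ≤ x := hB₂.trans (hx' (by norm_num))
    have hA0 : 0 < x / B := by positivity
    have hA1 : x ^ (528 / 1000 : ℝ) ≤ x / B := by
      rw [le_div_iff₀ hB0]
      refine (mul_le_mul_of_nonneg_left hB₂ (by positivity)).trans ?_
      rw [← Real.rpow_add hx0]
      exact hx' (by norm_num)
    have hτt : |τ + t| ≤ L ^ (max K 1 + 1) := by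
      have a1 : L ^ K ≤ L ^ max K 1 := Real.rpow_le_rpow_of_exponent_le hL1 (le_max_left _ _)
      have a2 : L ≤ L ^ max K 1 := by
        simpa using Real.rpow_le_rpow_of_exponent_le hL1 (le_max_right K 1)
      rw [Real.rpow_add_one hL0.ne']
      have a3 : 0 ≤ L ^ max K 1 := by positivity
      nlinarith [abs_add_le τ t]
    have hD := h₃ x B (τ + t) univ (rg (ww x)) hx₃ ((hpow (by norm_num)).trans hB₁)
      (hB₂.trans (by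
        refine le_trans ?_ (Real.rpow_le_rpow (by positivity) hA1 (by norm_num))
        rw [← Real.rpow_mul hx0.le]
        exact hpow (by norm_num))) hτt ordConnected_univ (Or.inr (Or.inl rfl))
    have hcut : cut univ (rg (ww x)) = rg (ww x) := by
      funext n; unfold cut; rw [if_pos (mem_univ _)]
    rw [hcut] at hD
    have htw : ∀ n, Prim n → ‖tw l (rg (ww x)) n‖ ≤ ‖rg (ww x) n‖ := fun n hn =>
      (norm_tw l _ hn.ne_zero).le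
    have hc2 : cn2 2 B (tw l (rg (ww x))) ≤ c₄ * B * L ^ (1 / 100 : ℝ) * L ^ (1 / 10 : ℝ) / L := by
      refine (cn2_mono (pg_rg (ww x)) (fun n hn _ => htw n hn) (by norm_num)
        (show (2 : ℝ) ≤ 4 by norm_num) hB0).trans ?_
      refine (h₄ x B _ hx₄ ((hpow (by norm_num)).trans hB₁) hBx fun _ _ => le_rfl).trans ?_
      exact div_le_div_of_nonneg_right (mul_le_mul_of_nonneg_left hll₄ (by positivity)) hL0.le
    have hN₁ := h₁ _ (x / B) (UU x ^ 2) ((pg_al2 (ww x) (UU x) (UU x)).cut (Ioi (x ^ (53 / 100 : ℝ))))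
      hA0 hU0 (fun n hn h => (hsupp n hn h).2)
    have hN₂ := h₂ x (x / B) (Ioi (x ^ (53 / 100 : ℝ))) hx₂ ((hpow (by norm_num)).trans hA1)
      (div_le_self hx0.le hB1)
    set ρ := x / UU x ^ 2 / B with hρ
    have hρ0 : 0 < ρ := by positivity
    have hρi : UU x ^ 2 / (x / B) = ρ⁻¹ := by rw [hρ]; field_simp
    have hρi' : B / (x / UU x ^ 2) = ρ⁻¹ := by rw [hρ]; field_simp
    rw [hρi] at hN₁ hN₂
    rw [hρi']
    have hlog : max 0 (Real.log ρ⁻¹) ≤ L := by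
      refine max_le hL0.le (Real.log_le_log (by positivity) ?_)
      rw [← hρi]
      exact (div_le_self hU0.le ((Real.one_le_rpow hx1 (by norm_num)).trans hA1)).trans hUx
    have hsh := h₅ ρ (L ^ (1 / 2 : ℝ)) (L ^ (1 / 8 : ℝ)) hρ0 (by positivity) (by positivity)
    have hN : cn 4 (x / B) (cut (Ioi (x ^ (53 / 100 : ℝ))) (al2 (ww x) (UU x) (UU x))) ≤
        c₁ * c₂ * (min 1 ρ⁻¹ ^ 3 * (1 + max 0 (Real.log ρ⁻¹))) * (x / B) * L ^ (1 / 10 : ℝ) := by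
      have hmin : 0 ≤ min 1 ρ⁻¹ := le_min zero_le_one (by positivity)
      have hmax : 0 ≤ 1 + max 0 (Real.log ρ⁻¹) := by positivity
      refine hN₁.trans ((mul_le_mul_of_nonneg_left (hN₂.trans (mul_le_mul_of_nonneg_right
        (mul_le_mul_of_nonneg_left hll₂ (by positivity)) hmax)) (by positivity)).trans (le_of_eq ?_))
      ring
    have hD' := hD.trans (mul_le_mul_of_nonneg_left (add_le_add
      (mul_le_mul_of_nonneg_left hc2 (by positivity)) le_rfl) hc₃)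
    have hρ' : ρ = x / (x ^ (2 / 3 : ℝ) * L ^ (1 / 2 : ℝ)) / B := by rw [hρ, hU]
    exact u9b_final hc₁ hc₂ hc₃ hc₄ hc₅ hx0 hL1 hB0 hρ' (DD_nonneg _ _ _ _ _ _) hN hD' hsh
      (by positivity) (by
        have hmin : 0 ≤ min 1 ρ⁻¹ := le_min zero_le_one (by positivity)
        have : min 1 ρ⁻¹ ^ 3 ≤ 1 := pow_le_one₀ hmin (min_le_left _ _)
        have hmax : 0 ≤ 1 + max 0 (Real.log ρ⁻¹) := by positivity
        nlinarith) (Real.rpow_nonneg (le_min (by positivity) hρ0.le) _)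

end Crest.Agent.R012

end
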