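import Crest.Agent.R012.Gt

/-! # Row 12: top level, definitions -/

set_option autoImplicit false

noncomputable section

open scoped BigOperators ComplexConjugate Topology
open Complex MeasureTheory Filter Set Crest.Agent.R017

namespace Crest.Agent.R012

/-- Dirichlet convolution over primary divisors. -/
def cv (f g : O → ℂ) (n : O) : ℂ := ∑ d ∈ pdiv n, f d * g (n / d)

/-- The Möbius function on rough elements. -/
def mr (w : ℝ) (n : O) : ℂ := mu n * rg w n

/-- `log N n`. -/
def lgn (n : O) : ℂ := (Real.log (Nr n) : ℂ)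

/-- The angular twist. -/
def tw (l : ℤ) (f : O → ℂ) (n : O) : ℂ := f n * az l n

open Classical in
/-- Restriction to squarefree elements. -/
def sqr (f : O → ℂ) (n : O) : ℂ := if Squarefree n then f n else 0

/-- The smooth sums to be estimated. -/
def SF (l : ℤ) (a : ℝ) (f : O → ℂ) (Y τ : ℝ) : ℂ := sm a (fun n => f n * az l n * FF n) Y τ

/-- Polynomial growth on primary squarefree elements. -/
def Pg (f : O → ℂ) : Prop := ∃ K A : ℝ, ∀ n, Prim n → Squarefree n → ‖f n‖ ≤ K * Nr n ^ A

/-- Linear growth on primary squarefree elements. -/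
def Gr (M : ℝ) (f : O → ℂ) : Prop := ∀ n, Prim n → Squarefree n → ‖f n‖ ≤ M * Nr n

/-- Envelope on primary squarefree elements. -/
def EnvS (M x : ℝ) (f : O → ℂ) : Prop := ∀ n, Prim n → Squarefree n → ‖f n‖ ≤ M * (1 + Nr n / x)

/-- The Gaussian density: `W b y = ∫ og b t y^{-it} dt`. -/
def og (b t : ℝ) : ℝ := Real.sqrt (b / Real.pi) * Real.exp (-(b * t ^ 2))

/-- The sifting level. -/
def ww (x : ℝ) : ℝ := Real.exp (200 * Real.log x / Real.log (Real.log x))

/-- The parameter in Vaughan's identity. -/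
def UU (x : ℝ) : ℝ := x ^ (1 / 3 : ℝ) * Real.log x ^ (1 / 4 : ℝ)

/-- `μ_{≤ U} * Λ_{≤ V}` on rough elements. -/
def al2 (w U V : ℝ) : O → ℂ := cv (cut (Iic U) (mr w)) (cut (Ioc w V) Lp)

/-- The least norm of a prime factor (`0` for units). -/
def lp (n : O) : ℕ := sInf {k : ℕ | ∃ p : O, Prime p ∧ p ∣ n ∧ nm p = k}

/-- The part composed of the primes of norm `> y`. -/
def up (y : ℕ) (e : O) : O := ∏ p ∈ (pf e).filter (fun p => y < nm p), p

/-- The boundary condition. -/
def BdC (w z : ℝ) (e : O) : Prop := Smth w e ∧ z < Nr e ∧ Nr (up (lp e) e) ≤ z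

open Classical in
/-- The truncated least norm of a prime factor. -/
def lq (w : ℝ) (m : O) : ℕ := if Rough w m then ⌊w⌋₊ + 1 else lp m

open Classical in
/-- The Möbius function on smooth elements. -/
def ms (w : ℝ) (e : O) : ℂ := if Smth w e then mu e else 0

open Classical in
/-- The boundary coefficient. -/
def aB (α : O → ℂ) (w R : ℝ) (φ : ℕ → ℂ) (a : O) : ℂ :=
  ∑ r ∈ pdiv a, α r * (if BdC w (R / Nr r) (a / r) then mu (a / r) * φ (lp (a / r)) else 0)

/-- The type I part of Vaughan's identity (`al2` is cut at `R`). -/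
def fI (w U R : ℝ) (n : O) : ℂ :=
  lgn n * cv (cut (Iic U) (mr w)) (rg w) n - cv (cut (Iic U) (fun r => mr w r * lgn r)) (rg w) n -
    cv (cut (Iic R) (al2 w U U)) (rg w) n

/-- The smoothed indicator of `x ≤ 1`. -/
def Ph (T x : ℝ) : ℝ := (Real.sqrt Real.pi)⁻¹ * ∫ v in Ioi (T * Real.log x / 2), Real.exp (-v ^ 2)

end Crest.Agent.R012

end
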